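import Mathlib

/-! Row 251 / S0388, block AR (helper348), part A: affine simplices of the plane, the area of a
square, elementary identities. -/

set_option autoImplicit false

namespace Crest.Agent.R251.Ar

noncomputable section

/-- the standard simplex -/
abbrev Dn (n : ℕ) : Type := stdSimplex ℝ (Fin (n + 1))

/-- face inclusions -/
def face (n : ℕ) (i : Fin (n + 2)) : C(Dn n, Dn (n + 1)) :=
  ⟨stdSimplex.map i.succAbove, stdSimplex.continuous_map _⟩

variable {E E' Z : Type} [TopologicalSpace E] [TopologicalSpace E'] [TopologicalSpace Z]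
variable {M : Type} [AddCommGroup M]

/-- coboundary of raw cochains -/
def del {n : ℕ} (φ : C(Dn n, E) → M) : C(Dn (n + 1), E) → M :=
  fun σ => ∑ i : Fin (n + 2), ((-1 : ℤ) ^ (i : ℕ)) • φ (σ.comp (face n i))

/-- the plane -/
abbrev Pl : Type := ℝ × ℝ

/-- affine simplex with given vertices -/
def aff {n : ℕ} (v : Fin (n + 1) → Pl) : C(Dn n, Pl) :=
  ⟨fun t => ∑ j, (t : Fin (n + 1) → ℝ) j • v j, continuous_finsetSum _ fun j _ =>
    ((continuous_apply j).comp continuous_subtype_val).smul continuous_const⟩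

theorem aff_apply {n : ℕ} (v : Fin (n + 1) → Pl) (t : Dn n) :
    aff v t = ∑ j, (t : Fin (n + 1) → ℝ) j • v j := rfl

theorem face_apply {n : ℕ} (i : Fin (n + 2)) (t : Dn n) (j : Fin (n + 2)) :
    (face n i t : Fin (n + 2) → ℝ) j =
      ∑ k : Fin (n + 1), if i.succAbove k = j then (t : Fin (n + 1) → ℝ) k else 0 := by
  show (stdSimplex.map i.succAbove t : Fin (n + 2) → ℝ) j = _
  rw [stdSimplex.map_coe]
  rw [FunOnFinite.linearMap_apply_apply]
  rw [Finset.sum_filter]

theorem aff_face {n : ℕ} (v : Fin (n + 2) → Pl) (i : Fin (n + 2)) :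
    (aff v).comp (face n i) = aff (fun k => v (i.succAbove k)) := by
  ext1 t
  show aff v (face n i t) = _
  rw [aff_apply, aff_apply]
  simp only [face_apply, Finset.sum_smul, ite_smul, zero_smul]
  rw [Finset.sum_comm]
  simp

/-- `u` is a 2-cocycle vanishing on the simplices in the image of `i`. -/
def Adm (i : C(Z, E)) (u : C(Dn 2, E) → M) : Prop :=
  del u = 0 ∧ ∀ s : C(Dn 2, E), (∀ t, s t ∈ Set.range i) → u s = 0

/-- value of `u` on the affine triangle `p q r` of the plane map `h` -/
def U (u : C(Dn 2, E) → M) (h : C(Pl, E)) (p q r : Pl) : M := u (h.comp (aff ![p, q, r]))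

theorem U_cocycle {u : C(Dn 2, E) → M} (hu : del u = 0) (h : C(Pl, E)) (p q r s : Pl) :
    U u h q r s - U u h p r s + U u h p q s - U u h p q r = 0 := by
  have h1 : del u (h.comp (aff ![p, q, r, s])) = 0 := by rw [hu]; rfl
  rw [del, Fin.sum_univ_four] at h1
  have e : ∀ i : Fin 4, (h.comp (aff ![p, q, r, s])).comp (face 2 i) =
      h.comp (aff fun k => (![p, q, r, s] : Fin 4 → Pl) (i.succAbove k)) := fun i => by
    rw [ContinuousMap.comp_assoc, aff_face]
  simp only [e] at h1
  have e0 : (fun k => (![p, q, r, s] : Fin 4 → Pl) ((0 : Fin 4).succAbove k)) = ![q, r, s] := by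
    funext k; fin_cases k <;> rfl
  have e1 : (fun k => (![p, q, r, s] : Fin 4 → Pl) ((1 : Fin 4).succAbove k)) = ![p, r, s] := by
    funext k; fin_cases k <;> rfl
  have e2 : (fun k => (![p, q, r, s] : Fin 4 → Pl) ((2 : Fin 4).succAbove k)) = ![p, q, s] := by
    funext k; fin_cases k <;> rfl
  have e3 : (fun k => (![p, q, r, s] : Fin 4 → Pl) ((3 : Fin 4).succAbove k)) = ![p, q, r] := by
    funext k; fin_cases k <;> rfl
  rw [e0, e1, e2, e3] at h1
  unfold U
  rw [← h1]
  simp
  abel

/-- a triangle is contained in every convex set containing its vertices -/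
theorem aff_mem {n : ℕ} {v : Fin (n + 1) → Pl} {s : Set Pl} (hs : Convex ℝ s) (hv : ∀ j, v j ∈ s)
    (t : Dn n) : aff v t ∈ s :=
  hs.sum_mem (fun j _ => t.2.1 j) t.2.2 fun j _ => hv j

/-- a triangle mapped into the image of `i` -/
theorem U_eq_zero {i : C(Z, E)} {u : C(Dn 2, E) → M} (hu : Adm i u) (h : C(Pl, E)) {p q r : Pl}
    {s : Set Pl} (hs : Convex ℝ s) (hp : p ∈ s) (hq : q ∈ s) (hr : r ∈ s)
    (hi : ∀ x ∈ s, h x ∈ Set.range i) : U u h p q r = 0 := by
  refine hu.2 _ fun t => hi _ (aff_mem hs (fun j => ?_) t)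
  fin_cases j
  · exact hp
  · exact hq
  · exact hr

/-- axis-parallel affine coordinates -/
def Lx (a b c d : ℝ) (x : Pl) : Pl := (a * x.1 + b, c * x.2 + d)

theorem Lx_aff (a b c d : ℝ) {n : ℕ} (v : Fin (n + 1) → Pl) (t : Dn n) :
    Lx a b c d (aff v t) = aff (fun j => Lx a b c d (v j)) t := by
  have h1 : (∑ i, t i) = 1 := t.2.2
  rw [aff_apply, aff_apply]
  have h3 : b = ∑ j, t j * b := by rw [← Finset.sum_mul, h1, one_mul]
  have h4 : d = ∑ j, t j * d := by rw [← Finset.sum_mul, h1, one_mul]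
  refine Prod.ext ?_ ?_
  · simp only [Lx, Prod.fst_sum, Prod.smul_fst, smul_eq_mul, mul_add, Finset.sum_add_distrib,
      Finset.mul_sum]
    rw [← h3]
    congr 1
    exact Finset.sum_congr rfl fun j _ => by ring
  · simp only [Lx, Prod.snd_sum, Prod.smul_snd, smul_eq_mul, mul_add, Finset.sum_add_distrib,
      Finset.mul_sum]
    rw [← h4]
    congr 1
    exact Finset.sum_congr rfl fun j _ => by ring

omit [AddCommGroup M] in
/-- change of coordinates -/
theorem U_congr (u : C(Dn 2, E) → M) {h h' : C(Pl, E)} (a b c d : ℝ) {p q r : Pl}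
    {s : Set Pl} (hs : Convex ℝ s) (hp : p ∈ s) (hq : q ∈ s) (hr : r ∈ s)
    (hi : ∀ x ∈ s, h x = h' (Lx a b c d x)) :
    U u h p q r = U u h' (Lx a b c d p) (Lx a b c d q) (Lx a b c d r) := by
  unfold U
  congr 1
  ext1 t
  show h (aff _ t) = h' (aff _ t)
  rw [hi _ (aff_mem hs (fun j => ?_) t), Lx_aff]
  · have e : (fun j => Lx a b c d ((![p, q, r] : Fin 3 → Pl) j)) =
        ![Lx a b c d p, Lx a b c d q, Lx a b c d r] := by
      funext j
      fin_cases j <;> rfl
    rw [e]
  · fin_cases j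
    · exact hp
    · exact hq
    · exact hr

/-- the area of the rectangle with corners `p = (a, c)`, `q = (b, c)`, `r = (a, d)`, `s = (b, d)` -/
def arP (u : C(Dn 2, E) → M) (h : C(Pl, E)) (p q r s : Pl) : M := U u h p q s - U u h p r s

/-- the area of the unit square -/
def ar (u : C(Dn 2, E) → M) (h : C(Pl, E)) : M :=
  arP u h (0, 0) (1, 0) (0, 1) (1, 1)

/-- cutting a quadrilateral `p q / r s` by the segment `m m'`, `m` on `p q`, `m'` on `r s` -/
theorem arP_hsplit {u : C(Dn 2, E) → M} (hu : del u = 0) (h : C(Pl, E)) (p m q r m' s : Pl)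
    (h1 : U u h p m q = 0) (h2 : U u h r m' s = 0) :
    arP u h p q r s = arP u h p m r m' + arP u h m q m' s := by
  have a := U_cocycle hu h p m q s
  have b := U_cocycle hu h p m m' s
  have c := U_cocycle hu h p r m' s
  rw [h1] at a
  rw [h2] at c
  unfold arP
  have a' : U u h p q s = U u h m q s + U u h p m s := by
    rw [← sub_eq_zero, ← neg_eq_zero, ← a]; abel
  have b' : U u h p m s = U u h p m m' + U u h p m' s - U u h m m' s := by
    rw [← sub_eq_zero, ← b]; abel
  have c' : U u h p r s = U u h p r m' + U u h p m' s := by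
    rw [← sub_eq_zero, ← c]; abel
  rw [a', b', c']
  abel

/-- cutting by a segment `m m'`, `m` on `p r`, `m'` on `q s` -/
theorem arP_vsplit {u : C(Dn 2, E) → M} (hu : del u = 0) (h : C(Pl, E)) (p q m m' r s : Pl)
    (h1 : U u h p m r = 0) (h2 : U u h q m' s = 0) :
    arP u h p q r s = arP u h p q m m' + arP u h m m' r s := by
  have a := U_cocycle hu h p q m' s
  have b := U_cocycle hu h p m m' s
  have c := U_cocycle hu h p m r s
  rw [h2] at a
  rw [h1] at c
  unfold arP
  have a' : U u h p q s = U u h p q m' + U u h p m' s := by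
    rw [← sub_eq_zero, ← a]; abel
  have b' : U u h p m s = U u h p m m' + U u h p m' s - U u h m m' s := by
    rw [← sub_eq_zero, ← b]; abel
  have c' : U u h p r s = U u h m r s + U u h p m s := by
    rw [← sub_eq_zero, ← neg_eq_zero, ← c]; abel
  rw [a', c', b']
  abel

/-- a degenerate value -/
theorem U_ppq {u : C(Dn 2, E) → M} (hu : del u = 0) (h : C(Pl, E)) (p q : Pl)
    (h1 : U u h p p p = 0) : U u h p p q = 0 := by
  have a := U_cocycle hu h p p p q
  rw [h1] at a
  rw [← a]; abel

theorem U_pqq {u : C(Dn 2, E) → M} (hu : del u = 0) (h : C(Pl, E)) (p q : Pl)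
    (h1 : U u h q q q = 0) : U u h p q q = 0 := by
  have a := U_cocycle hu h p q q q
  rw [h1] at a
  rw [← neg_eq_zero, ← a]; abel

/-- reversing the orientation -/
theorem arP_symm {u : C(Dn 2, E) → M} (hu : del u = 0) (h : C(Pl, E)) (p q r s : Pl)
    (hp : U u h p p p = 0) (hr : U u h r r r = 0) (hpq : U u h p q p = 0) (hrs : U u h r s r = 0) :
    arP u h q p s r = - arP u h p q r s := by
  have a := U_cocycle hu h q p r s
  have b := U_cocycle hu h p q p s
  have c := U_cocycle hu h q r s r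
  have hps := U_ppq hu h p s hp
  have hqr := U_pqq hu h q r hr
  rw [hps, hpq] at b
  rw [hrs, hqr] at c
  have a' : U u h q p r = U u h p r s - U u h q r s + U u h q p s := by
    rw [← sub_eq_zero, ← neg_eq_zero, ← a]; abel
  have b' : U u h q p s = - U u h p q s := by
    rw [← sub_eq_zero, ← b]; abel
  have c' : U u h q s r = - U u h q r s := by
    rw [← sub_eq_zero, ← neg_eq_zero, ← c]; abel
  unfold arP
  rw [a', b', c']
  abel

end

end Crest.Agent.R251.Ar
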