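import Crest.Agent.R251.Ar348A

/-! Row 251 / S0388, block AR (helper348), part B: null-homotopies of loops as maps of the square,
their areas; commutators have null-homotopies of area zero. -/

set_option autoImplicit false

open Set

namespace Crest.Agent.R251.Ar

noncomputable section

variable {E E' Z : Type} [TopologicalSpace E] [TopologicalSpace E'] [TopologicalSpace Z]
variable {M : Type} [AddCommGroup M]

/-- `h` restricted to the unit square is a null-homotopy (in `E`) of the loop `γ` of `Z` -/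
structure Null (i : C(Z, E)) {z : Z} (γ : Path z z) (h : C(Pl, E)) : Prop where
  bot : ∀ s : unitInterval, h ((s : ℝ), 0) = i (γ s)
  left : ∀ t : unitInterval, h (0, (t : ℝ)) = i z
  right : ∀ t : unitInterval, h (1, (t : ℝ)) = i z
  top : ∀ s : unitInterval, h ((s : ℝ), 1) = i z

/-- a rectangle -/
def Rc (a b c d : ℝ) : Set Pl := Icc a b ×ˢ Icc c d

theorem convex_Rc (a b c d : ℝ) : Convex ℝ (Rc a b c d) := (convex_Icc a b).prod (convex_Icc c d)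

theorem mem_Rc {a b c d : ℝ} {x : Pl} : x ∈ Rc a b c d ↔ (a ≤ x.1 ∧ x.1 ≤ b) ∧ (c ≤ x.2 ∧ x.2 ≤ d) :=
  Iff.rfl

variable {i : C(Z, E)} {z : Z}

theorem ar_eq_zero {u : C(Dn 2, E) → M} (hu : Adm i u) {h : C(Pl, E)}
    (hi : ∀ x ∈ Rc 0 1 0 1, h x ∈ range i) : ar u h = 0 := by
  unfold ar arP
  rw [U_eq_zero hu h (convex_Rc 0 1 0 1) (by norm_num [mem_Rc]) (by norm_num [mem_Rc])
    (by norm_num [mem_Rc]) hi, U_eq_zero hu h (convex_Rc 0 1 0 1) (by norm_num [mem_Rc])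
    (by norm_num [mem_Rc]) (by norm_num [mem_Rc]) hi, sub_zero]

/-- (N1) -/
theorem null_refl (i : C(Z, E)) (z : Z) : ∃ h, Null i (Path.refl z) h ∧
    ∀ (M : Type) [AddCommGroup M] (u : C(Dn 2, E) → M), Adm i u → ar u h = 0 := by
  refine ⟨ContinuousMap.const _ (i z), ⟨fun _ => rfl, fun _ => rfl, fun _ => rfl, fun _ => rfl⟩, ?_⟩
  intro M _ u hu
  exact ar_eq_zero hu fun x _ => ⟨z, rfl⟩

/-- clamp -/
def cl (x : ℝ) : ℝ := max 0 (min 1 x)

theorem continuous_cl : Continuous cl := by unfold cl; fun_prop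

theorem cl_mem (x : ℝ) : cl x ∈ Icc (0 : ℝ) 1 := ⟨le_max_left _ _, max_le zero_le_one (min_le_left _ _)⟩

theorem cl_of_mem {x : ℝ} (h0 : 0 ≤ x) (h1 : x ≤ 1) : cl x = x := by
  unfold cl; rw [min_eq_right h1, max_eq_right h0]

/-- (N2) -/
theorem null_trans {γ₁ γ₂ : Path z z} {h₁ h₂ : C(Pl, E)} (H₁ : Null i γ₁ h₁) (H₂ : Null i γ₂ h₂) :
    ∃ h, Null i (γ₁.trans γ₂) h ∧
      ∀ (M : Type) [AddCommGroup M] (u : C(Dn 2, E) → M), Adm i u → ar u h = ar u h₁ + ar u h₂ := by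
  have r1 : ∀ t : ℝ, h₁ (1, cl t) = i z := fun t => H₁.right ⟨cl t, cl_mem t⟩
  have l2 : ∀ t : ℝ, h₂ (0, cl t) = i z := fun t => H₂.left ⟨cl t, cl_mem t⟩
  have hc : Continuous fun x : Pl => if x.1 ≤ 1 / 2 then h₁ (2 * x.1, cl x.2)
      else h₂ (2 * x.1 - 1, cl x.2) := by
    refine Continuous.if_le ?_ ?_ continuous_fst continuous_const ?_
    · exact h₁.continuous.comp ((continuous_const.mul continuous_fst).prodMk
        (continuous_cl.comp continuous_snd))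
    · exact h₂.continuous.comp (((continuous_const.mul continuous_fst).sub continuous_const).prodMk
        (continuous_cl.comp continuous_snd))
    · intro x hx
      rw [hx]
      norm_num
      rw [r1, l2]
  let h : C(Pl, E) := ⟨_, hc⟩
  have hl : ∀ x : Pl, x.1 ≤ 1 / 2 → h x = h₁ (2 * x.1, cl x.2) := fun x hx => if_pos hx
  have hr : ∀ x : Pl, 1 / 2 ≤ x.1 → h x = h₂ (2 * x.1 - 1, cl x.2) := fun x hx => by
    rcases hx.lt_or_eq with hx | hx
    · exact if_neg (not_le.2 hx)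
    · rw [hl x hx.ge, ← hx]
      norm_num
      rw [r1, l2]
  refine ⟨h, ⟨?_, ?_, ?_, ?_⟩, ?_⟩
  · intro s
    rw [Path.trans_apply]
    split_ifs with hs
    · rw [hl _ hs]
      show h₁ (2 * (s : ℝ), cl 0) = _
      rw [cl_of_mem le_rfl zero_le_one]
      exact H₁.bot ⟨2 * (s : ℝ), _⟩
    · rw [hr _ (not_le.1 hs).le]
      show h₂ (2 * (s : ℝ) - 1, cl 0) = _
      rw [cl_of_mem le_rfl zero_le_one]
      exact H₂.bot ⟨2 * (s : ℝ) - 1, _⟩
  · intro t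
    rw [hl _ (by norm_num)]
    norm_num
    exact H₁.left ⟨cl t, cl_mem t⟩
  · intro t
    rw [hr _ (by norm_num)]
    norm_num
    exact H₂.right ⟨cl t, cl_mem t⟩
  · intro s
    rcases le_total (s : ℝ) (1 / 2) with hs | hs
    · rw [hl _ hs]
      show h₁ (2 * (s : ℝ), cl 1) = _
      rw [cl_of_mem zero_le_one le_rfl]
      exact H₁.top ⟨2 * (s : ℝ), ⟨by have := s.2.1; positivity, by linarith⟩⟩
    · rw [hr _ hs]
      show h₂ (2 * (s : ℝ) - 1, cl 1) = _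
      rw [cl_of_mem zero_le_one le_rfl]
      exact H₂.top ⟨2 * (s : ℝ) - 1, ⟨by linarith, by have := s.2.2; linarith⟩⟩
  · intro M _ u hu
    have hb : ∀ x ∈ Rc 0 1 0 0, h x ∈ range i := by
      rintro ⟨a, b⟩ ⟨⟨ha0, ha1⟩, ⟨hb0, hb1⟩⟩
      obtain rfl : b = 0 := le_antisymm hb1 hb0
      rcases le_total a (1 / 2) with hs | hs
      · rw [hl _ hs]
        show h₁ (2 * a, cl 0) ∈ _
        rw [cl_of_mem le_rfl zero_le_one]
        exact ⟨_, (H₁.bot ⟨2 * a, ⟨by change 0 ≤ a at ha0; linarith, by change a ≤ 1/2 at hs; linarith⟩⟩).symm⟩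
      · rw [hr _ hs]
        show h₂ (2 * a - 1, cl 0) ∈ _
        rw [cl_of_mem le_rfl zero_le_one]
        exact ⟨_, (H₂.bot ⟨2 * a - 1, ⟨by change 1/2 ≤ a at hs; linarith,
          by change a ≤ 1 at ha1; linarith⟩⟩).symm⟩
    have ht : ∀ x ∈ Rc 0 1 1 1, h x ∈ range i := by
      rintro ⟨a, b⟩ ⟨⟨ha0, ha1⟩, ⟨hb0, hb1⟩⟩
      obtain rfl : b = 1 := le_antisymm hb1 hb0
      rcases le_total a (1 / 2) with hs | hs
      · rw [hl _ hs]
        show h₁ (2 * a, cl 1) ∈ _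
        rw [cl_of_mem zero_le_one le_rfl]
        exact ⟨_, (H₁.top ⟨2 * a, ⟨by change 0 ≤ a at ha0; linarith, by change a ≤ 1/2 at hs; linarith⟩⟩).symm⟩
      · rw [hr _ hs]
        show h₂ (2 * a - 1, cl 1) ∈ _
        rw [cl_of_mem zero_le_one le_rfl]
        exact ⟨_, (H₂.top ⟨2 * a - 1, ⟨by change 1/2 ≤ a at hs; linarith,
          by change a ≤ 1 at ha1; linarith⟩⟩).symm⟩
    have e := arP_hsplit hu.1 h (0, 0) (1 / 2, 0) (1, 0) (0, 1) (1 / 2, 1) (1, 1)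
      (U_eq_zero hu h (convex_Rc 0 1 0 0) (by norm_num [mem_Rc]) (by norm_num [mem_Rc])
        (by norm_num [mem_Rc]) hb)
      (U_eq_zero hu h (convex_Rc 0 1 1 1) (by norm_num [mem_Rc]) (by norm_num [mem_Rc])
        (by norm_num [mem_Rc]) ht)
    rw [ar, e]
    have hL : ∀ x ∈ Rc 0 (1 / 2) 0 1, h x = h₁ (Lx 2 0 1 0 x) := by
      rintro ⟨a, b⟩ ⟨⟨ha0, ha1⟩, ⟨hb0, hb1⟩⟩
      rw [hl _ ha1]
      show h₁ (2 * a, cl b) = h₁ (2 * a + 0, 1 * b + 0)
      rw [cl_of_mem hb0 hb1]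
      norm_num
    have hR : ∀ x ∈ Rc (1 / 2) 1 0 1, h x = h₂ (Lx 2 (-1) 1 0 x) := by
      rintro ⟨a, b⟩ ⟨⟨ha0, ha1⟩, ⟨hb0, hb1⟩⟩
      rw [hr _ ha0]
      show h₂ (2 * a - 1, cl b) = h₂ (2 * a + (-1), 1 * b + 0)
      rw [cl_of_mem hb0 hb1]
      norm_num
      rfl
    unfold ar arP
    congr 1
    · rw [U_congr u 2 0 1 0 (convex_Rc 0 (1 / 2) 0 1) (by norm_num [mem_Rc]) (by norm_num [mem_Rc])
        (by norm_num [mem_Rc]) hL, U_congr u 2 0 1 0 (convex_Rc 0 (1 / 2) 0 1)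
        (by norm_num [mem_Rc]) (by norm_num [mem_Rc]) (by norm_num [mem_Rc]) hL]
      norm_num [Lx]
    · rw [U_congr u 2 (-1) 1 0 (convex_Rc (1 / 2) 1 0 1) (by norm_num [mem_Rc])
        (by norm_num [mem_Rc]) (by norm_num [mem_Rc]) hR, U_congr u 2 (-1) 1 0
        (convex_Rc (1 / 2) 1 0 1) (by norm_num [mem_Rc]) (by norm_num [mem_Rc])
        (by norm_num [mem_Rc]) hR]
      norm_num [Lx]

/-- (N3) -/
theorem null_symm {γ : Path z z} {h₁ : C(Pl, E)} (H : Null i γ h₁) :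
    ∃ h, Null i γ.symm h ∧
      ∀ (M : Type) [AddCommGroup M] (u : C(Dn 2, E) → M), Adm i u → ar u h = - ar u h₁ := by
  refine ⟨⟨fun x => h₁ (1 - x.1, x.2), by fun_prop⟩, ⟨?_, ?_, ?_, ?_⟩, ?_⟩
  · intro s
    exact H.bot (unitInterval.symm s)
  · intro t
    show h₁ (1 - 0, (t : ℝ)) = _
    rw [sub_zero]
    exact H.right t
  · intro t
    show h₁ (1 - 1, (t : ℝ)) = _
    rw [sub_self]
    exact H.left t
  · intro s
    exact H.top (unitInterval.symm s)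
  · intro M _ u hu
    have hL : ∀ x ∈ (univ : Set Pl), (⟨fun x => h₁ (1 - x.1, x.2), by fun_prop⟩ : C(Pl, E)) x =
        h₁ (Lx (-1) 1 1 0 x) := by
      rintro ⟨a, b⟩ -
      show h₁ (1 - a, b) = h₁ (-1 * a + 1, 1 * b + 0)
      congr 1
      refine Prod.ext ?_ ?_
      · ring
      · ring
    have hb : ∀ x ∈ Rc 0 1 0 0, h₁ x ∈ range i := by
      rintro ⟨a, b⟩ ⟨⟨ha0, ha1⟩, ⟨hb0, hb1⟩⟩
      obtain rfl : b = 0 := le_antisymm hb1 hb0
      exact ⟨_, (H.bot ⟨a, ha0, ha1⟩).symm⟩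
    have ht : ∀ x ∈ Rc 0 1 1 1, h₁ x ∈ range i := by
      rintro ⟨a, b⟩ ⟨⟨ha0, ha1⟩, ⟨hb0, hb1⟩⟩
      obtain rfl : b = 1 := le_antisymm hb1 hb0
      exact ⟨_, (H.top ⟨a, ha0, ha1⟩).symm⟩
    have e := arP_symm hu.1 h₁ (0, 0) (1, 0) (0, 1) (1, 1)
      (U_eq_zero hu h₁ (convex_Rc 0 1 0 0) (by norm_num [mem_Rc]) (by norm_num [mem_Rc])
        (by norm_num [mem_Rc]) hb)
      (U_eq_zero hu h₁ (convex_Rc 0 1 1 1) (by norm_num [mem_Rc]) (by norm_num [mem_Rc])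
        (by norm_num [mem_Rc]) ht)
      (U_eq_zero hu h₁ (convex_Rc 0 1 0 0) (by norm_num [mem_Rc]) (by norm_num [mem_Rc])
        (by norm_num [mem_Rc]) hb)
      (U_eq_zero hu h₁ (convex_Rc 0 1 1 1) (by norm_num [mem_Rc]) (by norm_num [mem_Rc])
        (by norm_num [mem_Rc]) ht)
    unfold ar
    rw [← e]
    unfold arP
    rw [U_congr u (-1) 1 1 0 convex_univ (mem_univ _) (mem_univ _) (mem_univ _) hL,
      U_congr u (-1) 1 1 0 convex_univ (mem_univ _) (mem_univ _) (mem_univ _) hL]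
    norm_num [Lx]

/-- (N4) -/
theorem null_homotopic {γ γ' : Path z z} {h₁ : C(Pl, E)} (H : Null i γ h₁) (K : γ'.Homotopy γ) :
    ∃ h, Null i γ' h ∧
      ∀ (M : Type) [AddCommGroup M] (u : C(Dn 2, E) → M), Adm i u → ar u h = ar u h₁ := by
  let pr : ℝ → unitInterval := projIcc 0 1 zero_le_one
  have hpr : Continuous pr := continuous_projIcc
  have prcl : ∀ x : ℝ, ((pr x : unitInterval) : ℝ) = cl x := fun x => by
    show ((projIcc (0 : ℝ) 1 zero_le_one x : unitInterval) : ℝ) = _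
    rw [coe_projIcc]
    rfl
  have b1 : ∀ x : ℝ, h₁ (cl x, 0) = i (γ (pr x)) := fun x => by
    rw [← prcl]; exact H.bot (pr x)
  have hc : Continuous fun x : Pl => if x.2 ≤ 1 / 2 then i (K (pr (2 * x.2), pr x.1))
      else h₁ (cl x.1, 2 * x.2 - 1) := by
    refine Continuous.if_le ?_ ?_ continuous_snd continuous_const ?_
    · exact i.continuous.comp (K.continuous.comp ((hpr.comp (continuous_const.mul continuous_snd)).prodMk
        (hpr.comp continuous_fst)))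
    · exact h₁.continuous.comp ((continuous_cl.comp continuous_fst).prodMk
        ((continuous_const.mul continuous_snd).sub continuous_const))
    · intro x hx
      rw [hx]
      norm_num
      have : pr 1 = 1 := projIcc_right _
      rw [b1, this, K.apply_one]
      rfl
  let h : C(Pl, E) := ⟨_, hc⟩
  have hl : ∀ x : Pl, x.2 ≤ 1 / 2 → h x = i (K (pr (2 * x.2), pr x.1)) := fun x hx => if_pos hx
  have hr : ∀ x : Pl, 1 / 2 ≤ x.2 → h x = h₁ (cl x.1, 2 * x.2 - 1) := fun x hx => by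
    rcases hx.lt_or_eq with hx | hx
    · exact if_neg (not_le.2 hx)
    · rw [hl x hx.ge, ← hx]
      norm_num
      have : pr 1 = 1 := projIcc_right _
      rw [b1, this, K.apply_one]
      rfl
  refine ⟨h, ⟨?_, ?_, ?_, ?_⟩, ?_⟩
  · intro s
    rw [hl _ (by norm_num)]
    show i (K (pr (2 * 0), pr (s : ℝ))) = _
    have e1 : pr (2 * 0) = 0 := by rw [mul_zero]; exact projIcc_left _
    have e2 : pr (s : ℝ) = s := projIcc_val _ s
    rw [e1, e2, K.apply_zero]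
    rfl
  · intro t
    rcases le_total (t : ℝ) (1 / 2) with hs | hs
    · rw [hl _ hs]
      show i (K (pr (2 * t), pr 0)) = _
      rw [show pr 0 = 0 from projIcc_left _, K.source]
    · rw [hr _ hs]
      show h₁ (cl 0, 2 * (t : ℝ) - 1) = _
      rw [cl_of_mem le_rfl zero_le_one]
      exact H.left ⟨2 * (t : ℝ) - 1, ⟨by linarith, by have := t.2.2; linarith⟩⟩
  · intro t
    rcases le_total (t : ℝ) (1 / 2) with hs | hs
    · rw [hl _ hs]
      show i (K (pr (2 * t), pr 1)) = _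
      rw [show pr 1 = 1 from projIcc_right _, K.target]
    · rw [hr _ hs]
      show h₁ (cl 1, 2 * (t : ℝ) - 1) = _
      rw [cl_of_mem zero_le_one le_rfl]
      exact H.right ⟨2 * (t : ℝ) - 1, ⟨by linarith, by have := t.2.2; linarith⟩⟩
  · intro s
    rw [hr _ (by norm_num)]
    show h₁ (cl s, 2 * 1 - 1) = _
    norm_num
    exact H.top ⟨cl s, cl_mem s⟩
  · intro M _ u hu
    have hlo : ∀ x ∈ Rc 0 1 0 (1 / 2), h x ∈ range i := by
      rintro ⟨a, b⟩ ⟨⟨ha0, ha1⟩, ⟨hb0, hb1⟩⟩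
      rw [hl _ hb1]
      exact ⟨_, rfl⟩
    have hle : ∀ x ∈ Rc 0 0 0 1, h x ∈ range i := by
      rintro ⟨a, b⟩ ⟨⟨ha0, ha1⟩, ⟨hb0, hb1⟩⟩
      obtain rfl : a = 0 := le_antisymm ha1 ha0
      rcases le_total b (1 / 2) with hs | hs
      · rw [hl _ hs]
        exact ⟨_, rfl⟩
      · rw [hr _ hs]
        show h₁ (cl 0, 2 * b - 1) ∈ _
        rw [cl_of_mem le_rfl zero_le_one]
        exact ⟨_, (H.left ⟨2 * b - 1, ⟨by change 1/2 ≤ b at hs; linarith,
          by change b ≤ 1 at hb1; linarith⟩⟩).symm⟩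
    have hri : ∀ x ∈ Rc 1 1 0 1, h x ∈ range i := by
      rintro ⟨a, b⟩ ⟨⟨ha0, ha1⟩, ⟨hb0, hb1⟩⟩
      obtain rfl : a = 1 := le_antisymm ha1 ha0
      rcases le_total b (1 / 2) with hs | hs
      · rw [hl _ hs]
        exact ⟨_, rfl⟩
      · rw [hr _ hs]
        show h₁ (cl 1, 2 * b - 1) ∈ _
        rw [cl_of_mem zero_le_one le_rfl]
        exact ⟨_, (H.right ⟨2 * b - 1, ⟨by change 1/2 ≤ b at hs; linarith,
          by change b ≤ 1 at hb1; linarith⟩⟩).symm⟩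
    have e := arP_vsplit hu.1 h (0, 0) (1, 0) (0, 1 / 2) (1, 1 / 2) (0, 1) (1, 1)
      (U_eq_zero hu h (convex_Rc 0 0 0 1) (by norm_num [mem_Rc]) (by norm_num [mem_Rc])
        (by norm_num [mem_Rc]) hle)
      (U_eq_zero hu h (convex_Rc 1 1 0 1) (by norm_num [mem_Rc]) (by norm_num [mem_Rc])
        (by norm_num [mem_Rc]) hri)
    rw [ar, e]
    have hR : ∀ x ∈ Rc 0 1 (1 / 2) 1, h x = h₁ (Lx 1 0 2 (-1) x) := by
      rintro ⟨a, b⟩ ⟨⟨ha0, ha1⟩, ⟨hb0, hb1⟩⟩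
      rw [hr _ hb0]
      show h₁ (cl a, 2 * b - 1) = h₁ (1 * a + 0, 2 * b + (-1))
      rw [cl_of_mem ha0 ha1]
      norm_num
      rfl
    have z0 : arP u h (0, 0) (1, 0) (0, 1 / 2) (1, 1 / 2) = 0 := by
      unfold arP
      rw [U_eq_zero hu h (convex_Rc 0 1 0 (1 / 2)) (by norm_num [mem_Rc]) (by norm_num [mem_Rc])
        (by norm_num [mem_Rc]) hlo, U_eq_zero hu h (convex_Rc 0 1 0 (1 / 2))
        (by norm_num [mem_Rc]) (by norm_num [mem_Rc]) (by norm_num [mem_Rc]) hlo, sub_zero]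
    rw [z0, zero_add]
    unfold ar arP
    rw [U_congr u 1 0 2 (-1) (convex_Rc 0 1 (1 / 2) 1) (by norm_num [mem_Rc])
        (by norm_num [mem_Rc]) (by norm_num [mem_Rc]) hR, U_congr u 1 0 2 (-1)
        (convex_Rc 0 1 (1 / 2) 1) (by norm_num [mem_Rc]) (by norm_num [mem_Rc])
        (by norm_num [mem_Rc]) hR]
    norm_num [Lx]

/-- there is a null-homotopy with area zero for all admissible cocycles -/
def NZ (i : C(Z, E)) {z : Z} (γ : Path z z) : Prop :=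
  ∃ h, Null i γ h ∧ ∀ (M : Type) [AddCommGroup M] (u : C(Dn 2, E) → M), Adm i u → ar u h = 0

theorem NZ.refl (i : C(Z, E)) (z : Z) : NZ i (Path.refl z) := null_refl i z

theorem NZ.trans {γ₁ γ₂ : Path z z} (h₁ : NZ i γ₁) (h₂ : NZ i γ₂) : NZ i (γ₁.trans γ₂) := by
  obtain ⟨a, Ha, ha⟩ := h₁
  obtain ⟨b, Hb, hb⟩ := h₂
  obtain ⟨c, Hc, hc⟩ := null_trans Ha Hb
  refine ⟨c, Hc, fun M _ u hu => ?_⟩
  rw [hc M u hu, ha M u hu, hb M u hu, add_zero]

theorem NZ.symm {γ : Path z z} (h₁ : NZ i γ) : NZ i γ.symm := by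
  obtain ⟨a, Ha, ha⟩ := h₁
  obtain ⟨c, Hc, hc⟩ := null_symm Ha
  refine ⟨c, Hc, fun M _ u hu => ?_⟩
  rw [hc M u hu, ha M u hu, neg_zero]

theorem NZ.congr {γ γ' : Path z z} (h : NZ i γ) (hγ : γ'.Homotopic γ) : NZ i γ' := by
  obtain ⟨a, Ha, ha⟩ := h
  obtain ⟨K⟩ := hγ
  obtain ⟨c, Hc, hc⟩ := null_homotopic Ha K
  refine ⟨c, Hc, fun M _ u hu => ?_⟩
  rw [hc M u hu, ha M u hu]

/-- (N5) commutators of null-homotopic loops have null-homotopies of area zero -/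
theorem NZ.comm {γ₁ γ₂ : Path z z} (h₁ : ∃ h, Null i γ₁ h) (h₂ : ∃ h, Null i γ₂ h) :
    NZ i (γ₂.symm.trans (γ₁.symm.trans (γ₂.trans γ₁))) := by
  obtain ⟨a, Ha⟩ := h₁
  obtain ⟨b, Hb⟩ := h₂
  obtain ⟨a', Ha', ha'⟩ := null_symm Ha
  obtain ⟨b', Hb', hb'⟩ := null_symm Hb
  obtain ⟨c, Hc, hc⟩ := null_trans Hb Ha
  obtain ⟨d, Hd, hd⟩ := null_trans Ha' Hc
  obtain ⟨e, He, he⟩ := null_trans Hb' Hd
  refine ⟨e, He, fun M _ u hu => ?_⟩
  rw [he M u hu, hd M u hu, hc M u hu, ha' M u hu, hb' M u hu]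
  abel

/-- the classes of loops with a null-homotopy of area zero -/
def NZsub (i : C(Z, E)) (z : Z) : Subgroup (FundamentalGroup Z z) where
  carrier := {x | ∃ γ : Path z z, (Path.Homotopic.Quotient.mk γ : FundamentalGroup Z z) = x ∧ NZ i γ}
  one_mem' := ⟨Path.refl z, rfl, NZ.refl i z⟩
  mul_mem' := by
    rintro _ _ ⟨γ, rfl, h⟩ ⟨γ', rfl, h'⟩
    exact ⟨γ'.trans γ, rfl, h'.trans h⟩
  inv_mem' := by
    rintro _ ⟨γ, rfl, h⟩
    exact ⟨γ.symm, rfl, h.symm⟩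

theorem commutator_le (hE : ∀ γ : Path z z, ∃ h, Null i γ h) :
    commutator (FundamentalGroup Z z) ≤ NZsub i z := by
  rw [commutator_def, Subgroup.commutator_le]
  intro x _ y _
  induction x using Quotient.inductionOn with | _ γ₁ =>
  induction y using Quotient.inductionOn with | _ γ₂ =>
  exact ⟨γ₂.symm.trans (γ₁.symm.trans (γ₂.trans γ₁)), rfl, NZ.comm (hE γ₁) (hE γ₂)⟩

/-- (N6) -/
theorem nz_of_mem_commutator (hE : ∀ γ : Path z z, ∃ h, Null i γ h) (γ : Path z z)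
    (hγ : (Path.Homotopic.Quotient.mk γ : FundamentalGroup Z z) ∈ commutator (FundamentalGroup Z z)) :
    NZ i γ := by
  obtain ⟨γ', h1, h2⟩ := commutator_le hE hγ
  exact h2.congr (Path.Homotopic.Quotient.eq.1 h1.symm)

end

end Crest.Agent.R251.Ar
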