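import Crest.Agent.R251.Ar348C

/-! Row 251 / S0388, block AR (helper348), part D: the sphere. -/

set_option autoImplicit false
set_option linter.unusedSectionVars false

open Set Metric
open Crest.GeometryTopology.DeckCochains
open Crest.Agent.R251.Pr (Dl sx us sx_surj face_sx us_sx sx_us push pull cobdry_pull)
open Crest.Agent.R251.PC (lin ps stokes vert horz ClosedOn Cvx)
open Crest.Agent.R185.Att (D S sd rad tl)
open Crest.Agent.R185.Base (cr continuous_cr cr_inj cr_surj)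

local notation "I" => unitInterval

namespace Crest.Agent.R251.Ar

noncomputable section

variable {E Z : Type} [TopologicalSpace E] [TopologicalSpace Z]
variable {M : Type} [AddCommGroup M]

/-- the projection of the sphere `S 3` to the last two coordinates -/
def tS : C(S 3, D 2) := (tl 2).comp (sd 3)

theorem tS_coe (x : S 3) : (tS x : Fin 2 → ℝ) = Fin.tail (x : Fin 3 → ℝ) := rfl

theorem norm_tS {x : S 3} (h : |(x : Fin 3 → ℝ) 0| < 1) : ‖(tS x : Fin 2 → ℝ)‖ = 1 := by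
  have h1 := x.norm_eq
  have h2 : ‖(tS x : Fin 2 → ℝ)‖ ≤ 1 := (tS x).norm_le
  refine le_antisymm h2 ?_
  by_contra hc
  rw [not_le] at hc
  have h3 : ‖(x : Fin 3 → ℝ)‖ < 1 := by
    rw [pi_norm_lt_iff zero_lt_one] at hc ⊢
    intro j
    refine Fin.cases ?_ (fun k => ?_) j
    · exact h
    · exact hc k
  rw [h1] at h3
  exact lt_irrefl _ h3

theorem tS_mem {x : S 3} (h : |(x : Fin 3 → ℝ) 0| < 1) : ∃ t : I, tS x = cp t := by
  obtain ⟨t, ht⟩ := cr_surj ⟨(tS x : Fin 2 → ℝ), mem_sphere_zero_iff_norm.2 (norm_tS h)⟩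
  refine ⟨t, Subtype.ext ?_⟩
  show _ = (cr t : Fin 2 → ℝ)
  rw [ht]

/-- two discs with the same boundary curve form a sphere -/
theorem exists_sphere (c g : C(D 2, E)) (h : ∀ t : I, c (cp t) = g (cp t)) :
    ∃ f : C(S 3, E), (∀ x : S 3, -1 < (x : Fin 3 → ℝ) 0 → f x = c (tS x)) ∧
      (∀ x : S 3, (x : Fin 3 → ℝ) 0 < 1 → f x = g (tS x)) := by
  have hm : ∀ x : S 3, |(x : Fin 3 → ℝ) 0| < 1 → c (tS x) = g (tS x) := fun x hx => by
    obtain ⟨t, ht⟩ := tS_mem hx
    rw [ht, h]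
  have hc : Continuous fun x : S 3 => if (x : Fin 3 → ℝ) 0 ≤ 0 then g (tS x) else c (tS x) := by
    refine Continuous.if_le (g.continuous.comp tS.continuous) (c.continuous.comp tS.continuous)
      ((continuous_apply 0).comp continuous_subtype_val) continuous_const ?_
    intro x hx
    exact (hm x (by rw [hx]; norm_num)).symm
  refine ⟨⟨_, hc⟩, fun x hx => ?_, fun x hx => ?_⟩
  · show (if (x : Fin 3 → ℝ) 0 ≤ 0 then g (tS x) else c (tS x)) = _
    split_ifs with h1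
    · exact (hm x (abs_lt.2 ⟨hx, h1.trans_lt zero_lt_one⟩)).symm
    · rfl
  · show (if (x : Fin 3 → ℝ) 0 ≤ 0 then g (tS x) else c (tS x)) = _
    split_ifs with h1
    · rfl
    · exact hm x (abs_lt.2 ⟨(by norm_num : (-1 : ℝ) < 0).trans (not_le.1 h1), hx⟩)

/-- the equator -/
def eq : C(I, S 3) := ⟨fun t => ⟨Fin.cons 0 (cr t : Fin 2 → ℝ), by
    rw [mem_sphere_zero_iff_norm]
    refine le_antisymm ((pi_norm_le_iff_of_nonneg zero_le_one).2 fun j => ?_) ?_
    · refine Fin.cases ?_ (fun k => ?_) j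
      · simp
      · exact (norm_le_pi_norm _ k).trans (cr t).norm_eq.le
    · refine (cr t).norm_eq.symm.le.trans ?_
      refine (pi_norm_le_iff_of_nonneg (norm_nonneg _)).2 fun k => ?_
      exact norm_le_pi_norm (Fin.cons 0 (cr t : Fin 2 → ℝ) : Fin 3 → ℝ) k.succ⟩, by
  refine Continuous.subtype_mk (continuous_pi fun j => ?_) _
  refine Fin.cases ?_ (fun k => ?_) j
  · exact continuous_const
  · exact (continuous_apply k).comp (continuous_subtype_val.comp
      (continuous_cr.comp continuous_subtype_val))⟩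

theorem eq_zero (t : I) : (eq t : Fin 3 → ℝ) 0 = 0 := rfl

theorem tS_eq : tS.comp eq = cp := by
  ext1 t
  apply Subtype.ext
  rfl

/-- a polar null-homotopy of the equator over the upper (`e = 1`) or lower (`e = -1`) hemisphere -/
def hemi (e : ℝ) (he : |e| = 1) : C(I × I, S 3) := ⟨fun x =>
    ⟨Fin.cons (e * min 1 (2 * (x.2 : ℝ))) ((min 1 (2 - 2 * (x.2 : ℝ))) • (cr x.1 : Fin 2 → ℝ)), by
    have h0 := x.2.2.1
    have h1 := x.2.2.2
    have a0 : 0 ≤ min 1 (2 * (x.2 : ℝ)) := le_min zero_le_one (by linarith)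
    have b0 : 0 ≤ min 1 (2 - 2 * (x.2 : ℝ)) := le_min zero_le_one (by linarith)
    have hn : ‖(min 1 (2 - 2 * (x.2 : ℝ))) • (cr x.1 : Fin 2 → ℝ)‖ = min 1 (2 - 2 * (x.2 : ℝ)) := by
      rw [norm_smul, (cr x.1).norm_eq, mul_one, Real.norm_eq_abs, abs_of_nonneg b0]
    have hn0 : ‖e * min 1 (2 * (x.2 : ℝ))‖ = min 1 (2 * (x.2 : ℝ)) := by
      rw [Real.norm_eq_abs, abs_mul, he, one_mul, abs_of_nonneg a0]
    rw [mem_sphere_zero_iff_norm]
    refine le_antisymm ((pi_norm_le_iff_of_nonneg zero_le_one).2 fun j => ?_) ?_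
    · refine Fin.cases ?_ (fun k => ?_) j
      · show ‖e * min 1 (2 * (x.2 : ℝ))‖ ≤ 1
        rw [hn0]
        exact min_le_left _ _
      · refine (norm_le_pi_norm ((min 1 (2 - 2 * (x.2 : ℝ))) • (cr x.1 : Fin 2 → ℝ)) k).trans ?_
        rw [hn]
        exact min_le_left _ _
    · rcases le_total (x.2 : ℝ) (1 / 2) with h2 | h2
      · have h3 : min 1 (2 - 2 * (x.2 : ℝ)) = 1 := min_eq_left (by linarith)
        refine (hn.trans h3).symm.le.trans ?_
        refine (pi_norm_le_iff_of_nonneg (norm_nonneg _)).2 fun k => ?_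
        exact norm_le_pi_norm (Fin.cons (e * min 1 (2 * (x.2 : ℝ)))
          ((min 1 (2 - 2 * (x.2 : ℝ))) • (cr x.1 : Fin 2 → ℝ)) : Fin 3 → ℝ) k.succ
      · have h3 : min 1 (2 * (x.2 : ℝ)) = 1 := min_eq_left (by linarith)
        refine (hn0.trans h3).symm.le.trans ?_
        exact norm_le_pi_norm (Fin.cons (e * min 1 (2 * (x.2 : ℝ)))
          ((min 1 (2 - 2 * (x.2 : ℝ))) • (cr x.1 : Fin 2 → ℝ)) : Fin 3 → ℝ) 0⟩, by
  refine Continuous.subtype_mk (continuous_pi fun j => ?_) _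
  refine Fin.cases ?_ (fun k => ?_) j
  · show Continuous fun x : I × I => e * min 1 (2 * (x.2 : ℝ))
    fun_prop
  · show Continuous fun x : I × I => (min 1 (2 - 2 * (x.2 : ℝ))) * (cr x.1 : Fin 2 → ℝ) k
    refine Continuous.mul (by fun_prop) ?_
    exact (continuous_apply k).comp (continuous_subtype_val.comp
      (continuous_cr.comp (continuous_subtype_val.comp continuous_fst)))⟩

theorem hemi_zero (e : ℝ) (he : |e| = 1) (x : I × I) :
    (hemi e he x : Fin 3 → ℝ) 0 = e * min 1 (2 * (x.2 : ℝ)) := rfl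

theorem horz_hemi_zero (e : ℝ) (he : |e| = 1) : horz (hemi e he) 0 = eq := by
  ext1 t
  apply Subtype.ext
  funext j
  refine Fin.cases ?_ (fun k => ?_) j
  · show e * min 1 (2 * (0 : ℝ)) = 0
    simp
  · show (min 1 (2 - 2 * (0 : ℝ))) * (cr t : Fin 2 → ℝ) k = (cr t : Fin 2 → ℝ) k
    norm_num

theorem horz_hemi_one (e : ℝ) (he : |e| = 1) :
    horz (hemi e he) 1 = ContinuousMap.const I (hemi e he (0, 1)) := by
  ext1 t
  apply Subtype.ext
  funext j
  refine Fin.cases ?_ (fun k => ?_) j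
  · rfl
  · show (min 1 (2 - 2 * (1 : ℝ))) * (cr t : Fin 2 → ℝ) k =
      (min 1 (2 - 2 * (1 : ℝ))) * (cr (0 : ℝ) : Fin 2 → ℝ) k
    norm_num

theorem vert_hemi (e : ℝ) (he : |e| = 1) : vert (hemi e he) 0 = vert (hemi e he) 1 := by
  ext1 t
  apply Subtype.ext
  funext j
  refine Fin.cases ?_ (fun k => ?_) j
  · rfl
  · show _ * (cr (0 : ℝ) : Fin 2 → ℝ) k = _ * (cr (1 : ℝ) : Fin 2 → ℝ) k
    rw [cr_one]

/-- a 1-cochain closed over a hemisphere vanishes on the equator -/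
theorem closed_eq (e : ℝ) (he : |e| = 1) {χ : SingSimplex (S 3) 1 → M} {V : Set (S 3)}
    (hχ : ClosedOn χ V) (hV : ∀ x, hemi e he x ∈ V) : χ (ps eq) = 0 := by
  have h := hχ.square (hemi e he) hV
  rw [horz_hemi_zero, horz_hemi_one, vert_hemi, hχ.const (hV _)] at h
  exact (add_left_cancel h).symm

/-- the upper part -/
def VA : Set (S 3) := {x | -1 < (x : Fin 3 → ℝ) 0}
/-- the lower part -/
def VB : Set (S 3) := {x | (x : Fin 3 → ℝ) 0 < 1}

theorem hemi_mem_VA (x : I × I) : hemi 1 (by norm_num) x ∈ VA := by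
  show -1 < 1 * min 1 (2 * (x.2 : ℝ))
  have h0 := x.2.2.1
  have a0 : 0 ≤ min 1 (2 * (x.2 : ℝ)) := le_min zero_le_one (by linarith)
  linarith

theorem hemi_mem_VB (x : I × I) : hemi (-1) (by norm_num) x ∈ VB := by
  show (-1) * min 1 (2 * (x.2 : ℝ)) < 1
  have h0 := x.2.2.1
  have a0 : 0 ≤ min 1 (2 * (x.2 : ℝ)) := le_min zero_le_one (by linarith)
  linarith

/-- the value on the equator of a primitive of `f^* u` over the upper part -/
theorem eq_of_primA {f : C(S 3, E)} {c : C(D 2, E)} (hf : ∀ x ∈ VA, f x = c (tS x))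
    {u : SingSimplex E 2 → M} {β : SingSimplex (D 2) 1 → M} (hβ : cochainCobdry β = pull c u)
    {ψ : SingSimplex (S 3) 1 → M}
    (hψ : ∀ τ : C(Dl 2, S 3), (∀ s, τ s ∈ VA) → cochainCobdry ψ (sx τ) = pull f u (sx τ)) :
    ψ (ps eq) = β (ps cp) := by
  have h1 : ClosedOn (ψ - pull tS β) VA := by
    intro τ hτ
    rw [Pr.cobdry_sub, cobdry_pull, hβ]
    show cochainCobdry ψ (sx τ) - u (sx (c.comp (tS.comp τ))) = 0
    rw [hψ τ hτ]
    show u (sx (f.comp τ)) - u (sx (c.comp (tS.comp τ))) = 0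
    have h2 : f.comp τ = c.comp (tS.comp τ) := by
      ext1 s
      exact hf _ (hτ s)
    rw [h2, sub_self]
  have h2 := closed_eq 1 (by norm_num) h1 hemi_mem_VA
  have h3 : ψ (ps eq) - β (ps (tS.comp eq)) = 0 := h2
  rw [tS_eq] at h3
  exact sub_eq_zero.1 h3

theorem eq_of_primB {f : C(S 3, E)} {c : C(D 2, E)} (hf : ∀ x ∈ VB, f x = c (tS x))
    {u : SingSimplex E 2 → M} {β : SingSimplex (D 2) 1 → M} (hβ : cochainCobdry β = pull c u)
    {ψ : SingSimplex (S 3) 1 → M}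
    (hψ : ∀ τ : C(Dl 2, S 3), (∀ s, τ s ∈ VB) → cochainCobdry ψ (sx τ) = pull f u (sx τ)) :
    ψ (ps eq) = β (ps cp) := by
  have h1 : ClosedOn (ψ - pull tS β) VB := by
    intro τ hτ
    rw [Pr.cobdry_sub, cobdry_pull, hβ]
    show cochainCobdry ψ (sx τ) - u (sx (c.comp (tS.comp τ))) = 0
    rw [hψ τ hτ]
    show u (sx (f.comp τ)) - u (sx (c.comp (tS.comp τ))) = 0
    have h2 : f.comp τ = c.comp (tS.comp τ) := by
      ext1 s
      exact hf _ (hτ s)
    rw [h2, sub_self]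
  have h2 := closed_eq (-1) (by norm_num) h1 hemi_mem_VB
  have h3 : ψ (ps eq) - β (ps (tS.comp eq)) = 0 := h2
  rw [tS_eq] at h3
  exact sub_eq_zero.1 h3

end

end Crest.Agent.R251.Ar
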