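import Crest.Agent.R251.Ar348D

/-! Row 251 / S0388, block AR (helper348), part E: the period of a disc is the area of its square. -/

set_option autoImplicit false
set_option linter.unusedSectionVars false

open Set Metric
open Crest.GeometryTopology.DeckCochains
open Crest.Agent.R251.Pr (Dl sx us sx_surj face_sx us_sx sx_us push pull cobdry_pull)
open Crest.Agent.R251.PC (lin ps stokes vert horz ClosedOn Cvx seg)
open Crest.Agent.R185.Att (D S sd rad tl)
open Crest.Agent.R185.Base (cr continuous_cr cr_inj cr_surj cs cs_ne cs_zero cs_one)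

local notation "I" => unitInterval

namespace Crest.Agent.R251.Ar

noncomputable section

variable {E Z : Type} [TopologicalSpace E] [TopologicalSpace Z]
variable {M : Type} [AddCommGroup M]

/-! ### the four sides of the boundary curve -/

theorem abs_sin_le_cos {φ : ℝ} (h1 : -(Real.pi / 4) ≤ φ) (h2 : φ ≤ Real.pi / 4) :
    |Real.sin φ| ≤ Real.cos φ := by
  have hp := Real.pi_pos
  have h3 : Real.cos (Real.pi / 4) ≤ Real.cos φ := by
    rw [← Real.cos_abs φ]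
    exact Real.cos_le_cos_of_nonneg_of_le_pi (abs_nonneg _) (by linarith) (abs_le.2 ⟨h1, h2⟩)
  rw [Real.cos_pi_div_four] at h3
  refine le_trans ?_ h3
  rw [← Real.sin_pi_div_four, abs_le]
  constructor
  · rw [← Real.sin_neg]
    exact Real.sin_le_sin_of_le_of_le_pi_div_two (by linarith) (by linarith) h1
  · exact Real.sin_le_sin_of_le_of_le_pi_div_two (by linarith) (by linarith) h2

theorem cr_side (t : ℝ) (k l : Fin 2) (hkl : k ≠ l) (e : ℝ) (he : e * e = 1)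
    (h : |cs t l| ≤ e * cs t k) : (cr t : Fin 2 → ℝ) k = e := by
  have he1 : |e| = 1 := by
    have h1 := abs_mul_abs_self e
    rw [he] at h1
    have h2 := abs_nonneg e
    nlinarith
  have h0 : 0 ≤ e * cs t k := (abs_nonneg _).trans h
  have h1 : |cs t k| = e * cs t k := by
    rw [← abs_of_nonneg h0, abs_mul, he1, one_mul]
  have hn : ‖cs t‖ = e * cs t k := by
    apply le_antisymm
    · refine (pi_norm_le_iff_of_nonneg h0).2 fun j => ?_
      rw [Real.norm_eq_abs]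
      by_cases hj : j = k
      · rw [hj, h1]
      · have : j = l := by omega
        rw [this]
        exact h
    · rw [← h1]
      exact norm_le_pi_norm (cs t) k
  have hne : cs t k ≠ 0 := by
    intro h2
    rw [h2, mul_zero] at hn
    exact cs_ne t (norm_eq_zero.1 hn)
  show ‖cs t‖⁻¹ * cs t k = e
  rw [hn]
  have hee : e ≠ 0 := by
    rintro rfl
    simp at he
  field_simp
  nlinarith

theorem cr_right (t : ℝ) (h : t ≤ 1 / 8 ∧ 0 ≤ t ∨ 7 / 8 ≤ t ∧ t ≤ 1) :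
    (cr t : Fin 2 → ℝ) 0 = 1 := by
  have hp := Real.pi_pos
  apply cr_side t 0 1 (by decide) 1 (by norm_num)
  rw [cs_zero, cs_one, one_mul]
  rcases h with ⟨h1, h2⟩ | ⟨h1, h2⟩
  · exact abs_sin_le_cos (by nlinarith) (by nlinarith)
  · rw [← Real.sin_sub_two_pi, ← Real.cos_sub_two_pi]
    exact abs_sin_le_cos (by nlinarith) (by nlinarith)

theorem cr_top (t : ℝ) (h1 : 1 / 8 ≤ t) (h2 : t ≤ 3 / 8) : (cr t : Fin 2 → ℝ) 1 = 1 := by
  have hp := Real.pi_pos
  apply cr_side t 1 0 (by decide) 1 (by norm_num)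
  have h3 := abs_sin_le_cos (φ := 2 * Real.pi * t - Real.pi / 2) (by nlinarith) (by nlinarith)
  rw [Real.sin_sub_pi_div_two, Real.cos_sub_pi_div_two, abs_neg] at h3
  rw [cs_zero, cs_one, one_mul]
  exact h3

theorem cr_left (t : ℝ) (h1 : 3 / 8 ≤ t) (h2 : t ≤ 5 / 8) : (cr t : Fin 2 → ℝ) 0 = -1 := by
  have hp := Real.pi_pos
  apply cr_side t 0 1 (by decide) (-1) (by norm_num)
  have h3 := abs_sin_le_cos (φ := 2 * Real.pi * t - Real.pi) (by nlinarith) (by nlinarith)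
  rw [Real.sin_sub_pi, Real.cos_sub_pi, abs_neg] at h3
  rw [cs_zero, cs_one, neg_one_mul]
  exact h3

theorem cr_bot (t : ℝ) (h1 : 5 / 8 ≤ t) (h2 : t ≤ 7 / 8) : (cr t : Fin 2 → ℝ) 1 = -1 := by
  have hp := Real.pi_pos
  apply cr_side t 1 0 (by decide) (-1) (by norm_num)
  have h3 := abs_sin_le_cos (φ := 2 * Real.pi * t - Real.pi - Real.pi / 2) (by nlinarith)
    (by nlinarith)
  rw [Real.sin_sub_pi_div_two, Real.cos_sub_pi_div_two, Real.sin_sub_pi, Real.cos_sub_pi,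
    abs_neg, abs_neg] at h3
  rw [cs_zero, cs_one, neg_one_mul]
  exact h3

theorem cr_zero_coe : (cr 0 : Fin 2 → ℝ) = ![1, 0] := by
  have h1 : (cr 0 : Fin 2 → ℝ) 0 = 1 := cr_right 0 (Or.inl ⟨by norm_num, le_rfl⟩)
  have h2 : (cr 0 : Fin 2 → ℝ) 1 = 0 := by
    show ‖cs 0‖⁻¹ * cs 0 1 = 0
    rw [cs_one]
    simp
  funext j
  fin_cases j
  · exact h1
  · exact h2

/-! ### closed cochains on a side -/

/-- the boundary of the disc -/
def bD : Set (D 2) := {y | ‖(y : Fin 2 → ℝ)‖ = 1}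

theorem mem_bD {y : D 2} {k : Fin 2} {e : ℝ} (he : |e| = 1) (h : (y : Fin 2 → ℝ) k = e) : y ∈ bD := by
  refine le_antisymm y.norm_le ?_
  have h1 := norm_le_pi_norm (y : Fin 2 → ℝ) k
  rw [Real.norm_eq_abs, h, he] at h1
  exact h1

/-- the straight homotopy -/
def strt (p q : C(I, D 2)) : C(I × I, D 2) := ⟨fun x =>
    ⟨(1 - (x.2 : ℝ)) • (p x.1 : Fin 2 → ℝ) + (x.2 : ℝ) • (q x.1 : Fin 2 → ℝ), by
    exact (convex_closedBall (0 : Fin 2 → ℝ) 1) (p x.1).2 (q x.1).2 (by linarith [x.2.2.2]) x.2.2.1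
      (by ring)⟩, by
  refine Continuous.subtype_mk ?_ _
  exact ((continuous_const.sub (continuous_subtype_val.comp continuous_snd)).smul
    (continuous_subtype_val.comp (p.continuous.comp continuous_fst))).add
    ((continuous_subtype_val.comp continuous_snd).smul
      (continuous_subtype_val.comp (q.continuous.comp continuous_fst)))⟩

theorem closed_side {β : SingSimplex (D 2) 1 → M} (hβ : ClosedOn β bD) {p q : C(I, D 2)}
    (k : Fin 2) (e : ℝ) (he : |e| = 1) (hp : ∀ t, (p t : Fin 2 → ℝ) k = e)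
    (hq : ∀ t, (q t : Fin 2 → ℝ) k = e) (h0 : p 0 = q 0) (h1 : p 1 = q 1) :
    β (ps p) = β (ps q) := by
  have hV : ∀ x, strt p q x ∈ bD := fun x => by
    apply mem_bD (k := k) he
    show (1 - (x.2 : ℝ)) * (p x.1 : Fin 2 → ℝ) k + (x.2 : ℝ) * (q x.1 : Fin 2 → ℝ) k = e
    rw [hp, hq]
    ring
  have h := hβ.square (strt p q) hV
  have e0 : vert (strt p q) 0 = ContinuousMap.const I (p 0) := by
    ext1 t
    apply Subtype.ext
    show (1 - (t : ℝ)) • (p 0 : Fin 2 → ℝ) + (t : ℝ) • (q 0 : Fin 2 → ℝ) = (p 0 : Fin 2 → ℝ)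
    rw [← h0, ← add_smul, sub_add_cancel, one_smul]
  have e1 : vert (strt p q) 1 = ContinuousMap.const I (p 1) := by
    ext1 t
    apply Subtype.ext
    show (1 - (t : ℝ)) • (p 1 : Fin 2 → ℝ) + (t : ℝ) • (q 1 : Fin 2 → ℝ) = (p 1 : Fin 2 → ℝ)
    rw [← h1, ← add_smul, sub_add_cancel, one_smul]
  have e2 : horz (strt p q) 0 = p := by
    ext1 t
    apply Subtype.ext
    show (1 - (0 : ℝ)) • (p t : Fin 2 → ℝ) + (0 : ℝ) • (q t : Fin 2 → ℝ) = _
    simp
  have e3 : horz (strt p q) 1 = q := by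
    ext1 t
    apply Subtype.ext
    show (1 - (1 : ℝ)) • (p t : Fin 2 → ℝ) + (1 : ℝ) • (q t : Fin 2 → ℝ) = _
    simp
  have f0 : p 0 ∈ bD := mem_bD he (hp 0)
  have f1 : p 1 ∈ bD := mem_bD he (hp 1)
  rw [e0, e1, e2, e3, hβ.const f0, hβ.const f1, zero_add, zero_add] at h
  exact h.symm

theorem seg_mem {a b : I} (t : I) : min (a : ℝ) b ≤ (seg a b t : I) ∧ ((seg a b t : I) : ℝ) ≤ max (a : ℝ) b := by
  rw [PC.seg_apply_I]
  have h0 := t.2.1
  have h1 := t.2.2
  constructor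
  · have ha := min_le_left (a : ℝ) b
    have hb := min_le_right (a : ℝ) b
    nlinarith
  · have ha := le_max_left (a : ℝ) b
    have hb := le_max_right (a : ℝ) b
    nlinarith

theorem arc_eq {β : SingSimplex (D 2) 1 → M} (hβ : ClosedOn β bD) (w : C(I, D 2)) (k : Fin 2) (e : ℝ)
    (he : |e| = 1) {a b a' b' : I} (hab : a ≤ b)
    (hp : ∀ t : I, a ≤ t → t ≤ b → (cp t : Fin 2 → ℝ) k = e)
    (hw : ∀ t, (w t : Fin 2 → ℝ) k = e) (ha : cp a = w a') (hb : cp b = w b') :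
    β (lin cp ![a, b]) = β (lin w ![a', b']) := by
  rw [PC.lin_eq_ps, PC.lin_eq_ps]
  have hab' : (a : ℝ) ≤ b := hab
  refine closed_side hβ k e he (fun t => ?_) (fun t => hw _) ?_ ?_
  · have h := seg_mem (a := a) (b := b) t
    rw [min_eq_left hab', max_eq_right hab'] at h
    exact hp _ h.1 h.2
  · show cp (seg a b 0) = w (seg a' b' 0)
    have h1 : seg a b 0 = a := by
      apply Subtype.ext; rw [PC.seg_apply_I]; simp
    have h2 : seg a' b' 0 = a' := by
      apply Subtype.ext; rw [PC.seg_apply_I]; simp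
    rw [h1, h2, ha]
  · show cp (seg a b 1) = w (seg a' b' 1)
    have h1 : seg a b 1 = b := by
      apply Subtype.ext; rw [PC.seg_apply_I]; simp
    have h2 : seg a' b' 1 = b' := by
      apply Subtype.ext; rw [PC.seg_apply_I]; simp
    rw [h1, h2, hb]

theorem ext_D2 {x y : D 2} (h0 : (x : Fin 2 → ℝ) 0 = (y : Fin 2 → ℝ) 0)
    (h1 : (x : Fin 2 → ℝ) 1 = (y : Fin 2 → ℝ) 1) : x = y := by
  apply Subtype.ext
  funext j
  fin_cases j
  · exact h0
  · exact h1

/-- the holonomy of a closed cochain along the boundary curve is the sum over the four sides -/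
theorem cp_eq_sides {β : SingSimplex (D 2) 1 → M} (hβ : ClosedOn β bD) {sq : C(I × I, D 2)}
    (hsq : ∀ x : I × I, (sq x : Fin 2 → ℝ) = ![2 * (x.1 : ℝ) - 1, 2 * (x.2 : ℝ) - 1]) :
    β (ps cp) = β (ps (horz sq 0)) + β (ps (vert sq 1)) - β (ps (horz sq 1)) -
      β (ps (vert sq 0)) := by
  have s0 : ∀ x : I × I, (sq x : Fin 2 → ℝ) 0 = 2 * (x.1 : ℝ) - 1 := fun x => by rw [hsq]; rfl
  have s1 : ∀ x : I × I, (sq x : Fin 2 → ℝ) 1 = 2 * (x.2 : ℝ) - 1 := fun x => by rw [hsq]; rfl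
  let q1 : I := ⟨1 / 8, by norm_num, by norm_num⟩
  let q3 : I := ⟨3 / 8, by norm_num, by norm_num⟩
  let q5 : I := ⟨5 / 8, by norm_num, by norm_num⟩
  let q7 : I := ⟨7 / 8, by norm_num, by norm_num⟩
  have hcp : ∀ t, cp t ∈ bD := fun t => (cr t).norm_eq
  have c0 : ∀ t : I, (cp t : Fin 2 → ℝ) = (cr t : Fin 2 → ℝ) := fun t => rfl
  -- corners
  have p1 : cp q1 = sq (1, 1) := by
    apply ext_D2
    · rw [c0, s0, cr_right _ (Or.inl ⟨le_rfl, by norm_num [q1]⟩)]
      norm_num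
    · rw [c0, s1, cr_top _ le_rfl (by norm_num [q1])]
      norm_num
  have p3 : cp q3 = sq (0, 1) := by
    apply ext_D2
    · rw [c0, s0, cr_left _ le_rfl (by norm_num [q3])]
      norm_num
    · rw [c0, s1, cr_top _ (by norm_num [q3]) le_rfl]
      norm_num
  have p5 : cp q5 = sq (0, 0) := by
    apply ext_D2
    · rw [c0, s0, cr_left _ (by norm_num [q5]) le_rfl]
      norm_num
    · rw [c0, s1, cr_bot _ le_rfl (by norm_num [q5])]
      norm_num
  have p7 : cp q7 = sq (1, 0) := by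
    apply ext_D2
    · rw [c0, s0, cr_right _ (Or.inr ⟨le_rfl, by norm_num [q7]⟩)]
      norm_num
    · rw [c0, s1, cr_bot _ (by norm_num [q7]) le_rfl]
      norm_num
  have p0 : cp 0 = sq (1, PC.half) := by
    apply ext_D2
    · rw [c0, s0]
      show (cr 0 : Fin 2 → ℝ) 0 = _
      rw [cr_zero_coe]
      norm_num
    · rw [c0, s1]
      show (cr 0 : Fin 2 → ℝ) 1 = _
      rw [cr_zero_coe]
      norm_num [PC.half]
  have p8 : cp 1 = sq (1, PC.half) := by
    rw [← p0]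
    apply Subtype.ext
    show (cr 1 : Fin 2 → ℝ) = (cr 0 : Fin 2 → ℝ)
    rw [cr_one]
  have t1 := hβ.tri' cp hcp 0 q1 1
  have t2 := hβ.tri' cp hcp q1 q3 1
  have t3 := hβ.tri' cp hcp q3 q5 1
  have t4 := hβ.tri' cp hcp q5 q7 1
  have a1 := arc_eq hβ (vert sq 1) 0 1 (by norm_num) (a := 0) (b := q1) (a' := PC.half) (b' := 1)
    (by show (0 : ℝ) ≤ 1 / 8; norm_num)
    (fun t _ h2 => by rw [c0]; exact cr_right _ (Or.inl ⟨h2, t.2.1⟩))
    (fun t => by show (sq (1, t) : Fin 2 → ℝ) 0 = 1; rw [s0]; norm_num) p0 p1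
  have a2 := arc_eq hβ (horz sq 1) 1 1 (by norm_num) (a := q1) (b := q3) (a' := 1) (b' := 0)
    (by show (1 / 8 : ℝ) ≤ 3 / 8; norm_num)
    (fun t h1 h2 => by rw [c0]; exact cr_top _ h1 h2)
    (fun t => by show (sq (t, 1) : Fin 2 → ℝ) 1 = 1; rw [s1]; norm_num) p1 p3
  have a3 := arc_eq hβ (vert sq 0) 0 (-1) (by norm_num) (a := q3) (b := q5) (a' := 1) (b' := 0)
    (by show (3 / 8 : ℝ) ≤ 5 / 8; norm_num)
    (fun t h1 h2 => by rw [c0]; exact cr_left _ h1 h2)
    (fun t => by show (sq (0, t) : Fin 2 → ℝ) 0 = -1; rw [s0]; norm_num) p3 p5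
  have a4 := arc_eq hβ (horz sq 0) 1 (-1) (by norm_num) (a := q5) (b := q7) (a' := 0) (b' := 1)
    (by show (5 / 8 : ℝ) ≤ 7 / 8; norm_num)
    (fun t h1 h2 => by rw [c0]; exact cr_bot _ h1 h2)
    (fun t => by show (sq (t, 0) : Fin 2 → ℝ) 1 = -1; rw [s1]; norm_num) p5 p7
  have a5 := arc_eq hβ (vert sq 1) 0 1 (by norm_num) (a := q7) (b := 1) (a' := 0) (b' := PC.half)
    (by show (7 / 8 : ℝ) ≤ 1; norm_num)
    (fun t h1 h2 => by rw [c0]; exact cr_right _ (Or.inr ⟨h1, h2⟩))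
    (fun t => by show (sq (1, t) : Fin 2 → ℝ) 0 = 1; rw [s0]; norm_num) p7 p8
  have v1 : ∀ t, vert sq 1 t ∈ bD := fun t => mem_bD (k := 0) (e := 1) (by norm_num)
    (by show (sq (1, t) : Fin 2 → ℝ) 0 = 1; rw [s0]; norm_num)
  have v0 : ∀ t, vert sq 0 t ∈ bD := fun t => mem_bD (k := 0) (e := -1) (by norm_num)
    (by show (sq (0, t) : Fin 2 → ℝ) 0 = -1; rw [s0]; norm_num)
  have h1 : ∀ t, horz sq 1 t ∈ bD := fun t => mem_bD (k := 1) (e := 1) (by norm_num)
    (by show (sq (t, 1) : Fin 2 → ℝ) 1 = 1; rw [s1]; norm_num)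
  have w1 := hβ.tri' (vert sq 1) v1 0 PC.half 1
  have w2 := hβ.swap (Z := I) (horz sq 1) 0 1 (fun s => h1 _)
  have w3 := hβ.swap (Z := I) (vert sq 0) 0 1 (fun s => v0 _)
  have g0 : β (ps cp) = β (lin cp ![(0 : I), 1]) := rfl
  have g1 : β (ps (vert sq 1)) = β (lin (vert sq 1) ![(0 : I), 1]) := rfl
  have g2 : β (ps (horz sq 0)) = β (lin (horz sq 0) ![(0 : I), 1]) := rfl
  have g3 : β (ps (horz sq 1)) = β (lin (horz sq 1) ![(0 : I), 1]) := rfl
  have g4 : β (ps (vert sq 0)) = β (lin (vert sq 0) ![(0 : I), 1]) := rfl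
  rw [g0, t1, t2, t3, t4, a1, a2, a3, a4, a5, w2, w3, g1, g2, g3, g4, w1]
  abel

/-- **(C4)** the period of a cell is the area of its square -/
theorem cell_per {i : C(Z, E)} {c : C(D 2, E)} (hc : ∀ t : I, c (cp t) ∈ range i)
    {u : SingSimplex E 2 → M} (hu : AdmS i u) {β : SingSimplex (D 2) 1 → M}
    (hβ : cochainCobdry β = pull c u) {sq : C(I × I, D 2)}
    (hsq : ∀ x : I × I, (sq x : Fin 2 → ℝ) = ![2 * (x.1 : ℝ) - 1, 2 * (x.2 : ℝ) - 1]) :
    β (ps cp) = area u (c.comp sq) := by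
  have hV : ∀ y ∈ bD, c y ∈ range i := fun y hy => by
    obtain ⟨t, ht⟩ := cr_surj ⟨(y : Fin 2 → ℝ), mem_sphere_zero_iff_norm.2 hy⟩
    have : y = cp t := Subtype.ext (by
      show (y : Fin 2 → ℝ) = (cr t : Fin 2 → ℝ)
      rw [ht])
    rw [this]
    exact hc t
  have hcl : ClosedOn β bD := by
    intro τ hτ
    rw [hβ]
    exact hu.2 (c.comp τ) fun s => hV _ (hτ s)
  rw [cp_eq_sides hcl hsq]
  have h1 := stokes β sq
  rw [hβ] at h1
  have e1 : area u (c.comp sq) = pull c u (lin sq ![((0 : I), (0 : I)), (1, 0), (1, 1)]) -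
      pull c u (lin sq ![((0 : I), (0 : I)), (0, 1), (1, 1)]) := rfl
  rw [e1, ← neg_sub (pull c u (lin sq ![((0 : I), (0 : I)), (0, 1), (1, 1)])), h1]
  abel

end

end Crest.Agent.R251.Ar
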