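import Crest.Agent.R251.DR679

/-!
# R251 (S0388), block B3b-TOP, part 2 (helper679): the collars of the cells

`Col m = {1/2 < ‖x‖ < 1}`; `colS : C(S m, Col m)` (sphere of radius 3/4), `colR : C(Col m, S m)`
(radial projection), `colR ∘ colS = id`, `colS ∘ colR ≃ id` (`colH`);
`uvhom : (Σ _ : G × C, Col m) ≃ₜ UU ∩ VV`.
-/

set_option autoImplicit false
set_option linter.unusedSectionVars false

open Set Metric Topology unitInterval
open Crest.Agent.R185.Att

namespace Crest.Agent.R251.DR

/-- the open collar of the ball -/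
abbrev Col (m : ℕ) : Type := {x : B m // 1 / 2 < ‖(x : Fin m → ℝ)‖}

section col
variable {m : ℕ}

theorem Col.ne_zero (x : Col m) : ((x : B m) : Fin m → ℝ) ≠ 0 := ne_zero_of_half_lt x.2

theorem continuous_vv : Continuous fun x : Col m => ((x : B m) : Fin m → ℝ) :=
  continuous_subtype_val.comp continuous_subtype_val

/-- radial projection of the collar onto the sphere -/
noncomputable def colR (m : ℕ) : C(Col m, S m) where
  toFun x := rad ((x : B m) : Fin m → ℝ) x.ne_zero
  continuous_toFun := by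
    refine Continuous.subtype_mk ?_ _
    exact (continuous_vv.norm.inv₀ fun x => norm_ne_zero_iff.2 (Col.ne_zero x)).smul continuous_vv

/-- points of the collar in polar coordinates -/
noncomputable def polar (s : S m) (a : ℝ) (h1 : 1 / 2 < a) (h2 : a < 1) : Col m :=
  ⟨⟨a • (s : Fin m → ℝ), mem_ball_zero_iff.2 (by
    rw [norm_smul, s.norm_eq, mul_one, Real.norm_of_nonneg (by linarith)]; exact h2)⟩, by
    show 1 / 2 < ‖a • (s : Fin m → ℝ)‖
    rw [norm_smul, s.norm_eq, mul_one, Real.norm_of_nonneg (by linarith)]; exact h1⟩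

theorem polar_coe (s : S m) (a : ℝ) (h1 : 1 / 2 < a) (h2 : a < 1) :
    ((polar s a h1 h2 : B m) : Fin m → ℝ) = a • (s : Fin m → ℝ) := rfl

theorem colR_polar (s : S m) (a : ℝ) (h1 : 1 / 2 < a) (h2 : a < 1) :
    colR m (polar s a h1 h2) = s := by
  symm
  refine rad_unique (Col.ne_zero (polar s a h1 h2)) ?_
  rw [polar_coe, norm_smul, s.norm_eq, mul_one, Real.norm_of_nonneg (by linarith)]

theorem polar_colR (x : Col m) :
    polar (colR m x) ‖((x : B m) : Fin m → ℝ)‖ x.2 (x : B m).norm_lt = x := by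
  apply Subtype.ext
  apply Subtype.ext
  exact (rad_spec _ x.ne_zero).symm

/-- the sphere of radius `3/4` -/
noncomputable def colS (m : ℕ) : C(S m, Col m) where
  toFun s := polar s (3/4) (by norm_num) (by norm_num)
  continuous_toFun := by
    refine Continuous.subtype_mk (Continuous.subtype_mk ?_ _) _
    exact (continuous_subtype_val (p := fun x => x ∈ sphere (0 : Fin m → ℝ) 1)).const_smul (3/4 : ℝ)

@[simp] theorem colR_colS (s : S m) : colR m (colS m s) = s :=
  colR_polar s (3/4) (by norm_num) (by norm_num)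

theorem colR_comp_colS : (colR m).comp (colS m) = ContinuousMap.id _ := by
  ext1 s; exact colR_colS s

/-- radius along the homotopy -/
theorem rad_bound (x : Col m) (t : I) :
    1 / 2 < (1 - (t : ℝ)) * ‖((x : B m) : Fin m → ℝ)‖ + t * (3 / 4) ∧
      (1 - (t : ℝ)) * ‖((x : B m) : Fin m → ℝ)‖ + t * (3 / 4) < 1 := by
  have h0 : (0 : ℝ) ≤ t := t.2.1
  have h1 : (t : ℝ) ≤ 1 := t.2.2
  have h2 := x.2
  have h3 := (x : B m).norm_lt
  constructor <;> nlinarith

/-- the homotopy `id ~ colS ∘ colR` -/
noncomputable def colH (m : ℕ) : C(Col m × I, Col m) where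
  toFun p := polar (colR m p.1) ((1 - (p.2 : ℝ)) * ‖((p.1 : B m) : Fin m → ℝ)‖ + p.2 * (3 / 4))
    (rad_bound p.1 p.2).1 (rad_bound p.1 p.2).2
  continuous_toFun := by
    refine Continuous.subtype_mk (Continuous.subtype_mk ?_ _) _
    have h1 : Continuous fun p : Col m × I => ((p.1 : B m) : Fin m → ℝ) :=
      continuous_vv.comp continuous_fst
    have h2 : Continuous fun p : Col m × I => (p.2 : ℝ) := continuous_subtype_val.comp continuous_snd
    exact (((continuous_const.sub h2).mul h1.norm).add (h2.mul continuous_const)).smul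
      (continuous_subtype_val.comp ((colR m).continuous.comp continuous_fst))

@[simp] theorem colH_zero (x : Col m) : colH m (x, 0) = x := by
  have h : colH m (x, 0) = polar (colR m x) ((1 - ((0 : I) : ℝ)) * ‖((x : B m) : Fin m → ℝ)‖ +
    ((0 : I) : ℝ) * (3 / 4)) (rad_bound x 0).1 (rad_bound x 0).2 := rfl
  rw [h]
  conv_rhs => rw [← polar_colR x]
  congr 1
  simp

@[simp] theorem colH_one (x : Col m) : colH m (x, 1) = colS m (colR m x) := by
  have h : colH m (x, 1) = polar (colR m x) ((1 - ((1 : I) : ℝ)) * ‖((x : B m) : Fin m → ℝ)‖ +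
    ((1 : I) : ℝ) * (3 / 4)) (rad_bound x 1).1 (rad_bound x 1).2 := rfl
  have h2 : colS m (colR m x) = polar (colR m x) (3/4) (by norm_num) (by norm_num) := rfl
  rw [h, h2]
  congr 1
  simp

theorem colR_colH (x : Col m) (t : I) : colR m (colH m (x, t)) = colR m x :=
  colR_polar _ _ (rad_bound x t).1 (rad_bound x t).2

/-- the collar is homotopy equivalent to the sphere -/
noncomputable def colEquiv (m : ℕ) : ContinuousMap.HomotopyEquiv (Col m) (S m) where
  toFun := colR m
  invFun := colS m
  left_inv := by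
    refine (ContinuousMap.Homotopic.symm ⟨?_⟩)
    exact
      { toFun := fun p => colH m (p.2, p.1)
        continuous_toFun := (colH m).continuous.comp continuous_swap
        map_zero_left := fun x => colH_zero x
        map_one_left := fun x => colH_one x }
  right_inv := by
    rw [colR_comp_colS]

/-- contraction of the open ball -/
noncomputable def ballH (m : ℕ) : C(B m × I, B m) where
  toFun p := ⟨(1 - (p.2 : ℝ)) • (p.1 : Fin m → ℝ), mem_ball_zero_iff.2 (by
    have h0 : (0 : ℝ) ≤ p.2 := p.2.2.1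
    have h1 : (p.2 : ℝ) ≤ 1 := p.2.2.2
    rw [norm_smul, Real.norm_of_nonneg (by linarith)]
    nlinarith [p.1.norm_lt, norm_nonneg (p.1 : Fin m → ℝ)])⟩
  continuous_toFun := Continuous.subtype_mk (by fun_prop) _

@[simp] theorem ballH_zero (x : B m) : ballH m (x, 0) = x := by
  apply Subtype.ext
  show (1 - ((0 : I) : ℝ)) • (x : Fin m → ℝ) = x
  simp

/-- the centre of the ball -/
def cen (m : ℕ) : B m := ⟨0, mem_ball_self one_pos⟩

@[simp] theorem ballH_one (x : B m) : ballH m (x, 1) = cen m := by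
  apply Subtype.ext
  show (1 - ((1 : I) : ℝ)) • (x : Fin m → ℝ) = 0
  simp

instance instContractibleB (m : ℕ) : ContractibleSpace (B m) :=
  (convex_ball (0 : Fin m → ℝ) 1).contractibleSpace ⟨0, mem_ball_self one_pos⟩

end col

section att

variable {G : Type} [Group G] {Z : Type} [TopologicalSpace Z] [MulAction G Z]
  {m : ℕ} {C : Type} {φ : C → C(S m, Z)}

theorem isOpenMap_col : IsOpenMap (Subtype.val : Col m → B m) := by
  apply IsOpen.isOpenMap_subtype_val
  exact isOpen_lt continuous_const continuous_subtype_val.norm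

variable (G φ) in
/-- parametrisation of the collar of the cells -/
def upar (q : Σ _ : G × C, Col m) : GAtt G φ := inB φ q.1.1 q.1.2 q.2

theorem upar_injective : Function.Injective (upar G φ) := by
  rintro ⟨⟨g, c⟩, x⟩ ⟨⟨g', c'⟩, x'⟩ h
  obtain ⟨rfl, rfl, h3⟩ := inB_inj.1 h
  obtain rfl := Subtype.ext h3
  rfl

theorem range_upar : range (upar G φ) = UV G φ := by
  ext p
  constructor
  · rintro ⟨⟨⟨g, c⟩, x⟩, rfl⟩
    exact inB_mem_UV.2 x.2
  · rintro hp
    obtain ⟨g, c, x, rfl⟩ := hp.2
    exact ⟨⟨(g, c), ⟨x, inB_mem_UV.1 hp⟩⟩, rfl⟩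

theorem continuous_upar : Continuous (upar G φ) := by
  refine continuous_sigma fun q => ?_
  exact (continuous_vpar (φ := φ) (G := G)).comp (continuous_sigmaMk (i := q) |>.comp
    continuous_subtype_val)

theorem isOpenMap_upar : IsOpenMap (upar G φ) := by
  rw [isOpenMap_sigma]
  intro q O hO
  have : (fun a : Col m => upar G φ ⟨q, a⟩) '' O = inB φ q.1 q.2 '' (Subtype.val '' O) := by
    rw [image_image]; rfl
  rw [this]
  exact isOpen_inB_image (isOpenMap_col O hO)

theorem isOpenEmbedding_upar : IsOpenEmbedding (upar G φ) :=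
  .of_continuous_injective_isOpenMap continuous_upar upar_injective isOpenMap_upar

variable (G φ) in
/-- the collar as a disjoint union of copies of `Col m` -/
noncomputable def uhom : (Σ _ : G × C, Col m) ≃ₜ UV G φ :=
  (isOpenEmbedding_upar (φ := φ) (G := G)).isEmbedding.toHomeomorph.trans
    (Homeomorph.setCongr range_upar)

@[simp] theorem uhom_coe (q : Σ _ : G × C, Col m) :
    (uhom G φ q : GAtt G φ) = inB φ q.1.1 q.1.2 q.2 := rfl

theorem uhom_smul (g : G) (q : Σ _ : G × C, Col m) :
    (uhom G φ ⟨(g * q.1.1, q.1.2), q.2⟩ : GAtt G φ) = g • (uhom G φ q : GAtt G φ) := rfl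

/-- the retraction on the collar -/
theorem rr_uhom (q : Σ _ : G × C, Col m) :
    rr G φ ⟨uhom G φ q, (uhom G φ q).2.1⟩ = q.1.1 • φ q.1.2 (colR m q.2) := by
  obtain ⟨⟨g, c⟩, x⟩ := q
  exact rr_inB g c x.1 x.2

end att

end Crest.Agent.R251.DR
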