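import Crest.Agent.R251.Orb679
import Crest.Agent.R251.DR679b
import Crest.Agent.R251.Pr963b

/-!
# R251 (S0388), block C4, part 2 (helper679)

Everything in the names of `Pr963/Pr963b`.

* `SIn A s` : the simplex `s` lies in `A`; `HVi G A n M` : vanishing of `H^(n+1)_G` "on the simplices in
  `A`" for raw cochains on the big space; `HVi.of_HV`, `HVi.to_HV` (`A` an invariant subset).
* the pieces of `GAtt`: `hvi_VV` (all degrees), `hvi_UV` (from the sphere), `hvi_UU` (from `Z`).
-/

set_option autoImplicit false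
set_option linter.unusedSectionVars false

open CategoryTheory Simplicial Opposite Set Metric Topology
open scoped unitInterval
open Crest.GeometryTopology.DeckCochains
open Crest.Agent.R251.Pr

namespace Crest.Agent.R251.Orb

/-! ### plain vanishing and contractible spaces -/

section plain
variable {F F' : Type} [TopologicalSpace F] [TopologicalSpace F'] {M : Type*} [AddCommGroup M]

/-- the trivial group acting on a space -/
@[reducible] def trivAct (F : Type) : MulAction PUnit F where
  smul _ x := x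
  one_smul _ := rfl
  mul_smul _ _ _ := rfl

/-- the trivial group acting on a module -/
@[reducible] def trivDAct (M : Type*) [AddCommGroup M] : DistribMulAction PUnit M where
  smul _ x := x
  one_smul _ := rfl
  mul_smul _ _ _ := rfl
  smul_zero _ := rfl
  smul_add _ _ _ := rfl

/-- plain vanishing as equivariant vanishing for the trivial group -/
theorem van0_of_HV {n : ℕ}
    (h : letI := trivAct F
      letI : ContinuousConstSMul PUnit F := ⟨fun _ => continuous_id⟩
      letI := trivDAct M
      HV PUnit F n M) : Van0 F M n := by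
  intro φ hφ
  obtain ⟨ψ, -, hψ⟩ := h φ (fun g s => by
    show φ (Pr.push (ContinuousMap.id F) s) = φ s
    rw [push_id]) hφ
  exact ⟨ψ, hψ⟩

theorem HV_of_van0 {n : ℕ} (h : Van0 F M n) :
    letI := trivAct F
    letI : ContinuousConstSMul PUnit F := ⟨fun _ => continuous_id⟩
    letI := trivDAct M
    HV PUnit F n M := by
  intro φ _ hφ
  obtain ⟨ψ, hψ⟩ := h φ hφ
  exact ⟨ψ, fun g s => by
    show ψ (Pr.push (ContinuousMap.id F) s) = ψ s
    rw [push_id], hψ⟩

/-- vanishing passes to homotopy retracts -/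
theorem Van0.of_retract {n : ℕ} (h : Van0 F' M n) (f : C(F, F')) (f' : C(F', F))
    (hh : (f'.comp f).Homotopic (ContinuousMap.id F)) : Van0 F M n := by
  let _ := trivAct F
  let _ := trivAct F'
  have _ : ContinuousConstSMul PUnit F := ⟨fun _ => continuous_id⟩
  have _ : ContinuousConstSMul PUnit F' := ⟨fun _ => continuous_id⟩
  let _ := trivDAct M
  obtain ⟨H⟩ := hh
  refine van0_of_HV (HV.of_retract (G := PUnit) (HV_of_van0 h) f f' (fun _ _ => rfl)
    (fun _ _ => rfl) ⟨fun p => H (p.2, p.1), H.continuous.comp continuous_swap⟩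
    (fun _ _ _ => rfl) (Or.inr ⟨?_, ?_⟩))
  · ext x
    exact H.apply_one x
  · ext x
    exact H.apply_zero x

theorem van0_of_const {n : ℕ} (h : ∀ (m : ℕ) (τ : C(Dl m, F)), ∃ x, τ = ContinuousMap.const _ x) :
    Van0 F M n := by
  let _ := trivAct F
  have _ : ContinuousConstSMul PUnit F := ⟨fun _ => continuous_id⟩
  let _ := trivDAct M
  exact van0_of_HV (HV.of_const h)

/-- contractible spaces have no cohomology in positive degrees -/
theorem van0_contractible [ContractibleSpace F] (n : ℕ) : Van0 F M n := by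
  obtain ⟨e⟩ := (ContractibleSpace.hequiv_unit F).some.left_inv
  have h1 : Van0 Unit M n := van0_of_const fun _ _ => ⟨(), by ext⟩
  exact Van0.of_retract h1 (ContractibleSpace.hequiv_unit F).some.toFun
    (ContractibleSpace.hequiv_unit F).some.invFun ⟨e⟩

theorem Van0.of_equiv {n : ℕ} (h : Van0 F' M n) (e : ContinuousMap.HomotopyEquiv F F') :
    Van0 F M n := Van0.of_retract h e.toFun e.invFun e.left_inv

end plain

/-! ### vanishing on the simplices of an invariant subset -/

section subsets
variable {G : Type} [Group G] {E : Type} [TopologicalSpace E] [MulAction G E]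
  [ContinuousConstSMul G E] {M : Type*} [AddCommGroup M] [DistribMulAction G M] {n : ℕ}

/-- the simplex lies in `A` -/
def SIn (A : Set E) {n : ℕ} (s : SingSimplex E n) : Prop := ∀ t, us s t ∈ A

theorem SIn.face {A : Set E} {s : SingSimplex E (n + 1)} (h : SIn A s) (i : Fin (n + 2)) :
    SIn A (simplexFace i s) := fun t => by
  rw [us_face]
  exact h _

theorem SIn.mono {A B : Set E} (hAB : A ⊆ B) {s : SingSimplex E n} (h : SIn A s) : SIn B s :=
  fun t => hAB (h t)

theorem SIn.inter {A B : Set E} {s : SingSimplex E n} (h : SIn A s) (h' : SIn B s) :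
    SIn (A ∩ B) s := fun t => ⟨h t, h' t⟩

theorem sin_act {A : Set E} (hA : ∀ (g : G) x, g • x ∈ A ↔ x ∈ A) (g : G) (s : SingSimplex E n) :
    SIn A (Pr.push (act g) s) ↔ SIn A s := by
  constructor
  · intro h t
    have := h t
    rw [us_push] at this
    exact (hA g _).1 this
  · intro h t
    rw [us_push]
    exact (hA g _).2 (h t)

/-- vanishing of `H^(n+1)_G(A; M)` in terms of raw cochains on `E` -/
def HVi (G : Type) [Group G] {E : Type} [TopologicalSpace E] [MulAction G E]
    [ContinuousConstSMul G E] (A : Set E) (n : ℕ) (M : Type*) [AddCommGroup M]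
    [DistribMulAction G M] : Prop :=
  ∀ φ : SingSimplex E (n + 1) → M, EqC G φ → (∀ s, SIn A s → cochainCobdry φ s = 0) →
    ∃ ψ : SingSimplex E n → M, EqC G ψ ∧ ∀ s, SIn A s → cochainCobdry ψ s = φ s

/-- the inclusion of a subset -/
def incl (A : Set E) : C(A, E) := ⟨Subtype.val, continuous_subtype_val⟩

theorem sin_push_incl {A : Set E} (s : SingSimplex A n) : SIn A (Pr.push (incl A) s) := fun t => by
  rw [us_push]
  exact (us s t).2

/-- a simplex in `A` as a simplex of the subspace -/
noncomputable def rst {A : Set E} (s : SingSimplex E n) (h : SIn A s) : SingSimplex A n :=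
  sx ⟨fun t => ⟨us s t, h t⟩, (us s).continuous.subtype_mk _⟩

theorem push_rst {A : Set E} (s : SingSimplex E n) (h : SIn A s) :
    Pr.push (incl A) (rst s h) = s := by
  unfold rst
  rw [push_sx]
  conv_rhs => rw [← sx_us s]
  rfl

theorem us_injective : Function.Injective (us : SingSimplex E n → C(Dl n, E)) := by
  intro s t h
  rw [← sx_us s, ← sx_us t, h]

theorem push_incl_injective {A : Set E} :
    Function.Injective (Pr.push (incl A) : SingSimplex A n → SingSimplex E n) := by
  intro s t h
  apply us_injective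
  have h2 := congrArg us h
  rw [us_push, us_push] at h2
  ext1 x
  exact Subtype.ext (DFunLike.congr_fun h2 x)

open Classical in
/-- extension by zero of a cochain of a subspace -/
noncomputable def ext0 {A : Set E} (ψ : SingSimplex A n → M) : SingSimplex E n → M :=
  fun s => if h : SIn A s then ψ (rst s h) else 0

theorem ext0_push {A : Set E} (ψ : SingSimplex A n → M) (s : SingSimplex A n) :
    ext0 ψ (Pr.push (incl A) s) = ψ s := by
  unfold ext0
  rw [dif_pos (sin_push_incl s)]
  congr 1

theorem ext0_of_notIn {A : Set E} (ψ : SingSimplex A n → M) {s : SingSimplex E n} (h : ¬ SIn A s) :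
    ext0 ψ s = 0 := dif_neg h

theorem pull_ext0 {A : Set E} (ψ : SingSimplex A n → M) : pull (incl A) (ext0 ψ) = ψ := by
  funext s; exact ext0_push ψ s

theorem exists_push {A : Set E} {s : SingSimplex E n} (h : SIn A s) :
    ∃ s' : SingSimplex A n, Pr.push (incl A) s' = s := ⟨rst s h, push_rst s h⟩

/-- equations on simplices in `A` are equations of pull backs to `A` -/
theorem pull_incl_eq_iff {A : Set E} {φ φ' : SingSimplex E n → M} :
    pull (incl A) φ = pull (incl A) φ' ↔ ∀ s, SIn A s → φ s = φ' s := by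
  constructor
  · intro h s hs
    obtain ⟨s', rfl⟩ := exists_push hs
    exact congrFun h s'
  · intro h
    funext s
    exact h _ (sin_push_incl s)

theorem EqC.ext0 {A : Set E} [MulAction G A] [ContinuousConstSMul G A]
    (hA : ∀ (g : G) (x : A), ((g • x : A) : E) = g • (x : E)) {ψ : SingSimplex A n → M}
    (h : EqC G ψ) : EqC G (ext0 ψ) := by
  have hA1 : ∀ (g : G) x, x ∈ A → g • x ∈ A := fun g x hx => by
    have := (g • (⟨x, hx⟩ : A)).2
    rwa [hA] at this
  have hA2 : ∀ (g : G) x, g • x ∈ A ↔ x ∈ A := fun g x =>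
    ⟨fun hx => by simpa using hA1 g⁻¹ _ hx, hA1 g x⟩
  intro g s
  by_cases hs : SIn A s
  · obtain ⟨s', rfl⟩ := exists_push hs
    have : Pr.push (act g) (Pr.push (incl A) s') = Pr.push (incl A) (Pr.push (act g) s') := by
      rw [Pr.push_push, Pr.push_push]
      congr 1
      ext1 x
      exact (hA g x).symm
    rw [this, ext0_push, ext0_push, h]
  · rw [ext0_of_notIn _ hs, ext0_of_notIn _ (fun h' => hs ((sin_act hA2 g s).1 h')), smul_zero]

theorem HVi.of_HV {A : Set E} [MulAction G A] [ContinuousConstSMul G A]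
    (hA : ∀ (g : G) (x : A), ((g • x : A) : E) = g • (x : E)) (h : HV G A n M) : HVi G A n M := by
  intro φ hφ hc
  have hi : EqM G (incl A) := fun g x => hA g x
  obtain ⟨ψ, hψ, hψ2⟩ := h (pull (incl A) φ) (hφ.pull hi) (by
    rw [cobdry_pull]
    funext s
    exact hc _ (sin_push_incl s))
  refine ⟨ext0 ψ, EqC.ext0 hA hψ, ?_⟩
  rw [← pull_incl_eq_iff, ← cobdry_pull, pull_ext0, hψ2]

theorem HVi.to_HV {A : Set E} [MulAction G A] [ContinuousConstSMul G A]
    (hA : ∀ (g : G) (x : A), ((g • x : A) : E) = g • (x : E)) (h : HVi G A n M) : HV G A n M := by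
  intro φ hφ hc
  have hi : EqM G (incl A) := fun g x => hA g x
  obtain ⟨ψ, hψ, hψ2⟩ := h (ext0 φ) (EqC.ext0 hA hφ) (by
    have h1 : pull (incl A) (cochainCobdry (ext0 φ)) = pull (incl A) (0 : SingSimplex E (n + 2) → M) := by
      rw [← cobdry_pull, pull_ext0, hc]; rfl
    exact pull_incl_eq_iff.1 h1)
  refine ⟨pull (incl A) ψ, hψ.pull hi, ?_⟩
  rw [cobdry_pull, pull_incl_eq_iff.2 hψ2, pull_ext0]

theorem HVi.univ (h : HV G E n M) : HVi G (univ : Set E) n M := by
  intro φ hφ hc
  obtain ⟨ψ, hψ, hψ2⟩ := h φ hφ (by funext s; exact hc s fun _ => mem_univ _)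
  exact ⟨ψ, hψ, fun s _ => by rw [hψ2]⟩

end subsets

/-! ### the pieces of an attachment -/

section att

open Crest.Agent.R185.Att Crest.Agent.R251.DR

variable {G : Type} [Group G] {Z : Type} [TopologicalSpace Z] [MulAction G Z]
  {m : ℕ} {C : Type} {φ : C → C(S m, Z)}

instance actUU : MulAction G (UU φ : Set (GAtt G φ)) where
  smul g p := ⟨g • (p : GAtt G φ), smul_mem_UU.2 p.2⟩
  one_smul p := Subtype.ext (one_smul G (p : GAtt G φ))
  mul_smul g h p := Subtype.ext (mul_smul g h (p : GAtt G φ))

instance actVV : MulAction G (VV φ : Set (GAtt G φ)) where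
  smul g p := ⟨g • (p : GAtt G φ), smul_mem_VV.2 p.2⟩
  one_smul p := Subtype.ext (one_smul G (p : GAtt G φ))
  mul_smul g h p := Subtype.ext (mul_smul g h (p : GAtt G φ))

instance actUV : MulAction G (UV G φ) where
  smul g p := ⟨g • (p : GAtt G φ), smul_mem_UU.2 p.2.1, smul_mem_VV.2 p.2.2⟩
  one_smul p := Subtype.ext (one_smul G (p : GAtt G φ))
  mul_smul g h p := Subtype.ext (mul_smul g h (p : GAtt G φ))

theorem coe_smul_UU (g : G) (p : (UU φ : Set (GAtt G φ))) :
    ((g • p : (UU φ : Set (GAtt G φ))) : GAtt G φ) = g • (p : GAtt G φ) := rfl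

theorem coe_smul_VV (g : G) (p : (VV φ : Set (GAtt G φ))) :
    ((g • p : (VV φ : Set (GAtt G φ))) : GAtt G φ) = g • (p : GAtt G φ) := rfl

theorem coe_smul_UV (g : G) (p : UV G φ) : ((g • p : UV G φ) : GAtt G φ) = g • (p : GAtt G φ) := rfl

section cc
variable [ContinuousConstSMul G Z]

instance ccUU : ContinuousConstSMul G (UU φ : Set (GAtt G φ)) :=
  ⟨fun g => ((continuous_const_smul g).comp continuous_subtype_val).subtype_mk _⟩
instance ccVV : ContinuousConstSMul G (VV φ : Set (GAtt G φ)) :=
  ⟨fun g => ((continuous_const_smul g).comp continuous_subtype_val).subtype_mk _⟩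
instance ccUV : ContinuousConstSMul G (UV G φ) :=
  ⟨fun g => ((continuous_const_smul g).comp continuous_subtype_val).subtype_mk _⟩

end cc

variable (G φ) in
/-- the open cells as a free orbit space -/
noncomputable def orbVV : Orbs G (B m) C (VV φ : Set (GAtt G φ)) where
  e := vhom G φ
  equi g h c x := Subtype.ext (vhom_smul g ⟨(h, c), x⟩)

variable (G φ) in
/-- the collars as a free orbit space -/
noncomputable def orbUV : Orbs G (Col m) C (UV G φ) where
  e := uhom G φ
  equi g h c x := Subtype.ext (uhom_smul g ⟨(h, c), x⟩)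

variable [ContinuousConstSMul G Z] {M : Type*} [AddCommGroup M] [DistribMulAction G M] {n : ℕ}

theorem hv_VV (n : ℕ) : HV G (VV φ : Set (GAtt G φ)) n M := (orbVV G φ).van (van0_contractible n)

theorem hv_UV (h : Van0 (S m) M n) : HV G (UV G φ) n M :=
  (orbUV G φ).van (Van0.of_equiv h (colEquiv m))

/-- `inZ` as a map to `UU` -/
def inU : C(Z, (UU φ : Set (GAtt G φ))) := ⟨fun z => ⟨inZ φ z, inZ_mem_UU z⟩,
  continuous_inZ.subtype_mk _⟩

variable (G φ) in
/-- the retraction as a continuous map -/
noncomputable def rU : C((UU φ : Set (GAtt G φ)), Z) := ⟨rr G φ, continuous_rr⟩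

variable (G φ) in
/-- the type of `UU` -/
abbrev UT : Type := (UU φ : Set (GAtt G φ))

variable (G φ) in
/-- the deformation of `UU` -/
noncomputable def hU : C(UT G φ × I, UT G φ) :=
  ⟨fun p => ⟨Hst G φ ((p.1 : GAtt G φ), p.2), Hst_mem_UU p.1.2 p.2⟩,
    ((Hst G φ).continuous.comp ((continuous_subtype_val.comp continuous_fst).prodMk
      continuous_snd)).subtype_mk _⟩

theorem eqM_rU : EqM G (rU G φ) := fun g p => rr_smul g p

theorem eqM_inU : EqM G (inU (G := G) (φ := φ)) := fun _ _ => rfl

theorem eqH_hU : EqH G (hU G φ) := fun g p t => Subtype.ext (Hst_smul g (p : GAtt G φ) t)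

theorem end0_hU : end0 (hU G φ) = ContinuousMap.id _ := by
  ext1 p
  exact Subtype.ext (Hst_zero (p : GAtt G φ))

theorem end1_hU : end1 (hU G φ) = inU.comp (rU G φ) := by
  ext1 p
  exact Subtype.ext (inZ_rr p).symm

theorem hv_UU (h : HV G Z n M) : HV G (UU φ : Set (GAtt G φ)) n M :=
  h.of_retract (rU G φ) inU eqM_rU eqM_inU (hU G φ) eqH_hU (Or.inl ⟨end0_hU, end1_hU⟩)

theorem hvi_VV (n : ℕ) : HVi G (VV φ : Set (GAtt G φ)) n M := HVi.of_HV coe_smul_VV (hv_VV n)

theorem hvi_UV (h : Van0 (S m) M n) : HVi G (UV G φ) n M := HVi.of_HV coe_smul_UV (hv_UV h)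

theorem hvi_UU (h : HV G Z n M) : HVi G (UU φ : Set (GAtt G φ)) n M :=
  HVi.of_HV coe_smul_UU (hv_UU h)

end att

end Crest.Agent.R251.Orb
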