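import Crest.Agent.R251.Ar348E
import Crest.Agent.R251.Orb679b

/-! Row 251 / S0388, block AR (helper348), part F: the evaluation on the sphere (N9). -/

set_option autoImplicit false
set_option linter.unusedSectionVars false

open Set Metric
open Crest.GeometryTopology.DeckCochains
open Crest.Agent.R251.Pr (Dl sx us sx_surj face_sx us_sx sx_us push pull cobdry_pull)
open Crest.Agent.R251.PC (lin ps stokes vert horz ClosedOn Cvx seg)
open Crest.Agent.R185.Att (D S sd rad tl)
open Crest.Agent.R185.Base (cr)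

local notation "I" => unitInterval

namespace Crest.Agent.R251.Ar

noncomputable section

variable {E Z : Type} [TopologicalSpace E] [TopologicalSpace Z]
variable {M : Type} [AddCommGroup M]

/-- a primitive on the disc -/
theorem exists_prim_disc (c : C(D 2, E)) {u : SingSimplex E 2 → M} (hu : cochainCobdry u = 0) :
    ∃ β : SingSimplex (D 2) 1 → M, cochainCobdry β = pull c u := by
  refine Orb.van0_contractible 1 (pull c u) ?_
  rw [cobdry_pull, hu]
  rfl

/-- the data of the sphere of the 3-cell -/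
structure Sph (i : C(Z, E)) (c : C(D 2, E)) (g : C(D 2, E)) (f : C(S 3, E)) : Prop where
  bdc : ∀ t : I, c (cp t) ∈ range i
  upper : ∀ x ∈ VA, f x = c (tS x)
  lower : ∀ x ∈ VB, f x = g (tS x)
  zero : ∀ (M : Type) [AddCommGroup M] (u : SingSimplex E 2 → M), AdmS i u →
    ∀ β : SingSimplex (D 2) 1 → M, cochainCobdry β = pull g u → β (ps cp) = 0

/-- **existence of the sphere** -/
theorem exists_sph {i : C(Z, E)} {z : Z} {γ : Path z z} (hγ : NZ i γ) (c : C(D 2, E))
    (hc : ∀ t : I, c (sd 2 (cr t)) = i (γ t)) : ∃ (g : C(D 2, E)) (f : C(S 3, E)), Sph i c g f := by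
  obtain ⟨g, h1, h2⟩ := exists_disc_zero hγ
  obtain ⟨f, h3, h4⟩ := exists_sphere c g fun t => (hc t).trans (h1 t).symm
  exact ⟨g, f, ⟨fun t => ⟨_, (hc t).symm⟩, h3, h4, h2⟩⟩

variable {i : C(Z, E)} {c g : C(D 2, E)} {f : C(S 3, E)}

/-- (N9a) primitives of `f^* u` over the two hemispheres -/
theorem Sph.prims (h : Sph i c g f) {u : SingSimplex E 2 → M} (hu : AdmS i u) {sq : C(I × I, D 2)}
    (hsq : ∀ x : I × I, (sq x : Fin 2 → ℝ) = ![2 * (x.1 : ℝ) - 1, 2 * (x.2 : ℝ) - 1]) :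
    ∃ βA βB : SingSimplex (S 3) 1 → M,
      (∀ τ : C(Dl 2, S 3), (∀ s, τ s ∈ VA) → cochainCobdry βA (sx τ) = pull f u (sx τ)) ∧
      (∀ τ : C(Dl 2, S 3), (∀ s, τ s ∈ VB) → cochainCobdry βB (sx τ) = pull f u (sx τ)) ∧
      βA (ps eq) = area u (c.comp sq) ∧ βB (ps eq) = 0 := by
  obtain ⟨β₀, h0⟩ := exists_prim_disc c hu.1
  obtain ⟨β₁, h1⟩ := exists_prim_disc g hu.1
  have hA : ∀ τ : C(Dl 2, S 3), (∀ s, τ s ∈ VA) →
      cochainCobdry (pull tS β₀) (sx τ) = pull f u (sx τ) := by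
    intro τ hτ
    rw [cobdry_pull, h0]
    show u (sx (c.comp (tS.comp τ))) = u (sx (f.comp τ))
    congr 2
    ext1 s
    exact (h.upper _ (hτ s)).symm
  have hB : ∀ τ : C(Dl 2, S 3), (∀ s, τ s ∈ VB) →
      cochainCobdry (pull tS β₁) (sx τ) = pull f u (sx τ) := by
    intro τ hτ
    rw [cobdry_pull, h1]
    show u (sx (g.comp (tS.comp τ))) = u (sx (f.comp τ))
    congr 2
    ext1 s
    exact (h.lower _ (hτ s)).symm
  refine ⟨pull tS β₀, pull tS β₁, hA, hB, ?_, ?_⟩
  · rw [← cell_per h.bdc hu h0 hsq]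
    exact eq_of_primA h.upper h0 hA
  · rw [← h.zero M u hu β₁ h1]
    exact eq_of_primB h.lower h1 hB

/-- (N9b) if `f^* u` is a coboundary, the period of the cell is zero -/
theorem Sph.per_zero (h : Sph i c g f) {u : SingSimplex E 2 → M} (hu : AdmS i u)
    {ψ : SingSimplex (S 3) 1 → M} (hψ : cochainCobdry ψ = pull f u)
    {β : SingSimplex (D 2) 1 → M} (hβ : cochainCobdry β = pull c u) : β (ps cp) = 0 := by
  obtain ⟨β₁, h1⟩ := exists_prim_disc g hu.1
  have e1 := eq_of_primA h.upper hβ (ψ := ψ) fun τ _ => by rw [hψ]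
  have e2 := eq_of_primB h.lower h1 (ψ := ψ) fun τ _ => by rw [hψ]
  rw [← e1, e2]
  exact h.zero M u hu β₁ h1

/-- (N9b) in terms of the area -/
theorem Sph.area_zero (h : Sph i c g f) {u : SingSimplex E 2 → M} (hu : AdmS i u)
    {ψ : SingSimplex (S 3) 1 → M} (hψ : cochainCobdry ψ = pull f u) {sq : C(I × I, D 2)}
    (hsq : ∀ x : I × I, (sq x : Fin 2 → ℝ) = ![2 * (x.1 : ℝ) - 1, 2 * (x.2 : ℝ) - 1]) :
    area u (c.comp sq) = 0 := by
  obtain ⟨β₀, h0⟩ := exists_prim_disc c hu.1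
  rw [← cell_per h.bdc hu h0 hsq]
  exact h.per_zero hu hψ h0

/-- (N9b) if `f` extends over the ball, the period of the cell is zero for every admissible cocycle
which extends to the target -/
theorem Sph.per_zero_of_ext (h : Sph i c g f) {W : Type} [TopologicalSpace W] (j : C(E, W))
    (F : C(D 3, W)) (hF : ∀ x, F (sd 3 x) = j (f x)) {w : SingSimplex W 2 → M}
    (hw : cochainCobdry w = 0) {u : SingSimplex E 2 → M} (hu : AdmS i u)
    {χ : SingSimplex E 1 → M} (hχ : pull j w = u + cochainCobdry χ)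
    {β : SingSimplex (D 2) 1 → M} (hβ : cochainCobdry β = pull c u) : β (ps cp) = 0 := by
  obtain ⟨ψ, hψ⟩ : ∃ ψ : SingSimplex (D 3) 1 → M, cochainCobdry ψ = pull F w := by
    refine Orb.van0_contractible 1 (pull F w) ?_
    rw [cobdry_pull, hw]
    rfl
  refine h.per_zero hu (ψ := pull (sd 3) ψ - pull f χ) ?_ hβ
  rw [Pr.cobdry_sub, cobdry_pull, cobdry_pull, hψ, Pr.pull_pull]
  have e1 : F.comp (sd 3) = j.comp f := by
    ext1 x
    exact hF x
  rw [e1, ← Pr.pull_pull, hχ]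
  funext s
  show u (push f s) + cochainCobdry χ (push f s) - cochainCobdry χ (push f s) = u (push f s)
  rw [add_sub_cancel_right]

end

end Crest.Agent.R251.Ar
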