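import Mathlib
import Crest.Prelude.Def_DeckCochains

/-!
# Row 251, block C0: singular homology (Mathlib, integral) from equivariant cochains (helper443)

If for every module `M` over the deck group every equivariant `(n+1)`-cocycle on `E` is an
equivariant coboundary, then `H_{n+1}(E; ℤ) = 0`.  (Take `M = C_{n+1} / B_{n+1}`.)
-/

set_option autoImplicit false

open CategoryTheory AlgebraicTopology Simplicial Opposite
open Crest.GeometryTopology.DeckCochains

namespace Crest.Agent.R251.C0

noncomputable section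

/-- coefficients -/
abbrev ZZ : ModuleCat.{0} ℤ := ModuleCat.of ℤ ℤ

/-- the integral singular chain complex -/
abbrev SC (E : Type) [TopologicalSpace E] : ChainComplex (ModuleCat.{0} ℤ) ℕ :=
  ((singularChainComplexFunctor (ModuleCat.{0} ℤ)).obj ZZ).obj (TopCat.of E)

/-- chain groups -/
abbrev Ch (E : Type) [TopologicalSpace E] (n : ℕ) : Type := (SC E).X n

variable {E X : Type} [TopologicalSpace E] [TopologicalSpace X]

/-- generator of the chain group -/
def sgl {n : ℕ} (σ : SingSimplex E n) : Ch E n :=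
  (SSet.ιChainComplex (X := TopCat.toSSet.obj (TopCat.of E)) (R := ZZ) σ).hom (1 : ℤ)

/-- boundary -/
def bd (E : Type) [TopologicalSpace E] (n : ℕ) : Ch E (n + 1) →+ Ch E n :=
  ((SC E).d (n + 1) n).hom.toAddMonoidHom

theorem bd_sgl {n : ℕ} (σ : SingSimplex E (n + 1)) :
    bd E n (sgl σ) = ∑ i : Fin (n + 2), (-1 : ℤ) ^ (i : ℕ) • sgl (simplexFace i σ) := by
  have h := SSet.ιChainComplex_d (X := TopCat.toSSet.obj (TopCat.of E)) (R := ZZ) σ
  have h2 := congrArg (fun φ => φ.hom (1 : ℤ)) h
  simp only [ModuleCat.hom_comp, LinearMap.comp_apply, ModuleCat.hom_sum, LinearMap.sum_apply,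
    ModuleCat.hom_zsmul] at h2
  refine Eq.trans h2 ?_
  apply Finset.sum_congr rfl
  intro i _
  rfl

/-- additive maps out of the chain group -/
def liftC {n : ℕ} {V : Type} [AddCommGroup V] (φ : SingSimplex E n → V) : Ch E n →+ V :=
  ((TopCat.toSSet.obj (TopCat.of E)).isColimitChainComplexXCofan ZZ n |>.desc
    (Limits.Cofan.mk (ModuleCat.of ℤ V) fun x => ModuleCat.ofHom
      (LinearMap.toSpanSingleton ℤ V (φ x)))).hom.toAddMonoidHom

theorem liftC_sgl {n : ℕ} {V : Type} [AddCommGroup V] (φ : SingSimplex E n → V)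
    (σ : SingSimplex E n) : liftC φ (sgl σ) = φ σ := by
  have h := ((TopCat.toSSet.obj (TopCat.of E)).isColimitChainComplexXCofan ZZ n).fac
    (Limits.Cofan.mk (ModuleCat.of ℤ V) fun x => ModuleCat.ofHom
      (LinearMap.toSpanSingleton ℤ V (φ x))) ⟨σ⟩
  have h2 := congrArg (fun φ => φ.hom (1 : ℤ)) h
  refine (Eq.trans h2 ?_)
  exact one_smul ℤ (φ σ)

theorem chain_ext {n : ℕ} {V : Type} [AddCommGroup V]
    (φ ψ : Ch E n →+ V) (h : ∀ σ : SingSimplex E n, φ (sgl σ) = ψ (sgl σ)) : φ = ψ := by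
  let L : (Ch E n →+ V) → ((SC E).X n →ₗ[ℤ] V) := fun φ =>
    { toFun := φ
      map_add' := φ.map_add
      map_smul' := fun m x => by
        rw [RingHom.id_apply, ← map_zsmul φ m x]
        exact congrArg φ (int_smul_eq_zsmul _ m x) }
  have h1 : (ModuleCat.ofHom (L φ) : (SC E).X n ⟶ ModuleCat.of ℤ V) = ModuleCat.ofHom (L ψ) := by
    apply SSet.chainComplex_hom_ext (X := TopCat.toSSet.obj (TopCat.of E)) (R := ZZ)
    intro x
    ext
    exact h x
  have h2 : L φ = L ψ := congrArg (fun φ => φ.hom) h1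
  ext x
  exact LinearMap.congr_fun h2 x

/-- exactness at `n + 1`, elementwise, gives vanishing of the homology functor -/
theorem isZero_of_exact (n : ℕ) (h : ∀ x : Ch E (n + 1), bd E n x = 0 → ∃ y, bd E (n + 1) y = x) :
    Limits.IsZero (((singularHomologyFunctor (ModuleCat.{0} ℤ) (n + 1)).obj
      (ModuleCat.of ℤ ℤ)).obj (TopCat.of E)) := by
  change Limits.IsZero ((SC E).homology (n + 1))
  rw [← HomologicalComplex.exactAt_iff_isZero_homology,
    HomologicalComplex.exactAt_iff' (SC E) (n + 2) (n + 1) n (by simp) (by simp)]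
  rw [ShortComplex.moduleCat_exact_iff]
  intro x hx
  exact h x hx

/-- the group of boundaries -/
abbrev B (E : Type) [TopologicalSpace E] (n : ℕ) : AddSubgroup (Ch E n) := (bd E n).range

/-- chains modulo boundaries -/
abbrev CB (E : Type) [TopologicalSpace E] (n : ℕ) : Type := Ch E n ⧸ B E n

/-- the quotient map -/
def mkB (E : Type) [TopologicalSpace E] (n : ℕ) : Ch E n →+ CB E n := QuotientAddGroup.mk' (B E n)

theorem mkB_eq_zero {n : ℕ} (x : Ch E n) : mkB E n x = 0 ↔ ∃ y, bd E n y = x := by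
  unfold mkB
  rw [QuotientAddGroup.mk'_apply, QuotientAddGroup.eq_zero_iff]
  rfl

/-- the universal cochain -/
def univ (E : Type) [TopologicalSpace E] (n : ℕ) (σ : SingSimplex E n) : CB E n :=
  mkB E n (sgl σ)

theorem univ_cobdry (n : ℕ) : cochainCobdry (univ E n) = 0 := by
  funext σ
  have h : mkB E n (bd E n (sgl σ)) = 0 := (mkB_eq_zero _).2 ⟨_, rfl⟩
  rw [bd_sgl, map_sum] at h
  simp only [map_zsmul] at h
  exact h

/-- raw form of C0 -/
theorem isZero_of_cochain (n : ℕ)
    (h : ∃ ψ : SingSimplex E n → CB E (n + 1), cochainCobdry ψ = univ E (n + 1)) :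
    Limits.IsZero (((singularHomologyFunctor (ModuleCat.{0} ℤ) (n + 1)).obj
      (ModuleCat.of ℤ ℤ)).obj (TopCat.of E)) := by
  obtain ⟨ψ, hψ⟩ := h
  apply isZero_of_exact
  intro x hx
  have h1 : (liftC ψ).comp (bd E n) = mkB E (n + 1) := by
    apply chain_ext
    intro σ
    rw [AddMonoidHom.comp_apply, bd_sgl, map_sum]
    simp only [map_zsmul, liftC_sgl]
    exact congrFun hψ σ
  rw [← mkB_eq_zero, ← h1, AddMonoidHom.comp_apply, hx, map_zero]

/-- pushing forward chains by a homeomorphism -/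
def push (g : E ≃ₜ E) (n : ℕ) : Ch E n →+ Ch E n :=
  liftC fun σ => sgl (simplexTranslate g σ)

theorem push_sgl {n : ℕ} (g : E ≃ₜ E) (σ : SingSimplex E n) :
    push g n (sgl σ) = sgl (simplexTranslate g σ) := liftC_sgl _ _

theorem face_translate {n : ℕ} (g : E ≃ₜ E) (i : Fin (n + 2)) (σ : SingSimplex E (n + 1)) :
    simplexFace i (simplexTranslate g σ) = simplexTranslate g (simplexFace i σ) := rfl

theorem translate_one {n : ℕ} (σ : SingSimplex E n) : simplexTranslate (1 : E ≃ₜ E) σ = σ := rfl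

theorem translate_mul {n : ℕ} (g h : E ≃ₜ E) (σ : SingSimplex E n) :
    simplexTranslate (g * h) σ = simplexTranslate g (simplexTranslate h σ) := rfl

theorem push_one (n : ℕ) : push (1 : E ≃ₜ E) n = AddMonoidHom.id _ := by
  apply chain_ext
  intro σ
  rw [push_sgl, translate_one, AddMonoidHom.id_apply]

theorem push_mul (g h : E ≃ₜ E) (n : ℕ) : push (g * h) n = (push g n).comp (push h n) := by
  apply chain_ext
  intro σ
  rw [push_sgl, translate_mul, AddMonoidHom.comp_apply, push_sgl, push_sgl]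

theorem bd_push {n : ℕ} (g : E ≃ₜ E) (x : Ch E (n + 1)) :
    bd E n (push g (n + 1) x) = push g n (bd E n x) := by
  have h : (bd E n).comp (push g (n + 1)) = (push g n).comp (bd E n) := by
    apply chain_ext
    intro σ
    rw [AddMonoidHom.comp_apply, AddMonoidHom.comp_apply, push_sgl, bd_sgl, bd_sgl, map_sum]
    simp only [map_zsmul, push_sgl, face_translate]
  exact DFunLike.congr_fun h x

theorem B_le (g : E ≃ₜ E) (n : ℕ) : B E n ≤ (B E n).comap (push g n) := by
  rintro _ ⟨y, rfl⟩
  exact ⟨push g (n + 1) y, bd_push g y⟩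

/-- the action on the quotient -/
def qpush (g : E ≃ₜ E) (n : ℕ) : CB E n →+ CB E n :=
  QuotientAddGroup.map _ _ (push g n) (B_le g n)

theorem qpush_mk (g : E ≃ₜ E) (n : ℕ) (x : Ch E n) :
    qpush g n (mkB E n x) = mkB E n (push g n x) := rfl

theorem qpush_one (n : ℕ) (x : CB E n) : qpush (1 : E ≃ₜ E) n x = x := by
  obtain ⟨x, rfl⟩ := QuotientAddGroup.mk'_surjective _ x
  change qpush (1 : E ≃ₜ E) n (mkB E n x) = mkB E n x
  rw [qpush_mk, push_one, AddMonoidHom.id_apply]

theorem qpush_mul (g h : E ≃ₜ E) (n : ℕ) (x : CB E n) :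
    qpush (g * h) n x = qpush g n (qpush h n x) := by
  obtain ⟨x, rfl⟩ := QuotientAddGroup.mk'_surjective _ x
  change qpush (g * h) n (mkB E n x) = qpush g n (qpush h n (mkB E n x))
  rw [qpush_mk, qpush_mk, qpush_mk, push_mul, AddMonoidHom.comp_apply]

/-- the deck group acts on `C_n / B_n` -/
@[reducible] def qAct (G : Subgroup (E ≃ₜ E)) (n : ℕ) : DistribMulAction G (CB E n) where
  smul g x := qpush (g : E ≃ₜ E) n x
  one_smul x := qpush_one n x
  mul_smul g h x := qpush_mul (g : E ≃ₜ E) (h : E ≃ₜ E) n x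
  smul_zero g := map_zero (qpush (g : E ≃ₜ E) n)
  smul_add g x y := map_add (qpush (g : E ≃ₜ E) n) x y

/-- **C0.** Vanishing of the equivariant cochain cohomology in degree `n + 1` with all coefficient
modules gives vanishing of the integral singular homology of `E` in degree `n + 1`. -/
theorem isZero_of_deckVanishes (p : E → X) (n : ℕ)
    (h : ∀ (M : Type) [AddCommGroup M] [DistribMulAction (deckGroup p) M],
      DeckCohomologyVanishes p M n) :
    Limits.IsZero (((singularHomologyFunctor (ModuleCat.{0} ℤ) (n + 1)).obj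
      (ModuleCat.of ℤ ℤ)).obj (TopCat.of E)) := by
  let _ := qAct (deckGroup p) (E := E) (n + 1)
  obtain ⟨ψ, -, hψ⟩ := h (CB E (n + 1)) (univ E (n + 1))
    (fun g σ => by
      change _ = qpush (g : E ≃ₜ E) (n + 1) (mkB E (n + 1) (sgl σ))
      rw [qpush_mk, push_sgl]
      rfl) (univ_cobdry (n + 1))
  exact isZero_of_cochain n ⟨ψ, hψ⟩

/-- the form in the statement: all degrees above `2` -/
theorem isZero_above_two (p : E → X)
    (h : ∀ n : ℕ, 2 ≤ n → ∀ (M : Type) [AddCommGroup M] [DistribMulAction (deckGroup p) M],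
      DeckCohomologyVanishes p M n) :
    ∀ i : ℕ, 2 < i → Limits.IsZero (((singularHomologyFunctor (ModuleCat.{0} ℤ) i).obj
      (ModuleCat.of ℤ ℤ)).obj (TopCat.of E)) := by
  intro i hi
  obtain ⟨n, rfl⟩ : ∃ n, i = n + 1 := ⟨i - 1, by omega⟩
  exact isZero_of_deckVanishes p n (h n (by omega))

end

end Crest.Agent.R251.C0
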