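import Crest.Agent.R251.Pr963b

/-! # R251, line B, block (e): equivariant cohomology of a space which retracts equivariantly onto a
discrete set (helper686)

`PEq W φ` / `PCo W φ`: equations of a cochain on `E` only on the simplices with range in `W`. -/

set_option autoImplicit false
set_option linter.unusedSectionVars false
set_option linter.style.haveILetI false

open CategoryTheory Simplicial Opposite Set Topology
open Crest.GeometryTopology.DeckCochains
open Crest.Agent.R251.Pr

namespace Crest.Agent.R251.CE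

noncomputable section

/-! ### global form -/

section glob

variable {G : Type} [Group G] {U D : Type} [TopologicalSpace U] [TopologicalSpace D]
  [DiscreteTopology D] [MulAction G U] [MulAction G D] [ContinuousConstSMul G U]
  [ContinuousConstSMul G D] {M : Type*} [AddCommGroup M] [DistribMulAction G M]

instance connectedDl (n : ℕ) : ConnectedSpace (Dl n) :=
  Subtype.connectedSpace ((convex_stdSimplex ℝ (Fin (n + 1))).isConnected
    ⟨_, (stdSimplex.vertex (S := ℝ) (0 : Fin (n + 1))).2⟩)

/-- singular simplices of a discrete space are constant -/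
theorem const_of_discrete (m : ℕ) (σ : C(Dl m, D)) : ∃ x, σ = ContinuousMap.const _ x := by
  refine ⟨σ (stdSimplex.vertex 0), ?_⟩
  ext x
  exact PreconnectedSpace.constant inferInstance σ.continuous

/-- **(e)**, global form: `U` retracts equivariantly onto a discrete `G`-set -/
theorem hv_of_retract (fc : C(U, D)) (b : C(D, U)) (hfc : EqM G fc) (hb : EqM G b)
    (H : C(U × unitInterval, U)) (hH : EqH G H) (h0 : ∀ x, H (x, 0) = x)
    (h1 : ∀ x, H (x, 1) = b (fc x)) (n : ℕ) : HV G U n M :=
  HV.of_retract (HV.of_const const_of_discrete) fc b hfc hb H hH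
    (Or.inl ⟨ContinuousMap.ext h0, ContinuousMap.ext h1⟩)

/-- the unique point of the 0-simplex -/
def pt0 : Dl 0 := stdSimplex.vertex 0

instance subDl0 : Subsingleton (Dl 0) := by
  refine ⟨fun x y => Subtype.ext (funext fun i => ?_)⟩
  have hx := x.2.2
  have hy := y.2.2
  rw [Fin.sum_univ_one] at hx hy
  have : i = 0 := Fin.eq_zero i
  rw [this]
  exact hx.trans hy.symm

/-- degree zero: equivariant 0-cocycles on `U` are the equivariant functions of `fc` -/
theorem h0_of_retract (fc : C(U, D)) (b : C(D, U)) (hb : EqM G b)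
    (H : C(U × unitInterval, U)) (h0 : ∀ x, H (x, 0) = x) (h1 : ∀ x, H (x, 1) = b (fc x))
    {φ : SingSimplex U 0 → M} (hφ : EqC G φ) (hc : cochainCobdry φ = 0) :
    ∃ f : D → M, (∀ (g : G) d, f (g • d) = g • f d) ∧ ∀ s, φ s = f (fc (us s pt0)) := by
  refine ⟨fun d => φ (sx (ContinuousMap.const _ (b d))), fun g d => ?_, fun s => ?_⟩
  · show φ (sx (ContinuousMap.const (Dl 0) (b (g • d)))) = _
    rw [← hφ]
    refine congrArg φ ?_
    rw [push_sx]
    refine congrArg sx ?_
    ext x
    exact hb g d
  · have h2 := congrFun (pull_end_eq_of_cocycle hc H) s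
    have h3 : end0 H = ContinuousMap.id U := ContinuousMap.ext h0
    rw [h3, pull_id] at h2
    rw [← h2, pull_apply]
    congr 1
    rw [← sx_us s, push_sx]
    congr 1
    ext x
    rw [Subsingleton.elim x pt0, us_sx]
    exact h1 _

/-- converse of `h0_of_retract` -/
theorem cocycle_of_fun (fc : C(U, D)) (hfc : EqM G fc) (f : D → M)
    (hf : ∀ (g : G) d, f (g • d) = g • f d) :
    EqC G (fun s : SingSimplex U 0 => f (fc (us s pt0))) ∧
      cochainCobdry (fun s : SingSimplex U 0 => f (fc (us s pt0))) = 0 := by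
  constructor
  · intro g s
    show f (fc (us (push (act g) s) pt0)) = g • f (fc (us s pt0))
    rw [← hf, us_push]
    refine congrArg f ?_
    exact hfc g _
  · funext s
    rw [cobdry_apply, Fin.sum_univ_two]
    have h : ∀ i j : Fin 2, fc (us (simplexFace i s) pt0) = fc (us (simplexFace j s) pt0) := by
      intro i j
      rw [us_face, us_face]
      exact PreconnectedSpace.constant inferInstance (fc.comp (us s)).continuous
    rw [h 0 1]
    simp

end glob

/-! ### partial form: cochains on `E`, equations on the simplices in an invariant subset `W` -/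

section part

variable {G : Type} [Group G] {E : Type} [TopologicalSpace E] [MulAction G E]
  [ContinuousConstSMul G E] {M : Type*} [AddCommGroup M] [DistribMulAction G M]

/-- the simplex lies in `W` -/
def Ins (W : Set E) {n : ℕ} (s : SingSimplex E n) : Prop := range (us s) ⊆ W

theorem Ins.face {W : Set E} {n : ℕ} {s : SingSimplex E (n + 1)} (h : Ins W s) (i : Fin (n + 2)) :
    Ins W (simplexFace i s) := by
  unfold Ins
  rw [us_face]
  rintro _ ⟨x, rfl⟩
  exact h ⟨_, rfl⟩

theorem Ins.push {W : Set E} (hW : ∀ (g : G) x, x ∈ W → g • x ∈ W) {n : ℕ} {s : SingSimplex E n}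
    (h : Ins W s) (g : G) : Ins W (push (act g) s) := by
  unfold Ins
  rw [us_push]
  rintro _ ⟨x, rfl⟩
  exact hW g _ (h ⟨x, rfl⟩)

/-- the action on an invariant subset -/
@[reducible] def subAct (W : Set E) (hW : ∀ (g : G) x, x ∈ W → g • x ∈ W) : MulAction G W where
  smul g x := ⟨g • x.1, hW g x.1 x.2⟩
  one_smul x := Subtype.ext (one_smul G x.1)
  mul_smul g h x := Subtype.ext (mul_smul g h x.1)

theorem subAct_cont (W : Set E) (hW : ∀ (g : G) x, x ∈ W → g • x ∈ W) :
    @ContinuousConstSMul G W _ (subAct W hW).toSMul := by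
  letI := subAct W hW
  exact ⟨fun g => Continuous.subtype_mk ((continuous_const_smul g).comp continuous_subtype_val) _⟩

/-- inclusion -/
def inc (W : Set E) : C(W, E) := ⟨Subtype.val, continuous_subtype_val⟩

/-- restriction of a simplex in `W` -/
def rs (W : Set E) {n : ℕ} (s : SingSimplex E n) (h : Ins W s) : SingSimplex W n :=
  sx ⟨fun x => ⟨us s x, h ⟨x, rfl⟩⟩, Continuous.subtype_mk (us s).continuous _⟩

theorem push_inc_rs (W : Set E) {n : ℕ} (s : SingSimplex E n) (h : Ins W s) :
    push (inc W) (rs W s h) = s := by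
  rw [rs, push_sx]
  conv_rhs => rw [← sx_us s]
  rfl

theorem ins_push_inc (W : Set E) {n : ℕ} (s : SingSimplex W n) : Ins W (push (inc W) s) := by
  unfold Ins
  rw [us_push]
  rintro _ ⟨x, rfl⟩
  exact (us s x).2

theorem rs_push_inc (W : Set E) {n : ℕ} (s : SingSimplex W n) :
    rs W (push (inc W) s) (ins_push_inc W s) = s := by
  conv_rhs => rw [← sx_us s]
  rw [rs]
  congr 1

/-- extension by zero of a cochain on `W` -/
def ez (W : Set E) {n : ℕ} (ψ : SingSimplex W n → M) : SingSimplex E n → M := by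
  classical
  exact fun s => if h : Ins W s then ψ (rs W s h) else 0

theorem ez_of (W : Set E) {n : ℕ} (ψ : SingSimplex W n → M) {s : SingSimplex E n} (h : Ins W s) :
    ez W ψ s = ψ (rs W s h) := by
  classical
  exact dif_pos h

theorem ez_not (W : Set E) {n : ℕ} (ψ : SingSimplex W n → M) {s : SingSimplex E n}
    (h : ¬ Ins W s) : ez W ψ s = 0 := by
  classical
  exact dif_neg h

theorem pull_inc_ez (W : Set E) {n : ℕ} (ψ : SingSimplex W n → M) : pull (inc W) (ez W ψ) = ψ := by
  funext s
  rw [pull_apply, ez_of W ψ (ins_push_inc W s), rs_push_inc]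

/-- **(e)**, partial form -/
theorem part_of_hv (W : Set E) (hW : ∀ (g : G) x, x ∈ W → g • x ∈ W) (n : ℕ)
    (hV : @HV G _ W _ (subAct W hW) (subAct_cont W hW) n M _ _)
    (φ : SingSimplex E (n + 1) → M)
    (hφ : ∀ (g : G) s, Ins W s → φ (push (act g) s) = g • φ s)
    (hc : ∀ s : SingSimplex E (n + 2), Ins W s → cochainCobdry φ s = 0) :
    ∃ ψ : SingSimplex E n → M, EqC G ψ ∧ (∀ s, ¬ Ins W s → ψ s = 0) ∧
      ∀ s, Ins W s → cochainCobdry ψ s = φ s := by
  letI := subAct W hW
  haveI := subAct_cont W hW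
  have hinc : EqM G (inc W) := fun g x => rfl
  have hact : ∀ (g : G) {m : ℕ} (s : SingSimplex W m),
      push (inc W) (push (act g) s) = push (act g) (push (inc W) s) := by
    intro g m s
    rw [push_push, push_push]
    rfl
  obtain ⟨ψ, hψ, hψ'⟩ := hV (pull (inc W) φ)
    (fun g s => by
      rw [pull_apply, pull_apply, hact, hφ g _ (ins_push_inc W s)])
    (by
      rw [cobdry_pull]
      funext s
      exact hc _ (ins_push_inc W s))
  refine ⟨ez W ψ, ?_, fun s h => ez_not W ψ h, ?_⟩
  · intro g s
    by_cases h : Ins W s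
    · rw [ez_of W ψ h, ez_of W ψ (h.push hW g), ← hψ]
      congr 1
    · rw [ez_not W ψ h, ez_not W ψ, smul_zero]
      intro h'
      apply h
      have h2 := Ins.push hW h' g⁻¹
      rw [push_push] at h2
      have h3 : (act g⁻¹ : C(E, E)).comp (act g) = ContinuousMap.id E := by
        ext x; exact inv_smul_smul g x
      rwa [h3, push_id] at h2
  · intro s h
    have h1 := congrFun hψ' (rs W s h)
    rw [pull_apply, push_inc_rs] at h1
    rw [← h1]
    conv_lhs => rw [← push_inc_rs W s h]
    have h2 := congrFun (cobdry_pull (inc W) (ez W ψ)) (rs W s h)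
    rw [pull_inc_ez] at h2
    exact h2.symm

/-- **(e)**, partial form, degree zero: partial equivariant 0-cocycles on `W` -/
theorem part_h0 (W : Set E) (hW : ∀ (g : G) x, x ∈ W → g • x ∈ W) {D : Type}
    [TopologicalSpace D] [DiscreteTopology D] [MulAction G D] [ContinuousConstSMul G D]
    (fc : C(W, D)) (b : C(D, W))
    (hb : ∀ (g : G) d, (b (g • d) : E) = g • (b d : E))
    (H : C(W × unitInterval, W)) (h0 : ∀ x, H (x, 0) = x) (h1 : ∀ x, H (x, 1) = b (fc x))
    (φ : SingSimplex E 0 → M)
    (hφ : ∀ (g : G) s, Ins W s → φ (push (act g) s) = g • φ s)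
    (hc : ∀ s : SingSimplex E 1, Ins W s → cochainCobdry φ s = 0) :
    ∃ f : D → M, (∀ (g : G) d, f (g • d) = g • f d) ∧
      ∀ s (h : Ins W s), φ s = f (fc ⟨us s pt0, h ⟨_, rfl⟩⟩) := by
  letI := subAct W hW
  haveI := subAct_cont W hW
  have hact : ∀ (g : G) {m : ℕ} (s : SingSimplex W m),
      push (inc W) (push (act g) s) = push (act g) (push (inc W) s) := by
    intro g m s
    rw [push_push, push_push]
    rfl
  obtain ⟨f, hf, hf'⟩ := h0_of_retract (G := G) (M := M) fc b (fun g d => Subtype.ext (hb g d)) H h0 h1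
    (φ := pull (inc W) φ)
    (fun g s => by
      rw [pull_apply, pull_apply, hact, hφ g _ (ins_push_inc W s)])
    (by
      rw [cobdry_pull]
      funext s
      exact hc _ (ins_push_inc W s))
  refine ⟨f, hf, fun s h => ?_⟩
  have h2 := hf' (rs W s h)
  rw [pull_apply, push_inc_rs] at h2
  rw [h2]
  congr 2

end part

/-! ### the two forms together, for an invariant subset with an equivariant contraction onto a
discrete set -/

section main

variable {G : Type} [Group G] {E : Type} [TopologicalSpace E] [MulAction G E]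
  [ContinuousConstSMul G E]

/-- equivariant retraction of the invariant subset `W` onto a discrete `G`-set `D` -/
structure DRet (G : Type) [Group G] {E : Type} [TopologicalSpace E] [MulAction G E]
    (W : Set E) (D : Type) [TopologicalSpace D] [MulAction G D] where
  inv : ∀ (g : G) x, x ∈ W → g • x ∈ W
  fc : C(W, D)
  b : C(D, W)
  fc_smul : ∀ (g : G) (x : W), fc ⟨g • x.1, inv g x.1 x.2⟩ = g • fc x
  b_smul : ∀ (g : G) d, (b (g • d) : E) = g • (b d : E)
  H : C(W × unitInterval, W)
  H_zero : ∀ x, H (x, 0) = x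
  H_one : ∀ x, H (x, 1) = b (fc x)
  H_smul : ∀ (g : G) (x : W) t, (H (⟨g • x.1, inv g x.1 x.2⟩, t) : E) = g • (H (x, t) : E)

variable {W : Set E} {D : Type} [TopologicalSpace D] [DiscreteTopology D] [MulAction G D]
  [ContinuousConstSMul G D] (R : DRet G W D) {M : Type*} [AddCommGroup M] [DistribMulAction G M]

include R in
/-- **(e)**: acyclicity of `W`, partial form, all degrees `n + 1` -/
theorem DRet.ac (n : ℕ) (φ : SingSimplex E (n + 1) → M)
    (hφ : ∀ (g : G) s, Ins W s → φ (push (act g) s) = g • φ s)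
    (hc : ∀ s : SingSimplex E (n + 2), Ins W s → cochainCobdry φ s = 0) :
    ∃ ψ : SingSimplex E n → M, EqC G ψ ∧ (∀ s, ¬ Ins W s → ψ s = 0) ∧
      ∀ s, Ins W s → cochainCobdry ψ s = φ s := by
  refine part_of_hv W R.inv n ?_ φ hφ hc
  letI := subAct W R.inv
  haveI := subAct_cont W R.inv
  exact hv_of_retract (G := G) R.fc R.b (fun g x => R.fc_smul g x)
    (fun g d => Subtype.ext (R.b_smul g d)) R.H (fun g x t => Subtype.ext (R.H_smul g x t))
    R.H_zero R.H_one n

/-- **(e)**, degree 0 -/
theorem DRet.h0 (φ : SingSimplex E 0 → M)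
    (hφ : ∀ (g : G) s, Ins W s → φ (push (act g) s) = g • φ s)
    (hc : ∀ s : SingSimplex E 1, Ins W s → cochainCobdry φ s = 0) :
    ∃ f : D → M, (∀ (g : G) d, f (g • d) = g • f d) ∧
      ∀ s (h : Ins W s), φ s = f (R.fc ⟨us s pt0, h ⟨_, rfl⟩⟩) :=
  part_h0 W R.inv R.fc R.b R.b_smul R.H R.H_zero R.H_one φ hφ hc

/-- the 0-cochain of an equivariant function on `D`, extended by zero -/
def DRet.c0 (f : D → M) : SingSimplex E 0 → M := by
  classical
  exact fun s => if h : Ins W s then f (R.fc ⟨us s pt0, h ⟨_, rfl⟩⟩) else 0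

theorem DRet.c0_of (f : D → M) {s : SingSimplex E 0} (h : Ins W s) :
    R.c0 f s = f (R.fc ⟨us s pt0, h ⟨_, rfl⟩⟩) := by
  classical
  exact dif_pos h

theorem DRet.c0_not (f : D → M) {s : SingSimplex E 0} (h : ¬ Ins W s) : R.c0 f s = 0 := by
  classical
  exact dif_neg h

theorem DRet.c0_eqC (f : D → M) (hf : ∀ (g : G) d, f (g • d) = g • f d) : EqC G (R.c0 f) := by
  classical
  intro g s
  by_cases h : Ins W s
  · rw [R.c0_of f h, R.c0_of f (h.push R.inv g), ← hf, ← R.fc_smul]
    congr 2
  · have h' : ¬ Ins W (push (act g) s) := by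
      intro h'
      apply h
      have h2 := Ins.push R.inv h' g⁻¹
      rw [push_push] at h2
      have h3 : (act g⁻¹ : C(E, E)).comp (act g) = ContinuousMap.id E := by
        ext x; exact inv_smul_smul g x
      rwa [h3, push_id] at h2
    rw [R.c0_not f h, R.c0_not f h', smul_zero]

theorem DRet.c0_cobdry (f : D → M) {s : SingSimplex E 1} (h : Ins W s) :
    cochainCobdry (R.c0 f) s = 0 := by
  rw [cobdry_apply, Fin.sum_univ_two, R.c0_of f (h.face 0), R.c0_of f (h.face 1)]
  have h2 : R.fc ⟨us (simplexFace 0 s) pt0, h.face 0 ⟨_, rfl⟩⟩ =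
      R.fc ⟨us (simplexFace 1 s) pt0, h.face 1 ⟨_, rfl⟩⟩ := by
    have h3 : ∀ i : Fin 2, (⟨us (simplexFace i s) pt0, h.face i ⟨_, rfl⟩⟩ : W) =
        us (rs W s h) (face 0 i pt0) := by
      intro i
      apply Subtype.ext
      show us (simplexFace i s) pt0 = (us (rs W s h) (face 0 i pt0) : E)
      rw [rs, us_sx, us_face]
      rfl
    rw [h3 0, h3 1]
    exact PreconnectedSpace.constant inferInstance (R.fc.comp (us (rs W s h))).continuous
  rw [h2]
  simp

end main

end

end Crest.Agent.R251.CE
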