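import Crest.Agent.R251.CS577A

/-! Row 251, LINE B: labelled chamber systems, the cover, the group action (helper577). -/

set_option autoImplicit false

open Set Topology
open scoped unitInterval

namespace Crest.Agent.R251.CS

/-- labels in a group `G` on a chamber system -/
structure Lab (S : Sys) (G : Type) [Group G] where
  a : Finset (Fin 4) → S.Ch → G
  compat : ∀ K J : Finset (Fin 4), K ⊆ J → K.Nonempty → ∀ C C' : S.Ch, S.fc J C = S.fc J C' →
    (a J C)⁻¹ * a K C = (a J C')⁻¹ * a K C'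

namespace Lab

variable {S : Sys} {G : Type} [Group G] (L : Lab S G)

/-- the covering chamber system -/
def cov : Sys where
  Ch := S.Ch × G
  F := fun J => S.F J × G
  fc := fun J C => (S.fc J C.1, C.2 * L.a J C.1)
  mono := by
    rintro K J hKJ hK ⟨C, g⟩ ⟨C', g'⟩ h
    simp only [Prod.mk.injEq] at h ⊢
    refine ⟨S.mono K J hKJ hK _ _ h.1, ?_⟩
    have h1 := L.compat K J hKJ hK C C' h.1
    calc g * L.a K C = (g * L.a J C) * ((L.a J C)⁻¹ * L.a K C) := by group
      _ = (g' * L.a J C') * ((L.a J C')⁻¹ * L.a K C') := by rw [h.2, h1]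
      _ = g' * L.a K C' := by group

/-- the total space -/
abbrev E : Type := (L.cov).R

/-- the point `x` of the chamber `(C, g)` of the total space -/
def epc (g : G) (C : S.Ch) (x : Dl) : L.E := Sys.pt (S := L.cov) (C, g) x

theorem epc_eq_iff {g g' : G} {C C' : S.Ch} {x x' : Dl} :
    L.epc g C x = L.epc g' C' x' ↔
      x = x' ∧ S.fc (supp x) C = S.fc (supp x) C' ∧ g * L.a (supp x) C = g' * L.a (supp x) C' := by
  refine (Sys.pt_eq_iff (S := L.cov)).trans ?_
  show (_ ∧ (S.fc (supp x) C, g * L.a (supp x) C) = (S.fc (supp x) C', g' * L.a (supp x) C')) ↔ _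
  rw [Prod.mk.injEq]

theorem exists_epc (y : L.E) : ∃ g C x, L.epc g C x = y := by
  obtain ⟨⟨C, g⟩, x, h⟩ := Sys.exists_pt y
  exact ⟨g, C, x, h⟩

theorem continuous_epc (g : G) (C : S.Ch) : Continuous (L.epc g C) := Sys.continuous_pt _

theorem continuous_E_iff {Z : Type*} [TopologicalSpace Z] {f : L.E → Z} :
    Continuous f ↔ ∀ g C, Continuous fun x => f (L.epc g C x) := by
  rw [Sys.continuous_R_iff]
  exact ⟨fun h g C => h (C, g), fun h C => h C.2 C.1⟩

/-- the projection -/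
def p : L.E → S.R := Quotient.lift (fun q : (S.Ch × G) × Dl => Sys.pt q.1.1 q.2) (by
  rintro ⟨⟨C, g⟩, x⟩ ⟨⟨C', g'⟩, x'⟩ ⟨h, h'⟩
  obtain rfl : x = x' := h
  exact Sys.pt_eq_iff.2 ⟨rfl, (Prod.mk.inj h').1⟩)

@[simp] theorem p_epc (g : G) (C : S.Ch) (x : Dl) : L.p (L.epc g C x) = Sys.pt C x := rfl

theorem continuous_p : Continuous L.p := by
  rw [continuous_E_iff]
  intro g C
  exact Sys.continuous_pt C

theorem p_surjective : Function.Surjective L.p := by
  intro y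
  obtain ⟨C, x, rfl⟩ := Sys.exists_pt y
  exact ⟨L.epc 1 C x, rfl⟩

/-- the action of `G` -/
instance : MulAction G L.E where
  smul h := Quotient.map (fun q : (S.Ch × G) × Dl => ((q.1.1, h * q.1.2), q.2)) (by
    rintro ⟨⟨C, g⟩, x⟩ ⟨⟨C', g'⟩, x'⟩ ⟨h1, h'⟩
    obtain rfl : x = x' := h1
    have h2 := Prod.mk.inj h'
    refine ⟨rfl, ?_⟩
    show (S.fc (supp x) C, h * g * L.a (supp x) C) = (S.fc (supp x) C', h * g' * L.a (supp x) C')
    rw [mul_assoc, mul_assoc]
    exact Prod.ext h2.1 (congrArg (h * ·) h2.2))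
  one_smul y := by
    obtain ⟨g, C, x, rfl⟩ := L.exists_epc y
    show L.epc (1 * g) C x = _
    rw [one_mul]
  mul_smul h h' y := by
    obtain ⟨g, C, x, rfl⟩ := L.exists_epc y
    show L.epc (h * h' * g) C x = L.epc (h * (h' * g)) C x
    rw [mul_assoc]

@[simp] theorem smul_epc (h g : G) (C : S.Ch) (x : Dl) :
    h • L.epc g C x = L.epc (h * g) C x := rfl

@[simp] theorem p_smul (h : G) (y : L.E) : L.p (h • y) = L.p y := by
  obtain ⟨g, C, x, rfl⟩ := L.exists_epc y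
  rfl

instance : ContinuousConstSMul G L.E where
  continuous_const_smul h := by
    rw [continuous_E_iff]
    intro g C
    exact L.continuous_epc (h * g) C

/-- `G` acts simply transitively on the fibres -/
theorem exists_smul {y y' : L.E} (h : L.p y = L.p y') : ∃ g : G, g • y = y' := by
  obtain ⟨g, C, x, rfl⟩ := L.exists_epc y
  obtain ⟨g', C', x', rfl⟩ := L.exists_epc y'
  rw [p_epc, p_epc, Sys.pt_eq_iff] at h
  obtain ⟨rfl, h2⟩ := h
  refine ⟨g' * L.a (supp x) C' * (g * L.a (supp x) C)⁻¹, ?_⟩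
  rw [smul_epc, epc_eq_iff]
  exact ⟨rfl, h2, by group⟩

theorem smul_free {h : G} {y : L.E} (hy : h • y = y) : h = 1 := by
  obtain ⟨g, C, x, rfl⟩ := L.exists_epc y
  rw [smul_epc, epc_eq_iff] at hy
  have h1 := hy.2.2
  have h2 : h * (g * L.a (supp x) C) = 1 * (g * L.a (supp x) C) := by
    rw [← mul_assoc, h1, one_mul]
  exact mul_right_cancel h2

/-- the open star of the face `(α, g)` of type `J` in the total space -/
def WE (J : Finset (Fin 4)) (α : S.F J) (g : G) : Set L.E := Sys.W (S := L.cov) J (α, g)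

theorem epc_mem_WE {J : Finset (Fin 4)} (hJ : J.Nonempty) {α : S.F J} {g h : G} {C : S.Ch}
    {x : Dl} : L.epc g C x ∈ L.WE J α h ↔ J ⊆ supp x ∧ S.fc J C = α ∧ g * L.a J C = h := by
  refine (Sys.pt_mem_W (S := L.cov) hJ).trans ?_
  show (_ ∧ (S.fc J C, g * L.a J C) = (α, h)) ↔ _
  rw [Prod.mk.injEq]

theorem isOpen_WE {J : Finset (Fin 4)} (hJ : J.Nonempty) (α : S.F J) (g : G) :
    IsOpen (L.WE J α g) := Sys.isOpen_W hJ _

/-- the open sets `x_i > 0`, `i ∈ J`, in the total space -/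
def UE (J : Finset (Fin 4)) : Set L.E := Sys.U (S := L.cov) J

theorem epc_mem_UE {J : Finset (Fin 4)} {g : G} {C : S.Ch} {x : Dl} :
    L.epc g C x ∈ L.UE J ↔ J ⊆ supp x := Iff.rfl

theorem isOpen_UE (J : Finset (Fin 4)) : IsOpen (L.UE J) := Sys.isOpen_U J

theorem smul_mem_UE {J : Finset (Fin 4)} {g : G} {y : L.E} : g • y ∈ L.UE J ↔ y ∈ L.UE J := by
  obtain ⟨h, C, x, rfl⟩ := L.exists_epc y
  rw [smul_epc, epc_mem_UE, epc_mem_UE]

theorem smul_mem_WE {J : Finset (Fin 4)} (hJ : J.Nonempty) {α : S.F J} {g h : G} {y : L.E} :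
    g • y ∈ L.WE J α (g * h) ↔ y ∈ L.WE J α h := by
  obtain ⟨k, C, x, rfl⟩ := L.exists_epc y
  rw [smul_epc, epc_mem_WE L hJ, epc_mem_WE L hJ, mul_assoc, mul_right_inj]

theorem co_epc (g : G) (C : S.Ch) (x : Dl) : Sys.co (S := L.cov) (L.epc g C x) = x := rfl

/-- the contraction in the total space -/
noncomputable def ctrE (J : Finset (Fin 4)) (hJ : J.Nonempty) (y : L.E) : C(I, L.E) :=
  Sys.ctr J hJ y

theorem ctrE_epc (J : Finset (Fin 4)) (hJ : J.Nonempty) {g : G} {C : S.Ch} {x : Dl}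
    (hx : J ⊆ supp x) (t : I) : L.ctrE J hJ (L.epc g C x) t = L.epc g C (seg x (bar J hJ) t) :=
  Sys.ctr_pt J hJ hx t

theorem ctrE_smul (J : Finset (Fin 4)) (hJ : J.Nonempty) {g : G} {y : L.E} (hy : y ∈ L.UE J)
    (t : I) : L.ctrE J hJ (g • y) t = g • L.ctrE J hJ y t := by
  obtain ⟨k, C, x, rfl⟩ := L.exists_epc y
  rw [epc_mem_UE] at hy
  rw [smul_epc, ctrE_epc L J hJ hy, ctrE_epc L J hJ hy, smul_epc]

theorem ctrE_zero (J : Finset (Fin 4)) (hJ : J.Nonempty) {y : L.E} (hy : y ∈ L.UE J) :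
    L.ctrE J hJ y 0 = y := Sys.ctr_zero J hJ hy

theorem ctrE_one (J : Finset (Fin 4)) (hJ : J.Nonempty) {g : G} {C : S.Ch} {x : Dl}
    (hx : J ⊆ supp x) : L.ctrE J hJ (L.epc g C x) 1 = L.epc g C (bar J hJ) := by
  rw [ctrE_epc L J hJ hx, seg_one]

theorem continuousOn_ctrE (J : Finset (Fin 4)) (hJ : J.Nonempty) :
    ContinuousOn (fun q : L.E × I => L.ctrE J hJ q.1 q.2) (L.UE J ×ˢ univ) :=
  Sys.continuousOn_ctr' J hJ

end Lab

end Crest.Agent.R251.CS
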