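import Crest.Agent.R251.CE686
import Crest.Agent.R251.CS577B

/-! # R251, line B, block (e) for the covering chamber systems of CS577B (helper686) -/

set_option autoImplicit false
set_option linter.unusedSectionVars false
set_option linter.style.haveILetI false

open CategoryTheory Simplicial Opposite Set Topology
open Crest.GeometryTopology.DeckCochains
open Crest.Agent.R251.Pr Crest.Agent.R251.CE

namespace Crest.Agent.R251.CS

noncomputable section

namespace Lab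

variable {S : Sys} {G : Type} [Group G] (L : Lab S G)

/-- the discrete `G`-set of the faces of type `J` of the total space -/
def FD (_L : Lab S G) (J : Finset (Fin 4)) : Type := range (S.fc J) × G

instance (J : Finset (Fin 4)) : TopologicalSpace (L.FD J) := ⊥

instance (J : Finset (Fin 4)) : DiscreteTopology (L.FD J) := ⟨rfl⟩

instance (J : Finset (Fin 4)) : MulAction G (L.FD J) where
  smul h d := (d.1, h * d.2)
  one_smul d := Prod.ext rfl (one_mul d.2)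
  mul_smul g h d := Prod.ext rfl (mul_assoc g h d.2)

instance (J : Finset (Fin 4)) : ContinuousConstSMul G (L.FD J) :=
  ⟨fun _ => continuous_of_discreteTopology⟩

/-- the face `(α, g)` of type `J` -/
def fd {J : Finset (Fin 4)} (α : range (S.fc J)) (g : G) : L.FD J := (α, g)

theorem smul_fd {J : Finset (Fin 4)} (h : G) (α : range (S.fc J)) (g : G) :
    h • L.fd α g = L.fd α (h * g) := rfl

variable {L} in
theorem exists_face {J : Finset (Fin 4)} {y : L.E} (hJ : J.Nonempty) (hy : y ∈ L.UE J) :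
    ∃ d : L.FD J, y ∈ L.WE J d.1.1 d.2 := by
  obtain ⟨g, C, x, rfl⟩ := L.exists_epc y
  rw [epc_mem_UE] at hy
  exact ⟨(⟨S.fc J C, ⟨C, rfl⟩⟩, g * L.a J C), (L.epc_mem_WE hJ).2 ⟨hy, rfl, rfl⟩⟩

/-- the face of type `J` of a point of `UE J` -/
def face {J : Finset (Fin 4)} (hJ : J.Nonempty) (y : L.UE J) : L.FD J :=
  (exists_face hJ y.2).choose

theorem mem_face {J : Finset (Fin 4)} (hJ : J.Nonempty) (y : L.UE J) :
    y.1 ∈ L.WE J (L.face hJ y).1.1 (L.face hJ y).2 := (exists_face hJ y.2).choose_spec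

theorem WE_unique {J : Finset (Fin 4)} (hJ : J.Nonempty) {y : L.E} {α β : S.F J} {g h : G}
    (h1 : y ∈ L.WE J α g) (h2 : y ∈ L.WE J β h) : α = β ∧ g = h := by
  obtain ⟨k, C, x, rfl⟩ := L.exists_epc y
  rw [epc_mem_WE L hJ] at h1 h2
  exact ⟨h1.2.1.symm.trans h2.2.1, h1.2.2.symm.trans h2.2.2⟩

theorem face_eq {J : Finset (Fin 4)} (hJ : J.Nonempty) {y : L.UE J} {d : L.FD J}
    (h : y.1 ∈ L.WE J d.1.1 d.2) : L.face hJ y = d := by
  obtain ⟨h1, h2⟩ := L.WE_unique hJ (L.mem_face hJ y) h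
  exact Prod.ext (Subtype.ext h1) h2

theorem face_eq_iff {J : Finset (Fin 4)} (hJ : J.Nonempty) {y : L.UE J} {d : L.FD J} :
    L.face hJ y = d ↔ y.1 ∈ L.WE J d.1.1 d.2 :=
  ⟨fun h => h ▸ L.mem_face hJ y, L.face_eq hJ⟩

theorem face_epc {J : Finset (Fin 4)} (hJ : J.Nonempty) {g : G} {C : S.Ch} {x : Dl}
    (h : L.epc g C x ∈ L.UE J) :
    L.face hJ ⟨L.epc g C x, h⟩ = (⟨S.fc J C, ⟨C, rfl⟩⟩, g * L.a J C) :=
  L.face_eq hJ ((L.epc_mem_WE hJ).2 ⟨h, rfl, rfl⟩)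

theorem continuous_face {J : Finset (Fin 4)} (hJ : J.Nonempty) : Continuous (L.face hJ) := by
  rw [continuous_discrete_rng]
  intro d
  have h : L.face hJ ⁻¹' {d} = Subtype.val ⁻¹' (L.WE J d.1.1 d.2) := by
    ext y
    exact L.face_eq_iff hJ
  rw [h]
  exact (L.isOpen_WE hJ _ _).preimage continuous_subtype_val

/-- the centre of a face -/
def cen {J : Finset (Fin 4)} (hJ : J.Nonempty) (d : L.FD J) : L.UE J :=
  ⟨L.epc (d.2 * (L.a J d.1.2.choose)⁻¹) d.1.2.choose (bar J hJ), by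
    rw [epc_mem_UE, supp_bar]⟩

theorem cen_eq {J : Finset (Fin 4)} (hJ : J.Nonempty) (g : G) (C : S.Ch) :
    (L.cen hJ ((⟨S.fc J C, ⟨C, rfl⟩⟩, g * L.a J C) : L.FD J)).1 = L.epc g C (bar J hJ) := by
  have h := (⟨S.fc J C, ⟨C, rfl⟩⟩ : range (S.fc J)).2.choose_spec
  show L.epc (g * L.a J C * (L.a J _)⁻¹) _ (bar J hJ) = _
  rw [epc_eq_iff, supp_bar]
  exact ⟨rfl, h, by group⟩

/-- **the retraction of `UE J` onto the discrete set of its faces** -/
def dret {J : Finset (Fin 4)} (hJ : J.Nonempty) : DRet G (L.UE J) (L.FD J) where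
  inv g x h := (L.smul_mem_UE).2 h
  fc := ⟨L.face hJ, L.continuous_face hJ⟩
  b := ⟨L.cen hJ, continuous_of_discreteTopology⟩
  fc_smul g x := by
    obtain ⟨x, hx⟩ := x
    refine L.face_eq hJ ?_
    exact (L.smul_mem_WE hJ).2 (L.mem_face hJ ⟨x, hx⟩)
  b_smul g d := by
    show L.epc (g * d.2 * (L.a J _)⁻¹) _ (bar J hJ) = L.epc (g * (d.2 * (L.a J _)⁻¹)) _ (bar J hJ)
    rw [mul_assoc]
  H := ⟨fun q => ⟨L.ctrE J hJ q.1.1 q.2, by
      obtain ⟨⟨y, hy⟩, t⟩ := q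
      obtain ⟨g, C, x, rfl⟩ := L.exists_epc y
      have hy' := hy
      rw [epc_mem_UE] at hy'
      show L.ctrE J hJ (L.epc g C x) t ∈ L.UE J
      rw [ctrE_epc L J hJ hy', epc_mem_UE]
      exact subset_supp_seg hy' (supp_bar J hJ).ge⟩, by
      refine Continuous.subtype_mk ?_ _
      exact (L.continuousOn_ctrE J hJ).comp_continuous
        ((continuous_subtype_val.comp continuous_fst).prodMk continuous_snd)
        fun q => ⟨q.1.2, mem_univ _⟩⟩
  H_zero x := Subtype.ext (L.ctrE_zero J hJ x.2)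
  H_one x := by
    obtain ⟨y, hy⟩ := x
    obtain ⟨g, C, x, rfl⟩ := L.exists_epc y
    apply Subtype.ext
    show L.ctrE J hJ (L.epc g C x) 1 = (L.cen hJ (L.face hJ ⟨L.epc g C x, hy⟩)).1
    rw [face_epc, cen_eq, ctrE_one L J hJ (x := x) (L.epc_mem_UE.1 hy)]
  H_smul g x t := L.ctrE_smul J hJ x.2 t

variable {M : Type*} [AddCommGroup M] [DistribMulAction G M]

/-- **(e)** for `UE J`, 577's form -/
theorem ac {J : Finset (Fin 4)} (hJ : J.Nonempty) (n : ℕ) (φ : SingSimplex L.E (n + 1) → M)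
    (hφ : EqC G φ)
    (hc : ∀ s : SingSimplex L.E (n + 2), range (us s) ⊆ L.UE J → cochainCobdry φ s = 0) :
    ∃ ψ : SingSimplex L.E n → M, EqC G ψ ∧ (∀ s, ¬ range (us s) ⊆ L.UE J → ψ s = 0) ∧
      ∀ s, range (us s) ⊆ L.UE J → cochainCobdry ψ s = φ s :=
  (L.dret hJ).ac n φ (fun g s _ => hφ g s) hc

/-- **(e)** for `UE J` in degree 0 -/
theorem h0 {J : Finset (Fin 4)} (hJ : J.Nonempty) (φ : SingSimplex L.E 0 → M)
    (hφ : EqC G φ)
    (hc : ∀ s : SingSimplex L.E 1, range (us s) ⊆ L.UE J → cochainCobdry φ s = 0) :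
    ∃ f : S.F J → M, ∀ (s : SingSimplex L.E 0) (α : S.F J) (g : G),
      range (us s) ⊆ L.WE J α g → φ s = g • f α := by
  classical
  obtain ⟨f, hf, hf'⟩ := (L.dret hJ).h0 φ (fun g s _ => hφ g s) hc
  refine ⟨fun α => if h : α ∈ range (S.fc J) then f (L.fd ⟨α, h⟩ 1) else 0, ?_⟩
  intro s α g hs
  show φ s = g • (if h : α ∈ range (S.fc J) then f (L.fd ⟨α, h⟩ 1) else 0)
  have h1 : us s pt0 ∈ L.WE J α g := hs ⟨_, rfl⟩
  have h2 : ∀ x, us s x ∈ L.UE J := fun x => by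
    obtain ⟨k, C, z, hz⟩ := L.exists_epc (us s x)
    have := hs ⟨x, rfl⟩
    rw [← hz, L.epc_mem_WE hJ] at this
    rw [← hz, epc_mem_UE]
    exact this.1
  have h3 : Ins (L.UE J) s := by
    rintro _ ⟨x, rfl⟩
    exact h2 x
  have h4 : α ∈ range (S.fc J) := by
    obtain ⟨k, C, z, hz⟩ := L.exists_epc (us s pt0)
    rw [← hz, L.epc_mem_WE hJ] at h1
    exact ⟨C, h1.2.1⟩
  rw [hf' s h3, dif_pos h4, ← hf]
  congr 1
  have h5 : L.face hJ ⟨us s pt0, h2 pt0⟩ = L.fd ⟨α, h4⟩ g := L.face_eq hJ h1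
  refine h5.trans ?_
  rw [smul_fd, mul_one]

/-- the 0-cochain of a function on the faces of type `J` -/
def z0 {J : Finset (Fin 4)} (hJ : J.Nonempty) (f : S.F J → M) : SingSimplex L.E 0 → M :=
  (L.dret hJ).c0 fun d => d.2 • f d.1.1

theorem z0_eqC {J : Finset (Fin 4)} (hJ : J.Nonempty) (f : S.F J → M) : EqC G (L.z0 hJ f) := by
  refine (L.dret hJ).c0_eqC _ ?_
  intro g d
  show (g * d.2) • f d.1.1 = _
  rw [mul_smul]

theorem z0_of {J : Finset (Fin 4)} (hJ : J.Nonempty) (f : S.F J → M) {s : SingSimplex L.E 0}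
    {α : S.F J} {g : G} (hs : range (us s) ⊆ L.WE J α g) : L.z0 hJ f s = g • f α := by
  have h1 : us s pt0 ∈ L.WE J α g := hs ⟨_, rfl⟩
  have h3 : Ins (L.UE J) s := by
    rintro _ ⟨x, rfl⟩
    obtain ⟨k, C, z, hz⟩ := L.exists_epc (us s x)
    have := hs ⟨x, rfl⟩
    rw [← hz, L.epc_mem_WE hJ] at this
    rw [← hz, epc_mem_UE]
    exact this.1
  rw [z0, DRet.c0_of _ _ h3]
  obtain ⟨h5, h6⟩ := L.WE_unique hJ (L.mem_face hJ ⟨us s pt0, h3 ⟨_, rfl⟩⟩) h1
  show (L.face hJ ⟨us s pt0, _⟩).2 • f (L.face hJ ⟨us s pt0, _⟩).1.1 = _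
  rw [h5, h6]

theorem z0_not {J : Finset (Fin 4)} (hJ : J.Nonempty) (f : S.F J → M) {s : SingSimplex L.E 0}
    (hs : ¬ range (us s) ⊆ L.UE J) : L.z0 hJ f s = 0 := DRet.c0_not _ _ hs

theorem z0_cobdry {J : Finset (Fin 4)} (hJ : J.Nonempty) (f : S.F J → M)
    {s : SingSimplex L.E 1} (hs : range (us s) ⊆ L.UE J) : cochainCobdry (L.z0 hJ f) s = 0 :=
  DRet.c0_cobdry _ _ hs

/-- a simplex in `UE J` lies in one `WE J α g` -/
theorem exists_WE {J : Finset (Fin 4)} (hJ : J.Nonempty) {n : ℕ} {s : SingSimplex L.E n}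
    (hs : range (us s) ⊆ L.UE J) : ∃ (α : S.F J) (g : G), α ∈ range (S.fc J) ∧
      range (us s) ⊆ L.WE J α g := by
  let F : C(_, L.FD J) := (⟨L.face hJ, L.continuous_face hJ⟩ : C(L.UE J, L.FD J)).comp
    (us (rs (L.UE J) s hs))
  refine ⟨(F (stdSimplex.vertex 0)).1.1, (F (stdSimplex.vertex 0)).2,
    (F (stdSimplex.vertex 0)).1.2, ?_⟩
  rintro _ ⟨x, rfl⟩
  have h1 : F x = F (stdSimplex.vertex 0) :=
    PreconnectedSpace.constant inferInstance F.continuous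
  rw [← h1]
  exact L.mem_face hJ ⟨us s x, hs ⟨x, rfl⟩⟩

end Lab

end

end Crest.Agent.R251.CS
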