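import Mathlib

/-! Row 251, LINE B: chamber systems of rank 4 and their realizations (helper577). -/

set_option autoImplicit false

open Set Topology
open scoped unitInterval

namespace Crest.Agent.R251.CS

/-- the standard 3-simplex -/
abbrev Dl : Type := stdSimplex ℝ (Fin 4)

theorem Dl.nonneg (x : Dl) (i : Fin 4) : 0 ≤ x.1 i := x.2.1 i

theorem Dl.sum_one (x : Dl) : ∑ i, x.1 i = 1 := x.2.2

/-- support of a point of the simplex -/
noncomputable def supp (x : Dl) : Finset (Fin 4) := Finset.univ.filter fun i => 0 < x.1 i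

theorem mem_supp {x : Dl} {i : Fin 4} : i ∈ supp x ↔ 0 < x.1 i := by
  simp [supp]

theorem supp_nonempty (x : Dl) : (supp x).Nonempty := by
  by_contra h
  rw [Finset.not_nonempty_iff_eq_empty] at h
  have h1 : ∀ i, x.1 i = 0 := by
    intro i
    have hi : i ∉ supp x := by rw [h]; simp
    rw [mem_supp] at hi
    exact le_antisymm (not_lt.mp hi) (x.nonneg i)
  have h2 := x.sum_one
  simp [h1] at h2

/-- the set of points whose support contains `S` -/
def DU (S : Finset (Fin 4)) : Set Dl := {x | S ⊆ supp x}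

theorem mem_DU {S : Finset (Fin 4)} {x : Dl} : x ∈ DU S ↔ ∀ i ∈ S, 0 < x.1 i := by
  constructor
  · intro h i hi
    exact mem_supp.1 (h hi)
  · intro h i hi
    exact mem_supp.2 (h i hi)

theorem continuous_coord (i : Fin 4) : Continuous fun x : Dl => x.1 i :=
  (continuous_apply i).comp continuous_subtype_val

theorem isOpen_DU (S : Finset (Fin 4)) : IsOpen (DU S) := by
  have : DU S = ⋂ i ∈ S, {x : Dl | 0 < x.1 i} := by
    ext x
    simp [mem_DU]
  rw [this]
  exact isOpen_biInter_finset fun i _ => isOpen_lt continuous_const (continuous_coord i)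

/-- A chamber system of rank 4: chambers, faces of every type, incidence. -/
structure Sys where
  Ch : Type
  F : Finset (Fin 4) → Type
  fc : ∀ J, Ch → F J
  mono : ∀ S J : Finset (Fin 4), S ⊆ J → S.Nonempty → ∀ C C' : Ch, fc J C = fc J C' →
    fc S C = fc S C'

namespace Sys

variable (S : Sys)

/-- two points of chambers define the same point of the realization -/
def rel (p q : S.Ch × Dl) : Prop := p.2 = q.2 ∧ S.fc (supp p.2) p.1 = S.fc (supp p.2) q.1

theorem rel_equiv : Equivalence S.rel where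
  refl p := ⟨rfl, rfl⟩
  symm := by
    rintro ⟨C, x⟩ ⟨C', x'⟩ ⟨h, h'⟩
    obtain rfl : x = x' := h
    exact ⟨rfl, h'.symm⟩
  trans := by
    rintro ⟨C, x⟩ ⟨C', x'⟩ ⟨C'', x''⟩ ⟨h, h'⟩ ⟨k, k'⟩
    obtain rfl : x = x' := h
    obtain rfl : x = x'' := k
    exact ⟨rfl, h'.trans k'⟩

/-- the setoid -/
def setoid : Setoid (S.Ch × Dl) := ⟨S.rel, S.rel_equiv⟩

/-- the realization -/
def R : Type := Quotient S.setoid

variable {S}

/-- the point `x` of the chamber `C` -/
def pt (C : S.Ch) (x : Dl) : S.R := Quotient.mk S.setoid (C, x)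

theorem pt_eq_iff {C C' : S.Ch} {x x' : Dl} :
    pt C x = pt C' x' ↔ x = x' ∧ S.fc (supp x) C = S.fc (supp x) C' := by
  constructor
  · intro h
    exact Quotient.exact h
  · intro h
    exact Quotient.sound h

theorem exists_pt (y : S.R) : ∃ (C : S.Ch) (x : Dl), pt C x = y := by
  obtain ⟨⟨C, x⟩, h⟩ := Quotient.exists_rep y
  exact ⟨C, x, h⟩

/-- weak topology -/
instance instTopR : TopologicalSpace S.R :=
  ⨆ C : S.Ch, TopologicalSpace.coinduced (pt C) inferInstance

theorem continuous_pt (C : S.Ch) : Continuous (pt C : Dl → S.R) := by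
  rw [continuous_iff_coinduced_le]
  exact le_iSup (fun C : S.Ch => TopologicalSpace.coinduced (pt C : Dl → S.R) inferInstance) C

theorem continuous_R_iff {Z : Type*} [TopologicalSpace Z] {f : S.R → Z} :
    Continuous f ↔ ∀ C : S.Ch, Continuous (f ∘ pt C) := by
  rw [continuous_iSup_dom]
  exact forall_congr' fun C => continuous_coinduced_dom

theorem isOpen_R_iff {U : Set S.R} : IsOpen U ↔ ∀ C : S.Ch, IsOpen (pt C ⁻¹' U) := by
  rw [isOpen_iSup_iff]
  exact forall_congr' fun C => isOpen_coinduced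

theorem isClosed_R_iff {U : Set S.R} : IsClosed U ↔ ∀ C : S.Ch, IsClosed (pt C ⁻¹' U) := by
  rw [isClosed_iSup_iff]
  exact forall_congr' fun C => isClosed_coinduced

theorem continuousOn_R_iff {Z : Type*} [TopologicalSpace Z] {f : S.R → Z} {U : Set S.R}
    (hU : IsOpen U) :
    ContinuousOn f U ↔ ∀ C : S.Ch, ContinuousOn (f ∘ pt C) (pt C ⁻¹' U) := by
  constructor
  · intro h C
    exact h.comp (continuous_pt C).continuousOn fun x hx => hx
  · intro h
    rw [continuousOn_open_iff hU]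
    intro t ht
    rw [isOpen_R_iff]
    intro C
    have h1 := (continuousOn_open_iff ((isOpen_R_iff.1 hU) C)).1 (h C) t ht
    exact h1

/-- coordinates in the simplex -/
def co : S.R → Dl := Quotient.lift (fun p : S.Ch × Dl => p.2) fun _ _ h => h.1

@[simp] theorem co_pt (C : S.Ch) (x : Dl) : co (pt C x) = x := rfl

theorem continuous_co : Continuous (co : S.R → Dl) := by
  rw [continuous_R_iff]
  intro C
  exact continuous_id

/-- the open star of the face `α` of type `J` -/
def W (J : Finset (Fin 4)) (α : S.F J) : Set S.R :=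
  {y | ∃ (C : S.Ch) (x : Dl), pt C x = y ∧ J ⊆ supp x ∧ S.fc J C = α}

theorem pt_mem_W {J : Finset (Fin 4)} (hI : J.Nonempty) {α : S.F J} {C : S.Ch} {x : Dl} :
    pt C x ∈ W J α ↔ J ⊆ supp x ∧ S.fc J C = α := by
  constructor
  · rintro ⟨C', x', h, h1, h2⟩
    obtain ⟨rfl, h3⟩ := pt_eq_iff.1 h
    exact ⟨h1, (S.mono _ _ h1 hI _ _ h3.symm).trans h2⟩
  · rintro ⟨h1, h2⟩
    exact ⟨C, x, rfl, h1, h2⟩

theorem isOpen_W {J : Finset (Fin 4)} (hI : J.Nonempty) (α : S.F J) :
    IsOpen (W J α : Set S.R) := by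
  rw [isOpen_R_iff]
  intro C
  by_cases h : S.fc J C = α
  · have : pt C ⁻¹' (W J α : Set S.R) = DU J := by
      ext x
      simp only [mem_preimage]
      rw [pt_mem_W hI]
      exact ⟨fun h => h.1, fun h' => ⟨h', h⟩⟩
    rw [this]
    exact isOpen_DU J
  · have : pt C ⁻¹' (W J α : Set S.R) = ∅ := by
      ext x
      simp only [mem_preimage, mem_empty_iff_false, iff_false]
      rw [pt_mem_W hI]
      exact fun h' => h h'.2
    rw [this]
    exact isOpen_empty

theorem W_disjoint {J : Finset (Fin 4)} (hI : J.Nonempty) {α β : S.F J} {y : S.R}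
    (h : y ∈ (W J α : Set S.R)) (h' : y ∈ (W J β : Set S.R)) : α = β := by
  obtain ⟨C, x, rfl⟩ := exists_pt y
  rw [pt_mem_W hI] at h h'
  exact h.2.symm.trans h'.2

/-- the open set where all coordinates in `J` are positive -/
def U (J : Finset (Fin 4)) : Set S.R := {y | J ⊆ supp (co y)}

theorem pt_mem_U {J : Finset (Fin 4)} {C : S.Ch} {x : Dl} :
    pt C x ∈ (U J : Set S.R) ↔ J ⊆ supp x := Iff.rfl

theorem isOpen_U (J : Finset (Fin 4)) : IsOpen (U J : Set S.R) :=
  (isOpen_DU J).preimage continuous_co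

theorem mem_U_iff {J : Finset (Fin 4)} {y : S.R} :
    y ∈ (U J : Set S.R) ↔ ∃ α, y ∈ (W J α : Set S.R) := by
  constructor
  · intro h
    obtain ⟨C, x, rfl⟩ := exists_pt y
    exact ⟨S.fc J C, C, x, rfl, h, rfl⟩
  · rintro ⟨α, C, x, rfl, h, -⟩
    exact h

theorem exists_mem_U (y : S.R) : ∃ i : Fin 4, y ∈ (U {i} : Set S.R) := by
  obtain ⟨i, hi⟩ := supp_nonempty (co y)
  exact ⟨i, by simpa [U] using hi⟩

instance : T2Space S.R := by
  refine ⟨fun y y' hne => ?_⟩
  by_cases hc : co y = co y'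
  · obtain ⟨C, x, rfl⟩ := exists_pt y
    obtain ⟨C', x', rfl⟩ := exists_pt y'
    obtain rfl : x = x' := hc
    have hf : S.fc (supp x) C ≠ S.fc (supp x) C' := by
      intro h
      exact hne (pt_eq_iff.2 ⟨rfl, h⟩)
    refine ⟨W (supp x) (S.fc _ C), W (supp x) (S.fc _ C'), isOpen_W (supp_nonempty x) _,
      isOpen_W (supp_nonempty x) _, ?_, ?_, ?_⟩
    · rw [pt_mem_W (supp_nonempty x)]; exact ⟨Finset.Subset.refl _, rfl⟩
    · rw [pt_mem_W (supp_nonempty x)]; exact ⟨Finset.Subset.refl _, rfl⟩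
    · rw [Set.disjoint_left]
      intro z h1 h2
      exact hf (W_disjoint (supp_nonempty x) h1 h2)
  · obtain ⟨u, v, hu, hv, h1, h2, h3⟩ := t2_separation hc
    exact ⟨co ⁻¹' u, co ⁻¹' v, hu.preimage continuous_co, hv.preimage continuous_co, h1, h2,
      h3.preimage _⟩

end Sys

/-! ### barycentres and the contraction of stars -/

/-- barycentre of the face `J` -/
noncomputable def bar (J : Finset (Fin 4)) (hI : J.Nonempty) : Dl :=
  ⟨fun i => if i ∈ J then (J.card : ℝ)⁻¹ else 0, by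
    constructor
    · intro i
      show (0 : ℝ) ≤ if i ∈ J then (J.card : ℝ)⁻¹ else 0
      split_ifs <;> positivity
    · rw [Finset.sum_ite_mem]
      simp only [Finset.univ_inter, Finset.sum_const, nsmul_eq_mul]
      exact mul_inv_cancel₀ (by exact_mod_cast (Finset.card_pos.2 hI).ne')⟩

theorem supp_bar (J : Finset (Fin 4)) (hI : J.Nonempty) : supp (bar J hI) = J := by
  ext i
  rw [mem_supp]
  simp only [bar]
  split_ifs with h
  · have : (0 : ℝ) < J.card := by exact_mod_cast (Finset.card_pos.2 hI)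
    exact ⟨fun _ => h, fun _ => by positivity⟩
  · exact ⟨fun h' => absurd h' (lt_irrefl _), fun h' => absurd h' h⟩

/-- segments in the simplex -/
noncomputable def seg (x y : Dl) (t : I) : Dl :=
  ⟨fun i => (1 - (t : ℝ)) * x.1 i + t * y.1 i, by
    have ht0 : (0 : ℝ) ≤ t := t.2.1
    have ht1 : (t : ℝ) ≤ 1 := t.2.2
    constructor
    · intro i
      have h1 := x.nonneg i
      have h2 := y.nonneg i
      have : (0 : ℝ) ≤ 1 - t := by linarith
      positivity
    · rw [Finset.sum_add_distrib, ← Finset.mul_sum, ← Finset.mul_sum, x.sum_one, y.sum_one]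
      ring⟩

theorem seg_zero (x y : Dl) : seg x y 0 = x := by
  apply Subtype.ext
  funext i
  simp [seg]

theorem seg_one (x y : Dl) : seg x y 1 = y := by
  apply Subtype.ext
  funext i
  simp [seg]

theorem continuous_seg : Continuous fun p : (Dl × Dl) × I => seg p.1.1 p.1.2 p.2 := by
  refine Continuous.subtype_mk ?_ _
  refine continuous_pi fun i => ?_
  have h1 : Continuous fun p : (Dl × Dl) × I => p.1.1.1 i :=
    (continuous_coord i).comp (continuous_fst.comp continuous_fst)
  have h2 : Continuous fun p : (Dl × Dl) × I => p.1.2.1 i :=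
    (continuous_coord i).comp (continuous_snd.comp continuous_fst)
  have h3 : Continuous fun p : (Dl × Dl) × I => (p.2 : ℝ) :=
    continuous_subtype_val.comp continuous_snd
  exact ((continuous_const.sub h3).mul h1).add (h3.mul h2)

theorem continuous_seg' (x y : Dl) : Continuous (seg x y) :=
  continuous_seg.comp ((continuous_const (y := (x, y))).prodMk continuous_id)

theorem supp_seg {x y : Dl} {t : I} (ht : t ≠ 1) : supp x ⊆ supp (seg x y t) := by
  intro i hi
  rw [mem_supp] at hi ⊢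
  have ht0 : (0 : ℝ) ≤ t := t.2.1
  have ht1 : (t : ℝ) < 1 := lt_of_le_of_ne t.2.2 fun h => ht (Subtype.ext h)
  have h2 := y.nonneg i
  show 0 < (1 - (t : ℝ)) * x.1 i + t * y.1 i
  have : (0 : ℝ) < 1 - t := by linarith
  positivity

theorem supp_seg_subset {x y : Dl} {t : I} : supp (seg x y t) ⊆ supp x ∪ supp y := by
  intro i hi
  by_contra h
  rw [Finset.mem_union, not_or, mem_supp, mem_supp] at h
  rw [mem_supp] at hi
  have h1 : x.1 i = 0 := le_antisymm (not_lt.mp h.1) (x.nonneg i)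
  have h2 : y.1 i = 0 := le_antisymm (not_lt.mp h.2) (y.nonneg i)
  have h3 : (seg x y t).1 i = (1 - (t : ℝ)) * x.1 i + t * y.1 i := rfl
  rw [h3, h1, h2] at hi
  simp at hi

theorem subset_supp_seg {J : Finset (Fin 4)} {x y : Dl} {t : I} (hx : J ⊆ supp x)
    (hy : J ⊆ supp y) : J ⊆ supp (seg x y t) := by
  intro i hi
  have h1 := mem_supp.1 (hx hi)
  have h2 := mem_supp.1 (hy hi)
  rw [mem_supp]
  have ht0 : (0 : ℝ) ≤ t := t.2.1
  have ht1 : (t : ℝ) ≤ 1 := t.2.2
  show 0 < (1 - (t : ℝ)) * x.1 i + t * y.1 i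
  rcases eq_or_lt_of_le ht1 with h | h
  · rw [h]; simpa using h2
  · have h3 : 0 < (1 - (t : ℝ)) * x.1 i := mul_pos (by linarith) h1
    have h4 : 0 ≤ (t : ℝ) * y.1 i := mul_nonneg ht0 h2.le
    linarith

theorem seg_self (x : Dl) (t : I) : seg x x t = x := by
  apply Subtype.ext
  funext i
  show (1 - (t : ℝ)) * x.1 i + t * x.1 i = x.1 i
  ring

namespace Sys

variable {S : Sys}

/-- moving inside a chamber is well defined as long as the support does not grow -/
theorem pt_congr {C C' : S.Ch} {x y : Dl} (h : pt C x = pt C' x) (hy : supp y ⊆ supp x) :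
    pt C y = pt C' y :=
  pt_eq_iff.2 ⟨rfl, S.mono _ _ hy (supp_nonempty y) _ _ (pt_eq_iff.1 h).2⟩

/-- the contraction of the open stars of type `J` (meaningful on `U J`) -/
noncomputable def ctr (J : Finset (Fin 4)) (hJ : J.Nonempty) (y : S.R) : C(I, S.R) :=
  ⟨fun t => pt (Quotient.out y).1 (seg (Quotient.out y).2 (bar J hJ) t),
    (continuous_pt _).comp (continuous_seg' _ _)⟩

theorem ctr_pt (J : Finset (Fin 4)) (hJ : J.Nonempty) {C : S.Ch} {x : Dl} (hx : J ⊆ supp x)
    (t : I) : ctr J hJ (pt C x) t = pt C (seg x (bar J hJ) t) := by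
  have h1 : pt (Quotient.out (pt C x)).1 (Quotient.out (pt C x)).2 = pt C x :=
    Quotient.out_eq (pt C x)
  obtain ⟨h2, h3⟩ := pt_eq_iff.1 h1
  show pt (Quotient.out (pt C x)).1 (seg (Quotient.out (pt C x)).2 (bar J hJ) t) = _
  rw [h2]
  rw [h2] at h1
  apply pt_congr h1
  refine supp_seg_subset.trans ?_
  rw [supp_bar]
  exact Finset.union_subset (Finset.Subset.refl _) hx

theorem continuousOn_ctr (J : Finset (Fin 4)) (hJ : J.Nonempty) :
    ContinuousOn (ctr J hJ : S.R → C(I, S.R)) (U J) := by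
  rw [continuousOn_R_iff (isOpen_U J)]
  intro C
  let f : C(Dl × I, S.R) := ⟨fun p => pt C (seg p.1 (bar J hJ) p.2),
    (continuous_pt _).comp (continuous_seg.comp
      ((continuous_fst.prodMk continuous_const).prodMk continuous_snd))⟩
  refine (f.curry.continuous.continuousOn (s := pt C ⁻¹' U J)).congr ?_
  intro x hx
  ext t
  exact ctr_pt J hJ hx t

/-- joint continuity of the contraction -/
theorem continuousOn_ctr' (J : Finset (Fin 4)) (hJ : J.Nonempty) :
    ContinuousOn (fun p : S.R × I => ctr J hJ p.1 p.2) (U J ×ˢ univ) := by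
  have h1 : ContinuousOn (fun p : S.R × I => ctr J hJ p.1) (U J ×ˢ univ) :=
    (continuousOn_ctr J hJ).comp continuousOn_fst fun p hp => hp.1
  exact h1.eval continuousOn_snd

theorem ctr_zero (J : Finset (Fin 4)) (hJ : J.Nonempty) {y : S.R} (hy : y ∈ (U J : Set S.R)) :
    ctr J hJ y 0 = y := by
  obtain ⟨C, x, rfl⟩ := exists_pt y
  rw [pt_mem_U] at hy
  rw [ctr_pt J hJ hy, seg_zero]

theorem ctr_one (J : Finset (Fin 4)) (hJ : J.Nonempty) {α : S.F J} {C : S.Ch} (hC : S.fc J C = α)
    {y : S.R} (hy : y ∈ (W J α : Set S.R)) : ctr J hJ y 1 = pt C (bar J hJ) := by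
  obtain ⟨C', x, rfl⟩ := exists_pt y
  rw [pt_mem_W hJ] at hy
  rw [ctr_pt J hJ hy.1, seg_one, pt_eq_iff, supp_bar]
  exact ⟨rfl, hy.2.trans hC.symm⟩

theorem ctr_mem_W (J : Finset (Fin 4)) (hJ : J.Nonempty) {K : Finset (Fin 4)} (hK : K ⊆ J)
    (hK' : K.Nonempty) {α : S.F K}
    {y : S.R} (hy : y ∈ (U J : Set S.R)) (hα : y ∈ (W K α : Set S.R)) (t : I) :
    ctr J hJ y t ∈ (W K α : Set S.R) := by
  obtain ⟨C', x, rfl⟩ := exists_pt y
  rw [pt_mem_U] at hy
  rw [pt_mem_W hK'] at hα
  rw [ctr_pt J hJ hy, pt_mem_W hK']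
  refine ⟨subset_supp_seg hα.1 ?_, hα.2⟩
  rw [supp_bar]
  exact hK

end Sys

end Crest.Agent.R251.CS
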