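import Crest.Agent.R251.CS577B

/-! Row 251, LINE B: the data (helper577). -/

set_option autoImplicit false

namespace Crest.Agent.R251.CS

/-! ### tables -/

/-- corners of the 13 faces: names (`0..29`) of the vertices of the two spheres -/
def vtL : List (List ℕ) :=
  [[0, 2, 3, 1, 5, 4],
   [5, 1, 6, 7, 0, 4],
   [1, 6, 7, 0, 8, 9],
   [10, 11, 0, 8, 9, 1],
   [1, 12, 13, 0, 11, 10],
   [0, 2, 3, 1, 12, 13],
   [14, 15, 16, 17, 18, 19],
   [14, 20, 21, 22, 16, 15],
   [16, 22, 23, 24, 18, 17],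
   [18, 24, 25, 20, 14, 19],
   [22, 23, 26, 27, 20, 21],
   [24, 25, 20, 28, 29, 23],
   [23, 26, 27, 20, 28, 29]]

/-- the 2-cell (0 = `c^6`, 1 = `d^6`, 2 = `c^3 d^-3`, 3 = `t c^2 t^-1 d^-2`) of a face -/
def c2L : List ℕ := [2, 1, 1, 1, 2, 0, 1, 3, 3, 3, 0, 0, 0]

/-- the edge (0 = `c`, 1 = `d`, 2 = `t`) on the sides of the 2-cells -/
def edL : List (List ℕ) :=
  [[0, 0, 0, 0, 0, 0], [1, 1, 1, 1, 1, 1], [0, 0, 0, 1, 1, 1], [2, 0, 0, 2, 1, 1]]

/-- the direction on the sides of the 2-cells -/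
def dirL : List (List Bool) :=
  [[true, true, true, true, true, true], [true, true, true, true, true, true],
   [true, true, true, false, false, false], [true, true, true, false, false, false]]

/-- chambers: (face, side, end) -/
abbrev Cham : Type := Fin 13 × Fin 6 × Bool

/-- name of the `i`-th corner of face `f` -/
def vt (f : Fin 13) (i : Fin 6) : ℕ := (vtL.getD f.1 []).getD i.1 0
/-- 2-cell of a face -/
def c2 (f : Fin 13) : ℕ := c2L.getD f.1 0
/-- 3-cell of a face -/
def c3 (f : Fin 13) : ℕ := if f.1 < 6 then 0 else 1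
/-- edge of a side of a 2-cell -/
def ed (j : ℕ) (i : Fin 6) : ℕ := (edL.getD j []).getD i.1 0
/-- direction of a side of a 2-cell -/
def dir (j : ℕ) (i : Fin 6) : Bool := (dirL.getD j []).getD i.1 true

/-- the corner of a chamber -/
def crn (C : Cham) : Fin 6 := if C.2.2 then C.2.1 + 1 else C.2.1
/-- the sphere vertex of a chamber -/
def sv (C : Cham) : ℕ := vt C.1 (crn C)
/-- start vertex of the (oriented) edge of a chamber -/
def vs (C : Cham) : ℕ := if dir (c2 C.1) C.2.1 then vt C.1 C.2.1 else vt C.1 (C.2.1 + 1)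
/-- end vertex of the (oriented) edge of a chamber -/
def ve (C : Cham) : ℕ := if dir (c2 C.1) C.2.1 then vt C.1 (C.2.1 + 1) else vt C.1 C.2.1
/-- is the corner of the chamber the end point of its edge? -/
def eb (C : Cham) : Bool := if dir (c2 C.1) C.2.1 then C.2.2 else !C.2.2

/-- the name of the face of type `K` (`K ≠ ∅`) of a chamber -/
def code (K : Finset (Fin 4)) (C : Cham) : ℕ × ℕ × ℕ :=
  if 2 ∈ K then
    (if 3 ∈ K then C.1.1 else c2 C.1,
     if 1 ∈ K then C.2.1.1 else if 0 ∈ K then (crn C).1 else 0,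
     if 0 ∈ K ∧ 1 ∈ K then C.2.2.toNat else 0)
  else if 3 ∈ K then
    if 1 ∈ K then (vs C, ve C, if 0 ∈ K then (eb C).toNat else 0)
    else if 0 ∈ K then (sv C, 0, 0) else (c3 C.1, 0, 0)
  else if 1 ∈ K then (ed (c2 C.1) C.2.1, if 0 ∈ K then (eb C).toNat else 0, 0)
  else (0, 0, 0)

/-- the chamber system -/
def XS : Sys where
  Ch := Cham
  F := fun _ => Finset (Fin 4) → ℕ × ℕ × ℕ
  fc := fun J C K => if K ⊆ J ∧ K.Nonempty then code K C else 0
  mono := by
    intro K J hKJ hK C C' h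
    funext T
    by_cases hT : T ⊆ K ∧ T.Nonempty
    · have h1 : (if T ⊆ J ∧ T.Nonempty then code T C else 0) =
        (if T ⊆ J ∧ T.Nonempty then code T C' else 0) := congrFun h T
      show (if T ⊆ K ∧ T.Nonempty then code T C else 0) =
        (if T ⊆ K ∧ T.Nonempty then code T C' else 0)
      rw [if_pos ⟨hT.1.trans hKJ, hT.2⟩, if_pos ⟨hT.1.trans hKJ, hT.2⟩] at h1
      rw [if_pos hT, if_pos hT, h1]
    · show (if T ⊆ K ∧ T.Nonempty then code T C else 0) =
        (if T ⊆ K ∧ T.Nonempty then code T C' else 0)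
      rw [if_neg hT, if_neg hT]

theorem fc_eq_iff {J : Finset (Fin 4)} {C C' : Cham} :
    XS.fc J C = XS.fc J C' ↔ ∀ K, K ⊆ J → K.Nonempty → code K C = code K C' := by
  constructor
  · intro h K hK hK'
    have h1 : (if K ⊆ J ∧ K.Nonempty then code K C else 0) =
        (if K ⊆ J ∧ K.Nonempty then code K C' else 0) := congrFun h K
    rwa [if_pos ⟨hK, hK'⟩, if_pos ⟨hK, hK'⟩] at h1
  · intro h
    funext T
    show (if T ⊆ J ∧ T.Nonempty then code T C else 0) =
        (if T ⊆ J ∧ T.Nonempty then code T C' else 0)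
    by_cases hT : T ⊆ J ∧ T.Nonempty
    · rw [if_pos hT, if_pos hT, h T hT.1 hT.2]
    · rw [if_neg hT, if_neg hT]

/-! ### the group -/

/-- relators `c^6, d^6, c^3 d^-3, t c^2 t^-1 d^-2` -/
def rels : Set (FreeGroup (Fin 3)) :=
  {FreeGroup.of 0 ^ 6, FreeGroup.of 1 ^ 6, FreeGroup.of 0 ^ 3 * (FreeGroup.of 1 ^ 3)⁻¹,
   FreeGroup.of 2 * FreeGroup.of 0 ^ 2 * (FreeGroup.of 2)⁻¹ * (FreeGroup.of 1 ^ 2)⁻¹}

/-- the group `G` -/
abbrev GB : Type := PresentedGroup rels

/-- generators -/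
def gen (i : Fin 3) : GB := PresentedGroup.of i

theorem rel_c : gen 0 ^ 6 = 1 := by
  have : (QuotientGroup.mk' (Subgroup.normalClosure rels)) (FreeGroup.of 0 ^ 6) = 1 :=
    (QuotientGroup.eq_one_iff _).2 (Subgroup.subset_normalClosure (by simp [rels]))
  rw [map_pow] at this
  exact this

theorem rel_d : gen 1 ^ 6 = 1 := by
  have : (QuotientGroup.mk' (Subgroup.normalClosure rels)) (FreeGroup.of 1 ^ 6) = 1 :=
    (QuotientGroup.eq_one_iff _).2 (Subgroup.subset_normalClosure (by simp [rels]))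
  rw [map_pow] at this
  exact this

theorem rel_cd : gen 0 ^ 3 = gen 1 ^ 3 := by
  have : (QuotientGroup.mk' (Subgroup.normalClosure rels))
      (FreeGroup.of 0 ^ 3 * (FreeGroup.of 1 ^ 3)⁻¹) = 1 :=
    (QuotientGroup.eq_one_iff _).2 (Subgroup.subset_normalClosure (by simp [rels]))
  rw [map_mul, map_inv, mul_inv_eq_one, map_pow, map_pow] at this
  exact this

theorem rel_t : gen 2 * gen 0 ^ 2 = gen 1 ^ 2 * gen 2 := by
  have : (QuotientGroup.mk' (Subgroup.normalClosure rels))
      (FreeGroup.of 2 * FreeGroup.of 0 ^ 2 * (FreeGroup.of 2)⁻¹ * (FreeGroup.of 1 ^ 2)⁻¹) = 1 :=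
    (QuotientGroup.eq_one_iff _).2 (Subgroup.subset_normalClosure (by simp [rels]))
  rw [map_mul, map_inv, mul_inv_eq_one, map_mul, map_inv, mul_inv_eq_iff_eq_mul, map_mul,
    map_pow, map_pow] at this
  exact this

/-! ### positions -/

/-- the generator with a natural number name -/
def genN (e : ℕ) : GB := if e = 0 then gen 0 else if e = 1 then gen 1 else gen 2

/-- positions of the vertices of the spheres: `t^a c^b d^m` -/
def posL : List (ℕ × ℕ × ℕ) :=
  [(0, 0, 0), (0, 3, 0), (0, 1, 0), (0, 2, 0), (0, 0, 1), (0, 0, 2), (0, 3, 1), (0, 3, 2),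
   (0, 0, 1), (0, 0, 2), (0, 3, 1), (0, 3, 2), (0, 4, 0), (0, 5, 0),
   (0, 0, 0), (0, 0, 1), (0, 0, 2), (0, 0, 3), (0, 0, 4), (0, 0, 5),
   (1, 0, 0), (1, 1, 0), (1, 2, 0), (1, 3, 0), (1, 4, 0), (1, 5, 0),
   (1, 4, 0), (1, 5, 0), (1, 1, 0), (1, 2, 0)]

/-- the element `t^a c^b d^m` -/
def mon (p : ℕ × ℕ × ℕ) : GB := gen 2 ^ p.1 * gen 0 ^ p.2.1 * gen 1 ^ p.2.2

/-- position of a vertex -/
def pos (v : ℕ) : GB := mon (posL.getD v (0, 0, 0))

/-- the letter on a side of a 2-cell -/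
def lett (j : ℕ) (i : Fin 6) : GB :=
  if dir j i then genN (ed j i) else (genN (ed j i))⁻¹

/-- all the edge identities which are needed: `p * gen e = q` -/
def step (e : ℕ) (p q : ℕ × ℕ × ℕ) : Prop := mon p * genN e = mon q

theorem step_c {a b : ℕ} : step 0 (a, b, 0) (a, b + 1, 0) := by
  simp [step, mon, genN, pow_succ, mul_assoc]

theorem step_c5 {a : ℕ} : step 0 (a, 5, 0) (a, 0, 0) := by
  have := rel_c
  simp only [step, mon, genN, pow_zero, mul_one, if_true]
  rw [mul_assoc, ← pow_succ, this, mul_one]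

theorem step_d {a b m : ℕ} : step 1 (a, b, m) (a, b, m + 1) := by
  simp [step, mon, genN, pow_succ, mul_assoc]

theorem step_d5 : step 1 (0, 0, 5) (0, 0, 0) := by
  have := rel_d
  simp only [step, mon, genN, pow_zero, mul_one, one_mul]
  norm_num
  rw [← pow_succ, this]

theorem step_dc : step 1 (0, 0, 2) (0, 3, 0) := by
  have := rel_cd
  simp only [step, mon, genN, pow_zero, mul_one, one_mul]
  norm_num
  rw [← pow_succ, this]

theorem step_cd : step 1 (0, 3, 2) (0, 0, 0) := by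
  have h1 := rel_cd
  have h2 := rel_c
  simp only [step, mon, genN, pow_zero, mul_one, one_mul]
  norm_num
  rw [mul_assoc, ← pow_succ, ← h1, ← pow_add, h2]

theorem step_t0 : step 2 (0, 0, 0) (1, 0, 0) := by
  simp [step, mon, genN]

theorem step_t2 : step 2 (0, 0, 2) (1, 2, 0) := by
  have := rel_t
  simp only [step, mon, genN, pow_zero, mul_one, one_mul, pow_one]
  norm_num
  rw [this]

theorem step_t4 : step 2 (0, 0, 4) (1, 4, 0) := by
  have := rel_t
  simp only [step, mon, genN, pow_zero, mul_one, one_mul, pow_one]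
  norm_num
  have h4 : ∀ x : GB, x ^ 4 = x ^ 2 * x ^ 2 := fun x => by rw [← pow_add]
  rw [h4, h4, mul_assoc, ← this, ← mul_assoc, ← this, mul_assoc]

/-- the admissible steps -/
def OkStep (e : ℕ) (p q : ℕ × ℕ × ℕ) : Prop :=
  (e = 0 ∧ p.2.2 = 0 ∧ q = (p.1, p.2.1 + 1, 0)) ∨ (e = 0 ∧ p.2 = (5, 0) ∧ q = (p.1, 0, 0)) ∨
  (e = 1 ∧ q = (p.1, p.2.1, p.2.2 + 1)) ∨ (e = 1 ∧ p = (0, 0, 5) ∧ q = (0, 0, 0)) ∨
  (e = 1 ∧ p = (0, 0, 2) ∧ q = (0, 3, 0)) ∨ (e = 1 ∧ p = (0, 3, 2) ∧ q = (0, 0, 0)) ∨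
  (e = 2 ∧ p = (0, 0, 0) ∧ q = (1, 0, 0)) ∨ (e = 2 ∧ p = (0, 0, 2) ∧ q = (1, 2, 0)) ∨
  (e = 2 ∧ p = (0, 0, 4) ∧ q = (1, 4, 0))

instance (e : ℕ) (p q : ℕ × ℕ × ℕ) : Decidable (OkStep e p q) := by
  unfold OkStep; infer_instance

theorem step_of_ok {e : ℕ} {p q : ℕ × ℕ × ℕ} (h : OkStep e p q) : step e p q := by
  obtain ⟨a, b, m⟩ := p
  rcases h with ⟨rfl, h, rfl⟩ | ⟨rfl, h, rfl⟩ | ⟨rfl, rfl⟩ | ⟨rfl, h, rfl⟩ | ⟨rfl, h, rfl⟩ |
    ⟨rfl, h, rfl⟩ | ⟨rfl, h, rfl⟩ | ⟨rfl, h, rfl⟩ | ⟨rfl, h, rfl⟩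
  · obtain rfl : m = 0 := h
    exact step_c
  · obtain ⟨rfl, rfl⟩ := Prod.mk.inj h
    exact step_c5
  · exact step_d
  · rw [h]; exact step_d5
  · rw [h]; exact step_dc
  · rw [h]; exact step_cd
  · rw [h]; exact step_t0
  · rw [h]; exact step_t2
  · rw [h]; exact step_t4

set_option maxRecDepth 100000 in
theorem ok_all : ∀ C : Cham, OkStep (ed (c2 C.1) C.2.1) (posL.getD (vs C) (0, 0, 0))
    (posL.getD (ve C) (0, 0, 0)) := by decide

/-- all the edges of the spheres are edges of the Cayley graph -/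
theorem pos_edge (C : Cham) :
    pos (vs C) * genN (ed (c2 C.1) C.2.1) = pos (ve C) := step_of_ok (ok_all C)

/-- going along a side of a face -/
theorem pos_side (f : Fin 13) (i : Fin 6) :
    pos (vt f i) * lett (c2 f) i = pos (vt f (i + 1)) := by
  have h := pos_edge (f, i, false)
  simp only [vs, ve] at h
  unfold lett
  split_ifs at h ⊢ with h1
  · exact h
  · rw [← h, mul_assoc, mul_inv_cancel, mul_one]

/-- partial words of the 2-cells -/
def prf (j : ℕ) : ℕ → GB
  | 0 => 1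
  | n + 1 => prf j n * lett j (Fin.ofNat 6 n)

theorem pos_corner (f : Fin 13) (i : Fin 6) : pos (vt f i) = pos (vt f 0) * prf (c2 f) i.1 := by
  obtain ⟨n, hn⟩ := i
  induction n with
  | zero => simp [prf]
  | succ n ih =>
    have h1 := pos_side f ⟨n, by omega⟩
    have h2 : (⟨n, by omega⟩ + 1 : Fin 6) = ⟨n + 1, hn⟩ := by
      apply Fin.ext
      simp [Fin.val_add]
      omega
    rw [h2] at h1
    rw [← h1, ih (by omega)]
    show _ = pos (vt f 0) * (prf (c2 f) n * lett (c2 f) (Fin.ofNat 6 n))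
    rw [mul_assoc]
    congr 3
    apply Fin.ext
    simp
    omega

/-! ### labels -/

/-- labels -/
def lab (J : Finset (Fin 4)) (C : Cham) : GB :=
  if 3 ∈ J then 1 else if 2 ∈ J then pos (vt C.1 0) else if 1 ∈ J then pos (vs C) else pos (sv C)

theorem pos_sv (C : Cham) : pos (sv C) = pos (vt C.1 0) * prf (c2 C.1) (crn C).1 :=
  pos_corner _ _

theorem pos_vs (C : Cham) : pos (vs C) =
    pos (vt C.1 0) * prf (c2 C.1) (if dir (c2 C.1) C.2.1 then C.2.1 else C.2.1 + 1 : Fin 6).1 := by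
  unfold vs
  split_ifs <;> exact pos_corner _ _

theorem pos_sv_eb (C : Cham) : pos (sv C) =
    pos (vs C) * (if eb C = true then genN (ed (c2 C.1) C.2.1) else 1) := by
  have h := pos_edge C
  obtain ⟨f, i, b⟩ := C
  unfold eb sv crn
  simp only at h ⊢
  by_cases hd : dir (c2 f) i = true
  · cases b
    · simp [hd, vs]
    · simp only [hd, if_true, h]
      simp [ve, hd]
  · cases b
    · simp only [hd, Bool.not_false, if_true, Bool.false_eq_true, if_false, h]
      simp [ve, hd]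
    · simp [hd, vs]

theorem lab_compat (K J : Finset (Fin 4)) (hKJ : K ⊆ J) (hK : K.Nonempty) (C C' : Cham)
    (h' : ∀ K, K ⊆ J → K.Nonempty → code K C = code K C') :
    (lab J C)⁻¹ * lab K C = (lab J C')⁻¹ * lab K C' := by
    have mem0 : 1 ∉ K → 2 ∉ K → 3 ∉ K → (0 : Fin 4) ∈ K := by
      intro h1 h2 h3
      obtain ⟨i, hi⟩ := hK
      fin_cases i
      · exact hi
      · exact absurd hi h1
      · exact absurd hi h2
      · exact absurd hi h3
    unfold lab
    by_cases hJ3 : (3 : Fin 4) ∈ J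
    · rw [if_pos hJ3, if_pos hJ3]
      by_cases hK3 : (3 : Fin 4) ∈ K
      · rw [if_pos hK3, if_pos hK3]
      rw [if_neg hK3, if_neg hK3]
      by_cases hK2 : (2 : Fin 4) ∈ K
      · rw [if_pos hK2, if_pos hK2]
        have h1 := h' {2, 3} (by
          intro i hi
          simp only [Finset.mem_insert, Finset.mem_singleton] at hi
          rcases hi with rfl | rfl
          · exact hKJ hK2
          · exact hJ3) ⟨2, by simp⟩
        have h2 : C.1.1 = C'.1.1 := congrArg Prod.fst h1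
        rw [Fin.ext h2]
      rw [if_neg hK2, if_neg hK2]
      by_cases hK1 : (1 : Fin 4) ∈ K
      · rw [if_pos hK1, if_pos hK1]
        have h1 := h' {1, 3} (by
          intro i hi
          simp only [Finset.mem_insert, Finset.mem_singleton] at hi
          rcases hi with rfl | rfl
          · exact hKJ hK1
          · exact hJ3) ⟨1, by simp⟩
        have h2 : vs C = vs C' := congrArg Prod.fst h1
        rw [h2]
      rw [if_neg hK1, if_neg hK1]
      have h1 := h' {0, 3} (by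
          intro i hi
          simp only [Finset.mem_insert, Finset.mem_singleton] at hi
          rcases hi with rfl | rfl
          · exact hKJ (mem0 hK1 hK2 hK3)
          · exact hJ3) ⟨0, by simp⟩
      have h2 : sv C = sv C' := congrArg Prod.fst h1
      rw [h2]
    have hK3 : (3 : Fin 4) ∉ K := fun h => hJ3 (hKJ h)
    rw [if_neg hJ3, if_neg hJ3, if_neg hK3, if_neg hK3]
    by_cases hJ2 : (2 : Fin 4) ∈ J
    · rw [if_pos hJ2, if_pos hJ2]
      by_cases hK2 : (2 : Fin 4) ∈ K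
      · rw [if_pos hK2, if_pos hK2, inv_mul_cancel, inv_mul_cancel]
      rw [if_neg hK2, if_neg hK2]
      by_cases hK1 : (1 : Fin 4) ∈ K
      · rw [if_pos hK1, if_pos hK1]
        have h1 := h' {1, 2} (by
          intro i hi
          simp only [Finset.mem_insert, Finset.mem_singleton] at hi
          rcases hi with rfl | rfl
          · exact hKJ hK1
          · exact hJ2) ⟨1, by simp⟩
        have h2 : c2 C.1 = c2 C'.1 := congrArg Prod.fst h1
        have h3 : C.2.1.1 = C'.2.1.1 := congrArg (fun q => q.2.1) h1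
        have h4 : C.2.1 = C'.2.1 := Fin.ext h3
        rw [pos_vs, pos_vs, h2, h4, inv_mul_cancel_left, inv_mul_cancel_left]
      rw [if_neg hK1, if_neg hK1]
      have h1 := h' {0, 2} (by
          intro i hi
          simp only [Finset.mem_insert, Finset.mem_singleton] at hi
          rcases hi with rfl | rfl
          · exact hKJ (mem0 hK1 hK2 hK3)
          · exact hJ2) ⟨0, by simp⟩
      have h2 : c2 C.1 = c2 C'.1 := congrArg Prod.fst h1
      have h3 : (crn C).1 = (crn C').1 := congrArg (fun q => q.2.1) h1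
      rw [pos_sv, pos_sv, h2, h3, inv_mul_cancel_left, inv_mul_cancel_left]
    have hK2 : (2 : Fin 4) ∉ K := fun h => hJ2 (hKJ h)
    rw [if_neg hJ2, if_neg hJ2, if_neg hK2, if_neg hK2]
    by_cases hJ1 : (1 : Fin 4) ∈ J
    · rw [if_pos hJ1, if_pos hJ1]
      by_cases hK1 : (1 : Fin 4) ∈ K
      · rw [if_pos hK1, if_pos hK1, inv_mul_cancel, inv_mul_cancel]
      rw [if_neg hK1, if_neg hK1]
      have h1 := h' {0, 1} (by
          intro i hi
          simp only [Finset.mem_insert, Finset.mem_singleton] at hi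
          rcases hi with rfl | rfl
          · exact hKJ (mem0 hK1 hK2 hK3)
          · exact hJ1) ⟨0, by simp⟩
      have h2 : ed (c2 C.1) C.2.1 = ed (c2 C'.1) C'.2.1 := congrArg Prod.fst h1
      have h3 : (eb C).toNat = (eb C').toNat := congrArg (fun q => q.2.1) h1
      have h4 : eb C = eb C' := by
        revert h3
        cases eb C <;> cases eb C' <;> simp
      rw [pos_sv_eb, pos_sv_eb, h2, h4, inv_mul_cancel_left, inv_mul_cancel_left]
    have hK1 : (1 : Fin 4) ∉ K := fun h => hJ1 (hKJ h)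
    rw [if_neg hJ1, if_neg hJ1, if_neg hK1, if_neg hK1, inv_mul_cancel, inv_mul_cancel]

/-- the labelled chamber system -/
def XL : Lab XS GB where
  a := lab
  compat := fun K J hKJ hK C C' h => lab_compat K J hKJ hK C C' (fc_eq_iff.1 h)

/-- the space `X` -/
abbrev XB : Type := XS.R

/-- its universal cover -/
abbrev EB : Type := XL.E

/-- the character -/
def muF : Fin 3 → (ZMod 7)ˣ := ![⟨3, 5, by decide, by decide⟩, ⟨3, 5, by decide, by decide⟩, 1]

theorem muF_rels : ∀ r ∈ rels, FreeGroup.lift muF r = 1 := by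
  intro r hr
  simp only [rels, Set.mem_insert_iff, Set.mem_singleton_iff] at hr
  rcases hr with rfl | rfl | rfl | rfl
  · rw [map_pow, FreeGroup.lift_apply_of]; decide
  · rw [map_pow, FreeGroup.lift_apply_of]; decide
  · rw [map_mul, map_inv, map_pow, map_pow, FreeGroup.lift_apply_of, FreeGroup.lift_apply_of]
    decide
  · rw [map_mul, map_mul, map_mul, map_inv, map_inv, map_pow, map_pow, FreeGroup.lift_apply_of,
      FreeGroup.lift_apply_of, FreeGroup.lift_apply_of]
    decide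

/-- the character of `G`: `c, d ↦ 3`, `t ↦ 1` in `(ZMod 7)ˣ` -/
def mu : GB →* (ZMod 7)ˣ := PresentedGroup.toGroup muF_rels

theorem mu_gen (i : Fin 3) : mu (gen i) = muF i := PresentedGroup.toGroup.of muF_rels

theorem mu_c_ne : mu (gen 0) ≠ 1 := by
  rw [mu_gen]
  decide

/-- the degree in `t` -/
def toZ : GB →* Multiplicative ℤ :=
  PresentedGroup.toGroup (f := ![1, 1, Multiplicative.ofAdd 1]) (by
    intro r hr
    simp only [rels, Set.mem_insert_iff, Set.mem_singleton_iff] at hr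
    rcases hr with rfl | rfl | rfl | rfl <;> simp)

theorem toZ_t : toZ (gen 2) = Multiplicative.ofAdd 1 := by
  unfold toZ gen
  rw [PresentedGroup.toGroup.of]
  rfl

instance infinite_GB : Infinite GB := by
  have h : Function.Surjective toZ := by
    intro z
    refine ⟨gen 2 ^ (Multiplicative.toAdd z), ?_⟩
    rw [map_zpow, toZ_t, ← ofAdd_zsmul]
    simp
  exact Infinite.of_surjective toZ h

end Crest.Agent.R251.CS
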