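import Crest.Agent.R251.CS577B

/-! Row 251, LINE B: the covering map `L.p : L.E → S.R` (helper577). -/

set_option autoImplicit false

open Set Topology

namespace Crest.Agent.R251.CS

namespace Lab

variable {S : Sys} {G : Type} [Group G] (L : Lab S G)

theorem isQuotientMap_p : IsQuotientMap L.p := by
  refine ⟨?_, L.p_surjective⟩
  rw [isCoinducing_iff]
  intro V
  constructor
  · intro h
    rw [Sys.isOpen_R_iff]
    intro C
    exact (Sys.isOpen_R_iff (S := L.cov)).1 h (C, 1)
  · intro h
    rw [Sys.isOpen_R_iff]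
    intro C
    exact (Sys.isOpen_R_iff.1 h) C.1

theorem isQuotientCoveringMap_p : IsQuotientCoveringMap L.p G where
  toIsQuotientMap := L.isQuotientMap_p
  toContinuousConstSMul := inferInstance
  apply_eq_iff_mem_orbit := by
    intro e₁ e₂
    constructor
    · intro h
      obtain ⟨g, hg⟩ := L.exists_smul h.symm
      exact ⟨g, hg⟩
    · rintro ⟨g, rfl⟩
      exact L.p_smul g e₂
  disjoint e := by
    obtain ⟨g, C, x, rfl⟩ := L.exists_epc e
    have hx := supp_nonempty x
    refine ⟨L.WE (supp x) (S.fc (supp x) C) (g * L.a (supp x) C),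
      (L.isOpen_WE hx _ _).mem_nhds ((L.epc_mem_WE hx).2 ⟨Finset.Subset.refl _, rfl, rfl⟩),
      fun h hh => ?_⟩
    obtain ⟨w, ⟨w', hw', rfl⟩, hw⟩ := hh
    have h1 := (L.smul_mem_WE hx (g := h)).2 hw'
    have h2 := Sys.W_disjoint (S := L.cov) hx h1 hw
    have h3 : h * (g * L.a (supp x) C) = g * L.a (supp x) C := congrArg Prod.snd h2
    exact mul_eq_right.1 h3

theorem isCoveringMap_p : IsCoveringMap L.p := L.isQuotientCoveringMap_p.isCoveringMap

/-- the fibres are torsors -/
theorem existsUnique_smul {y y' : L.E} (h : L.p y = L.p y') : ∃! g : G, g • y = y' := by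
  obtain ⟨g, hg⟩ := L.exists_smul h
  refine ⟨g, hg, fun g' hg' => ?_⟩
  have h1 : (g⁻¹ * g') • y = y := by
    rw [mul_smul, hg', ← hg, inv_smul_smul]
  have h2 := L.smul_free h1
  exact (inv_mul_eq_one.1 h2).symm

end Lab

end Crest.Agent.R251.CS
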