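import Crest.Agent.R251.CS577A
import Crest.Agent.R197.TCWBuild

/-! Row 251, LINE B: CW structure on the realization of a finite chamber system (helper577). -/

set_option autoImplicit false

open Set Metric Topology

namespace Crest.Agent.R251.CS

/-! ### parametrisation of the simplex by the cube -/

section par

variable (n : ℕ)

/-- solid simplex -/
def TT : Set (Fin n → ℝ) := {y | (∀ i, 0 ≤ y i) ∧ ∑ i, y i ≤ 1}

/-- open solid simplex -/
def TTo : Set (Fin n → ℝ) := {y | (∀ i, 0 < y i) ∧ ∑ i, y i < 1}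

theorem TT_closed : IsClosed (TT n) := by
  have : TT n = (⋂ i, {y : Fin n → ℝ | 0 ≤ y i}) ∩ {y | ∑ i, y i ≤ 1} := by
    ext y; simp [TT]
  rw [this]
  refine (isClosed_iInter fun i => isClosed_le continuous_const (continuous_apply i)).inter
    (isClosed_le (by fun_prop) continuous_const)

theorem TTo_open : IsOpen (TTo n) := by
  have : TTo n = (⋂ i, {y : Fin n → ℝ | 0 < y i}) ∩ {y | ∑ i, y i < 1} := by
    ext y; simp [TTo]
  rw [this]
  refine (isOpen_iInter_of_finite fun i => isOpen_lt continuous_const (continuous_apply i)).inter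
    (isOpen_lt (by fun_prop) continuous_const)

theorem TTo_sub : TTo n ⊆ TT n := fun _ hy => ⟨fun i => (hy.1 i).le, hy.2.le⟩

theorem TTo_nonempty : (TTo n).Nonempty := by
  refine ⟨fun _ => ((n : ℝ) + 1)⁻¹, fun i => by positivity, ?_⟩
  rw [Finset.sum_const, Finset.card_univ, Fintype.card_fin, nsmul_eq_mul]
  rw [← div_eq_mul_inv, div_lt_one (by positivity)]
  linarith

theorem TT_convex : Convex ℝ (TT n) := by
  rintro x ⟨hx, hx'⟩ y ⟨hy, hy'⟩ a b ha hb hab
  refine ⟨fun i => ?_, ?_⟩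
  · have h1 := hx i
    have h2 := hy i
    simp only [Pi.add_apply, Pi.smul_apply, smul_eq_mul]
    positivity
  · simp only [Pi.add_apply, Pi.smul_apply, smul_eq_mul]
    rw [Finset.sum_add_distrib, ← Finset.mul_sum, ← Finset.mul_sum]
    nlinarith

theorem TT_bounded : Bornology.IsBounded (TT n) := by
  refine (isBounded_closedBall (x := (0 : Fin n → ℝ)) (r := 1)).subset ?_
  rintro y ⟨hy, hy'⟩
  rw [mem_closedBall_zero_iff, pi_norm_le_iff_of_nonneg zero_le_one]
  intro i
  rw [Real.norm_of_nonneg (hy i)]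
  exact (Finset.single_le_sum (fun j _ => hy j) (Finset.mem_univ i)).trans hy'

theorem TT_interior : interior (TT n) = TTo n := by
  apply Subset.antisymm
  · intro y hy
    refine ⟨fun i => ?_, ?_⟩
    · have h1 : interior (TT n) ⊆ interior ((fun y : Fin n → ℝ => y i) ⁻¹' Ici 0) :=
        interior_mono fun z hz => hz.1 i
      have h2 := (isOpenMap_eval (X := fun _ : Fin n => ℝ) i).preimage_interior_eq_interior_preimage
        (continuous_apply i) (Ici 0)
      have h3 := h1 hy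
      have h4 : y ∈ interior ((Function.eval i : (Fin n → ℝ) → ℝ) ⁻¹' Ici 0) := h3
      rw [← h2, interior_Ici] at h4
      exact h4
    · rcases n with _ | n
      · simp
      · let f : (Fin (n + 1) → ℝ) →ₗ[ℝ] ℝ := ∑ i, LinearMap.proj i
        have hf : ∀ y, f y = ∑ i, y i := fun y => by simp [f]
        have hsurj : Function.Surjective f := by
          intro c
          refine ⟨Pi.single 0 c, ?_⟩
          rw [hf, Finset.sum_pi_single']
          simp
        have hop := LinearMap.isOpenMap_of_finiteDimensional f hsurj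
        have hcont : Continuous f := LinearMap.continuous_of_finiteDimensional f
        have h1 : interior (TT (n + 1)) ⊆ interior (f ⁻¹' Iic 1) :=
          interior_mono fun z hz => by
            show f z ≤ 1
            rw [hf]; exact hz.2
        have h2 := hop.preimage_interior_eq_interior_preimage hcont (Iic 1)
        have h4 := h1 hy
        rw [← h2, interior_Iic] at h4
        have h5 : f y < 1 := h4
        rwa [hf] at h5
  · exact interior_maximal (TTo_sub n) (TTo_open n)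

/-- a parametrisation of the `n`-simplex by the `n`-cube -/
theorem simplexPar : ∃ θ : (Fin n → ℝ) → (Fin (n + 1) → ℝ), Continuous θ ∧
    Function.Injective θ ∧ (∀ x ∈ closedBall (0 : Fin n → ℝ) 1, θ x ∈ stdSimplex ℝ (Fin (n + 1))) ∧
    (∀ x ∈ ball (0 : Fin n → ℝ) 1, ∀ i, 0 < θ x i) ∧
    (∀ x ∈ sphere (0 : Fin n → ℝ) 1, ∃ i, θ x i = 0) ∧
    (∀ y ∈ stdSimplex ℝ (Fin (n + 1)), ∃ x ∈ closedBall (0 : Fin n → ℝ) 1, θ x = y) := by
  obtain ⟨h, h1, h2, h3⟩ := exists_homeomorph_image_interior_closure_frontier_eq_unitBall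
    (TT_convex n) (by rw [TT_interior]; exact TTo_nonempty n) (TT_bounded n)
  rw [(TT_closed n).closure_eq] at h2
  have k1 : ∀ x ∈ ball (0 : Fin n → ℝ) 1, h.symm x ∈ TTo n := by
    intro x hx
    rw [← h1] at hx
    obtain ⟨y, hy, rfl⟩ := hx
    rw [h.symm_apply_apply, ← TT_interior]
    exact hy
  have k2 : ∀ x ∈ closedBall (0 : Fin n → ℝ) 1, h.symm x ∈ TT n := by
    intro x hx
    rw [← h2] at hx
    obtain ⟨y, hy, rfl⟩ := hx
    rw [h.symm_apply_apply]
    exact hy
  have k3 : ∀ x ∈ sphere (0 : Fin n → ℝ) 1, h.symm x ∉ TTo n := by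
    intro x hx
    rw [← h3] at hx
    obtain ⟨y, hy, rfl⟩ := hx
    rw [h.symm_apply_apply, ← TT_interior]
    exact hy.2
  let lam : (Fin n → ℝ) → (Fin (n + 1) → ℝ) := fun y => Fin.cons (1 - ∑ i, y i) y
  have lam0 : ∀ y, lam y 0 = 1 - ∑ i, y i := fun y => rfl
  have lams : ∀ y (i : Fin n), lam y i.succ = y i := fun y i => rfl
  have hlc : Continuous lam := by
    refine continuous_pi fun i => ?_
    refine Fin.cases ?_ (fun i => ?_) i
    · simp only [lam0]; fun_prop
    · simp only [lams]; fun_prop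
  refine ⟨fun x => lam (h.symm x), hlc.comp h.symm.continuous, ?_, ?_, ?_, ?_, ?_⟩
  · intro x x' hxx'
    apply h.symm.injective
    funext i
    have := congrFun hxx' i.succ
    simpa only [lams] using this
  · intro x hx
    obtain ⟨h4, h5⟩ := k2 x hx
    refine ⟨fun i => ?_, ?_⟩
    · refine Fin.cases ?_ (fun i => ?_) i
      · show 0 ≤ lam _ 0
        rw [lam0]; linarith
      · show 0 ≤ lam _ i.succ
        rw [lams]; exact h4 i
    · rw [Fin.sum_univ_succ]
      simp only [lam0, lams]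
      ring
  · intro x hx i
    obtain ⟨h4, h5⟩ := k1 x hx
    refine Fin.cases ?_ (fun i => ?_) i
    · show 0 < lam _ 0
      rw [lam0]; linarith
    · show 0 < lam _ i.succ
      rw [lams]; exact h4 i
  · intro x hx
    by_contra hne
    push Not at hne
    have h6 := k3 x hx
    obtain ⟨h4, h5⟩ := k2 x (sphere_subset_closedBall hx)
    apply h6
    refine ⟨fun i => lt_of_le_of_ne (h4 i) ?_, lt_of_le_of_ne h5 ?_⟩
    · have := hne i.succ
      rw [lams] at this
      exact this.symm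
    · intro h7
      apply hne 0
      rw [lam0, h7, sub_self]
  · rintro y ⟨hy, hy'⟩
    have h8 : (fun i : Fin n => y i.succ) ∈ TT n := by
      refine ⟨fun i => hy _, ?_⟩
      rw [Fin.sum_univ_succ] at hy'
      have := hy 0
      linarith
    refine ⟨h fun i => y i.succ, ?_, ?_⟩
    · rw [← h2]; exact mem_image_of_mem _ h8
    · simp only [h.symm_apply_apply]
      funext i
      refine Fin.cases ?_ (fun i => ?_) i
      · rw [lam0, ← hy', Fin.sum_univ_succ]; ring
      · rw [lams]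

/-- a chosen parametrisation -/
noncomputable def th : (Fin n → ℝ) → (Fin (n + 1) → ℝ) := (simplexPar n).choose

theorem th_spec : Continuous (th n) ∧
    Function.Injective (th n) ∧
    (∀ x ∈ closedBall (0 : Fin n → ℝ) 1, th n x ∈ stdSimplex ℝ (Fin (n + 1))) ∧
    (∀ x ∈ ball (0 : Fin n → ℝ) 1, ∀ i, 0 < th n x i) ∧
    (∀ x ∈ sphere (0 : Fin n → ℝ) 1, ∃ i, th n x i = 0) ∧
    (∀ y ∈ stdSimplex ℝ (Fin (n + 1)), ∃ x ∈ closedBall (0 : Fin n → ℝ) 1, th n x = y) :=
  (simplexPar n).choose_spec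

end par

/-! ### faces of the simplex -/

section face

variable {n : ℕ} (J : Finset (Fin 4)) (hJ : J.card = n + 1)

/-- extension by zero -/
noncomputable def ex0 (z : Fin (n + 1) → ℝ) (i : Fin 4) : ℝ :=
  if hi : i ∈ J then z ((J.orderIsoOfFin hJ).symm ⟨i, hi⟩) else 0

theorem ex0_apply (z : Fin (n + 1) → ℝ) (k : Fin (n + 1)) :
    ex0 J hJ z (J.orderIsoOfFin hJ k) = z k := by
  unfold ex0
  rw [dif_pos (J.orderIsoOfFin hJ k).2]
  exact congrArg z ((J.orderIsoOfFin hJ).symm_apply_apply k)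

theorem ex0_not {z : Fin (n + 1) → ℝ} {i : Fin 4} (hi : i ∉ J) : ex0 J hJ z i = 0 := by
  unfold ex0
  rw [dif_neg hi]

theorem ex0_sum (z : Fin (n + 1) → ℝ) : ∑ i, ex0 J hJ z i = ∑ k, z k := by
  have h1 : ∑ i, ex0 J hJ z i = ∑ i ∈ J, ex0 J hJ z i := by
    symm
    apply Finset.sum_subset (Finset.subset_univ J)
    intro i _ hi
    exact ex0_not J hJ hi
  rw [h1, ← Finset.sum_coe_sort J (fun i => ex0 J hJ z i)]
  symm
  apply Fintype.sum_equiv (J.orderIsoOfFin hJ).toEquiv
  intro k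
  exact (ex0_apply J hJ z k).symm

theorem ex0_mem {z : Fin (n + 1) → ℝ} (hz : z ∈ stdSimplex ℝ (Fin (n + 1))) :
    ex0 J hJ z ∈ stdSimplex ℝ (Fin 4) := by
  refine ⟨fun i => ?_, ?_⟩
  · unfold ex0
    split_ifs
    · exact hz.1 _
    · exact le_refl _
  · rw [ex0_sum]; exact hz.2

theorem continuous_ex0 : Continuous (ex0 J hJ) := by
  refine continuous_pi fun i => ?_
  unfold ex0
  split_ifs
  · exact continuous_apply _
  · exact continuous_const

theorem ex0_inj : Function.Injective (ex0 J hJ) := by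
  intro z z' h
  funext k
  rw [← ex0_apply J hJ z k, h, ex0_apply]

/-- the parametrisation of the face `J` -/
noncomputable def par (x : closedBall (0 : Fin n → ℝ) 1) : Dl :=
  ⟨ex0 J hJ (th n x.1), ex0_mem J hJ ((th_spec n).2.2.1 x.1 x.2)⟩

theorem continuous_par : Continuous (par J hJ) :=
  Continuous.subtype_mk ((continuous_ex0 J hJ).comp
    ((th_spec n).1.comp continuous_subtype_val)) _

theorem par_inj : Function.Injective (par J hJ) := by
  intro x x' h
  exact Subtype.ext ((th_spec n).2.1 (ex0_inj J hJ (congrArg Subtype.val h)))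

theorem supp_par_subset (x : closedBall (0 : Fin n → ℝ) 1) : supp (par J hJ x) ⊆ J := by
  intro i hi
  by_contra h
  rw [mem_supp] at hi
  have : (par J hJ x).1 i = 0 := ex0_not J hJ h
  rw [this] at hi
  exact lt_irrefl _ hi

theorem supp_par_ball (x : closedBall (0 : Fin n → ℝ) 1) (hx : x.1 ∈ ball (0 : Fin n → ℝ) 1) :
    supp (par J hJ x) = J := by
  apply Finset.Subset.antisymm (supp_par_subset J hJ x)
  intro i hi
  rw [mem_supp]
  show 0 < ex0 J hJ (th n x.1) i
  unfold ex0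
  rw [dif_pos hi]
  exact (th_spec n).2.2.2.1 x.1 hx _

theorem supp_par_sphere (x : closedBall (0 : Fin n → ℝ) 1)
    (hx : x.1 ∈ sphere (0 : Fin n → ℝ) 1) : supp (par J hJ x) ≠ J := by
  intro h
  obtain ⟨k, hk⟩ := (th_spec n).2.2.2.2.1 x.1 hx
  have h1 : ((J.orderIsoOfFin hJ k : J) : Fin 4) ∈ supp (par J hJ x) := by
    rw [h]; exact (J.orderIsoOfFin hJ k).2
  rw [mem_supp] at h1
  have h2 : (par J hJ x).1 (J.orderIsoOfFin hJ k) = th n x.1 k := ex0_apply J hJ _ k
  rw [h2, hk] at h1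
  exact lt_irrefl _ h1

theorem par_surj {y : Dl} (hy : supp y ⊆ J) : ∃ x, par J hJ x = y := by
  have h0 : ∀ i, i ∉ J → y.1 i = 0 := by
    intro i hi
    by_contra h
    exact hi (hy (mem_supp.2 (lt_of_le_of_ne (y.nonneg i) (Ne.symm h))))
  let z : Fin (n + 1) → ℝ := fun k => y.1 (J.orderIsoOfFin hJ k)
  have hz0 : ex0 J hJ z = y.1 := by
    funext i
    by_cases hi : i ∈ J
    · unfold ex0
      rw [dif_pos hi]
      show y.1 (J.orderIsoOfFin hJ _) = _
      rw [OrderIso.apply_symm_apply]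
    · rw [ex0_not J hJ hi, h0 i hi]
  have hz : z ∈ stdSimplex ℝ (Fin (n + 1)) := by
    refine ⟨fun k => y.nonneg _, ?_⟩
    rw [← ex0_sum J hJ z, hz0]
    exact y.sum_one
  obtain ⟨x, hx, hxz⟩ := (th_spec n).2.2.2.2.2 z hz
  refine ⟨⟨x, hx⟩, ?_⟩
  apply Subtype.ext
  show ex0 J hJ (th n x) = y.1
  rw [hxz, hz0]

end face

namespace Sys

variable (S : Sys)

/-- cells of dimension `n` = faces of type `J`, `#J = n + 1` -/
def Cell (n : ℕ) : Type :=
  {q : (J : Finset (Fin 4)) × S.F J // q.1.card = n + 1 ∧ ∃ C, S.fc q.1 C = q.2}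

variable {S}

/-- a chamber of a cell -/
noncomputable def Cell.ch {n : ℕ} (c : S.Cell n) : S.Ch := c.2.2.choose

theorem Cell.fc_ch {n : ℕ} (c : S.Cell n) : S.fc c.1.1 c.ch = c.1.2 := c.2.2.choose_spec

open Classical in
/-- characteristic map -/
noncomputable def chm (n : ℕ) (c : S.Cell n) (x : Fin n → ℝ) : S.R :=
  if h : x ∈ closedBall (0 : Fin n → ℝ) 1 then pt c.ch (par c.1.1 c.2.1 ⟨x, h⟩)
  else pt c.ch (bar c.1.1 (Finset.card_pos.1 (by rw [c.2.1]; omega)))

theorem chm_of {n : ℕ} (c : S.Cell n) {x : Fin n → ℝ} (h : x ∈ closedBall (0 : Fin n → ℝ) 1) :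
    chm n c x = pt c.ch (par c.1.1 c.2.1 ⟨x, h⟩) := by
  unfold chm
  rw [dif_pos h]

theorem chm_cont {n : ℕ} (c : S.Cell n) :
    ContinuousOn (chm n c) (closedBall (0 : Fin n → ℝ) 1) := by
  rw [continuousOn_iff_continuous_domRestrict]
  have : (closedBall (0 : Fin n → ℝ) 1).domRestrict (chm n c) =
      fun x => pt c.ch (par c.1.1 c.2.1 x) := by
    funext x
    exact chm_of c x.2
  rw [this]
  exact (continuous_pt _).comp (continuous_par _ _)

theorem chm_inj {n : ℕ} (c : S.Cell n) : InjOn (chm n c) (ball (0 : Fin n → ℝ) 1) := by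
  intro x hx x' hx' h
  rw [chm_of c (ball_subset_closedBall hx), chm_of c (ball_subset_closedBall hx')] at h
  have h1 := (pt_eq_iff.1 h).1
  exact congrArg Subtype.val (par_inj _ _ h1)

theorem chm_sat {n : ℕ} (c : S.Cell n) (x y : Fin n → ℝ) (hx : x ∈ ball (0 : Fin n → ℝ) 1)
    (hy : y ∈ sphere (0 : Fin n → ℝ) 1) : chm n c x ≠ chm n c y := by
  intro h
  rw [chm_of c (ball_subset_closedBall hx), chm_of c (sphere_subset_closedBall hy)] at h
  have h1 := (pt_eq_iff.1 h).1
  have h2 := supp_par_ball c.1.1 c.2.1 ⟨x, ball_subset_closedBall hx⟩ hx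
  have h3 := supp_par_sphere c.1.1 c.2.1 ⟨y, sphere_subset_closedBall hy⟩ hy
  rw [h1] at h2
  exact h3 h2

theorem chm_disj {n m : ℕ} (c : S.Cell n) (d : S.Cell m) (x : Fin n → ℝ) (y : Fin m → ℝ)
    (hx : x ∈ ball (0 : Fin n → ℝ) 1) (hy : y ∈ ball (0 : Fin m → ℝ) 1)
    (h : chm n c x = chm m d y) : (⟨n, c⟩ : Σ n, S.Cell n) = ⟨m, d⟩ := by
  rw [chm_of c (ball_subset_closedBall hx), chm_of d (ball_subset_closedBall hy)] at h
  obtain ⟨h1, h2⟩ := pt_eq_iff.1 h
  have h3 := supp_par_ball c.1.1 c.2.1 ⟨x, ball_subset_closedBall hx⟩ hx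
  have h4 := supp_par_ball d.1.1 d.2.1 ⟨y, ball_subset_closedBall hy⟩ hy
  have h5 : c.1.1 = d.1.1 := by rw [← h3, ← h4, h1]
  rw [h3] at h2
  obtain ⟨⟨J, α⟩, hc⟩ := c
  obtain ⟨⟨K, β⟩, hd⟩ := d
  obtain rfl : J = K := h5
  have hnm : n = m := by
    have e1 := hc.1
    have e2 := hd.1
    simp only at e1 e2
    omega
  subst hnm
  have hα := Cell.fc_ch (S := S) (n := n) ⟨⟨J, α⟩, hc⟩
  have hβ := Cell.fc_ch (S := S) (n := n) ⟨⟨J, β⟩, hd⟩
  have : α = β := hα.symm.trans (h2.trans hβ)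
  subst this
  rfl

theorem chm_surj {n : ℕ} (c : S.Cell n) {C : S.Ch} (hC : S.fc c.1.1 C = c.1.2) {x : Dl}
    (hx : supp x ⊆ c.1.1) : ∃ z ∈ closedBall (0 : Fin n → ℝ) 1, chm n c z = pt C x := by
  obtain ⟨z, hz⟩ := par_surj c.1.1 c.2.1 hx
  refine ⟨z.1, z.2, ?_⟩
  rw [chm_of c z.2]
  show pt c.ch (par c.1.1 c.2.1 z) = _
  rw [hz, pt_eq_iff]
  exact ⟨rfl, S.mono _ _ hx (supp_nonempty x) _ _ (c.fc_ch.trans hC.symm)⟩

/-- the cell through a point -/
theorem exists_cell (C : S.Ch) (x : Dl) : ∃ (m : ℕ) (c : S.Cell m), m + 1 = (supp x).card ∧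
    ∃ z ∈ closedBall (0 : Fin m → ℝ) 1, chm m c z = pt C x := by
  have h0 : 0 < (supp x).card := Finset.card_pos.2 (supp_nonempty x)
  let c : S.Cell ((supp x).card - 1) :=
    ⟨⟨supp x, S.fc (supp x) C⟩, by show (supp x).card = (supp x).card - 1 + 1; omega, C, rfl⟩
  refine ⟨(supp x).card - 1, c, by omega, ?_⟩
  exact chm_surj c (C := C) rfl (Finset.Subset.refl _)

theorem cell_empty {m : ℕ} (hm : 3 < m) : IsEmpty (S.Cell m) := by
  refine ⟨fun c => ?_⟩
  have h1 := c.2.1
  have h2 := Finset.card_le_univ c.1.1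
  rw [Fintype.card_fin] at h2
  omega

variable (S)

/-- the CW structure on the realization of a finite chamber system -/
theorem exists_cw [_root_.Finite S.Ch] : ∃ _ : Topology.CWComplex (Set.univ : Set S.R),
    Topology.RelCWComplex.Finite (Set.univ : Set S.R) ∧
    ∀ m : ℕ, 3 < m → IsEmpty (Topology.RelCWComplex.cell (Set.univ : Set S.R) m) := by
  have hfin : ∀ n, _root_.Finite (S.Cell n) := by
    intro n
    have : _root_.Finite ((J : Finset (Fin 4)) × Set.range (S.fc J)) := inferInstance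
    refine Finite.of_injective
      (β := (J : Finset (Fin 4)) × Set.range (S.fc J))
      (fun c => ⟨c.1.1, ⟨c.1.2, c.2.2⟩⟩) ?_
    rintro ⟨⟨J, α⟩, hc⟩ ⟨⟨K, β⟩, hd⟩ h
    simp only [Sigma.mk.injEq] at h
    obtain ⟨rfl, h⟩ := h
    have : α = β := congrArg Subtype.val (eq_of_heq h)
    subst this
    rfl
  have hev : ∀ᶠ n in Filter.atTop, IsEmpty (S.Cell n) := by
    rw [Filter.eventually_atTop]
    exact ⟨4, fun m hm => cell_empty (by omega)⟩
  have hpd : (univ : Set (Σ n, S.Cell n)).PairwiseDisjoint (fun ni =>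
      ((chm_inj ni.2).toPartialEquiv (chm ni.1 ni.2) (ball 0 1)) '' ball 0 1) := by
    rintro ⟨n, c⟩ - ⟨m, d⟩ - hne
    rw [Function.onFun, Set.disjoint_left]
    rintro x ⟨y, hy, hyx⟩ ⟨z, hz, hzx⟩
    exact hne (chm_disj c d y z hy hz (hyx.trans hzx.symm))
  have hmt : ∀ (n : ℕ) (c : S.Cell n), MapsTo ((chm_inj c).toPartialEquiv (chm n c) (ball 0 1))
      (sphere 0 1) (⋃ (m < n) (j : S.Cell m),
        ((chm_inj j).toPartialEquiv (chm m j) (ball 0 1)) '' closedBall 0 1) := by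
    intro n c x hx
    have hx' := sphere_subset_closedBall hx
    show chm n c x ∈ _
    rw [chm_of c hx']
    obtain ⟨m, d, hm, z, hz, hz'⟩ := exists_cell c.ch (par c.1.1 c.2.1 ⟨x, hx'⟩)
    have h1 : (supp (par c.1.1 c.2.1 ⟨x, hx'⟩)).card < c.1.1.card :=
      Finset.card_lt_card (lt_of_le_of_ne (supp_par_subset _ _ _) (supp_par_sphere _ _ _ hx))
    have h2 := c.2.1
    simp only [mem_iUnion]
    exact ⟨m, by omega, d, z, hz, hz'⟩
  have hun : ⋃ (n : ℕ) (j : S.Cell n),
      ((chm_inj j).toPartialEquiv (chm n j) (ball 0 1)) '' closedBall 0 1 = univ := by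
    rw [eq_univ_iff_forall]
    intro y
    obtain ⟨C, x, rfl⟩ := exists_pt y
    obtain ⟨m, d, hm, z, hz, hz'⟩ := exists_cell C x
    simp only [mem_iUnion]
    exact ⟨m, d, z, hz, hz'⟩
  have hsymm : ∀ (n : ℕ) (c : S.Cell n),
      ContinuousOn ((chm_inj c).toPartialEquiv (chm n c) (ball 0 1)).symm
        ((chm_inj c).toPartialEquiv (chm n c) (ball 0 1)).target := fun n c =>
    R197.cw_build_symm (chm n c) (chm_cont c) (chm_inj c) (chm_sat c)
  refine ⟨Topology.CWComplex.mkFinite univ S.Cell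
    (fun n c => (chm_inj c).toPartialEquiv (chm n c) (ball 0 1)) hev hfin (fun n c => rfl)
    (fun n c => chm_cont c) hsymm hpd hmt hun,
    Topology.CWComplex.finite_mkFinite univ S.Cell
    (fun n c => (chm_inj c).toPartialEquiv (chm n c) (ball 0 1)) hev hfin (fun n c => rfl)
    (fun n c => chm_cont c) hsymm hpd hmt hun, ?_⟩
  intro m hm
  exact cell_empty hm

end Sys

end Crest.Agent.R251.CS
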