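import Crest.Agent.R251.CZ470c
import Crest.Agent.R251.CE686b
import Crest.Agent.R251.CS577C
import Crest.Agent.R251.Fin711

/-!
# Row 251, line B (helper470): the joints (d)-(e)-(g)-(h) for 577's data
-/

set_option autoImplicit false
set_option linter.unusedSectionVars false
set_option linter.unusedVariables false

open Finset
open Crest.GeometryTopology.DeckCochains
open Crest.Agent.R251.Pr (us sx push EqC HV act)
open Crest.Agent.R251.CS

namespace Crest.Agent.R251.CZ

noncomputable section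

section gen
variable {S : Sys} {G : Type} [Group G] (L : Lab S G)
variable {M : Type} [AddCommGroup M] [DistribMulAction G M]

/-- 686's (e) in the form of (d) -/
theorem acE {J : Finset (Fin 4)} (hJ : J.Nonempty) (k : ℕ) : AcE G M (L.UE J) k := by
  intro φ hφ hc
  obtain ⟨ψ, h1, -, h2⟩ := L.ac hJ k φ hφ (fun s hs => hc s fun t => hs ⟨t, rfl⟩)
  refine ⟨ψ, h1, fun s hs => h2 s ?_⟩
  rintro _ ⟨t, rfl⟩
  exact hs t

/-- (d) + (e) -/
theorem hv_of_typed (q : ℕ) (hT : Typed L M q) : HV G L.E q M :=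
  HV_of_typed L q (fun _ k hJ => acE L hJ k) hT

end gen

/-- (g), 577's form -/
def Surj3 : Prop := ∀ (M : Type) [AddCommGroup M] [DistribMulAction GB M] (φ : Cham → M),
  ∃ f : ∀ _ : Fin 4, (Finset (Fin 4) → ℕ × ℕ × ℕ) → M,
    ∀ C, φ C = ∑ i, lab (univ.erase i) C • f i (XS.fc (univ.erase i) C)

theorem sg_mul_self {ι : Type} [LinearOrder ι] (i : ι) (J : Finset ι) : sg i J * sg i J = 1 := by
  unfold sg
  rw [← mul_pow]; norm_num

theorem typed2_of_surj3 (h : Surj3) {M : Type} [AddCommGroup M] [DistribMulAction GB M] :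
    Typed XL M 2 := by
  classical
  intro c _
  obtain ⟨f, hf⟩ := h M (fun C => lab univ C • c univ (XS.fc univ C))
  refine ⟨fun J α => ∑ i : Fin 4, if J = univ.erase i then sg i univ • f i α else 0, ?_⟩
  intro J hJ C
  obtain rfl : J = univ := by
    rw [← Finset.card_eq_iff_eq_univ, hJ]; rfl
  show _ = lab univ C • c univ (XS.fc univ C)
  rw [hf C]
  refine Finset.sum_congr rfl fun i _ => ?_
  have hne : ∀ j : Fin 4, (univ.erase i : Finset (Fin 4)) = univ.erase j ↔ i = j := by
    intro j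
    constructor
    · intro e
      by_contra hij
      have h1 : i ∈ (univ.erase j : Finset (Fin 4)) := by simp [hij]
      rw [← e] at h1
      simp at h1
    · rintro rfl; rfl
  have : (∑ j : Fin 4, if (univ.erase i : Finset (Fin 4)) = univ.erase j then
      sg j univ • f j (XS.fc (univ.erase i) C) else 0) = sg i univ • f i (XS.fc (univ.erase i) C) := by
    rw [Finset.sum_eq_single i]
    · rw [if_pos rfl]
    · intro j _ hj
      rw [if_neg fun e => hj ((hne j).1 e).symm]
    · intro h; exact absurd (mem_univ _) h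
  have h2 : ∀ z : M, sg i (univ : Finset (Fin 4)) • ((lab (univ.erase i) C : GB) •
      (sg i (univ : Finset (Fin 4)) • z)) = (lab (univ.erase i) C : GB) • z := by
    intro z
    rw [smul_comm (lab (univ.erase i) C : GB), smul_smul, sg_mul_self, one_smul]
  exact (congrArg (fun z : M => sg i (univ : Finset (Fin 4)) • ((lab (univ.erase i) C : GB) • z))
    this).trans (h2 _)

/-- vanishing above degree 2 for line B -/
theorem hvB (h : Surj3) (q : ℕ) (hq : 2 ≤ q) (M : Type) [AddCommGroup M] [DistribMulAction GB M] :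
    HV GB EB q M := by
  rcases Nat.eq_or_lt_of_le hq with rfl | hq
  · exact hv_of_typed XL 2 (typed2_of_surj3 h)
  · exact hv_of_typed XL q (typed_of_le XL hq)

instance fact7 : Fact (Nat.Prime 7) := ⟨by norm_num⟩

/-- (h), 577's form -/
def Exact2 : Prop := ∀ c : Finset (Fin 4) → (Finset (Fin 4) → ℕ × ℕ × ℕ) → Fin.Tw mu,
  (∀ C : Cham, ∑ i : Fin 4, ((-1 : ℤ) ^ (i : ℕ)) •
    (lab (univ.erase i) C • c (univ.erase i) (XS.fc (univ.erase i) C)) = 0) →
  ∃ b : Finset (Fin 4) → (Finset (Fin 4) → ℕ × ℕ × ℕ) → Fin.Tw mu,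
    ∀ i j k : Fin 4, i < j → j < k → ∀ C : Cham,
      lab {i, j, k} C • c {i, j, k} (XS.fc {i, j, k} C) =
        lab {j, k} C • b {j, k} (XS.fc {j, k} C) - lab {i, k} C • b {i, k} (XS.fc {i, k} C) +
          lab {i, j} C • b {i, j} (XS.fc {i, j} C)

theorem typed1_of_exact2 (h : Exact2) : Typed XL (Fin.Tw mu) 1 := by
  classical
  intro c hc
  obtain ⟨b, hb⟩ := h c (by
    intro C
    rw [← hc univ rfl C]
    refine Finset.sum_congr rfl fun i _ => ?_
    have : sg i (univ : Finset (Fin 4)) = (-1 : ℤ) ^ (i : ℕ) := by revert i; decide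
    rw [this]; rfl)
  refine ⟨b, ?_⟩
  intro J hJ C
  have hJ' : ∀ J : Finset (Fin 4), #J = 3 → ∃ i j k : Fin 4, i < j ∧ j < k ∧ J = {i, j, k} := by
    decide
  obtain ⟨i, j, k, hij, hjk, rfl⟩ := hJ' J hJ
  have hik := hij.trans hjk
  have e1 : ({i, j, k} : Finset (Fin 4)).erase i = {j, k} := by
    rw [Finset.erase_insert]; simp [hij.ne, hik.ne]
  have e2 : ({i, j, k} : Finset (Fin 4)).erase j = {i, k} := by
    ext x; simp only [Finset.mem_erase, Finset.mem_insert, Finset.mem_singleton]
    constructor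
    · rintro ⟨h1, rfl | rfl | rfl⟩
      · exact Or.inl rfl
      · exact absurd rfl h1
      · exact Or.inr rfl
    · rintro (rfl | rfl)
      · exact ⟨hij.ne, Or.inl rfl⟩
      · exact ⟨hjk.ne', Or.inr (Or.inr rfl)⟩
  have e3 : ({i, j, k} : Finset (Fin 4)).erase k = {i, j} := by
    ext x; simp only [Finset.mem_erase, Finset.mem_insert, Finset.mem_singleton]
    constructor
    · rintro ⟨h1, rfl | rfl | rfl⟩
      · exact Or.inl rfl
      · exact Or.inr rfl
      · exact absurd rfl h1
    · rintro (rfl | rfl)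
      · exact ⟨hik.ne, Or.inl rfl⟩
      · exact ⟨hjk.ne, Or.inr (Or.inl rfl)⟩
  have s1 : sg i ({i, j, k} : Finset (Fin 4)) = 1 := by
    revert hij hjk; revert i j k; decide
  have s2 : sg j ({i, j, k} : Finset (Fin 4)) = -1 := by
    revert hij hjk; revert i j k; decide
  have s3 : sg k ({i, j, k} : Finset (Fin 4)) = 1 := by
    revert hij hjk; revert i j k; decide
  rw [Finset.sum_insert (by simp [hij.ne, hik.ne]), Finset.sum_insert (by simp [hjk.ne]),
    Finset.sum_singleton, e1, e2, e3, s1, s2, s3]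
  have hb' := hb i j k hij hjk C
  show (1 : ℤ) • (lab {j, k} C • b {j, k} (XS.fc {j, k} C)) +
    ((-1 : ℤ) • (lab {i, k} C • b {i, k} (XS.fc {i, k} C)) +
      (1 : ℤ) • (lab {i, j} C • b {i, j} (XS.fc {i, j} C))) =
    lab {i, j, k} C • c {i, j, k} (XS.fc {i, j, k} C)
  rw [hb', one_smul, one_smul, neg_one_smul]
  abel

/-- `H²(K_μ) = 0` for line B -/
theorem hvμB (h : Exact2) : HV GB EB 1 (Fin.Tw mu) := hv_of_typed XL 1 (typed1_of_exact2 h)

/-- **line B: the model**, modulo (b) CW structure, (c)+(j) covering, (g), (h) -/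
def modelB (cw : Topology.CWComplex (Set.univ : Set XB))
    (fin : Topology.RelCWComplex.Finite (Set.univ : Set XB))
    (dim : ∀ m : ℕ, 3 < m → IsEmpty (Topology.RelCWComplex.cell (Set.univ : Set XB) m))
    (cov : Fin.Cov GB EB XL.p) (hg : Surj3) (hh : Exact2) (c : GB) (n : ℕ) (hn : n ≠ 0)
    (hc : c ^ n = 1) (hμ : mu c ≠ 1) : Fin.Model (ZMod 7) :=
  { G := GB
    inf := inferInstance
    E := EB
    X := XB
    t2 := inferInstance
    cw := cw
    fin := fin
    dim := dim
    p := XL.p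
    cov := cov
    hv := fun n hn M _ _ => hvB hg n hn M
    μ := mu
    hvμ := hvμB hh
    c := c
    n := n
    hn := hn
    hc := hc
    hμ := hμ }

end

end Crest.Agent.R251.CZ
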