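import Crest.Agent.R251.Mod19

/-!
# Row 251: the model, part 2: the quotient `XX f` of `Z4 f`, its CW structure and the covering `pp f`
-/

set_option autoImplicit false
set_option linter.unusedSectionVars false

open Set Metric Topology unitInterval
open Crest.Agent.R185.Att Crest.Agent.R185.Base
open Crest.Agent.R197 (OrbSep)

namespace Crest.Agent.R251.Mod

variable {G : Type} [Group G] {ι : Type} {gen : ι → G} {κ : Type} {wd : κ → List (ι × Bool)}
  {hwd : ∀ j, val gen (wd j) = 1}

/-- equivariant homeomorphisms -/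
def EHomeo (G : Type) [Group G] (X Y : Type) [TopologicalSpace X] [TopologicalSpace Y]
    [MulAction G X] [MulAction G Y] : Prop :=
  ∃ e : X ≃ₜ Y, ∀ (g : G) (x : X), e (g • x) = g • e x

variable [Finite ι] [Finite κ] (f : C(S 3, Z3 gen wd hwd))

/-- the last stage of the tower is all of the union -/
theorem jj4_surj (y : Un (FF f)) : ∃ z, jj (FF f) 4 z = y := by
  apply exists_jj
  by_contra h
  obtain ⟨n, g, c, x⟩ := y
  exact (cel_ge f n (not_lt.1 h)).false c

theorem ehomeo_T4 : EHomeo G (Z4 f) (Un (FF f)) := by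
  have h1 : EHomeo G (tower (FF f) 4).Z (Un (FF f)) := by
    refine ⟨(isClosedEmbedding_jj (FF f) 4).isEmbedding.toHomeomorphOfSurjective (jj4_surj f), ?_⟩
    intro g x
    exact jj_smul (FF f) 4 g x
  have key : ∀ T : GSp G, tower (FF f) 4 = T → EHomeo G T.Z (Un (FF f)) := by
    rintro T rfl
    exact h1
  exact key (T4 f) (tower_4 f)

/-- the equivariant homeomorphism of `Z4 f` with the union of the tower -/
noncomputable def jE : Z4 f ≃ₜ Un (FF f) := (ehomeo_T4 f).choose

theorem jE_smul (g : G) (z : Z4 f) : jE f (g • z) = g • jE f z := (ehomeo_T4 f).choose_spec g z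

/-- the complex -/
abbrev XX : Type := Qt (FF f)

/-- the covering map -/
noncomputable def pp (z : Z4 f) : XX f := prj (FF f) (jE f z)

theorem pp_smul (g : G) (z : Z4 f) : pp f (g • z) = pp f z := by
  unfold pp; rw [jE_smul, prj_smul]

theorem pp_eq {z z' : Z4 f} (h : pp f z = pp f z') : ∃ g : G, g • z' = z := by
  obtain ⟨g, hg⟩ := prj_eq (FF f) h
  refine ⟨g, (jE f).injective ?_⟩
  rw [jE_smul, hg]

theorem continuous_pp : Continuous (pp f) := (continuous_prj (FF f)).comp (jE f).continuous

theorem pp_surj : Function.Surjective (pp f) :=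
  (Quotient.mk_surjective).comp (jE f).surjective

theorem z4_free (g : G) (z : Z4 f) (h : g • z = z) : g = 1 := by
  apply un_free (FF f) g (jE f z)
  rw [← jE_smul, h]

theorem z4_orbSep : OrbSep G (Z4 f) := by
  intro z z'
  obtain ⟨U, hU, V, hV, hUV⟩ := un_orbSep (FF f) (jE f z) (jE f z')
  refine ⟨jE f ⁻¹' U, (jE f).continuous.continuousAt.preimage_mem_nhds hU, jE f ⁻¹' V,
    (jE f).continuous.continuousAt.preimage_mem_nhds hV, ?_⟩
  rintro g ⟨p, ⟨q, hq, rfl⟩, hp⟩
  apply (jE f).injective
  rw [jE_smul]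
  refine hUV g ⟨jE f (g • q), ⟨jE f q, hq, (jE_smul f g q).symm⟩, hp⟩

instance : T2Space (Z4 f) := t2_of_orbSep (z4_orbSep f)

theorem pp_isQuotientCoveringMap : IsQuotientCoveringMap (pp f) G where
  toIsQuotientMap := (isQuotientMap_quotient_mk' (s := MulAction.orbitRel G (Un (FF f)))).comp
    (jE f).isQuotientMap
  toContinuousConstSMul := inferInstance
  apply_eq_iff_mem_orbit := by
    intro e₁ e₂
    constructor
    · intro h
      obtain ⟨g, hg⟩ := pp_eq f h
      exact ⟨g, hg⟩
    · rintro ⟨g, rfl⟩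
      exact pp_smul f g _
  disjoint e := by
    obtain ⟨U, hU, V, hV, h⟩ := z4_orbSep f e e
    refine ⟨U ∩ V, Filter.inter_mem hU hV, fun g hg => z4_free f g e (h g ?_)⟩
    obtain ⟨w, ⟨w', hw', rfl⟩, hw⟩ := hg
    exact ⟨_, ⟨w', hw'.1, rfl⟩, hw.2⟩

theorem pp_isCoveringMap : IsCoveringMap (pp f) := (pp_isQuotientCoveringMap f).isCoveringMap

instance : T2Space (XX f) := Crest.Agent.R197.abs_t2 (un_orbSep (FF f))

/-- the CW structure on the quotient: finite, of dimension at most three -/
theorem exists_cwX : ∃ _ : _root_.Topology.CWComplex (Set.univ : Set (XX f)),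
    _root_.Topology.RelCWComplex.Finite (Set.univ : Set (XX f)) ∧
    ∀ m : ℕ, 3 < m → IsEmpty (_root_.Topology.RelCWComplex.cell (Set.univ : Set (XX f)) m) := by
  obtain ⟨_, C, hC⟩ := exists_cw (FF f)
  have hE : ∀ m : ℕ, 3 < m →
      IsEmpty (_root_.Topology.RelCWComplex.cell (Set.univ : Set (XX f)) m) := by
    intro m hm
    obtain ⟨e⟩ := hC m
    have := cel_ge f m hm
    exact e.isEmpty
  refine ⟨C, ?_, hE⟩
  exact
    { eventually_isEmpty_cell := Filter.eventually_atTop.2 ⟨4, fun m hm => hE m hm⟩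
      finite_cell := fun n => by
        obtain ⟨e⟩ := hC n
        exact Finite.of_equiv _ e.symm }

theorem connectedX [ConnectedSpace (Z4 f)] : ConnectedSpace (XX f) := by
  have := (pp_surj f).connectedSpace (continuous_pp f)
  exact this

end Crest.Agent.R251.Mod
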