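import Crest.Prelude.Def_DeckCochains
import Crest.Agent.R251.PB509

/-!
# R251, block PB, part P4 (helper509): the deck group of a quotient covering map

For a quotient covering map `p : E → X` with group `G` and `E` connected, `deckGroup p ≃* G`,
and `DeckCohomologyVanishes p M n` follows from the `G`-form `HV G E n M`.
-/

set_option autoImplicit false

namespace Crest.Agent.R251.PBD

open Crest.GeometryTopology.DeckCochains Function

/-- `G`-equivariance of a cochain (raw form). -/
def GEq (G : Type*) {E : Type*} [Group G] [TopologicalSpace E] [MulAction G E]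
    [ContinuousConstSMul G E] {M : Type*} [AddCommGroup M] [DistribMulAction G M] {n : ℕ}
    (φ : SingSimplex E n → M) : Prop :=
  ∀ (g : G) (σ : SingSimplex E n), φ (simplexTranslate (Homeomorph.smul g) σ) = g • φ σ

/-- Vanishing of the equivariant cohomology in degree `n + 1`. -/
def HV (G E : Type*) [Group G] [TopologicalSpace E] [MulAction G E] [ContinuousConstSMul G E]
    (M : Type*) [AddCommGroup M] [DistribMulAction G M] (n : ℕ) : Prop :=
  ∀ φ : SingSimplex E (n + 1) → M, GEq G φ → cochainCobdry φ = 0 →
    ∃ ψ : SingSimplex E n → M, GEq G ψ ∧ cochainCobdry ψ = φ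

variable {G E X : Type*} [Group G] [TopologicalSpace E] [TopologicalSpace X] [MulAction G E]
  [ContinuousConstSMul G E] {p : E → X}

/-- The action map `G →* deckGroup p`. -/
def toDeck (hp : IsQuotientCoveringMap p G) : G →* deckGroup p where
  toFun g := ⟨Homeomorph.smul g, fun _ => hp.map_smul g⟩
  map_one' := by
    apply Subtype.ext
    ext e
    exact one_smul G e
  map_mul' g g' := by
    apply Subtype.ext
    ext e
    exact mul_smul g g' e

@[simp] theorem toDeck_apply (hp : IsQuotientCoveringMap p G) (g : G) (e : E) :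
    (toDeck hp g : E ≃ₜ E) e = g • e := rfl

theorem coe_toDeck (hp : IsQuotientCoveringMap p G) (g : G) :
    (toDeck hp g : E ≃ₜ E) = Homeomorph.smul g := rfl

theorem toDeck_injective [Nonempty E] (hp : IsQuotientCoveringMap p G) :
    Injective (toDeck hp) := by
  intro g g' hgg
  obtain ⟨e⟩ := ‹Nonempty E›
  have hc := hp.isCancelSMul
  have h1 : g • e = g' • e := by
    rw [← toDeck_apply hp g e, ← toDeck_apply hp g' e, hgg]
  exact IsCancelSMul.right_cancel g g' e h1

theorem toDeck_surjective [PreconnectedSpace E] [Nonempty E] (hp : IsQuotientCoveringMap p G) :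
    Surjective (toDeck hp) := by
  intro f
  obtain ⟨e⟩ := ‹Nonempty E›
  obtain ⟨g, hg⟩ := hp.apply_eq_iff_mem_orbit.mp (f.2 e)
  refine ⟨g, ?_⟩
  apply Subtype.ext
  ext x
  have h1 : (fun x => g • x) = ((f : E ≃ₜ E) : E → E) := by
    refine hp.isCoveringMap.eq_of_comp_eq (continuous_const_smul g) (f : E ≃ₜ E).continuous ?_ e hg
    funext y
    change p (g • y) = p ((f : E ≃ₜ E) y)
    rw [hp.map_smul, f.2 y]
  exact congr_fun h1 x

/-- The deck group of a connected quotient covering is the group. -/
noncomputable def deckEquiv [PreconnectedSpace E] [Nonempty E] (hp : IsQuotientCoveringMap p G) :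
    G ≃* deckGroup p :=
  MulEquiv.ofBijective (toDeck hp) ⟨toDeck_injective hp, toDeck_surjective hp⟩

theorem deckEquiv_apply [PreconnectedSpace E] [Nonempty E] (hp : IsQuotientCoveringMap p G)
    (g : G) : deckEquiv hp g = toDeck hp g := rfl

theorem infinite_deckGroup [Nonempty E] [Infinite G] (hp : IsQuotientCoveringMap p G) :
    Infinite (deckGroup p) :=
  Infinite.of_injective _ (toDeck_injective hp)

/-- `DeckCohomologyVanishes` from the `G`-form, one module. -/
theorem deckCohomologyVanishes_of [PreconnectedSpace E] [Nonempty E]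
    (hp : IsQuotientCoveringMap p G) (M : Type*) [AddCommGroup M]
    [DistribMulAction (deckGroup p) M] (n : ℕ)
    (H : letI := DistribMulAction.compHom M (toDeck hp); HV G E M n) :
    DeckCohomologyVanishes p M n := by
  letI := DistribMulAction.compHom M (toDeck hp)
  have hsm : ∀ (g : G) (m : M), g • m = (toDeck hp g) • m := fun _ _ => rfl
  intro φ hφ hδ
  obtain ⟨ψ, hψ, hψδ⟩ := H φ (fun g σ => by rw [hsm, ← hφ (toDeck hp g) σ, coe_toDeck]) hδ
  refine ⟨ψ, ?_, hψδ⟩
  intro f σ
  obtain ⟨g, rfl⟩ := toDeck_surjective hp f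
  rw [coe_toDeck, hψ g σ, hsm]

/-- `DeckCohomologyVanishes` for all modules from the `G`-form for all modules. -/
theorem deckCohomologyVanishes_of_all [PreconnectedSpace E] [Nonempty E]
    (hp : IsQuotientCoveringMap p G) (n : ℕ)
    (H : ∀ (M : Type) [AddCommGroup M] [DistribMulAction G M], HV G E M n)
    (M : Type) [AddCommGroup M] [DistribMulAction (deckGroup p) M] :
    DeckCohomologyVanishes p M n :=
  deckCohomologyVanishes_of hp M n (by
    letI := DistribMulAction.compHom M (toDeck hp)
    exact H M)

end Crest.Agent.R251.PBD
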