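import Crest.Agent.R251.Sm82B
import Crest.Prelude.Def_DeckCochains

/-!
# Row 251: small simplices, cochain form (helper82)

`small_vanish`: a cocycle which vanishes on small simplices is the coboundary of a cochain which
vanishes on small simplices; everything is natural.
`extend_small`: a cochain which is a cocycle on small simplices extends to a cocycle.
-/

set_option autoImplicit false

namespace Crest.Agent.R251.Sm

open CategoryTheory Simplicial Opposite
open Crest.GeometryTopology.DeckCochains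

noncomputable section

variable {E E' : Type} [TopologicalSpace E] [TopologicalSpace E']
variable {M M' : Type*} [AddCommGroup M] [AddCommGroup M']

/-- the singular simplex given by a continuous map -/
def sx {n : ℕ} (σ : C(Dn n, E)) : SingSimplex E n :=
  (TopCat.toSSetObjEquiv (TopCat.of E) (op ⦋n⦌)).symm σ

/-- the continuous map of a singular simplex -/
def un {n : ℕ} (s : SingSimplex E n) : C(Dn n, E) :=
  TopCat.toSSetObjEquiv (TopCat.of E) (op ⦋n⦌) s

@[simp] theorem sx_un {n : ℕ} (s : SingSimplex E n) : sx (un s) = s := Equiv.symm_apply_apply _ _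
@[simp] theorem un_sx {n : ℕ} (σ : C(Dn n, E)) : un (sx σ) = σ := Equiv.apply_symm_apply _ _

theorem simplexFace_sx {n : ℕ} (σ : C(Dn (n + 1), E)) (i : Fin (n + 2)) :
    simplexFace i (sx σ) = sx (σ.comp (face i)) := rfl

theorem simplexFace_eq {n : ℕ} (s : SingSimplex E (n + 1)) (i : Fin (n + 2)) :
    simplexFace i s = sx ((un s).comp (face i)) := by
  conv_lhs => rw [← sx_un s]
  rfl

theorem un_face {n : ℕ} (s : SingSimplex E (n + 1)) (i : Fin (n + 2)) :
    un (simplexFace i s) = (un s).comp (face i) := by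
  rw [simplexFace_eq, un_sx]

/-- push forward of simplices -/
def psh {n : ℕ} (f : C(E, E')) (s : SingSimplex E n) : SingSimplex E' n := sx (f.comp (un s))

theorem psh_sx {n : ℕ} (f : C(E, E')) (σ : C(Dn n, E)) : psh f (sx σ) = sx (f.comp σ) := by
  unfold psh; rw [un_sx]

theorem un_psh {n : ℕ} (f : C(E, E')) (s : SingSimplex E n) : un (psh f s) = f.comp (un s) := by
  unfold psh; rw [un_sx]

theorem psh_face {n : ℕ} (f : C(E, E')) (s : SingSimplex E (n + 1)) (i : Fin (n + 2)) :
    simplexFace i (psh f s) = psh f (simplexFace i s) := by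
  rw [simplexFace_eq, un_psh, simplexFace_eq, psh_sx]
  rfl

theorem translate_eq {n : ℕ} (g : E ≃ₜ E) (s : SingSimplex E n) :
    simplexTranslate g s = psh (g : C(E, E)) s := by
  conv_lhs => rw [← sx_un s]
  rfl

theorem cobdry_psh {n : ℕ} (f : C(E, E')) (φ : SingSimplex E' n → M) (s : SingSimplex E (n + 1)) :
    cochainCobdry φ (psh f s) = cochainCobdry (fun t => φ (psh f t)) s := by
  unfold cochainCobdry
  simp only [psh_face]

theorem cobdry_sub {n : ℕ} (φ ψ : SingSimplex E n → M) :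
    cochainCobdry (fun s => φ s - ψ s) = fun s => cochainCobdry φ s - cochainCobdry ψ s := by
  funext s
  simp only [cochainCobdry, smul_sub, Finset.sum_sub_distrib]

theorem cobdry_add {n : ℕ} (φ ψ : SingSimplex E n → M) :
    cochainCobdry (fun s => φ s + ψ s) = fun s => cochainCobdry φ s + cochainCobdry ψ s := by
  funext s
  simp only [cochainCobdry, smul_add, Finset.sum_add_distrib]

theorem cobdry_zero {n : ℕ} : cochainCobdry (fun _ : SingSimplex E n => (0 : M)) = 0 := by
  funext s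
  simp [cochainCobdry]

theorem cobdry_hom {n : ℕ} (a : M →+ M') (φ : SingSimplex E n → M) (s : SingSimplex E (n + 1)) :
    cochainCobdry (fun t => a (φ t)) s = a (cochainCobdry φ s) := by
  simp only [cochainCobdry, map_sum, map_zsmul]

/-- the list cochain of a cochain along a simplex -/
def lc {n k : ℕ} (φ : SingSimplex E n → M) (s : SingSimplex E k) (l : List (Dn k)) : M :=
  if l.length = n + 1 then φ (sx ((un s).comp (aff n l))) else 0

theorem lc_vs {n : ℕ} (φ : SingSimplex E n → M) (s : SingSimplex E n) : lc φ s (vs n) = φ s := by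
  unfold lc
  rw [if_pos (length_vs n), aff_vs]
  exact congrArg φ (sx_un s)

theorem B_lc {n k : ℕ} (φ : SingSimplex E n → M) (s : SingSimplex E k) :
    B (lc φ s) = lc (cochainCobdry φ) s := by
  funext l
  by_cases hl : l.length = n + 2
  · have hR : lc (cochainCobdry φ) s l = cochainCobdry φ (sx ((un s).comp (aff (n + 1) l))) := by
      unfold lc; rw [if_pos hl]
    rw [hR, B_eq_sum]
    unfold cochainCobdry
    have key : ∀ i : Fin l.length, ((-1 : ℤ) ^ (i : ℕ)) • lc φ s (l.eraseIdx i) =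
        ((-1 : ℤ) ^ ((Fin.cast hl i : Fin (n + 2)) : ℕ)) •
          φ (simplexFace (Fin.cast hl i) (sx ((un s).comp (aff (n + 1) l)))) := by
      intro i
      have h1 : (l.eraseIdx i).length = n + 1 := by
        rw [List.length_eraseIdx_of_lt i.2, hl]; rfl
      have h2 := aff_erase n l hl (Fin.cast hl i)
      have h3 : ((Fin.cast hl i : Fin (n + 2)) : ℕ) = (i : ℕ) := rfl
      rw [h3] at h2
      unfold lc
      rw [if_pos h1, h2, h3, simplexFace_sx]
      rfl
    rw [Finset.sum_congr rfl fun i _ => key i]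
    exact Equiv.sum_comp (finCongr hl) fun i : Fin (n + 2) => ((-1 : ℤ) ^ (i : ℕ)) •
      φ (simplexFace i (sx ((un s).comp (aff (n + 1) l))))
  · have hR : lc (cochainCobdry φ) s l = 0 := by
      unfold lc; rw [if_neg hl]
    rw [hR]
    rw [B_congr _ (fun _ => 0) l, B_zero]
    intro l' hl'
    have := hl'.length
    unfold lc
    rw [if_neg (by omega)]

theorem lc_comp {n k m : ℕ} (φ : SingSimplex E n → M) (s : SingSimplex E m) (L : List (Dn m))
    (l : List (Dn k)) :
    lc φ (sx ((un s).comp (aff k L))) l = lc φ s (l.map (aff k L)) := by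
  unfold lc
  rw [List.length_map]
  split_ifs with h
  · rw [aff_map n l h L, un_sx]
    rfl
  · rfl

theorem E_zero {T : Type*} (b : List T → T) (n : ℕ) (l : List T) : Es b n (fun _ => (0 : M)) l = 0 := by
  induction n generalizing l with
  | zero => rfl
  | succ n ih =>
    show B (Es b n (fun _ => 0)) l = 0
    rw [show Es b n (fun _ => (0 : M)) = fun _ => 0 from funext ih]
    exact B_zero l

theorem H_zero {T : Type*} (b : List T → T) (n : ℕ) (l : List T) : Hs b n (fun _ => (0 : M)) l = 0 := by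
  induction n generalizing l with
  | zero => rfl
  | succ n ih =>
    show 0 - B (Hs b n (fun _ => 0)) l = 0
    rw [show Hs b n (fun _ => (0 : M)) = fun _ => 0 from funext ih, B_zero, sub_zero]

theorem Sd_zero {T : Type*} (b : List T → T) : Sd b (fun _ => (0 : M)) = fun _ => 0 :=
  funext fun l => E_zero b _ l

theorem Hd_zero {T : Type*} (b : List T → T) : Hd b (fun _ => (0 : M)) = fun _ => 0 :=
  funext fun l => H_zero b _ l

theorem iterate_Sd_zero {T : Type*} (b : List T → T) (j : ℕ) :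
    (Sd b)^[j] (fun _ => (0 : M)) = fun _ => 0 := by
  induction j with
  | zero => rfl
  | succ j ih => rw [Function.iterate_succ_apply, Sd_zero, ih]

/-- subdivision of cochains -/
def sd {n : ℕ} (φ : SingSimplex E n → M) : SingSimplex E n → M := fun s => Sd bary (lc φ s) (vs n)

/-- the homotopy on cochains -/
def hh {n : ℕ} (φ : SingSimplex E (n + 1) → M) : SingSimplex E n → M :=
  fun s => Hd bary (lc φ s) (vs n)

theorem lc_sd {n k : ℕ} (φ : SingSimplex E n → M) (s : SingSimplex E k) :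
    lc (sd φ) s = Sd bary (lc φ s) := by
  funext l
  by_cases h : l.length = n + 1
  · have h1 : lc (sd φ) s l = sd φ (sx ((un s).comp (aff n l))) := by
      unfold lc; rw [if_pos h]
    rw [h1]
    unfold sd
    have h2 : lc φ (sx ((un s).comp (aff n l))) = fun l' => lc φ s (l'.map (aff n l)) := by
      funext l'
      exact lc_comp φ s l l'
    rw [h2, ← Sd_map bary bary (aff n l) (fun l' hl' => aff_bary n l l' hl') (lc φ s) (vs n),
      vs_map n l h]
  · have h1 : lc (sd φ) s l = 0 := by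
      unfold lc; rw [if_neg h]
    rw [h1]
    unfold Sd
    rw [E_congr bary l.length (lc φ s) (fun _ => 0) l, E_zero]
    intro l' hl'
    have := hl'.length bary rfl
    unfold lc
    rw [if_neg (by omega)]

theorem lc_hh {n k : ℕ} (φ : SingSimplex E (n + 1) → M) (s : SingSimplex E k) :
    lc (hh φ) s = Hd bary (lc φ s) := by
  funext l
  by_cases h : l.length = n + 1
  · have h1 : lc (hh φ) s l = hh φ (sx ((un s).comp (aff n l))) := by
      unfold lc; rw [if_pos h]
    rw [h1]
    unfold hh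
    have h2 : lc φ (sx ((un s).comp (aff n l))) = fun l' => lc φ s (l'.map (aff n l)) := by
      funext l'
      exact lc_comp φ s l l'
    rw [h2, ← Hd_map bary bary (aff n l) (fun l' hl' => aff_bary n l l' hl') (lc φ s) (vs n),
      vs_map n l h]
  · have h1 : lc (hh φ) s l = 0 := by
      unfold lc; rw [if_neg h]
    rw [h1]
    unfold Hd
    rw [H_congr bary Set.univ (fun _ _ _ => trivial) l.length (lc φ s) (fun _ => 0) l rfl
      (fun _ _ => trivial), H_zero]
    intro l' hl' _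
    unfold lc
    rw [if_neg (by omega)]

theorem lc_iterate_sd {n k : ℕ} (φ : SingSimplex E n → M) (s : SingSimplex E k) (j : ℕ) :
    lc (sd^[j] φ) s = (Sd bary)^[j] (lc φ s) := by
  induction j generalizing φ with
  | zero => rfl
  | succ j ih => rw [Function.iterate_succ_apply, Function.iterate_succ_apply, ih, lc_sd]

theorem iterate_sd_apply {n : ℕ} (φ : SingSimplex E n → M) (s : SingSimplex E n) (j : ℕ) :
    (sd^[j] φ) s = (Sd bary)^[j] (lc φ s) (vs n) := by
  rw [← lc_iterate_sd, lc_vs]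

/-- subdivision is a cochain map -/
theorem sd_cobdry {n : ℕ} (φ : SingSimplex E n → M) :
    sd (cochainCobdry φ) = cochainCobdry (sd φ) := by
  funext s
  show Sd bary (lc (cochainCobdry φ) s) (vs (n + 1)) = _
  rw [← B_lc, Sd_B, ← lc_sd, B_lc, lc_vs]

theorem iterate_sd_cobdry {n : ℕ} (φ : SingSimplex E n → M) (j : ℕ) :
    sd^[j] (cochainCobdry φ) = cochainCobdry (sd^[j] φ) := by
  induction j generalizing φ with
  | zero => rfl
  | succ j ih => rw [Function.iterate_succ_apply, Function.iterate_succ_apply, sd_cobdry, ih]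

/-- the homotopy formula -/
theorem sub_sd {n : ℕ} (φ : SingSimplex E (n + 1) → M) (s : SingSimplex E (n + 1)) :
    hh (cochainCobdry φ) s + cochainCobdry (hh φ) s = φ s - sd φ s := by
  have h := Hd_B bary (lc φ s) (vs (n + 1))
  rw [lc_vs] at h
  rw [← lc_hh, B_lc, B_lc, lc_vs] at h
  exact h

theorem lc_sub {n k : ℕ} (φ ψ : SingSimplex E n → M) (s : SingSimplex E k) :
    lc (fun t => φ t - ψ t) s = fun l => lc φ s l - lc ψ s l := by
  funext l
  unfold lc
  split_ifs
  · rfl
  · rw [sub_zero]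

theorem sd_sub {n : ℕ} (φ ψ : SingSimplex E n → M) :
    sd (fun t => φ t - ψ t) = fun t => sd φ t - sd ψ t := by
  funext s
  unfold sd
  rw [lc_sub]
  exact E_sub bary _ _ _ _

theorem iterate_sd_sub {n : ℕ} (φ ψ : SingSimplex E n → M) (j : ℕ) :
    sd^[j] (fun t => φ t - ψ t) = fun t => sd^[j] φ t - sd^[j] ψ t := by
  induction j generalizing φ ψ with
  | zero => rfl
  | succ j ih => simp only [Function.iterate_succ_apply, sd_sub, ih]

theorem lc_zero {n k : ℕ} (s : SingSimplex E k) :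
    lc (fun _ : SingSimplex E n => (0 : M)) s = fun _ => 0 := by
  funext l
  unfold lc
  split_ifs <;> rfl

theorem hh_zero {n : ℕ} : hh (fun _ : SingSimplex E (n + 1) => (0 : M)) = fun _ => 0 := by
  funext s
  unfold hh
  rw [lc_zero, Hd_zero]

/-! ### naturality -/

theorem lc_nat {n k : ℕ} (f : C(E, E')) (a : M →+ M') (φ : SingSimplex E n → M)
    (φ' : SingSimplex E' n → M') (h : ∀ s, φ' (psh f s) = a (φ s)) (s : SingSimplex E k) :
    lc φ' (psh f s) = fun l => a (lc φ s l) := by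
  funext l
  unfold lc
  split_ifs
  · rw [← h, psh_sx, un_psh]
    rfl
  · rw [map_zero]

theorem sd_nat {n : ℕ} (f : C(E, E')) (a : M →+ M') (φ : SingSimplex E n → M)
    (φ' : SingSimplex E' n → M') (h : ∀ s, φ' (psh f s) = a (φ s)) (s : SingSimplex E n) :
    sd φ' (psh f s) = a (sd φ s) := by
  unfold sd
  rw [lc_nat f a φ φ' h]
  exact Sd_hom bary a _ _

theorem hh_nat {n : ℕ} (f : C(E, E')) (a : M →+ M') (φ : SingSimplex E (n + 1) → M)
    (φ' : SingSimplex E' (n + 1) → M') (h : ∀ s, φ' (psh f s) = a (φ s)) (s : SingSimplex E n) :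
    hh φ' (psh f s) = a (hh φ s) := by
  unfold hh
  rw [lc_nat f a φ φ' h]
  exact Hd_hom bary a _ _

theorem iterate_sd_nat {n : ℕ} (f : C(E, E')) (a : M →+ M') (φ : SingSimplex E n → M)
    (φ' : SingSimplex E' n → M') (h : ∀ s, φ' (psh f s) = a (φ s)) (j : ℕ) (s : SingSimplex E n) :
    sd^[j] φ' (psh f s) = a (sd^[j] φ s) := by
  induction j generalizing φ φ' with
  | zero => exact h s
  | succ j ih =>
    rw [Function.iterate_succ_apply, Function.iterate_succ_apply]
    exact ih _ _ (fun t => sd_nat f a φ φ' h t)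

/-! ### smallness -/

/-- `s` has image in `A` -/
def InSet {n : ℕ} (A : Set E) (s : SingSimplex E n) : Prop := Set.range (un s) ⊆ A

/-- small simplices -/
def IsSmall {n : ℕ} (𝒰 : Set (Set E)) (s : SingSimplex E n) : Prop := ∃ U ∈ 𝒰, InSet U s

theorem InSet.face {n : ℕ} {A : Set E} {s : SingSimplex E (n + 1)} (h : InSet A s)
    (i : Fin (n + 2)) : InSet A (simplexFace i s) := by
  unfold InSet
  rw [un_face]
  rintro _ ⟨t, rfl⟩
  exact h ⟨_, rfl⟩

theorem IsSmall.face {n : ℕ} {𝒰 : Set (Set E)} {s : SingSimplex E (n + 1)} (h : IsSmall 𝒰 s)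
    (i : Fin (n + 2)) : IsSmall 𝒰 (simplexFace i s) := by
  obtain ⟨U, hU, hs⟩ := h
  exact ⟨U, hU, hs.face i⟩

theorem lc_eq_zero_of_inSet {n k : ℕ} (A : Set E) (φ : SingSimplex E n → M)
    (h : ∀ t, InSet A t → φ t = 0) (s : SingSimplex E k) (hs : InSet A s) :
    lc φ s = fun _ => 0 := by
  funext l
  unfold lc
  split_ifs
  · apply h
    unfold InSet
    rw [un_sx]
    rintro _ ⟨t, rfl⟩
    exact hs ⟨_, rfl⟩
  · rfl

theorem iterate_sd_hh_eq_zero {n : ℕ} (A : Set E) (φ : SingSimplex E (n + 1) → M)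
    (h : ∀ t, InSet A t → φ t = 0) (s : SingSimplex E n) (hs : InSet A s) (j : ℕ) :
    sd^[j] (hh φ) s = 0 := by
  rw [iterate_sd_apply, lc_hh, lc_eq_zero_of_inSet A φ h s hs, Hd_zero, iterate_Sd_zero]

/-- fine subdivisions -/
theorem eventually_sd {n : ℕ} (χ : SingSimplex E n → M) (s : SingSimplex E n) (ε : ℝ) (hε : 0 < ε)
    (h : ∀ l : List (Dn n), l.length = n + 1 → Sml ε l → lc χ s l = 0) :
    ∃ N : ℕ, ∀ j ≥ N, sd^[j] χ s = 0 := by
  have hc : ((n : ℝ)) / (n + 1) < 1 := by
    rw [div_lt_one (by positivity)]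
    linarith
  have h1 : Filter.Tendsto (fun m : ℕ => (((n : ℝ)) / (n + 1)) ^ m) Filter.atTop (nhds 0) :=
    tendsto_pow_atTop_nhds_zero_of_lt_one (by positivity) hc
  obtain ⟨N, hN⟩ := Filter.eventually_atTop.1 (h1.eventually (ge_mem_nhds hε))
  refine ⟨N, fun j hj => ?_⟩
  rw [iterate_sd_apply]
  rw [iterate_Sd_congr (baryProp n n) j (lc χ s) (fun _ => 0) (vs n) (by simp) 1 zero_le_one
    (Sml_vs n _), iterate_Sd_zero]
  intro l' hl' hs
  apply h l' (by rw [hl', length_vs])
  intro x hx y hy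
  refine (hs x hx y hy).trans ?_
  rw [mul_one]
  exact hN j hj

/-- Lebesgue number -/
theorem exists_lebesgue {n : ℕ} (𝒰 : Set (Set E)) (hU : ∀ U ∈ 𝒰, IsOpen U) (hc : ∀ x, ∃ U ∈ 𝒰, x ∈ U)
    (s : SingSimplex E n) :
    ∃ ε > 0, ∀ p : Dn n, ∃ U ∈ 𝒰, ∀ q : Dn n, dist q p ≤ ε → un s q ∈ U := by
  have hcomp : IsCompact (Set.univ : Set (Dn n)) := by
    have : CompactSpace (Dn n) := isCompact_iff_compactSpace.1 (isCompact_stdSimplex ℝ _)
    exact isCompact_univ
  obtain ⟨δ, hδ, h⟩ := lebesgue_number_lemma_of_metric_sUnion (s := (Set.univ : Set (Dn n)))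
    (c := {V | ∃ U ∈ 𝒰, V = un s ⁻¹' U}) hcomp
    (by
      rintro _ ⟨U, hUU, rfl⟩
      exact (hU U hUU).preimage (un s).continuous)
    (by
      intro x _
      obtain ⟨U, hUU, hx⟩ := hc (un s x)
      exact ⟨un s ⁻¹' U, ⟨U, hUU, rfl⟩, hx⟩)
  refine ⟨δ / 2, by positivity, fun p => ?_⟩
  obtain ⟨_, ⟨U, hUU, rfl⟩, hb⟩ := h p trivial
  refine ⟨U, hUU, fun q hq => hb ?_⟩
  rw [Metric.mem_ball]
  linarith

/-- vanishing of the cochain on small simplices, in terms of lists -/
theorem lc_small {n k : ℕ} (𝒰 : Set (Set E)) (φ : SingSimplex E n → M)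
    (h0 : ∀ s, IsSmall 𝒰 s → φ s = 0) (s : SingSimplex E k) (ε : ℝ) (hε : 0 < ε)
    (hs : ∀ p : Dn k, ∃ U ∈ 𝒰, ∀ q : Dn k, dist q p ≤ ε → un s q ∈ U) (p : Dn k)
    (l : List (Dn k)) (hl : ∀ x ∈ l, x ∈ Metric.closedBall p ε) : lc φ s l = 0 := by
  unfold lc
  split_ifs with h
  · apply h0
    obtain ⟨U, hU, hq⟩ := hs p
    refine ⟨U, hU, ?_⟩
    unfold InSet
    rw [un_sx]
    rintro _ ⟨t, rfl⟩
    exact hq _ (dist_aff_le n l h t p ε hε.le hl)
  · rfl

/-- the cochain `ψ = ∑ⱼ sdʲ (hh φ)` -/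
def Psi {n : ℕ} (φ : SingSimplex E (n + 1) → M) : SingSimplex E n → M :=
  fun s => ∑ᶠ j : ℕ, sd^[j] (hh φ) s

theorem Psi_eq {n : ℕ} (φ : SingSimplex E (n + 1) → M) (s : SingSimplex E n) (N : ℕ)
    (h : ∀ j ≥ N, sd^[j] (hh φ) s = 0) :
    Psi φ s = ∑ j ∈ Finset.range N, sd^[j] (hh φ) s := by
  unfold Psi
  apply finsum_eq_sum_of_support_subset
  intro j hj
  rw [Function.mem_support] at hj
  rw [Finset.coe_range, Set.mem_Iio]
  by_contra hc
  exact hj (h j (not_lt.1 hc))

/-- a cocycle which vanishes on small simplices is the coboundary of a cochain which vanishes on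
small simplices.  The cochain `ψ` is natural: it inherits every equivariance of `φ`, and it vanishes
on the simplices of every set `A` on all of whose simplices `φ` vanishes. -/
theorem small_vanish (𝒰 : Set (Set E)) (hU : ∀ U ∈ 𝒰, IsOpen U) (hc : ∀ x, ∃ U ∈ 𝒰, x ∈ U)
    {n : ℕ} (φ : SingSimplex E (n + 1) → M) (hφ : cochainCobdry φ = 0)
    (h0 : ∀ s, IsSmall 𝒰 s → φ s = 0) :
    ∃ ψ : SingSimplex E n → M, cochainCobdry ψ = φ ∧
      (∀ A : Set E, (∀ s, InSet A s → φ s = 0) → ∀ s, InSet A s → ψ s = 0) ∧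
      (∀ s, IsSmall 𝒰 s → ψ s = 0) ∧
      (∀ (f : C(E, E)) (a : M →+ M), (∀ s, φ (psh f s) = a (φ s)) →
        ∀ s, ψ (psh f s) = a (ψ s)) := by
  have ev1 : ∀ s : SingSimplex E n, ∃ N : ℕ, ∀ j ≥ N, sd^[j] (hh φ) s = 0 := by
    intro s
    obtain ⟨ε, hε, hs⟩ := exists_lebesgue 𝒰 hU hc s
    apply eventually_sd (hh φ) s ε hε
    intro l hl hsm
    rw [lc_hh]
    have hne : l ≠ [] := by rintro rfl; simp at hl
    obtain ⟨p, hp⟩ := List.exists_mem_of_ne_nil l hne
    have hK : ∀ x ∈ l, x ∈ Metric.closedBall p ε := fun x hx => hsm x hx p hp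
    unfold Hd
    rw [H_congr bary (Metric.closedBall p ε) (closed_ball_bary p ε) l.length (lc φ s) (fun _ => 0) l
      rfl hK, H_zero]
    intro l' _ hl'
    exact lc_small 𝒰 φ h0 s ε hε hs p l' hl'
  have ev2 : ∀ s : SingSimplex E (n + 1), ∃ N : ℕ, ∀ j ≥ N, sd^[j] φ s = 0 := by
    intro s
    obtain ⟨ε, hε, hs⟩ := exists_lebesgue 𝒰 hU hc s
    apply eventually_sd φ s ε hε
    intro l hl hsm
    have hne : l ≠ [] := by rintro rfl; simp at hl
    obtain ⟨p, hp⟩ := List.exists_mem_of_ne_nil l hne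
    exact lc_small 𝒰 φ h0 s ε hε hs p l fun x hx => hsm x hx p hp
  have hA : ∀ A : Set E, (∀ s, InSet A s → φ s = 0) → ∀ s : SingSimplex E n, InSet A s →
      Psi φ s = 0 := by
    intro A hA s hs
    rw [Psi_eq φ s 0 fun j _ => iterate_sd_hh_eq_zero A φ hA s hs j]
    simp
  refine ⟨Psi φ, ?_, hA, ?_, ?_⟩
  · funext s
    choose N1 hN1 using ev1
    obtain ⟨N2, hN2⟩ := ev2 s
    set N : ℕ := N2 + ∑ i : Fin (n + 2), N1 (simplexFace i s) with hN
    have h1 : ∀ i : Fin (n + 2), Psi φ (simplexFace i s)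
        = ∑ j ∈ Finset.range N, sd^[j] (hh φ) (simplexFace i s) := by
      intro i
      apply Psi_eq
      intro j hj
      apply hN1
      have : N1 (simplexFace i s) ≤ ∑ i : Fin (n + 2), N1 (simplexFace i s) :=
        Finset.single_le_sum (f := fun i : Fin (n + 2) => N1 (simplexFace i s))
          (fun _ _ => Nat.zero_le _) (Finset.mem_univ i)
      omega
    have h2 : cochainCobdry (Psi φ) s = ∑ j ∈ Finset.range N, cochainCobdry (sd^[j] (hh φ)) s := by
      unfold cochainCobdry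
      simp only [h1, Finset.smul_sum]
      rw [Finset.sum_comm]
    have h3 : cochainCobdry (hh φ) = fun t => φ t - sd φ t := by
      funext t
      have := sub_sd φ t
      rw [hφ] at this
      have h4 : hh (0 : SingSimplex E (n + 1 + 1) → M) t = 0 := congrFun hh_zero t
      rw [h4, zero_add] at this
      exact this
    have h5 : ∀ j, cochainCobdry (sd^[j] (hh φ)) s = sd^[j] φ s - sd^[j + 1] φ s := by
      intro j
      rw [← iterate_sd_cobdry, h3, iterate_sd_sub]
      rw [Function.iterate_succ_apply]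
    rw [h2, Finset.sum_congr rfl fun j _ => h5 j, Finset.sum_range_sub']
    rw [hN2 N (by omega)]
    exact sub_zero _
  · rintro s ⟨U, hUU, hs⟩
    exact hA U (fun t ht => h0 t ⟨U, hUU, ht⟩) s hs
  · intro f a hf s
    obtain ⟨N1, h1⟩ := ev1 s
    have h2 : ∀ j, sd^[j] (hh φ) (psh f s) = a (sd^[j] (hh φ) s) := fun j =>
      iterate_sd_nat f a _ _ (fun t => hh_nat f a φ φ hf t) j s
    rw [Psi_eq φ s N1 h1, Psi_eq φ (psh f s) N1 fun j hj => by rw [h2, h1 j hj, map_zero], map_sum]
    exact Finset.sum_congr rfl fun j _ => h2 j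

/-- extension of a cochain which is a cocycle on small simplices -/
theorem extend_small (𝒰 : Set (Set E)) (hU : ∀ U ∈ 𝒰, IsOpen U) (hc : ∀ x, ∃ U ∈ 𝒰, x ∈ U)
    {n : ℕ} (φ₀ : SingSimplex E n → M)
    (h0 : ∀ s : SingSimplex E (n + 1), IsSmall 𝒰 s → cochainCobdry φ₀ s = 0) :
    ∃ φ : SingSimplex E n → M, cochainCobdry φ = 0 ∧
      (∀ A : Set E, (∀ s : SingSimplex E (n + 1), InSet A s → cochainCobdry φ₀ s = 0) →
        ∀ s, InSet A s → φ s = φ₀ s) ∧
      (∀ s, IsSmall 𝒰 s → φ s = φ₀ s) ∧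
      (∀ (f : C(E, E)) (a : M →+ M), (∀ s, φ₀ (psh f s) = a (φ₀ s)) →
        ∀ s, φ (psh f s) = a (φ s)) := by
  have hdd : cochainCobdry (cochainCobdry φ₀) = 0 := by
    funext s
    have h := B_B (lc φ₀ s) (vs (n + 1 + 1))
    rw [B_lc, B_lc, lc_vs] at h
    exact h
  obtain ⟨ψ, h1, h2, h3, h4⟩ := small_vanish 𝒰 hU hc (cochainCobdry φ₀) hdd h0
  refine ⟨fun s => φ₀ s - ψ s, ?_, ?_, ?_, ?_⟩
  · rw [cobdry_sub, h1]
    funext s
    exact sub_self _
  · intro A hA s hs
    show φ₀ s - ψ s = φ₀ s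
    rw [h2 A hA s hs, sub_zero]
  · intro s hs
    show φ₀ s - ψ s = φ₀ s
    rw [h3 s hs, sub_zero]
  · intro f a hf s
    show φ₀ (psh f s) - ψ (psh f s) = a (φ₀ s - ψ s)
    rw [hf, map_sub, h4 f a]
    intro t
    rw [cobdry_psh]
    rw [show (fun t => φ₀ (psh f t)) = fun t => a (φ₀ t) from funext hf]
    exact cobdry_hom a φ₀ t

theorem cobdry_cobdry {n : ℕ} (φ : SingSimplex E n → M) : cochainCobdry (cochainCobdry φ) = 0 := by
  funext s
  have h := B_B (lc φ s) (vs (n + 1 + 1))
  rw [B_lc, B_lc, lc_vs] at h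
  exact h

end

end Crest.Agent.R251.Sm
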