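import Crest.Agent.R251.LB972b
import Crest.Agent.R251.Sm82C

/-!
# R251 (S0388), block LB (helper972): Lemma B without hypotheses

`SmallVanish` from helper82's `small_vanish`; `lemmaB'` (all `n`), `exists_uB` (`n = 2`, with the
value on the closed cells).
-/

set_option autoImplicit false

noncomputable section

open CategoryTheory Simplicial Opposite Set
open Crest.GeometryTopology.DeckCochains
open Crest.Agent.R251.PC
open scoped unitInterval

namespace Crest.Agent.R251.LB

section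

variable {G E : Type} [Group G] [TopologicalSpace E] [MulAction G E] [ContinuousConstSMul G E]
variable {M : Type} [AddCommGroup M] [DistribMulAction G M]

/-- C1 in the form used by `lemmaB` -/
theorem smallVanish (U : Set (Set E)) (hU : ∀ V ∈ U, IsOpen V) (hc : ⋃₀ U = univ) (n : ℕ) :
    SmallVanish G E M n U := by
  intro φ hφ heq h0
  obtain ⟨ψ, h1, -, h3, h4⟩ := Sm.small_vanish U hU
    (fun x => by
      have : x ∈ ⋃₀ U := hc ▸ mem_univ x
      exact this) φ hφ h0
  refine ⟨ψ, h1, fun g s => ?_, h3⟩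
  exact h4 ((Homeomorph.smul g : E ≃ₜ E) : C(E, E)) (DistribSMul.toAddMonoidHom M g)
    (fun s => heq g s) s

variable {J B : Type} [TopologicalSpace B]

/-- **Lemma B**, all degrees -/
theorem lemmaB' (K : Cells G E J B) {n : ℕ} (w0 : SingSimplex B n → ℤ) (b : J → M)
    (hw0 : cochainCobdry w0 = 0) (hw : ∀ τ : C(Dn n, B), K.c0 ∉ range τ → w0 (sx τ) = 0) :
    ∃ u : SingSimplex E n → M, cochainCobdry u = 0 ∧
      (∀ (g : G) (s : SingSimplex E n), u (tr g s) = g • u s) ∧
      (∀ s : SingSimplex E n, range (un s) ⊆ K.ctrᶜ → u s = 0) ∧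
      (∀ (g : G) (j : J) (τ : C(Dn n, B)),
        u (sx ((K.chart g j).comp τ)) = w0 (sx τ) • (g • b j)) :=
  lemmaB K w0 b (smallVanish K.cov K.cov_open K.cov_univ n) hw0 hw

/-- **Lemma B for 2-cells**, with the value on the closed cells: `w0` is the winding 2-cocycle on
the open square `B 2`. -/
theorem exists_uB (K : Cells G E J B2) (hc0 : K.c0 = b0) (w0 : SingSimplex B2 2 → ℤ)
    (hw0 : cochainCobdry w0 = 0) (hw : ∀ τ : C(Dn 2, B2), b0 ∉ range τ → w0 (sx τ) = 0)
    (hw1 : w0 (sx lowB) - w0 (sx upB) = 1) (b : J → M) :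
    ∃ u : SingSimplex E 2 → M, cochainCobdry u = 0 ∧
      (∀ (g : G) (s : SingSimplex E 2), u (tr g s) = g • u s) ∧
      (∀ s : SingSimplex E 2, range (un s) ⊆ K.ctrᶜ → u s = 0) ∧
      (∀ (g : G) (j : J) (f : C(I × I, E)),
        (∀ (s : I × I) (x : B2), (x : Fin 2 → ℝ) = ![2 * (s.1 : ℝ) - 1, 2 * (s.2 : ℝ) - 1] →
          f s = K.chart g j x) →
        (∀ s : I × I, ¬ inSq s → f s ∉ K.ctr) → ar u f = g • b j) := by
  obtain ⟨u, h1, h2, h3, h4⟩ := lemmaB' K w0 b hw0 (by rw [hc0]; exact hw)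
  exact ⟨u, h1, h2, h3, fun g j f hf hb => ar_value K hc0 w0 hw1 b u h1 h3 h4 g j f hf hb⟩

end

end Crest.Agent.R251.LB
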