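import Mathlib
import Crest.Prelude.Def_DeckCochains
import Crest.Agent.R185.Att1

/-! Row 251, block OM (helper239): the integral winding 2-cocycle `omegaP` on the plane, its
restriction `w2` to the open square `B 2`, and the 1-cocycle `w1` on the open interval `B 1`.
`homotopy_principle`, `log_step`, `exists_log` are copied from `R123/HopfLift.lean`. -/

set_option autoImplicit false

open CategoryTheory Simplicial Opposite
open Crest.GeometryTopology.DeckCochains

namespace Crest.Agent.R251.Om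

noncomputable section

/-! ### logarithms on contractible compact spaces (from R123/HopfLift) -/

/-- If `K` is contractible and `P` is a property of maps `K → M` which holds for constant maps
and which is locally constant along homotopies, then it holds for all maps. -/
theorem homotopy_principle {K : Type} [TopologicalSpace K] [CompactSpace K] [ContractibleSpace K]
    {M : Type*} [PseudoMetricSpace M] (P : C(K, M) → Prop) (s : C(K, M))
    (hconst : ∀ x : K, P (ContinuousMap.const K (s x)))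
    (hloc : ∀ Γ : C(unitInterval, C(K, M)), (∀ t x, Γ t x ∈ Set.range s) →
      ∀ t, ∀ᶠ t' in nhds t, P (Γ t') ↔ P (Γ t)) : P s := by
  obtain ⟨y, ⟨H⟩⟩ := id_nullhomotopic K
  let H' : C(unitInterval × K, M) := s.comp H.toContinuousMap
  let Γ : C(unitInterval, C(K, M)) := H'.curry
  have hΓ : ∀ t x, Γ t x = s (H (t, x)) := fun t x => rfl
  have h0 : Γ 0 = s := by
    ext x
    rw [hΓ, H.apply_zero]
    rfl
  have h1 : Γ 1 = ContinuousMap.const K (s y) := by
    ext x
    rw [hΓ, H.apply_one]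
    rfl
  have hlc : IsLocallyConstant (fun t : unitInterval => P (Γ t)) := by
    rw [IsLocallyConstant.iff_eventually_eq]
    intro t
    filter_upwards [hloc Γ (fun t x => ⟨_, (hΓ t x).symm⟩) t] with t' ht'
    exact propext ht'
  have := hlc.apply_eq_of_preconnectedSpace 0 1
  simp only [h0, h1] at this
  rw [this]
  exact hconst y

/-! ### logarithms -/

theorem log_step {K : Type} [TopologicalSpace K] (g g' : C(K, ℂ))
    (hg : ∀ x, g x ≠ 0) (hgg' : ∀ x, ‖g' x - g x‖ < ‖g x‖)
    (h : ∃ l : C(K, ℂ), ∀ x, Complex.exp (l x) = g x) :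
    ∃ l : C(K, ℂ), ∀ x, Complex.exp (l x) = g' x := by
  obtain ⟨l, hl⟩ := h
  have hslit : ∀ x, g' x / g x ∈ Complex.slitPlane := by
    intro x
    have h1 : g' x / g x = 1 + (g' x - g x) / g x := by
      field_simp [hg x]
      ring
    rw [h1]
    apply Complex.mem_slitPlane_of_norm_lt_one
    rw [norm_div, div_lt_one (norm_pos_iff.2 (hg x))]
    exact hgg' x
  refine ⟨⟨fun x => l x + Complex.log (g' x / g x), ?_⟩, ?_⟩
  · refine l.continuous.add (Continuous.clog ?_ hslit)
    exact g'.continuous.div g.continuous hg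
  · intro x
    show Complex.exp (l x + Complex.log (g' x / g x)) = g' x
    rw [Complex.exp_add, Complex.exp_log, hl x]
    · field_simp [hg x]
    · exact Complex.slitPlane_ne_zero (hslit x)

theorem exists_log {K : Type} [TopologicalSpace K] [CompactSpace K] [ContractibleSpace K]
    (r : C(K, ℂ)) (hr : ∀ x, r x ≠ 0) : ∃ l : C(K, ℂ), ∀ x, Complex.exp (l x) = r x := by
  have hne : Nonempty K := inferInstance
  refine homotopy_principle (fun g => ∃ l : C(K, ℂ), ∀ x, Complex.exp (l x) = g x) r ?_ ?_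
  · intro y
    exact ⟨ContinuousMap.const K (Complex.log (r y)), fun x => Complex.exp_log (hr y)⟩
  · intro Γ hΓ t
    have hnz : ∀ t x, Γ t x ≠ 0 := by
      intro t x
      obtain ⟨y, hy⟩ := hΓ t x
      rw [← hy]
      exact hr y
    obtain ⟨x₀, -, hx₀⟩ := isCompact_univ.exists_isMinOn (Set.univ_nonempty (α := K))
      ((Γ t).continuous.norm.continuousOn)
    set m : ℝ := ‖Γ t x₀‖ with hm
    have hmpos : 0 < m := norm_pos_iff.2 (hnz t x₀)
    have hmle : ∀ x, m ≤ ‖Γ t x‖ := fun x => hx₀ (Set.mem_univ x)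
    have hcont : Filter.Tendsto Γ (nhds t) (nhds (Γ t)) := Γ.continuous.tendsto t
    have hball := hcont.eventually (Metric.ball_mem_nhds (Γ t) (half_pos hmpos))
    filter_upwards [hball] with t' ht'
    have hd : ∀ x, ‖Γ t' x - Γ t x‖ < m / 2 := by
      intro x
      have h1 : dist (Γ t' x) (Γ t x) ≤ dist (Γ t') (Γ t) :=
        ContinuousMap.dist_apply_le_dist x
      rw [← dist_eq_norm]
      exact lt_of_le_of_lt h1 ht'
    constructor
    · intro h
      refine log_step (Γ t') (Γ t) (hnz t') ?_ h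
      intro x
      have h1 := hd x
      have h2 := hmle x
      have h3 : ‖Γ t x‖ ≤ ‖Γ t' x‖ + ‖Γ t' x - Γ t x‖ := by
        have := norm_sub_le (Γ t' x) (Γ t' x - Γ t x)
        simpa using this
      rw [norm_sub_rev]
      linarith
    · intro h
      refine log_step (Γ t) (Γ t') (hnz t) ?_ h
      intro x
      have h1 := hd x
      have h2 := hmle x
      linarith

/-! ### simplices -/

/-- the standard simplex -/
abbrev Dl (n : ℕ) : Type := stdSimplex ℝ (Fin (n + 1))

instance (n : ℕ) : ContractibleSpace (Dl n) :=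
  (convex_stdSimplex ℝ (Fin (n + 1))).contractibleSpace ⟨_, single_mem_stdSimplex ℝ 0⟩

instance (n : ℕ) : CompactSpace (Dl n) := isCompact_iff_compactSpace.1 (isCompact_stdSimplex _ _)

variable {E E' : Type} [TopologicalSpace E] [TopologicalSpace E']

/-- singular simplex of a continuous map -/
def mk {n : ℕ} (σ : C(Dl n, E)) : SingSimplex E n :=
  (TopCat.toSSetObjEquiv (TopCat.of E) (op ⦋n⦌)).symm σ

/-- continuous map of a singular simplex -/
def mp {n : ℕ} (s : SingSimplex E n) : C(Dl n, E) :=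
  TopCat.toSSetObjEquiv (TopCat.of E) (op ⦋n⦌) s

@[simp] theorem mk_mp {n : ℕ} (s : SingSimplex E n) : mk (mp s) = s := Equiv.symm_apply_apply _ _
@[simp] theorem mp_mk {n : ℕ} (σ : C(Dl n, E)) : mp (mk σ) = σ := Equiv.apply_symm_apply _ _

/-- face inclusions -/
def fc {n : ℕ} (i : Fin (n + 2)) : C(Dl n, Dl (n + 1)) :=
  ⟨stdSimplex.map i.succAbove, stdSimplex.continuous_map _⟩

theorem face_mk {n : ℕ} (σ : C(Dl (n + 1), E)) (i : Fin (n + 2)) :
    simplexFace i (mk σ) = mk (σ.comp (fc i)) := rfl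

@[simp] theorem mp_face {n : ℕ} (s : SingSimplex E (n + 1)) (i : Fin (n + 2)) :
    mp (simplexFace i s) = (mp s).comp (fc i) := rfl

/-- vertices -/
abbrev vx {n : ℕ} (i : Fin (n + 1)) : Dl n := stdSimplex.vertex i

@[simp] theorem fc_vx {n : ℕ} (i : Fin (n + 2)) (k : Fin (n + 1)) : fc i (vx k) = vx (i.succAbove k) :=
  stdSimplex.map_vertex _ _

/-- push forward -/
def pu {n : ℕ} (f : C(E, E')) (s : SingSimplex E n) : SingSimplex E' n := mk (f.comp (mp s))

theorem face_pu {n : ℕ} (f : C(E, E')) (s : SingSimplex E (n + 1)) (i : Fin (n + 2)) :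
    simplexFace i (pu f s) = pu f (simplexFace i s) := rfl

theorem face_face {n : ℕ} (s : SingSimplex E (n + 2)) (j j' : Fin (n + 3)) (i i' : Fin (n + 2))
    (h : ∀ k : Fin (n + 1), j.succAbove (i.succAbove k) = j'.succAbove (i'.succAbove k)) :
    simplexFace i (simplexFace j s) = simplexFace i' (simplexFace j' s) := by
  have e : (fc j).comp (fc i) = (fc j').comp (fc (n := n) i') := by
    ext x : 1
    show stdSimplex.map _ (stdSimplex.map _ x) = stdSimplex.map _ (stdSimplex.map _ x)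
    rw [stdSimplex.map_comp_apply, stdSimplex.map_comp_apply]
    congr 1
    exact funext h
  show mk (((mp s).comp (fc j)).comp (fc i)) = mk (((mp s).comp (fc j')).comp (fc i'))
  rw [ContinuousMap.comp_assoc, ContinuousMap.comp_assoc, e]

theorem cobdry_pu {M : Type*} [AddCommGroup M] {n : ℕ} (f : C(E, E')) (φ : SingSimplex E' n → M)
    (s : SingSimplex E (n + 1)) :
    cochainCobdry (fun t : SingSimplex E n => φ (pu f t)) s = cochainCobdry φ (pu f s) := rfl

theorem cobdry1 {M : Type*} [AddCommGroup M] (φ : SingSimplex E 1 → M) (s : SingSimplex E 2) :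
    cochainCobdry φ s = φ (simplexFace 0 s) - φ (simplexFace 1 s) + φ (simplexFace 2 s) := by
  show ∑ i : Fin 3, ((-1 : ℤ) ^ (i : ℕ)) • φ (simplexFace i s) = _
  rw [Fin.sum_univ_three]
  simp
  abel

theorem cobdry2 {M : Type*} [AddCommGroup M] (φ : SingSimplex E 2 → M) (s : SingSimplex E 3) :
    cochainCobdry φ s = φ (simplexFace 0 s) - φ (simplexFace 1 s) + φ (simplexFace 2 s) -
      φ (simplexFace 3 s) := by
  show ∑ i : Fin 4, ((-1 : ℤ) ^ (i : ℕ)) • φ (simplexFace i s) = _
  rw [Fin.sum_univ_four]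
  simp [pow_succ]
  abel

theorem cobdry_cobdry1 {M : Type*} [AddCommGroup M] (φ : SingSimplex E 1 → M) :
    cochainCobdry (cochainCobdry φ) = 0 := by
  funext s
  rw [cobdry2, cobdry1, cobdry1, cobdry1, cobdry1]
  rw [face_face s 1 0 0 0 (by decide), face_face s 2 0 0 1 (by decide),
    face_face s 3 0 0 2 (by decide), face_face s 2 1 1 1 (by decide),
    face_face s 3 1 1 2 (by decide), face_face s 3 2 2 2 (by decide)]
  simp
  abel

/-! ### the winding cochain -/

open Complex (exp log I)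

theorem exists_kap (z : ℂ) : ∃ n : ℤ, z = log (exp z) + n * (2 * Real.pi * I) :=
  (Complex.exp_eq_exp_iff_exists_int).1 (Complex.exp_log (Complex.exp_ne_zero z)).symm

/-- the sheet number -/
def kap (z : ℂ) : ℤ := (exists_kap z).choose

theorem kap_spec (z : ℂ) : z = log (exp z) + kap z * (2 * Real.pi * I) := (exists_kap z).choose_spec

theorem kap_unique {z : ℂ} {n : ℤ} (h : z = log (exp z) + n * (2 * Real.pi * I)) : kap z = n := by
  have h1 := kap_spec z
  have h2 : (kap z : ℂ) * (2 * Real.pi * I) = n * (2 * Real.pi * I) := by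
    have := h1.symm.trans h
    exact add_left_cancel this
  have h3 := mul_right_cancel₀ Complex.two_pi_I_ne_zero h2
  exact_mod_cast h3

theorem kap_add (z : ℂ) (n : ℤ) : kap (z + n * (2 * Real.pi * I)) = kap z + n := by
  apply kap_unique
  have h : exp (z + n * (2 * Real.pi * I)) = exp z := Complex.exp_periodic.int_mul n z
  rw [h]
  conv_lhs => rw [kap_spec z]
  push_cast
  ring

theorem kap_zero {z : ℂ} (h1 : -Real.pi < z.im) (h2 : z.im ≤ Real.pi) : kap z = 0 := by
  apply kap_unique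
  rw [Complex.log_exp h1 h2]
  simp

theorem kap_log (z : ℂ) : kap (log z) = 0 :=
  kap_zero (Complex.neg_pi_lt_log_im z) (Complex.log_im_le_pi z)

/-- lifts through `exp` -/
def Lf {n : ℕ} (s : SingSimplex ℂ n) (L : C(Dl n, ℂ)) : Prop := ∀ x, exp (L x) = mp s x

theorem Lf.face {n : ℕ} {s : SingSimplex ℂ (n + 1)} {L : C(Dl (n + 1), ℂ)} (h : Lf s L)
    (i : Fin (n + 2)) : Lf (simplexFace i s) (L.comp (fc i)) := fun x => h (fc i x)

theorem exists_Lf {n : ℕ} (s : SingSimplex ℂ n) (h : ∀ x, mp s x ≠ 0) : ∃ L, Lf s L :=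
  exists_log (mp s) h

theorem Lf.diff {s : SingSimplex ℂ 1} {L L' : C(Dl 1, ℂ)} (h : Lf s L) (h' : Lf s L') (x y : Dl 1) :
    kap (L x) - kap (L y) = kap (L' x) - kap (L' y) := by
  have h1 : ∀ x, ∃ n : ℤ, L' x = L x + n * (2 * Real.pi * I) := fun x =>
    (Complex.exp_eq_exp_iff_exists_int).1 ((h' x).trans (h x).symm)
  choose N hN using h1
  have hc : Continuous fun x => (N x : ℂ) := by
    have : (fun x => (N x : ℂ)) = fun x => (L' x - L x) / (2 * Real.pi * I) := by
      funext x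
      rw [hN x, add_sub_cancel_left, mul_div_cancel_right₀ _ Complex.two_pi_I_ne_zero]
    rw [this]
    exact (L'.continuous.sub L.continuous).div_const _
  have hc' : Continuous N := by
    have h2 : Topology.IsClosedEmbedding (fun n : ℤ => (n : ℂ)) := by
      have := Complex.isometry_intCast.isClosedEmbedding
      exact this
    exact (h2.isEmbedding.continuous_iff).2 hc
  have hN' : ∀ x y, N x = N y := by
    intro x y
    exact PreconnectedSpace.constant (inferInstance : PreconnectedSpace (Dl 1)) hc'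
  have h3 : ∀ x, kap (L' x) = kap (L x) + N x := fun x => by rw [hN x, kap_add]
  rw [h3, h3, hN' x y]
  ring

open Classical in
/-- the winding 1-cochain -/
def theta (s : SingSimplex ℂ 1) : ℤ :=
  if h : ∃ L, Lf s L then kap (h.choose (vx 1)) - kap (h.choose (vx 0)) else 0

theorem theta_eq {s : SingSimplex ℂ 1} {L : C(Dl 1, ℂ)} (h : Lf s L) :
    theta s = kap (L (vx 1)) - kap (L (vx 0)) := by
  have h' : ∃ L, Lf s L := ⟨L, h⟩
  unfold theta
  rw [dif_pos h']
  exact h'.choose_spec.diff h _ _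

/-- the winding 2-cocycle -/
def omega : SingSimplex ℂ 2 → ℤ := cochainCobdry theta

theorem omega_cocycle : cochainCobdry omega = 0 := cobdry_cobdry1 theta

theorem omega_zero (s : SingSimplex ℂ 2) (h : ∀ x, mp s x ≠ 0) : omega s = 0 := by
  obtain ⟨L, hL⟩ := exists_Lf s h
  unfold omega
  rw [cobdry1, theta_eq (hL.face 0), theta_eq (hL.face 1), theta_eq (hL.face 2)]
  simp only [ContinuousMap.comp_apply, fc_vx]
  rw [show (0 : Fin 3).succAbove (1 : Fin 2) = 2 by decide,
    show (0 : Fin 3).succAbove (0 : Fin 2) = 1 by decide,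
    show (1 : Fin 3).succAbove (1 : Fin 2) = 2 by decide,
    show (1 : Fin 3).succAbove (0 : Fin 2) = 0 by decide,
    show (2 : Fin 3).succAbove (1 : Fin 2) = 1 by decide,
    show (2 : Fin 3).succAbove (0 : Fin 2) = 0 by decide]
  ring

/-! ### values on affine triangles -/

theorem fc_apply {n : ℕ} (i : Fin (n + 2)) (x : Dl n) (y : Fin (n + 2)) :
    (fc i x : Dl (n + 1)).1 y = ∑ j : Fin (n + 1), if i.succAbove j = y then x.1 j else 0 := by
  show FunOnFinite.linearMap ℝ ℝ (Fin.succAbove i) x.1 y = _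
  rw [FunOnFinite.linearMap_apply_apply, Finset.sum_filter]

/-- affine segment -/
def seg (p q : ℂ) : C(Dl 1, ℂ) := ⟨fun x => (x.1 0 : ℂ) * p + (x.1 1 : ℂ) * q, by
    have h : ∀ i : Fin 2, Continuous fun x : Dl 1 => x.1 i := fun i =>
      (continuous_apply i).comp continuous_subtype_val
    exact ((Complex.continuous_ofReal.comp (h 0)).mul continuous_const).add
      ((Complex.continuous_ofReal.comp (h 1)).mul continuous_const)⟩

/-- affine triangle -/
def tri (p q r : ℂ) : C(Dl 2, ℂ) :=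
  ⟨fun x => (x.1 0 : ℂ) * p + (x.1 1 : ℂ) * q + (x.1 2 : ℂ) * r, by
    have h : ∀ i : Fin 3, Continuous fun x : Dl 2 => x.1 i := fun i =>
      (continuous_apply i).comp continuous_subtype_val
    exact (((Complex.continuous_ofReal.comp (h 0)).mul continuous_const).add
      ((Complex.continuous_ofReal.comp (h 1)).mul continuous_const)).add
      ((Complex.continuous_ofReal.comp (h 2)).mul continuous_const)⟩

theorem tri_face0 (p q r : ℂ) : simplexFace 0 (mk (tri p q r)) = mk (seg q r) := by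
  rw [face_mk]
  congr 1
  ext x : 1
  show ((fc 0 x).1 0 : ℂ) * p + ((fc 0 x).1 1 : ℂ) * q + ((fc 0 x).1 2 : ℂ) * r =
    (x.1 0 : ℂ) * q + (x.1 1 : ℂ) * r
  rw [fc_apply, fc_apply, fc_apply, Fin.sum_univ_two, Fin.sum_univ_two, Fin.sum_univ_two]
  simp [Fin.succAbove, Fin.ext_iff]

theorem tri_face1 (p q r : ℂ) : simplexFace 1 (mk (tri p q r)) = mk (seg p r) := by
  rw [face_mk]
  congr 1
  ext x : 1
  show ((fc 1 x).1 0 : ℂ) * p + ((fc 1 x).1 1 : ℂ) * q + ((fc 1 x).1 2 : ℂ) * r =
    (x.1 0 : ℂ) * p + (x.1 1 : ℂ) * r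
  rw [fc_apply, fc_apply, fc_apply, Fin.sum_univ_two, Fin.sum_univ_two, Fin.sum_univ_two]
  simp [Fin.succAbove, Fin.ext_iff]

theorem tri_face2 (p q r : ℂ) : simplexFace 2 (mk (tri p q r)) = mk (seg p q) := by
  rw [face_mk]
  congr 1
  ext x : 1
  show ((fc 2 x).1 0 : ℂ) * p + ((fc 2 x).1 1 : ℂ) * q + ((fc 2 x).1 2 : ℂ) * r =
    (x.1 0 : ℂ) * p + (x.1 1 : ℂ) * q
  rw [fc_apply, fc_apply, fc_apply, Fin.sum_univ_two, Fin.sum_univ_two, Fin.sum_univ_two]
  simp [Fin.succAbove, Fin.ext_iff]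

theorem dl_sum (x : Dl 1) : x.1 0 + x.1 1 = 1 := by
  have := x.2.2
  rwa [Fin.sum_univ_two] at this

theorem dl_nonneg {n : ℕ} (x : Dl n) (i : Fin (n + 1)) : 0 ≤ x.1 i := x.2.1 i

/-- paths in the slit plane have winding value 0 -/
theorem theta_slit (s : SingSimplex ℂ 1) (h : ∀ x, mp s x ∈ Complex.slitPlane) : theta s = 0 := by
  have hL : Lf s ⟨fun x => log (mp s x), (mp s).continuous.clog h⟩ := fun x =>
    Complex.exp_log (Complex.slitPlane_ne_zero (h x))
  rw [theta_eq hL]
  show kap (log _) - kap (log _) = 0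
  rw [kap_log, kap_log, sub_zero]

theorem seg_re (p q : ℂ) (x : Dl 1) : (seg p q x).re = x.1 0 * p.re + x.1 1 * q.re := by
  show ((x.1 0 : ℂ) * p + (x.1 1 : ℂ) * q).re = _
  simp

theorem seg_im (p q : ℂ) (x : Dl 1) : (seg p q x).im = x.1 0 * p.im + x.1 1 * q.im := by
  show ((x.1 0 : ℂ) * p + (x.1 1 : ℂ) * q).im = _
  simp

/-- the crossing of the negative real axis -/
theorem theta_neg (r : ℝ) (hr : 0 < r) : theta (mk (seg ⟨-r, -r⟩ ⟨-r, r⟩)) = -1 := by
  have hs : ∀ x : Dl 1, -seg ⟨-r, -r⟩ ⟨-r, r⟩ x ∈ Complex.slitPlane := by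
    intro x
    left
    rw [Complex.neg_re, seg_re]
    have := dl_sum x
    simp only
    nlinarith
  have hL : Lf (mk (seg ⟨-r, -r⟩ ⟨-r, r⟩))
      ⟨fun x => log (-seg ⟨-r, -r⟩ ⟨-r, r⟩ x) + Real.pi * I,
        ((seg ⟨-r, -r⟩ ⟨-r, r⟩).continuous.neg.clog hs).add continuous_const⟩ := by
    intro x
    show exp (log (-seg ⟨-r, -r⟩ ⟨-r, r⟩ x) + Real.pi * I) = seg ⟨-r, -r⟩ ⟨-r, r⟩ x
    rw [Complex.exp_add, Complex.exp_log (Complex.slitPlane_ne_zero (hs x)), Complex.exp_pi_mul_I]
    ring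
  rw [theta_eq hL]
  have h1 : seg ⟨-r, -r⟩ ⟨-r, r⟩ (vx 1) = ⟨-r, r⟩ := by
    apply Complex.ext
    · rw [seg_re]; simp
    · rw [seg_im]; simp
  have h0 : seg ⟨-r, -r⟩ ⟨-r, r⟩ (vx 0) = ⟨-r, -r⟩ := by
    apply Complex.ext
    · rw [seg_re]; simp
    · rw [seg_im]; simp
  show kap (log (-seg ⟨-r, -r⟩ ⟨-r, r⟩ (vx 1)) + Real.pi * I) -
    kap (log (-seg ⟨-r, -r⟩ ⟨-r, r⟩ (vx 0)) + Real.pi * I) = -1
  rw [h1, h0]
  have ha1 : (log (-(⟨-r, r⟩ : ℂ))).im < 0 := by
    rw [Complex.log_im, Complex.arg_neg_iff]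
    simpa using hr
  have ha0 : 0 < (log (-(⟨-r, -r⟩ : ℂ))).im := by
    rw [Complex.log_im]
    have h2 : 0 ≤ (-(⟨-r, -r⟩ : ℂ)).im := by simpa using hr.le
    have h3 := Complex.arg_nonneg_iff.2 h2
    refine lt_of_le_of_ne h3 fun h4 => ?_
    have h5 := Complex.arg_eq_zero_iff.1 h4.symm
    have : (-(⟨-r, -r⟩ : ℂ)).im = r := by simp
    rw [this] at h5
    linarith [h5.2]
  have hk1 : kap (log (-(⟨-r, r⟩ : ℂ)) + Real.pi * I) = 0 := by
    apply kap_zero
    · have := Complex.neg_pi_lt_log_im (-(⟨-r, r⟩ : ℂ))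
      simp only [Complex.add_im, Complex.mul_im, Complex.ofReal_re, Complex.I_im, mul_one,
        Complex.ofReal_im, Complex.I_re, mul_zero, add_zero]
      linarith [Real.pi_pos]
    · simp only [Complex.add_im, Complex.mul_im, Complex.ofReal_re, Complex.I_im, mul_one,
        Complex.ofReal_im, Complex.I_re, mul_zero, add_zero]
      linarith
  have hk0 : kap (log (-(⟨-r, -r⟩ : ℂ)) + Real.pi * I) = 1 := by
    have h6 : log (-(⟨-r, -r⟩ : ℂ)) + Real.pi * I =
        (log (-(⟨-r, -r⟩ : ℂ)) - Real.pi * I) + ((1 : ℤ) : ℂ) * (2 * Real.pi * I) := by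
      push_cast
      ring
    rw [h6, kap_add, kap_zero]
    · rfl
    · simp only [Complex.sub_im, Complex.mul_im, Complex.ofReal_re, Complex.I_im, mul_one,
        Complex.ofReal_im, Complex.I_re, mul_zero, add_zero]
      linarith
    · have := Complex.log_im_le_pi (-(⟨-r, -r⟩ : ℂ))
      simp only [Complex.sub_im, Complex.mul_im, Complex.ofReal_re, Complex.I_im, mul_one,
        Complex.ofReal_im, Complex.I_re, mul_zero, add_zero]
      linarith [Real.pi_pos]
  rw [hk1, hk0]
  norm_num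

/-- the value of the winding cocycle on the square `[-r, r]²` -/
theorem omega_sq (r : ℝ) (hr : 0 < r) :
    omega (mk (tri ⟨-r, -r⟩ ⟨r, -r⟩ ⟨r, r⟩)) - omega (mk (tri ⟨-r, -r⟩ ⟨-r, r⟩ ⟨r, r⟩)) = 1 := by
  unfold omega
  rw [cobdry1, cobdry1, tri_face0, tri_face1, tri_face2, tri_face0, tri_face1, tri_face2,
    theta_neg r hr]
  have h1 : theta (mk (seg ⟨r, -r⟩ ⟨r, r⟩)) = 0 := by
    apply theta_slit
    intro x
    left
    rw [mp_mk, seg_re]
    have := dl_sum x
    simp only
    nlinarith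
  have h2 : theta (mk (seg ⟨-r, -r⟩ ⟨r, -r⟩)) = 0 := by
    apply theta_slit
    intro x
    right
    rw [mp_mk, seg_im]
    have := dl_sum x
    simp only
    nlinarith
  have h3 : theta (mk (seg ⟨-r, r⟩ ⟨r, r⟩)) = 0 := by
    apply theta_slit
    intro x
    right
    rw [mp_mk, seg_im]
    have := dl_sum x
    simp only
    nlinarith
  rw [h1, h2, h3]
  ring

/-! ### the plane with the sup norm and the open square -/

open Crest.Agent.R185.Att (B)

/-- the plane -/
abbrev P : Type := Fin 2 → ℝ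

/-- the plane as `ℂ` -/
def toC : C(P, ℂ) := ⟨fun x => (x 0 : ℂ) + (x 1 : ℂ) * I, by fun_prop⟩

theorem toC_apply (x : P) : toC x = ⟨x 0, x 1⟩ := by
  show (x 0 : ℂ) + (x 1 : ℂ) * I = ⟨x 0, x 1⟩
  exact (Complex.mk_eq_add_mul_I _ _).symm

theorem toC_eq_zero {x : P} (h : toC x = 0) : x = 0 := by
  rw [toC_apply] at h
  have h0 := congrArg Complex.re h
  have h1 := congrArg Complex.im h
  simp only [Complex.zero_re, Complex.zero_im] at h0 h1
  funext i
  fin_cases i
  · exact h0
  · exact h1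

/-- affine triangle in the plane -/
def triP (p q r : P) : C(Dl 2, P) :=
  ⟨fun x => x.1 0 • p + x.1 1 • q + x.1 2 • r, by
    have h : ∀ i : Fin 3, Continuous fun x : Dl 2 => x.1 i := fun i =>
      (continuous_apply i).comp continuous_subtype_val
    exact (((h 0).smul continuous_const).add ((h 1).smul continuous_const)).add
      ((h 2).smul continuous_const)⟩

theorem toC_triP (p q r : P) : toC.comp (triP p q r) = tri (toC p) (toC q) (toC r) := by
  ext x : 1
  show toC (x.1 0 • p + x.1 1 • q + x.1 2 • r) =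
    (x.1 0 : ℂ) * toC p + (x.1 1 : ℂ) * toC q + (x.1 2 : ℂ) * toC r
  simp only [toC_apply]
  apply Complex.ext <;> simp

/-- the integral winding 2-cocycle on the plane -/
def omegaP (s : SingSimplex P 2) : ℤ := omega (pu toC s)

theorem omegaP_cocycle : cochainCobdry omegaP = 0 := by
  funext s
  exact (cobdry_pu toC omega s).trans (congrFun omega_cocycle _)

theorem omegaP_zero (s : SingSimplex P 2) (h : ∀ x, mp s x ≠ 0) : omegaP s = 0 :=
  omega_zero _ fun x hx => h x (toC_eq_zero hx)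

theorem omegaP_sq (r : ℝ) (hr : 0 < r) :
    omegaP (mk (triP ![-r, -r] ![r, -r] ![r, r])) -
      omegaP (mk (triP ![-r, -r] ![-r, r] ![r, r])) = 1 := by
  have h : ∀ p q r : P, pu toC (mk (triP p q r)) = mk (tri (toC p) (toC q) (toC r)) := by
    intro p q r
    unfold pu
    rw [mp_mk, toC_triP]
  unfold omegaP
  rw [h, h]
  simp only [toC_apply]
  exact omega_sq r hr

/-- `B m → (Fin m → ℝ)` -/
def bp (m : ℕ) : C(B m, Fin m → ℝ) := ⟨Subtype.val, continuous_subtype_val⟩

/-- the winding 2-cocycle on the open square -/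
def w2 (s : SingSimplex (B 2) 2) : ℤ := omegaP (pu (bp 2) s)

theorem w2_cocycle : cochainCobdry w2 = 0 := by
  funext s
  exact (cobdry_pu (bp 2) omegaP s).trans (congrFun omegaP_cocycle _)

theorem w2_zero (s : SingSimplex (B 2) 2) (h : ∀ x, (mp s x : Fin 2 → ℝ) ≠ 0) : w2 s = 0 :=
  omegaP_zero _ h

theorem triP_mem {p q r : P} {K : Set P} (hK : Convex ℝ K) (hp : p ∈ K) (hq : q ∈ K) (hr : r ∈ K)
    (x : Dl 2) : triP p q r x ∈ K := by
  have h := x.2.2
  rw [Fin.sum_univ_three] at h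
  have h0 := dl_nonneg x 0
  have h1 := dl_nonneg x 1
  have h2 := dl_nonneg x 2
  have := hK.sum_mem (t := Finset.univ) (w := fun i : Fin 3 => x.1 i) (z := ![p, q, r])
    (fun i _ => dl_nonneg x i) (by rw [Fin.sum_univ_three]; exact h) (by
      intro i _
      fin_cases i
      · exact hp
      · exact hq
      · exact hr)
  rw [Fin.sum_univ_three] at this
  exact this

theorem pt_mem_ball {r a b : ℝ} (hr1 : r < 1) (ha : |a| = r) (hb : |b| = r) :
    (![a, b] : P) ∈ Metric.ball (0 : P) 1 := by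
  rw [mem_ball_zero_iff, pi_norm_lt_iff one_pos]
  intro i
  fin_cases i
  · show ‖a‖ < 1
    rw [Real.norm_eq_abs, ha]; exact hr1
  · show ‖b‖ < 1
    rw [Real.norm_eq_abs, hb]; exact hr1

/-- affine triangle in the open square -/
def triB (p q r : B 2) : C(Dl 2, B 2) :=
  ⟨fun x => ⟨triP p.1 q.1 r.1 x, triP_mem (convex_ball 0 1) p.2 q.2 r.2 x⟩,
    (triP p.1 q.1 r.1).continuous.subtype_mk _⟩

/-- corner of the inner square -/
def cB (r : ℝ) (hr1 : r < 1) (a b : ℝ) (ha : |a| = r) (hb : |b| = r) : B 2 :=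
  ⟨![a, b], pt_mem_ball hr1 ha hb⟩

theorem w2_sq (p00 p10 p01 p11 : B 2) (r : ℝ) (hr : 0 < r) (h00 : p00.1 = ![-r, -r])
    (h10 : p10.1 = ![r, -r]) (h01 : p01.1 = ![-r, r]) (h11 : p11.1 = ![r, r]) :
    w2 (mk (triB p00 p10 p11)) - w2 (mk (triB p00 p01 p11)) = 1 := by
  have h : ∀ p q r : B 2, pu (bp 2) (mk (triB p q r)) = mk (triP p.1 q.1 r.1) := by
    intro p q r
    unfold pu
    rw [mp_mk]
    rfl
  unfold w2
  rw [h, h, h00, h10, h01, h11]
  exact omegaP_sq r hr

/-! ### the 1-cocycle on the open interval -/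

theorem cobdry0 {M : Type*} [AddCommGroup M] (φ : SingSimplex E 0 → M) (s : SingSimplex E 1) :
    cochainCobdry φ s = φ (simplexFace 0 s) - φ (simplexFace 1 s) := by
  show ∑ i : Fin 2, ((-1 : ℤ) ^ (i : ℕ)) • φ (simplexFace i s) = _
  rw [Fin.sum_univ_two]
  simp
  abel

theorem cobdry_cobdry0 {M : Type*} [AddCommGroup M] (φ : SingSimplex E 0 → M) :
    cochainCobdry (cochainCobdry φ) = 0 := by
  funext s
  rw [cobdry1, cobdry0, cobdry0, cobdry0]
  rw [face_face s 1 0 0 0 (by decide), face_face s 2 0 0 1 (by decide),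
    face_face s 2 1 1 1 (by decide)]
  simp

open Classical in
/-- the jump function -/
def jump (x : B 1) : ℤ := if 0 ≤ x.1 0 then 1 else 0

/-- the 1-cocycle on the open interval with value 1 across 0 -/
def w1 : SingSimplex (B 1) 1 → ℤ := cochainCobdry fun s : SingSimplex (B 1) 0 => jump (mp s (vx 0))

theorem w1_cocycle : cochainCobdry w1 = 0 := cobdry_cobdry0 _

theorem w1_apply (s : SingSimplex (B 1) 1) : w1 s = jump (mp s (vx 1)) - jump (mp s (vx 0)) := by
  unfold w1
  rw [cobdry0]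
  simp only [mp_face, ContinuousMap.comp_apply, fc_vx]
  rfl

theorem w1_zero (s : SingSimplex (B 1) 1) (h : ∀ x, (mp s x : Fin 1 → ℝ) ≠ 0) : w1 s = 0 := by
  rw [w1_apply, sub_eq_zero]
  have h' : ∀ x, (mp s x).1 0 ≠ 0 := by
    intro x hx
    apply h x
    funext i
    rw [Fin.fin_one_eq_zero i]
    exact hx
  have hc : Continuous fun x : Dl 1 => (mp s x).1 0 :=
    (continuous_apply 0).comp (continuous_subtype_val.comp (mp s).continuous)
  by_contra hne
  unfold jump at hne
  split_ifs at hne with h1 h2 h2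
  · exact hne rfl
  · obtain ⟨x, hx⟩ := mem_range_of_exists_le_of_exists_ge hc ⟨vx 0, (not_le.1 h2).le⟩ ⟨vx 1, h1⟩
    exact h' x hx
  · obtain ⟨x, hx⟩ := mem_range_of_exists_le_of_exists_ge hc ⟨vx 1, (not_le.1 h1).le⟩ ⟨vx 0, h2⟩
    exact h' x hx
  · exact hne rfl

theorem w1_of_neg_of_nonneg (s : SingSimplex (B 1) 1) (h0 : (mp s (vx 0)).1 0 < 0)
    (h1 : 0 ≤ (mp s (vx 1)).1 0) : w1 s = 1 := by
  rw [w1_apply]
  unfold jump
  rw [if_pos h1, if_neg (not_le.2 h0), sub_zero]

/-- the centre of `B m` -/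
def o (m : ℕ) : B m := ⟨0, by simp⟩

theorem w2_zero' (s : SingSimplex (B 2) 2) (h : o 2 ∉ Set.range (mp s)) : w2 s = 0 :=
  w2_zero s fun x hx => h ⟨x, Subtype.ext hx⟩

theorem w1_zero' (s : SingSimplex (B 1) 1) (h : o 1 ∉ Set.range (mp s)) : w1 s = 0 :=
  w1_zero s fun x hx => h ⟨x, Subtype.ext hx⟩

end

end Crest.Agent.R251.Om
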