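import Mathlib

/-!
R251 (helper711): torsion theorem for presentations with vanishing twisted second homology.

If `Γ` is a free group, `μ : Γ →* Kˣ` a character killing the relators `r j`, and if every
`g : κ → K` is of the form `j ↦ d (r j)` for a `μ`-derivation `d : Γ → K` (dual form of
`H₂(Y; K_μ) = 0`, `Y` the presentation complex), then `μ` kills every `w` some positive power of
which lies in the normal closure of the relators.  Algebraic form of the tower argument of helper720.
-/

set_option autoImplicit false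

namespace Crest.Agent.R251.Tor711

open scoped LaurentPolynomial

/-! ### The affine group and derivations on free groups -/

/-- affine group of a commutative ring -/
@[ext] structure Aff (R : Type*) [CommRing R] where
  a : R
  c : Rˣ

namespace Aff
variable {R : Type*} [CommRing R]

instance : Mul (Aff R) := ⟨fun x y => ⟨x.a + x.c * y.a, x.c * y.c⟩⟩
instance : One (Aff R) := ⟨⟨0, 1⟩⟩
instance : Inv (Aff R) := ⟨fun x => ⟨-(((x.c)⁻¹ : Rˣ) * x.a), (x.c)⁻¹⟩⟩

@[simp] lemma mul_a (x y : Aff R) : (x * y).a = x.a + x.c * y.a := rfl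
@[simp] lemma mul_c (x y : Aff R) : (x * y).c = x.c * y.c := rfl
@[simp] lemma one_a : (1 : Aff R).a = 0 := rfl
@[simp] lemma one_c : (1 : Aff R).c = 1 := rfl
@[simp] lemma inv_a (x : Aff R) : (x⁻¹).a = -(((x.c)⁻¹ : Rˣ) * x.a) := rfl
@[simp] lemma inv_c (x : Aff R) : (x⁻¹).c = (x.c)⁻¹ := rfl

instance : Group (Aff R) where
  mul_assoc x y z := by
    ext
    · simp; ring
    · simp [mul_assoc]
  one_mul x := by ext <;> simp
  mul_one x := by ext <;> simp
  inv_mul_cancel x := by
    ext
    · simp
    · simp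

/-- projection to the linear part -/
def lin : Aff R →* Rˣ where
  toFun x := x.c
  map_one' := rfl
  map_mul' _ _ := rfl

@[simp] lemma lin_apply (x : Aff R) : lin x = x.c := rfl

end Aff

/-- `d` is a derivation of `H` into `R` with respect to the character `χ`. -/
def IsDer {H : Type*} [Group H] {R : Type*} [CommRing R] (χ : H →* Rˣ) (d : H → R) : Prop :=
  ∀ g h : H, d (g * h) = d g + (χ g : R) * d h

section der
variable {H : Type*} [Group H] {R : Type*} [CommRing R] {χ : H →* Rˣ} {d d' : H → R}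

lemma IsDer.one (h : IsDer χ d) : d 1 = 0 := by
  have := h 1 1
  simp at this
  exact this

/-- the homomorphism to the affine group attached to a derivation -/
def IsDer.hom (h : IsDer χ d) : H →* Aff R where
  toFun g := ⟨d g, χ g⟩
  map_one' := by
    ext
    · simpa using h.one
    · simp
  map_mul' x y := by
    ext
    · simpa using h x y
    · simp

lemma IsDer.inv (h : IsDer χ d) (g : H) : (χ g : R) * d g⁻¹ = - d g := by
  have := h g g⁻¹
  rw [mul_inv_cancel, h.one] at this
  linear_combination -this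

lemma IsDer.conj (h : IsDer χ d) (g x : H) (hx : χ x = 1) :
    d (g * x * g⁻¹) = χ g * d x := by
  rw [h, h, map_mul, hx, mul_one]
  linear_combination h.inv g

lemma IsDer.add (h : IsDer χ d) (h' : IsDer χ d') : IsDer χ (fun g => d g + d' g) := by
  intro x y; simp only [h x y, h' x y]; ring

lemma IsDer.smul (c : R) (h : IsDer χ d) : IsDer χ (fun g => c * d g) := by
  intro x y; simp only [h x y]; ring

lemma IsDer.sum {ι : Type*} (s : Finset ι) (D : ι → H → R) (h : ∀ i ∈ s, IsDer χ (D i)) :
    IsDer χ (fun g => ∑ i ∈ s, D i g) := by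
  intro x y
  simp only [Finset.mul_sum, ← Finset.sum_add_distrib]
  exact Finset.sum_congr rfl fun i hi => h i hi x y

lemma isDer_principal (χ : H →* Rˣ) : IsDer χ (fun g => (χ g : R) - 1) := by
  intro x y; simp; ring

variable {B : Type*} (b : FreeGroupBasis B H)

include b in
lemma IsDer.ext_basis (h : IsDer χ d) (h' : IsDer χ d') (hb : ∀ i, d (b i) = d' (b i)) : d = d' := by
  have : h.hom = h'.hom := b.ext_hom _ _ (fun i => by
    ext
    · exact hb i
    · rfl)
  funext g
  have := DFunLike.congr_fun this g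
  exact congrArg Aff.a this

/-- derivation with prescribed values on a basis -/
def derOf (χ : H →* Rˣ) (v : B → R) (g : H) : R :=
  (b.lift (fun i => (⟨v i, χ (b i)⟩ : Aff R)) g).a

lemma lift_c (χ : H →* Rˣ) (v : B → R) (g : H) :
    (b.lift (fun i => (⟨v i, χ (b i)⟩ : Aff R)) g).c = χ g := by
  have : (Aff.lin.comp (b.lift (fun i => (⟨v i, χ (b i)⟩ : Aff R)))) = χ := by
    apply b.ext_hom
    intro i
    simp
  have h2 := DFunLike.congr_fun this g
  exact h2

lemma derOf_isDer (χ : H →* Rˣ) (v : B → R) : IsDer χ (derOf b χ v) := by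
  intro x y
  simp only [derOf, map_mul, Aff.mul_a, lift_c]

lemma derOf_basis (χ : H →* Rˣ) (v : B → R) (i : B) : derOf b χ v (b i) = v i := by
  simp [derOf]

lemma derOf_eq (h : IsDer χ d) : derOf b χ (fun i => d (b i)) = d :=
  IsDer.ext_basis b (derOf_isDer b _ _) h (fun i => derOf_basis b _ _ i)

lemma derOf_add (χ : H →* Rˣ) (v v' : B → R) (g : H) :
    derOf b χ (v + v') g = derOf b χ v g + derOf b χ v' g := by
  have := IsDer.ext_basis b (derOf_isDer b χ (v + v'))
    ((derOf_isDer b χ v).add (derOf_isDer b χ v')) (fun i => by simp [derOf_basis])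
  exact congrFun this g

lemma derOf_smul (χ : H →* Rˣ) (c : R) (v : B → R) (g : H) :
    derOf b χ (c • v) g = c * derOf b χ v g := by
  have := IsDer.ext_basis b (derOf_isDer b χ (c • v))
    ((derOf_isDer b χ v).smul c) (fun i => by simp [derOf_basis])
  exact congrFun this g

end der


/-! ### Laurent polynomials -/

section laurent
variable {K : Type*} [Field K]

/-- `T ^ n` as a unit -/
noncomputable def Tu : Multiplicative ℤ →* (K[T;T⁻¹])ˣ where
  toFun n := ⟨LaurentPolynomial.T n.toAdd, LaurentPolynomial.T (-n.toAdd),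
    by rw [← LaurentPolynomial.T_add]; simp, by rw [← LaurentPolynomial.T_add]; simp⟩
  map_one' := by ext1; simp
  map_mul' x y := Units.ext (LaurentPolynomial.T_add _ _)

@[simp] lemma Tu_val (n : Multiplicative ℤ) :
    ((Tu n : (K[T;T⁻¹])ˣ) : K[T;T⁻¹]) = LaurentPolynomial.T n.toAdd := rfl

/-- specialisation `T = 1` -/
noncomputable def aug : K[T;T⁻¹] →+* K := LaurentPolynomial.eval₂ (RingHom.id K) 1

@[simp] lemma aug_C (a : K) : aug (LaurentPolynomial.C a) = a := by
  simp [aug]

@[simp] lemma aug_T (n : ℤ) : aug (K := K) (LaurentPolynomial.T n) = 1 := by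
  simp [aug]

variable {H : Type*} [Group H]

/-- the character `g ↦ μ g * T ^ φ g` -/
noncomputable def chiT (μ : H →* Kˣ) (φ : H →* Multiplicative ℤ) : H →* (K[T;T⁻¹])ˣ :=
  ((Units.map (LaurentPolynomial.C : K →+* K[T;T⁻¹]).toMonoidHom).comp μ) * (Tu.comp φ)

lemma chiT_val (μ : H →* Kˣ) (φ : H →* Multiplicative ℤ) (g : H) :
    ((chiT μ φ g : (K[T;T⁻¹])ˣ) : K[T;T⁻¹])
      = LaurentPolynomial.C (μ g : K) * LaurentPolynomial.T (φ g).toAdd := by
  simp [chiT]

lemma exists_lift [IsFreeGroup H] (μ : H →* Kˣ) (φ : H →* Multiplicative ℤ) (d : H → K)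
    (hd : IsDer μ d) : ∃ D : H → K[T;T⁻¹], IsDer (chiT μ φ) D ∧ ∀ g, aug (D g) = d g := by
  let b := IsFreeGroup.basis H
  refine ⟨derOf b (chiT μ φ) (fun i => LaurentPolynomial.C (d (b i))), derOf_isDer _ _ _, ?_⟩
  have h1 : IsDer μ (fun g => aug (derOf b (chiT μ φ) (fun i => LaurentPolynomial.C (d (b i))) g)) := by
    intro x y
    have := derOf_isDer b (chiT μ φ) (fun i => LaurentPolynomial.C (d (b i))) x y
    simp only [this, map_add, map_mul, chiT_val, aug_C, aug_T, mul_one]
  intro g
  have := IsDer.ext_basis b h1 hd (fun i => by simp [derOf_basis])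
  exact congrFun this g

end laurent

/-! ### The induction -/

section main
universe u
variable {Γ : Type u} [Group Γ] [IsFreeGroup Γ] {K : Type*} [Field K] (μ : Γ →* Kˣ)
variable {I κ : Type*} (u : I → Γ) (r : κ → Γ) (j : I → κ)

/-- the conjugates of relators -/
def rho (i : I) : Γ := u i * r (j i) * (u i)⁻¹

/-- two indices give the same 2-cell over `H` -/
def Rel (H : Subgroup Γ) (i i' : I) : Prop := j i = j i' ∧ u i * (u i')⁻¹ ∈ H

/-- surjectivity on the 2-cells over `H` -/
def Sur (H : Subgroup Γ) : Prop :=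
  ∀ f : I → K, (∀ i i', Rel u j H i i' → f i = f i') →
    ∃ d : H → K, IsDer (μ.comp H.subtype) d ∧
      ∀ i (hi : rho u r j i ∈ H), d ⟨rho u r j i, hi⟩ = μ (u i) * f i

omit [IsFreeGroup Γ] in
lemma Rel.refl (H : Subgroup Γ) (i : I) : Rel u j H i i := ⟨rfl, by simp [H.one_mem]⟩

omit [IsFreeGroup Γ] in
lemma Rel.symm {H : Subgroup Γ} {i i' : I} (h : Rel u j H i i') : Rel u j H i' i :=
  ⟨h.1.symm, by have := H.inv_mem h.2; simpa [mul_inv_rev] using this⟩

omit [IsFreeGroup Γ] in
lemma Rel.trans {H : Subgroup Γ} {i i' i'' : I} (h : Rel u j H i i') (h' : Rel u j H i' i'') :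
    Rel u j H i i'' :=
  ⟨h.1.trans h'.1, by have := H.mul_mem h.2 h'.2; simpa [mul_assoc] using this⟩

/-- the setoid of 2-cells over `H` -/
def relSetoid (H : Subgroup Γ) : Setoid I where
  r := Rel u j H
  iseqv := ⟨Rel.refl u j H, fun h => Rel.symm u j h, fun h h' => Rel.trans u j h h'⟩

omit [IsFreeGroup Γ] in
lemma Sur.mono {H H' : Subgroup Γ} (hle : H' ≤ H) (hrel : ∀ i i', Rel u j H i i' → Rel u j H' i i')
    (hS : Sur μ u r j H) : Sur μ u r j H' := by
  intro f hf
  obtain ⟨d, hd1, hd2⟩ := hS f (fun i i' h => hf i i' (hrel i i' h))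
  refine ⟨fun g => d (Subgroup.inclusion hle g), ?_, ?_⟩
  · intro x y
    have := hd1 (Subgroup.inclusion hle x) (Subgroup.inclusion hle y)
    simpa using this
  · intro i hi
    exact hd2 i (hle hi)

lemma step [Finite I] (H : Subgroup Γ) (hρ : ∀ i, rho u r j i ∈ H) (hμ : ∀ k, μ (r k) = 1)
    (hS : Sur μ u r j H) (φ : H →* Multiplicative ℤ)
    (hφ : ∀ i, φ ⟨rho u r j i, hρ i⟩ = 1) : Sur μ u r j (φ.ker.map H.subtype) := by
  classical
  intro f hf
  set H' := φ.ker.map H.subtype with hH'
  have hle : H' ≤ H := Subgroup.map_subtype_le _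
  have hker : ∀ g : H', φ (Subgroup.inclusion hle g) = 1 := by
    rintro ⟨g, hg⟩
    obtain ⟨x, hx, rfl⟩ := hg
    exact hx
  have hmem : ∀ g : H, φ g = 1 → (g : Γ) ∈ H' := fun g hg => ⟨g, hg, rfl⟩
  let S : Setoid I := relSetoid u j H
  let Q := Quotient S
  have : Finite Q := Quotient.finite _
  let _ : Fintype Q := Fintype.ofFinite _
  have hout : ∀ i : I, Rel u j H i (Quotient.mk S i).out := fun i =>
    Rel.symm u j (Quotient.exact (Quotient.out_eq (Quotient.mk S i)))
  -- scalar derivations dual to the classes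
  have hd : ∀ q : Q, ∃ d : H → K, IsDer (μ.comp H.subtype) d ∧
      ∀ i, d ⟨rho u r j i, hρ i⟩ = μ (u i) * (if (Quotient.mk S i) = q then 1 else 0) := by
    intro q
    obtain ⟨d, h1, h2⟩ := hS (fun i => if (Quotient.mk S i) = q then 1 else 0) (by
      intro i i' h
      have : Quotient.mk S i = Quotient.mk S i' := Quotient.sound h
      simp only [this])
    exact ⟨d, h1, fun i => h2 i (hρ i)⟩
  choose d hd1 hd2 using hd
  have hD : ∀ q : Q, ∃ D : H → K[T;T⁻¹], IsDer (chiT (μ.comp H.subtype) φ) D ∧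
      ∀ g, aug (D g) = d q g := fun q => exists_lift _ φ (d q) (hd1 q)
  choose D hD1 hD2 using hD
  let x : I → H := fun i => ⟨rho u r j i, hρ i⟩
  let hh : I → H := fun i => ⟨u i * (u (Quotient.mk S i).out)⁻¹, (hout i).2⟩
  have hxconj : ∀ i, x i = hh i * x (Quotient.mk S i).out * (hh i)⁻¹ := by
    intro i
    apply Subtype.ext
    have hj : j (Quotient.mk S i).out = j i := (hout i).1.symm
    simp only [x, hh, rho, Subgroup.coe_mul, Subgroup.coe_inv, hj]
    group
  have hχ : ∀ i, chiT (μ.comp H.subtype) φ (x i) = 1 := by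
    intro i
    ext1
    rw [chiT_val]
    have h1 : φ (x i) = 1 := hφ i
    have h2 : (μ.comp H.subtype) (x i) = 1 := by
      simp only [x, rho, MonoidHom.comp_apply, Subgroup.coe_subtype, map_mul, hμ, map_inv, mul_one,
        mul_inv_cancel]
    rw [h1, h2]; simp
  have hDx : ∀ q i, D q (x i) =
      (chiT (μ.comp H.subtype) φ (hh i) : (K[T;T⁻¹])ˣ) * D q (x (Quotient.mk S i).out) := by
    intro q i
    conv_lhs => rw [hxconj i]
    exact (hD1 q).conj _ _ (hχ _)
  let A : Matrix Q Q (K[T;T⁻¹]) := Matrix.of fun q q' =>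
    LaurentPolynomial.C (((μ (u q'.out))⁻¹ : Kˣ) : K) * D q (x q'.out)
  have hAapp : ∀ q q', A q q' =
    LaurentPolynomial.C (((μ (u q'.out))⁻¹ : Kˣ) : K) * D q (x q'.out) := fun _ _ => rfl
  have hA : A.map aug = 1 := by
    ext q q'
    rw [Matrix.map_apply, hAapp, map_mul, aug_C, hD2]
    have hx : d q (x q'.out) = _ := hd2 q q'.out
    rw [hx]
    have hq' : Quotient.mk S q'.out = q' := Quotient.out_eq q'
    rw [hq']
    by_cases h : q' = q
    · subst h; simp
    · simp [h, Ne.symm h]
  have hdet1 : aug A.det = 1 := by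
    rw [RingHom.map_det]
    have : (aug (K := K)).mapMatrix A = 1 := hA
    rw [this, Matrix.det_one]
  have hdet : A.det ≠ 0 := by
    intro h; rw [h, map_zero] at hdet1; exact zero_ne_one hdet1
  set Δ := A.det with hΔ
  let D' : Q → H → K[T;T⁻¹] := fun q g => ∑ q'', A.adjugate q q'' * D q'' g
  have hD'1 : ∀ q, IsDer (chiT (μ.comp H.subtype) φ) (D' q) := fun q =>
    IsDer.sum _ _ (fun q'' _ => (hD1 q'').smul _)
  have hadj : ∀ q q' : Q, ∑ q'', A.adjugate q q'' * A q'' q' = if q = q' then Δ else 0 := by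
    intro q q'
    have := congrFun (congrFun (Matrix.adjugate_mul A) q) q'
    rw [Matrix.mul_apply] at this
    rw [this]
    by_cases h : q = q'
    · subst h; simp [Δ]
    · simp [h]
  have hD'2 : ∀ q i, D' q (x i) = LaurentPolynomial.C (μ (u i) : K) *
      (LaurentPolynomial.T (φ (hh i)).toAdd * (if q = Quotient.mk S i then Δ else 0)) := by
    intro q i
    rw [← hadj q (Quotient.mk S i)]
    simp only [D', Finset.mul_sum]
    refine Finset.sum_congr rfl fun q'' _ => ?_
    rw [hAapp, hDx q'' i, chiT_val]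
    have h3 : ((μ.comp H.subtype) (hh i) : K) = (μ (u i) : K) *
        (((μ (u (Quotient.mk S i).out))⁻¹ : Kˣ) : K) := by
      simp only [hh, MonoidHom.comp_apply, Subgroup.coe_subtype, map_mul, map_inv, Units.val_mul]
    rw [h3, map_mul]
    ring
  -- linear functionals
  have hinj : Function.Injective (LinearMap.mulRight K Δ) := by
    intro a b hab
    simp only [LinearMap.mulRight_apply] at hab
    exact mul_right_cancel₀ hdet hab
  obtain ⟨gl, hgl⟩ := LinearMap.exists_leftInverse_of_injective (LinearMap.mulRight K Δ)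
    (LinearMap.ker_eq_bot.mpr hinj)
  let Fq : Q → ℤ → K := fun q k =>
    if h : ∃ i, Quotient.mk S i = q ∧ (φ (hh i)).toAdd = k then f h.choose else 0
  let ell : Q → (K[T;T⁻¹] →ₗ[K] K) := fun q =>
    ((AddMonoidAlgebra.basis ℤ K).constr K (Fq q)).comp gl
  have hell : ∀ q k, ell q (LaurentPolynomial.T k * Δ) = Fq q k := by
    intro q k
    have h1 : gl (LaurentPolynomial.T k * Δ) = LaurentPolynomial.T k := by
      have := LinearMap.congr_fun hgl (LaurentPolynomial.T k)
      simpa using this
    have h2 : (LaurentPolynomial.T k : K[T;T⁻¹]) = (AddMonoidAlgebra.basis ℤ K) k := by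
      rw [AddMonoidAlgebra.basis_apply]; rfl
    simp only [ell, LinearMap.comp_apply, h1]
    rw [h2, Module.Basis.constr_basis]
  refine ⟨fun g => ∑ q, ell q (D' q (Subgroup.inclusion hle g)), ?_, ?_⟩
  · apply IsDer.sum
    intro q _ g h
    have h1 := hD'1 q (Subgroup.inclusion hle g) (Subgroup.inclusion hle h)
    show ell q (D' q (Subgroup.inclusion hle (g * h))) =
      ell q (D' q (Subgroup.inclusion hle g)) +
        ((μ.comp H'.subtype) g : K) * ell q (D' q (Subgroup.inclusion hle h))
    rw [map_mul, h1, chiT_val, hker g]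
    have h4 : LaurentPolynomial.C ((μ.comp H.subtype) (Subgroup.inclusion hle g) : K) *
        LaurentPolynomial.T (Multiplicative.toAdd (1 : Multiplicative ℤ)) *
        D' q (Subgroup.inclusion hle h) =
        ((μ.comp H'.subtype) g : K) • D' q (Subgroup.inclusion hle h) := by
      rw [toAdd_one, LaurentPolynomial.T_zero, mul_one, LaurentPolynomial.smul_eq_C_mul]
      rfl
    rw [h4, map_add, map_smul, smul_eq_mul]
  · intro i hi
    have h5 : ∀ q, ell q (D' q (Subgroup.inclusion hle ⟨rho u r j i, hi⟩)) =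
        if q = Quotient.mk S i then (μ (u i) : K) * Fq q (φ (hh i)).toAdd else 0 := by
      intro q
      have : Subgroup.inclusion hle ⟨rho u r j i, hi⟩ = x i := rfl
      rw [this, hD'2 q i]
      by_cases hq : q = Quotient.mk S i
      · simp only [hq, if_true]
        rw [← LaurentPolynomial.smul_eq_C_mul, map_smul, hell, smul_eq_mul]
      · simp [hq]
    show ∑ q, ell q (D' q (Subgroup.inclusion hle ⟨rho u r j i, hi⟩)) = _
    rw [Finset.sum_eq_single (Quotient.mk S i) (fun q _ hq => by rw [h5, if_neg hq])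
      (fun h => absurd (Finset.mem_univ _) h), h5, if_pos rfl]
    congr 1
    have hex : ∃ i', Quotient.mk S i' = Quotient.mk S i ∧
        (φ (hh i')).toAdd = (φ (hh i)).toAdd := ⟨i, rfl, rfl⟩
    have hFq : Fq (Quotient.mk S i) (φ (hh i)).toAdd = f hex.choose := dif_pos hex
    rw [hFq]
    apply hf
    obtain ⟨e1, e2⟩ := hex.choose_spec
    refine ⟨((Quotient.exact e1 : Rel u j H _ _)).1, ?_⟩
    have e3 : φ (hh hex.choose * (hh i)⁻¹) = 1 := by
      rw [map_mul, map_inv, Multiplicative.toAdd.injective e2, mul_inv_cancel]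
    have e4 := hmem _ e3
    have e5 : ((hh hex.choose * (hh i)⁻¹ : H) : Γ) = u hex.choose * (u i)⁻¹ := by
      have : (Quotient.mk S hex.choose).out = (Quotient.mk S i).out := by rw [e1]
      simp only [hh, Subgroup.coe_mul, Subgroup.coe_inv, this]
      group
    rwa [e5] at e4

/-- `derOf` for the trivial character, as a homomorphism to `ℤ` -/
noncomputable def homZ {H : Type*} [Group H] {B : Type*} (b : FreeGroupBasis B H) (v : B → ℤ) :
    H →* Multiplicative ℤ where
  toFun g := Multiplicative.ofAdd (derOf b (1 : H →* ℤˣ) v g)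
  map_one' := by rw [(derOf_isDer b _ v).one]; rfl
  map_mul' x y := by
    have := derOf_isDer b (1 : H →* ℤˣ) v x y
    rw [this]; simp

lemma count [Finite I] (H : Subgroup Γ) (hρ : ∀ i, rho u r j i ∈ H) (hμ : ∀ k, μ (r k) = 1)
    (hS : Sur μ u r j H) (w : Γ) (hw : w ∈ H) (hμw : μ w ≠ 1) :
    ∃ φ : H →* Multiplicative ℤ, φ ≠ 1 ∧ ∀ i, φ ⟨rho u r j i, hρ i⟩ = 1 := by
  classical
  by_contra hno
  have hno' : ∀ φ : H →* Multiplicative ℤ, (∀ i, φ ⟨rho u r j i, hρ i⟩ = 1) → φ = 1 := by
    intro φ h
    by_contra h1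
    exact hno ⟨φ, h1, h⟩
  let S : Setoid I := relSetoid u j H
  let Q := Quotient S
  have : Finite Q := Quotient.finite _
  let _ : Fintype Q := Fintype.ofFinite _
  have hout : ∀ i : I, Rel u j H i (Quotient.mk S i).out := fun i =>
    Rel.symm u j (Quotient.exact (Quotient.out_eq (Quotient.mk S i)))
  let x : I → H := fun i => ⟨rho u r j i, hρ i⟩
  let hh : I → H := fun i => ⟨u i * (u (Quotient.mk S i).out)⁻¹, (hout i).2⟩
  have hxconj : ∀ i, x i = hh i * x (Quotient.mk S i).out * (hh i)⁻¹ := by
    intro i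
    apply Subtype.ext
    have hj : j (Quotient.mk S i).out = j i := (hout i).1.symm
    simp only [x, hh, rho, Subgroup.coe_mul, Subgroup.coe_inv, hj]
    group
  let b := IsFreeGroup.basis H
  -- integral count
  have key : ∀ {α : Type} [Fintype α] (e : α → IsFreeGroup.Generators H), Function.Injective e →
      Fintype.card α ≤ Fintype.card Q := by
    intro α _ e he
    let L : (α → ℤ) →ₗ[ℤ] (Q → ℤ) :=
      { toFun := fun z q => derOf b (1 : H →* ℤˣ) (Function.extend e z 0) (x q.out)
        map_add' := by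
          intro z z'
          funext q
          have : Function.extend e (z + z') 0 = Function.extend e z 0 + Function.extend e z' 0 := by
            funext i
            by_cases h : ∃ a, e a = i
            · obtain ⟨a, rfl⟩ := h
              simp [he.extend_apply]
            · simp [Function.extend_apply' _ _ _ h]
          rw [this]
          exact derOf_add b _ _ _ _
        map_smul' := by
          intro c z
          funext q
          have : Function.extend e (c • z) 0 = c • Function.extend e z 0 := by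
            funext i
            by_cases h : ∃ a, e a = i
            · obtain ⟨a, rfl⟩ := h
              simp [he.extend_apply]
            · simp [Function.extend_apply' _ _ _ h]
          rw [this]
          exact derOf_smul b _ _ _ _ }
    have hL : Function.Injective L := by
      rw [injective_iff_map_eq_zero]
      intro z hz
      have h1 : homZ b (Function.extend e z 0) = 1 := by
        apply hno'
        intro i
        have h2 : (homZ b (Function.extend e z 0)) (x (Quotient.mk S i).out) = 1 := by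
          have := congrFun hz (Quotient.mk S i)
          exact congrArg Multiplicative.ofAdd this
        change (homZ b (Function.extend e z 0)) (x i) = 1
        rw [hxconj i, map_mul, map_mul, h2, mul_one, map_inv, mul_inv_cancel]
      funext a
      have h3 := DFunLike.congr_fun h1 (b (e a))
      have h4 : derOf b (1 : H →* ℤˣ) (Function.extend e z 0) (b (e a)) = 0 :=
        Multiplicative.ofAdd.injective h3
      rw [derOf_basis, he.extend_apply] at h4
      exact h4
    exact card_le_of_injective ℤ L hL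
  have hfin : Finite (IsFreeGroup.Generators H) := by
    by_contra hinf
    rw [not_finite_iff_infinite] at hinf
    have := key (α := Fin (Fintype.card Q + 1))
      (fun i => Infinite.natEmbedding (IsFreeGroup.Generators H) i) (by
        intro a c hac
        exact Fin.ext ((Infinite.natEmbedding _).injective hac))
    simp at this
  let _ : Fintype (IsFreeGroup.Generators H) := Fintype.ofFinite _
  have hcard : Fintype.card (IsFreeGroup.Generators H) ≤ Fintype.card Q := by
    have := key (α := Fin (Fintype.card (IsFreeGroup.Generators H)))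
      (fun i => (Fintype.equivFin _).symm i) (Equiv.injective _)
    simpa using this
  -- twisted count
  let Ψ : (IsFreeGroup.Generators H → K) →ₗ[K] (Q → K) :=
    { toFun := fun v q => (((μ (u q.out))⁻¹ : Kˣ) : K) * derOf b (μ.comp H.subtype) v (x q.out)
      map_add' := by
        intro v v'
        funext q
        simp only [Pi.add_apply, derOf_add, mul_add]
      map_smul' := by
        intro c v
        funext q
        simp only [derOf_smul, RingHom.id_apply, Pi.smul_apply, smul_eq_mul]
        ring }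
  have hsurj : Function.Surjective Ψ := by
    intro g
    obtain ⟨d, hd1, hd2⟩ := hS (fun i => g (Quotient.mk S i)) (by
      intro i i' h
      have : Quotient.mk S i = Quotient.mk S i' := Quotient.sound h
      simp only [this])
    refine ⟨fun i => d (b i), ?_⟩
    funext q
    show (((μ (u q.out))⁻¹ : Kˣ) : K) * derOf b (μ.comp H.subtype) (fun i => d (b i)) (x q.out) = _
    rw [derOf_eq b hd1]
    have h1 : d (x q.out) = _ := hd2 q.out (hρ _)
    rw [h1]
    have hq : Quotient.mk S q.out = q := Quotient.out_eq q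
    simp only [hq]
    rw [← mul_assoc, ← Units.val_mul]
    simp
  have hcard2 : Fintype.card Q ≤ Fintype.card (IsFreeGroup.Generators H) :=
    card_le_of_surjective K Ψ hsurj
  have hinj : Function.Injective Ψ := by
    rw [LinearMap.injective_iff_surjective_of_finrank_eq_finrank]
    · exact hsurj
    · simp only [Module.finrank_fintype_fun_eq_card]; omega
  have hv : Ψ (fun i => (((μ.comp H.subtype) (b i) : Kˣ) : K) - 1) = 0 := by
    funext q
    show (((μ (u q.out))⁻¹ : Kˣ) : K) * derOf b (μ.comp H.subtype)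
      (fun i => (((μ.comp H.subtype) (b i) : Kˣ) : K) - 1) (x q.out) = 0
    rw [derOf_eq b (isDer_principal (μ.comp H.subtype))]
    have h2 : (μ.comp H.subtype) (x q.out) = 1 := by
      simp only [x, rho, MonoidHom.comp_apply, Subgroup.coe_subtype, map_mul, hμ, map_inv, mul_one,
        mul_inv_cancel]
    show (((μ (u q.out))⁻¹ : Kˣ) : K) * ((((μ.comp H.subtype) (x q.out) : Kˣ) : K) - 1) = 0
    rw [h2]; simp
  have hv0 := hinj (hv.trans (map_zero Ψ).symm)
  have h5 : (fun g : H => (((μ.comp H.subtype) g : Kˣ) : K) - 1) = fun _ => 0 := by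
    apply IsDer.ext_basis b (isDer_principal (μ.comp H.subtype))
    · intro g h; simp
    · intro i; exact congrFun hv0 i
  have h6 := congrFun h5 ⟨w, hw⟩
  apply hμw
  ext1
  have : (μ w : K) - 1 = 0 := h6
  rw [sub_eq_zero] at this
  simpa using this

/-- the subgroup of `H` generated by the elements `p * q⁻¹` of `H`, `p, q ∈ P` -/
def HP (P : Finset Γ) (H : Subgroup Γ) : Subgroup Γ :=
  Subgroup.closure {g | g ∈ H ∧ ∃ p ∈ P, ∃ q ∈ P, g = p * q⁻¹}

omit [IsFreeGroup Γ] in
lemma HP_le (P : Finset Γ) (H : Subgroup Γ) : HP P H ≤ H := by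
  rw [HP, Subgroup.closure_le]
  exact fun g hg => hg.1

omit [IsFreeGroup Γ] in
lemma mem_HP {P : Finset Γ} {H : Subgroup Γ} {p q : Γ} (hp : p ∈ P) (hq : q ∈ P)
    (h : p * q⁻¹ ∈ H) : p * q⁻¹ ∈ HP P H :=
  Subgroup.subset_closure ⟨h, p, hp, q, hq, rfl⟩

omit [IsFreeGroup Γ] in
lemma HP_HP (P : Finset Γ) (H : Subgroup Γ) : HP P (HP P H) = HP P H := by
  apply le_antisymm (HP_le _ _)
  conv_lhs => rw [HP]
  rw [Subgroup.closure_le]
  rintro g ⟨hg, p, hp, q, hq, rfl⟩
  exact mem_HP hp hq (mem_HP hp hq hg)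

lemma tower [Finite I] (P : Finset Γ) (hP1 : (1 : Γ) ∈ P) (hPu : ∀ i, u i ∈ P)
    (hPr : ∀ i, u i * r (j i) ∈ P) (hμ : ∀ k, μ (r k) = 1) (w : Γ) (hPw : w ∈ P) (m : ℕ)
    (hm : m ≠ 0) (hwm : w ^ m ∈ Subgroup.closure (Set.range (rho u r j))) (hμw : μ w ≠ 1) :
    ∀ (n : ℕ) (H : Subgroup Γ), {pq : Γ × Γ | pq.1 ∈ P ∧ pq.2 ∈ P ∧ pq.1 * pq.2⁻¹ ∈ H}.ncard = n →
      HP P H = H → (∀ i, rho u r j i ∈ H) → w ∈ H → Sur μ u r j H → False := by
  intro n
  induction n using Nat.strong_induction_on with
  | _ n ih =>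
    intro H hn hHP hρ hw hS
    obtain ⟨φ, hφ1, hφ⟩ := count μ u r j H hρ hμ hS w hw hμw
    set H1 := φ.ker.map H.subtype with hH1
    have hle1 : H1 ≤ H := Subgroup.map_subtype_le _
    have hker : ∀ (g : Γ) (hg : g ∈ H1), φ ⟨g, hle1 hg⟩ = 1 := by
      intro g hg
      obtain ⟨y, hy, rfl⟩ := hg
      exact hy
    have hmem : ∀ (g : Γ) (hg : g ∈ H), φ ⟨g, hg⟩ = 1 → g ∈ H1 := fun g hg h => ⟨⟨g, hg⟩, h, rfl⟩
    have hρ1 : ∀ i, rho u r j i ∈ H1 := fun i => hmem _ (hρ i) (hφ i)
    have hS1 : Sur μ u r j H1 := step μ u r j H hρ hμ hS φ hφ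
    have hw1 : w ∈ H1 := by
      apply hmem w hw
      have h1 : w ^ m ∈ H1 := by
        have : Subgroup.closure (Set.range (rho u r j)) ≤ H1 := by
          rw [Subgroup.closure_le]
          rintro _ ⟨i, rfl⟩
          exact hρ1 i
        exact this hwm
      have h2 := hker _ h1
      have h3 : (φ ⟨w, hw⟩) ^ m = 1 := by
        rw [← map_pow]
        exact h2
      have h4 : m • (φ ⟨w, hw⟩).toAdd = 0 := by
        have := congrArg Multiplicative.toAdd h3
        simpa using this
      have h5 : (φ ⟨w, hw⟩).toAdd = 0 := by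
        rcases smul_eq_zero.mp h4 with h | h
        · exact absurd h hm
        · exact h
      exact Multiplicative.toAdd.injective h5
    have hle2 : HP P H1 ≤ H1 := HP_le _ _
    refine ih _ ?_ (HP P H1) rfl (HP_HP _ _) ?_ ?_ ?_
    · rw [← hn]
      apply Set.ncard_lt_ncard _ ?_
      · refine ⟨fun pq h => ⟨h.1, h.2.1, hle1 (hle2 h.2.2)⟩, ?_⟩
        intro hsub
        apply hφ1
        have hHle : H ≤ H1 := by
          rw [← hHP]
          conv_lhs => rw [HP]
          rw [Subgroup.closure_le]
          rintro g ⟨hg, p, hp, q, hq, rfl⟩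
          exact hle2 (hsub (a := (p, q)) ⟨hp, hq, hg⟩).2.2
        ext ⟨g, hg⟩
        rw [hker g (hHle hg)]
        rfl
      · apply Set.Finite.subset (P ×ˢ P).finite_toSet
        intro pq h
        simp only [Finset.coe_product, Set.mem_prod, Finset.mem_coe]
        exact ⟨h.1, h.2.1⟩
    · intro i
      exact mem_HP (hPr i) (hPu i) (hρ1 i)
    · have := mem_HP hPw hP1 (H := H1) (by simpa using hw1)
      simpa using this
    · exact Sur.mono μ u r j hle2 (fun i i' h => ⟨h.1, mem_HP (hPu i) (hPu i') h.2⟩) hS1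

omit [IsFreeGroup Γ] in
lemma exists_finset_conj (r : κ → Γ) (x : Γ) (hx : x ∈ Subgroup.normalClosure (Set.range r)) :
    ∃ s : Finset (Γ × κ), x ∈ Subgroup.closure ((fun p : Γ × κ => p.1 * r p.2 * p.1⁻¹) '' s) := by
  classical
  unfold Subgroup.normalClosure at hx
  induction hx using Subgroup.closure_induction with
  | mem x hx =>
    rw [Group.mem_conjugatesOfSet_iff] at hx
    obtain ⟨y, ⟨k, rfl⟩, hy⟩ := hx
    rw [isConj_iff] at hy
    obtain ⟨c, rfl⟩ := hy
    exact ⟨{(c, k)}, Subgroup.subset_closure ⟨(c, k), by simp, rfl⟩⟩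
  | one => exact ⟨∅, Subgroup.one_mem _⟩
  | mul x y _ _ hx hy =>
    obtain ⟨s, hs⟩ := hx
    obtain ⟨t, ht⟩ := hy
    refine ⟨s ∪ t, Subgroup.mul_mem _ ?_ ?_⟩
    · refine Subgroup.closure_mono (Set.image_mono ?_) hs
      simp
    · refine Subgroup.closure_mono (Set.image_mono ?_) ht
      simp
  | inv x _ hx =>
    obtain ⟨s, hs⟩ := hx
    exact ⟨s, Subgroup.inv_mem _ hs⟩

/-- **Torsion theorem.** If `μ : Γ →* Kˣ` (`Γ` free) kills the relators `r k` and every function on
the index set of relators is `k ↦ d (r k)` for a `μ`-derivation `d` of `Γ`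
(i.e. `H₂(presentation complex; K_μ) = 0`), then `μ w = 1` for every `w` with a positive power in the
normal closure of the relators. -/
theorem torsion (r : κ → Γ) (hμ : ∀ k, μ (r k) = 1)
    (hS : ∀ g : κ → K, ∃ d : Γ → K, IsDer μ d ∧ ∀ k, d (r k) = g k)
    (w : Γ) (m : ℕ) (hm : m ≠ 0) (hw : w ^ m ∈ Subgroup.normalClosure (Set.range r)) :
    μ w = 1 := by
  classical
  by_contra hμw
  obtain ⟨s, hs⟩ := exists_finset_conj r _ hw
  let u : s → Γ := fun p => p.1.1
  let j : s → κ := fun p => p.1.2
  have hrange : ((fun p : Γ × κ => p.1 * r p.2 * p.1⁻¹) '' s) = Set.range (rho u r j) := by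
    ext x
    constructor
    · rintro ⟨p, hp, rfl⟩
      exact ⟨⟨p, hp⟩, rfl⟩
    · rintro ⟨p, rfl⟩
      exact ⟨p.1, p.2, rfl⟩
  rw [hrange] at hs
  let P : Finset Γ := {1, w} ∪ (Finset.univ.image u ∪ Finset.univ.image (fun i => u i * r (j i)))
  have hP1 : (1 : Γ) ∈ P := by simp [P]
  have hPw : w ∈ P := by simp [P]
  have hPu : ∀ i, u i ∈ P := fun i => by
    simp only [P, Finset.mem_union, Finset.mem_image, Finset.mem_univ, true_and]
    exact Or.inr (Or.inl ⟨i, rfl⟩)
  have hPr : ∀ i, u i * r (j i) ∈ P := fun i => by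
    simp only [P, Finset.mem_union, Finset.mem_image, Finset.mem_univ, true_and]
    exact Or.inr (Or.inr ⟨i, rfl⟩)
  have hStop : Sur μ u r j ⊤ := by
    intro f hf
    let g : κ → K := fun k => if h : ∃ i, j i = k then f h.choose else 0
    obtain ⟨d, hd1, hd2⟩ := hS g
    refine ⟨fun x => d x.1, fun x y => hd1 x.1 y.1, ?_⟩
    intro i _
    show d (u i * r (j i) * (u i)⁻¹) = _
    rw [hd1.conj _ _ (hμ _), hd2]
    congr 1
    have hex : ∃ i', j i' = j i := ⟨i, rfl⟩
    have : g (j i) = f hex.choose := dif_pos hex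
    rw [this]
    exact hf _ _ ⟨hex.choose_spec, Subgroup.mem_top _⟩
  refine tower μ u r j P hP1 hPu hPr hμ w hPw m hm hs hμw _ (HP P ⊤) rfl (HP_HP _ _) ?_ ?_ ?_
  · intro i
    exact mem_HP (hPr i) (hPu i) (Subgroup.mem_top _)
  · have := mem_HP hPw hP1 (H := (⊤ : Subgroup Γ)) (Subgroup.mem_top _)
    simpa using this
  · exact Sur.mono μ u r j (HP_le _ _)
      (fun i i' h => ⟨h.1, mem_HP (hPu i) (hPu i') (Subgroup.mem_top _)⟩) hStop

end main

end Crest.Agent.R251.Tor711
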