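import Mathlib
import Crest.Agent.R197.CW2Defs
import Crest.Agent.R197.OutThree
import Crest.Agent.R251.Tor711

/-!
Row 251 (S0388), Y side (helper971): the lifted cell structure of a `TwoCx` in a free `G`-cover, the
holonomy of edge words, and the derivation attached to an additive equivariant path function.
-/

set_option autoImplicit false

open scoped unitInterval

namespace Crest.Agent.R251.YC

open Crest.Agent.R197 Crest.Agent.R197.TwoCx Crest.Agent.R251.Tor711

/-- `q : E → X` is a covering with `G` acting on `E` over `X`, freely and transitively on fibres. -/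
structure GCov (G : Type) [Group G] {E X : Type} [TopologicalSpace E] [TopologicalSpace X]
    [MulAction G E] (q : E → X) : Prop where
  cov : IsCoveringMap q
  surj : Function.Surjective q
  inv : ∀ (g : G) (z : E), q (g • z) = q z
  tra : ∀ z z' : E, q z = q z' → ∃ g : G, g • z = z'
  free : ∀ (g : G) (z : E), g • z = z → g = 1

theorem GCov.smul_inj {G : Type} [Group G] {E X : Type} [TopologicalSpace E] [TopologicalSpace X]
    [MulAction G E] {q : E → X} (h : GCov G q) {g g' : G} {z : E} (hz : g • z = g' • z) : g = g' := by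
  have : (g'⁻¹ * g) • z = z := by rw [mul_smul, hz, inv_smul_smul]
  have := h.free _ _ this
  rwa [inv_mul_eq_one, eq_comm] at this

section lifts
variable {G : Type} [Group G] {E X : Type} [TopologicalSpace E] [TopologicalSpace X]
  [MulAction G E] {q : E → X} (h : GCov G q) (C : TwoCx X)

include h

/-- lifted vertices -/
noncomputable def vt (o : C.O) : E := (h.surj (C.v o)).choose

theorem q_vt (o : C.O) : q (vt h C o) = C.v o := (h.surj (C.v o)).choose_spec

/-- lifted edges -/
noncomputable def et (i : C.E) : C(I, E) :=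
  h.cov.liftPath (C.e i) (vt h C (C.src i)) ((C.e_zero i).trans (q_vt h C _).symm)

theorem et_zero (i : C.E) : et h C i 0 = vt h C (C.src i) := h.cov.liftPath_zero _ _ _

theorem q_et (i : C.E) (s : I) : q (et h C i s) = C.e i s :=
  congrFun (h.cov.liftPath_lifts (C.e i) (vt h C (C.src i)) ((C.e_zero i).trans (q_vt h C _).symm)) s

theorem et_mem (i : C.E) (s : I) : q (et h C i s) ∈ C.X1 := by
  rw [q_et h]; exact Or.inr ⟨i, s, rfl⟩

theorem exists_gam (i : C.E) : ∃ g : G, g • vt h C (C.tgt i) = et h C i 1 :=
  h.tra _ _ (by rw [q_vt h, q_et h, C.e_one])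

/-- the group element of an edge -/
noncomputable def gam (i : C.E) : G := (exists_gam h C i).choose

theorem et_one (i : C.E) : et h C i 1 = gam h C i • vt h C (C.tgt i) :=
  (exists_gam h C i).choose_spec.symm

theorem exists_ft (j : C.J) : ∃ u : C(I × I, E), ∀ z, q (u z) = C.f j z := by
  obtain ⟨e, he⟩ := h.surj (C.f j (0, 0))
  obtain ⟨u, -, hu⟩ := exists_liftSq h.cov (C.f j) e he.symm
  exact ⟨u, hu⟩

/-- lifted faces -/
noncomputable def ft (j : C.J) : C(I × I, E) := (exists_ft h C j).choose

theorem q_ft (j : C.J) (z : I × I) : q (ft h C j z) = C.f j z := (exists_ft h C j).choose_spec z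

/-- the holonomy homomorphism -/
noncomputable def Gam : FreeGroup C.E →* G := FreeGroup.lift (gam h C)

@[simp] theorem Gam_of (i : C.E) : Gam h C (FreeGroup.of i) = gam h C i := by simp [Gam]

omit h in
/-- the part of the covering over the 1-skeleton -/
abbrev M1 (C : TwoCx X) (q : E → X) : Type := {y : E // q y ∈ C.X1}

variable [ContinuousConstSMul G E]

/-- uniqueness of lifts of curves -/
theorem lift_eq_smul (g : G) (γ γ' : C(I, E)) (hq : ∀ t, q (γ' t) = q (γ t)) (t₀ : I)
    (h0 : γ' t₀ = g • γ t₀) (t : I) : γ' t = g • γ t := by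
  have := h.cov.eq_of_comp_eq (g₁ := fun t => γ' t) (g₂ := fun t => g • γ t)
    γ'.continuous (γ.continuous.const_smul g) (funext fun t => by
      show q (γ' t) = q (g • γ t)
      rw [h.inv, hq]) t₀ h0
  exact congrFun this t

end lifts

/-- An additive, homotopy invariant, equivariant function on paths over the 1-skeleton. -/
structure PF {G : Type} [Group G] {E X : Type} [TopologicalSpace E] [TopologicalSpace X]
    [MulAction G E] (q : E → X) (C : TwoCx X) {K : Type} [Field K] (μ : G →* Kˣ) where
  Λ : ∀ {a b : M1 C q}, Path a b → K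
  trans : ∀ {a b c : M1 C q} (p : Path a b) (p' : Path b c), Λ (p.trans p') = Λ p + Λ p'
  homotopic : ∀ {a b : M1 C q} (p p' : Path a b), p.Homotopic p' → Λ p = Λ p'
  equi : ∀ (g : G) {a b a' b' : M1 C q} (p : Path a b) (p' : Path a' b'),
    (∀ t, (p' t).1 = g • (p t).1) → Λ p' = (μ g : K) * Λ p

section pf
variable {G : Type} [Group G] {E X : Type} [TopologicalSpace E] [TopologicalSpace X]
  [MulAction G E] {q : E → X} {C : TwoCx X} {K : Type} [Field K] {μ : G →* Kˣ} (W : PF q C μ)

theorem PF.refl (a : M1 C q) : W.Λ (Path.refl a) = 0 := by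
  have h1 := W.trans (Path.refl a) (Path.refl a)
  have h2 := W.homotopic ((Path.refl a).trans (Path.refl a)) (Path.refl a)
    ⟨Path.Homotopy.transRefl (Path.refl a)⟩
  rw [h2] at h1
  simpa using h1

theorem PF.symm {a b : M1 C q} (p : Path a b) : W.Λ p.symm = - W.Λ p := by
  have h1 := W.trans p p.symm
  have h2 := W.homotopic (p.trans p.symm) (Path.refl a)
    ⟨(Path.Homotopy.reflTransSymm p).symm⟩
  rw [h2, W.refl] at h1
  exact (neg_eq_of_add_eq_zero_right h1.symm).symm

theorem PF.congr {a b a' b' : M1 C q} (p : Path a b) (p' : Path a' b')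
    (hp : ∀ t, (p' t).1 = (p t).1) : W.Λ p' = W.Λ p := by
  have := W.equi 1 p p' (fun t => by rw [one_smul]; exact hp t)
  simpa using this

end pf

section main
variable {G : Type} [Group G] {E X : Type} [TopologicalSpace E] [TopologicalSpace X]
  [MulAction G E] [ContinuousConstSMul G E] {q : E → X} (h : GCov G q) {C : TwoCx X}
  {K : Type} [Field K] {μ : G →* Kˣ} (W : PF q C μ)

/-- the lifted edge as a path over the 1-skeleton -/
noncomputable def etP (i : C.E) : Path (⟨et h C i 0, et_mem h C i 0⟩ : M1 C q)
    ⟨et h C i 1, et_mem h C i 1⟩ where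
  toFun t := ⟨et h C i t, et_mem h C i t⟩
  continuous_toFun := Continuous.subtype_mk (et h C i).continuous _
  source' := rfl
  target' := rfl

/-- **holonomy and value of an edge path** -/
theorem ev_EP (D : FreeGroup C.E → K) (hD : IsDer (μ.comp (Gam h C)) D)
    (hDi : ∀ i, D (FreeGroup.of i) = W.Λ (etP h i))
    {o o' : C.O} {w : C.Wd} {p : Path (C.v1 o) (C.v1 o')} (hp : C.EP o o' w p) :
    ∀ (g : G) {a b : M1 C q} (Q : Path a b), a.1 = g • vt h C o → (∀ t, q (Q t).1 = (p t).1) →
      b.1 = (g * Gam h C (C.wordOf w)) • vt h C o' ∧ W.Λ Q = (μ g : K) * D (C.wordOf w) := by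
  induction hp with
  | nil o =>
    intro g a b Q ha hQ
    have hconst : ∀ t t', (Q t).1 = (Q t').1 :=
      h.cov.const_of_comp (g := fun t => (Q t).1) (continuous_subtype_val.comp Q.continuous)
        (fun t t' => (hQ t).trans (hQ t').symm)
    have hb : b = a := by
      apply Subtype.ext
      have := hconst 1 0
      rw [Q.target, Q.source] at this
      exact this
    subst hb
    have hQ' : Q = Path.refl b := by
      ext t
      have := hconst t 0
      rw [Q.source] at this
      exact this
    constructor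
    · show b.1 = (g * Gam h C 1) • vt h C o
      rw [map_one, mul_one]; exact ha
    · rw [hQ', W.refl]
      show 0 = (μ g : K) * D 1
      rw [hD.one, mul_zero]
  | fwd i o' w p _ ih =>
    intro g a b Q ha hQ
    obtain ⟨m, Q1, Q2, rfl⟩ := exists_split Q
    have h1 : ∀ t, q (Q1 t).1 = C.e i t := fun t => by
      have := hQ (hA t)
      rw [trans_hA, trans_hA] at this
      exact this
    have h2 : ∀ t, q (Q2 t).1 = (p t).1 := fun t => by
      have := hQ (hB t)
      rw [trans_hB, trans_hB] at this
      exact this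
    have h3 : ∀ t, (Q1 t).1 = g • et h C i t :=
      lift_eq_smul h g (et h C i) ⟨fun t => (Q1 t).1, continuous_subtype_val.comp Q1.continuous⟩
        (fun t => (h1 t).trans (q_et h C i t).symm) 0 (by
          show (Q1 0).1 = _
          rw [Q1.source, et_zero]; exact ha)
    have hm : m.1 = (g * gam h C i) • vt h C (C.tgt i) := by
      rw [mul_smul, ← et_one, ← h3 1, Q1.target]
    obtain ⟨h4, h5⟩ := ih (g * gam h C i) Q2 hm h2
    have h6 : W.Λ Q1 = (μ g : K) * W.Λ (etP h i) := W.equi g (etP h i) Q1 (fun t => h3 t)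
    constructor
    · rw [h4]
      show _ = (g * Gam h C (FreeGroup.of i * C.wordOf w)) • _
      rw [map_mul, Gam_of, mul_assoc]
    · rw [W.trans, h6, h5]
      show _ = (μ g : K) * D (FreeGroup.of i * C.wordOf w)
      rw [hD, hDi, map_mul, MonoidHom.comp_apply, Gam_of]
      push_cast
      ring
  | bwd i o' w p _ ih =>
    intro g a b Q ha hQ
    obtain ⟨m, Q1, Q2, rfl⟩ := exists_split Q
    have h1 : ∀ t, q (Q1 t).1 = (C.eX i).symm t := fun t => by
      have := hQ (hA t)
      rw [trans_hA, trans_hA] at this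
      exact this
    have h2 : ∀ t, q (Q2 t).1 = (p t).1 := fun t => by
      have := hQ (hB t)
      rw [trans_hB, trans_hB] at this
      exact this
    have h1' : ∀ t, q (Q1.symm t).1 = C.e i t := fun t => by
      show q (Q1 (unitInterval.symm t)).1 = C.e i t
      rw [h1 (unitInterval.symm t)]
      show C.e i (unitInterval.symm (unitInterval.symm t)) = C.e i t
      rw [unitInterval.symm_symm]
    have h3 : ∀ t, (Q1.symm t).1 = (g * (gam h C i)⁻¹) • et h C i t :=
      lift_eq_smul h _ (et h C i)
        ⟨fun t => (Q1.symm t).1, continuous_subtype_val.comp Q1.symm.continuous⟩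
        (fun t => (h1' t).trans (q_et h C i t).symm) 1 (by
          show (Q1.symm 1).1 = _
          rw [Q1.symm.target, et_one, smul_smul, inv_mul_cancel_right]
          exact ha)
    have hm : m.1 = (g * (gam h C i)⁻¹) • vt h C (C.src i) := by
      rw [← et_zero, ← h3 0, Q1.symm.source]
    obtain ⟨h4, h5⟩ := ih (g * (gam h C i)⁻¹) Q2 hm h2
    have h6 : W.Λ Q1.symm = (μ (g * (gam h C i)⁻¹) : K) * W.Λ (etP h i) :=
      W.equi _ (etP h i) Q1.symm (fun t => h3 t)
    rw [W.symm] at h6
    constructor
    · rw [h4]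
      show _ = (g * Gam h C ((FreeGroup.of i)⁻¹ * C.wordOf w)) • _
      rw [map_mul, map_inv, Gam_of, mul_assoc]
    · have h7 : W.Λ Q1 = -((μ (g * (gam h C i)⁻¹) : K) * W.Λ (etP h i)) := by
        rw [← h6, neg_neg]
      rw [W.trans, h7, h5]
      show _ = (μ g : K) * D ((FreeGroup.of i)⁻¹ * C.wordOf w)
      have h8 := hD.inv (FreeGroup.of i)⁻¹
      rw [inv_inv, hDi] at h8
      rw [hD, ← neg_eq_iff_eq_neg.mpr h8]
      rw [map_mul, MonoidHom.comp_apply, map_inv, map_inv, Gam_of]
      rw [map_inv]
      push_cast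
      ring

end main

end Crest.Agent.R251.YC
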