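import Mathlib
import Crest.Agent.R251.YC971a
import Crest.Agent.R185.Att1

/-!
Row 251 (S0388), Y side (helper971): the open 2-cells of a free `G`-cover of a `TwoCx`: open
embeddings, pairwise disjoint translates, closed set of centres.
-/

set_option autoImplicit false

open scoped unitInterval
open Topology

namespace Crest.Agent.R251.YC

open Crest.Agent.R197 Crest.Agent.R197.TwoCx

theorem isOpen_Sint : IsOpen Sint := by
  have : IsOpen Iint := isOpen_Ioo
  exact this.prod this

section base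
variable {X : Type} [TopologicalSpace X] (C : TwoCx X)

/-- a point of a closed cell which is not in the open cell is not in any open cell -/
theorem f_ne_of_notMem {j j' : C.J} {s s' : I × I} (hs : s ∈ Sint) (hs' : s' ∉ Sint) :
    C.f j s ≠ C.f j' s' := by
  intro heq
  rcases C.f_bd j' s' hs' with ⟨o, ho⟩ | ⟨i, t, hi⟩
  · exact C.f_ne_v j s o hs (heq.trans ho)
  · exact C.f_ne_e j s i t hs (heq.trans hi)

theorem f_eq_iff {j j' : C.J} {s s' : I × I} (hs : s ∈ Sint) (heq : C.f j s = C.f j' s') :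
    j = j' ∧ s = s' := by
  by_cases hs' : s' ∈ Sint
  · exact C.f_inj j j' s s' hs hs' heq
  · exact absurd heq (f_ne_of_notMem C hs hs')

theorem f_notMem_X1 {j : C.J} {s : I × I} (hs : s ∈ Sint) : C.f j s ∉ C.X1 := by
  rintro (⟨o, ho⟩ | ⟨i, t, hi⟩)
  · exact C.f_ne_v j s o hs ho
  · exact C.f_ne_e j s i t hs hi

/-- open subsets of open cells are open -/
theorem isOpen_f_image (j : C.J) {W : Set (I × I)} (hW : IsOpen W) (hWS : W ⊆ Sint) :
    IsOpen (C.f j '' W) := by
  rw [← isClosed_compl_iff]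
  apply C.closed2
  · intro i
    have : C.e i ⁻¹' (C.f j '' W)ᶜ = Set.univ := by
      ext t
      simp only [Set.mem_preimage, Set.mem_compl_iff, Set.mem_univ, iff_true]
      rintro ⟨s, hs, hst⟩
      exact C.f_ne_e j s i t (hWS hs) hst
    rw [this]
    exact isClosed_univ
  · intro j'
    by_cases hj : j = j'
    · subst hj
      have : C.f j ⁻¹' (C.f j '' W)ᶜ = Wᶜ := by
        ext t
        simp only [Set.mem_preimage, Set.mem_compl_iff, not_iff_not]
        constructor
        · rintro ⟨s, hs, hst⟩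
          rw [← (f_eq_iff C (hWS hs) hst).2]
          exact hs
        · intro ht
          exact ⟨t, ht, rfl⟩
      rw [this]
      exact hW.isClosed_compl
    · have : C.f j' ⁻¹' (C.f j '' W)ᶜ = Set.univ := by
        ext t
        simp only [Set.mem_preimage, Set.mem_compl_iff, Set.mem_univ, iff_true]
        rintro ⟨s, hs, hst⟩
        exact hj (f_eq_iff C (hWS hs) hst).1
      rw [this]
      exact isClosed_univ

/-- the open cell of `X` -/
theorem isOpenEmbedding_f (j : C.J) : IsOpenEmbedding (fun z : Sint => C.f j z.1) := by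
  refine IsOpenEmbedding.of_continuous_injective_isOpenMap
    ((C.f j).continuous.comp continuous_subtype_val) ?_ ?_
  · intro z z' hz
    exact Subtype.ext (f_eq_iff C z.2 hz).2
  · intro W hW
    obtain ⟨V, hV, rfl⟩ := isOpen_induced_iff.1 hW
    have : (fun z : Sint => C.f j z.1) '' (Subtype.val ⁻¹' V) = C.f j '' (V ∩ Sint) := by
      ext x
      constructor
      · rintro ⟨z, hz, rfl⟩
        exact ⟨z.1, ⟨hz, z.2⟩, rfl⟩
      · rintro ⟨z, ⟨hz, hz'⟩, rfl⟩
        exact ⟨⟨z, hz'⟩, hz, rfl⟩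
    rw [this]
    exact isOpen_f_image C j (hV.inter isOpen_Sint) Set.inter_subset_right

/-- centres (or any choice of one point in each open cell) form a closed set -/
theorem isClosed_centres (c : I × I) (hc : c ∈ Sint) : IsClosed {x : X | ∃ j, x = C.f j c} := by
  apply C.closed2
  · intro i
    have : C.e i ⁻¹' {x : X | ∃ j, x = C.f j c} = ∅ := by
      ext t
      simp only [Set.mem_preimage, Set.mem_ofPred_eq, Set.mem_empty_iff_false, iff_false]
      rintro ⟨j, hj⟩
      exact C.f_ne_e j c i t hc hj.symm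
    rw [this]
    exact isClosed_empty
  · intro j
    have : C.f j ⁻¹' {x : X | ∃ j, x = C.f j c} = {c} := by
      ext t
      simp only [Set.mem_preimage, Set.mem_ofPred_eq, Set.mem_singleton_iff]
      constructor
      · rintro ⟨j', hj⟩
        exact (f_eq_iff C hc hj.symm).2.symm
      · rintro rfl
        exact ⟨j, rfl⟩
    rw [this]
    exact isClosed_singleton

end base

section cover
variable {G : Type} [Group G] {E X : Type} [TopologicalSpace E] [TopologicalSpace X]
  [MulAction G E] [ContinuousConstSMul G E] {q : E → X} (h : GCov G q) (C : TwoCx X)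

omit [ContinuousConstSMul G E] in
theorem isOpenEmbedding_ft (j : C.J) : IsOpenEmbedding (fun z : Sint => ft h C j z.1) := by
  have h1 : IsLocalHomeomorph (q ∘ (fun z : Sint => ft h C j z.1)) := by
    have : (q ∘ (fun z : Sint => ft h C j z.1)) = fun z : Sint => C.f j z.1 := by
      funext z
      exact q_ft h C j z.1
    rw [this]
    exact (isOpenEmbedding_f C j).isLocalHomeomorph
  have h2 : IsLocalHomeomorph (fun z : Sint => ft h C j z.1) :=
    IsLocalHomeomorph.of_comp (f := fun z : Sint => ft h C j z.1) (g := q)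
    h1 h.cov.isLocalHomeomorph ((ft h C j).continuous.comp continuous_subtype_val)
  apply h2.isOpenEmbedding_of_injective
  intro z z' hz
  apply Subtype.ext
  have : q (ft h C j z.1) = q (ft h C j z'.1) := congrArg q hz
  rw [q_ft h, q_ft h] at this
  exact (f_eq_iff C z.2 this).2

/-- the charts of the open 2-cells of the cover -/
noncomputable def cs (g : G) (j : C.J) : C(Sint, E) :=
  ⟨fun z => g • ft h C j z.1, ((ft h C j).continuous.comp continuous_subtype_val).const_smul g⟩

theorem cs_apply (g : G) (j : C.J) (z : Sint) : cs h C g j z = g • ft h C j z.1 := rfl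

theorem isOpenEmbedding_cs (g : G) (j : C.J) : IsOpenEmbedding (cs h C g j) :=
  (Homeomorph.smul g).isOpenEmbedding.comp (isOpenEmbedding_ft h C j)

theorem cs_mul (g g' : G) (j : C.J) (z : Sint) : cs h C (g * g') j z = g • cs h C g' j z := by
  rw [cs_apply, cs_apply, mul_smul]

theorem q_cs (g : G) (j : C.J) (z : Sint) : q (cs h C g j z) = C.f j z.1 := by
  rw [cs_apply, h.inv, q_ft h]

theorem cs_disj {g g' : G} {j j' : C.J} {z z' : Sint} (heq : cs h C g j z = cs h C g' j' z') :
    g = g' ∧ j = j' ∧ z = z' := by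
  have h1 := congrArg q heq
  rw [q_cs h, q_cs h] at h1
  obtain ⟨rfl, h2⟩ := f_eq_iff C z.2 h1
  have h3 : z = z' := Subtype.ext h2
  subst h3
  exact ⟨h.smul_inj heq, rfl, rfl⟩

theorem cs_notMem_X1 (g : G) (j : C.J) (z : Sint) : q (cs h C g j z) ∉ C.X1 := by
  rw [q_cs h]
  exact f_notMem_X1 C z.2

/-- every point over an open cell is in a chart -/
theorem exists_cs {e : E} {j : C.J} {s : I × I} (hs : s ∈ Sint) (he : q e = C.f j s) :
    ∃ g : G, e = cs h C g j ⟨s, hs⟩ := by
  obtain ⟨g, hg⟩ := h.tra (ft h C j s) e (by rw [q_ft h, he])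
  exact ⟨g, hg.symm⟩

/-- the two parts of the cover -/
theorem cases_E (e : E) : q e ∈ C.X1 ∨ ∃ g j z, e = cs h C g j z := by
  rcases C.cover (q e) with ⟨o, ho⟩ | ⟨i, s, _, hi⟩ | ⟨j, s, hs, hj⟩
  · exact Or.inl (Or.inl ⟨o, ho⟩)
  · exact Or.inl (Or.inr ⟨i, s, hi⟩)
  · obtain ⟨g, hg⟩ := exists_cs h C hs hj
    exact Or.inr ⟨g, j, ⟨s, hs⟩, hg⟩

theorem isClosed_cs_centres (c : Sint) : IsClosed {e : E | ∃ g j, e = cs h C g j c} := by
  have : {e : E | ∃ g j, e = cs h C g j c} = q ⁻¹' {x : X | ∃ j, x = C.f j c.1} := by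
    ext e
    simp only [Set.mem_ofPred_eq, Set.mem_preimage]
    constructor
    · rintro ⟨g, j, rfl⟩
      exact ⟨j, q_cs h C g j c⟩
    · rintro ⟨j, hj⟩
      obtain ⟨g, hg⟩ := exists_cs h C c.2 hj
      exact ⟨g, j, hg⟩
  rw [this]
  exact (isClosed_centres C c.1 c.2).preimage h.cov.continuous

/-- the closed cells -/
noncomputable def ftg (g : G) (j : C.J) : C(I × I, E) :=
  ⟨fun z => g • ft h C j z, (ft h C j).continuous.const_smul g⟩

theorem ftg_of_mem (g : G) (j : C.J) {s : I × I} (hs : s ∈ Sint) :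
    ftg h C g j s = cs h C g j ⟨s, hs⟩ := rfl

theorem q_ftg_of_notMem (g : G) (j : C.J) {s : I × I} (hs : s ∉ Sint) :
    q (ftg h C g j s) ∈ C.X1 := by
  show q (g • ft h C j s) ∈ C.X1
  rw [h.inv, q_ft h]
  rcases C.f_bd j s hs with ⟨o, ho⟩ | ⟨i, t, hi⟩
  · exact Or.inl ⟨o, ho⟩
  · exact Or.inr ⟨i, t, hi⟩

end cover

/-! ### The identification of the open unit square with the open sup-norm ball of radius one -/

open Metric Crest.Agent.R185.Att in
/-- the affine homeomorphism of the open square `(0,1)²` with `(-1,1)² = B 2` -/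
noncomputable def sqB : Sint ≃ₜ Crest.Agent.R185.Att.B 2 where
  toFun z := ⟨![2 * (z.1.1 : ℝ) - 1, 2 * (z.1.2 : ℝ) - 1], by
    have h1 := z.2.1.1
    have h2 := z.2.1.2
    have h3 := z.2.2.1
    have h4 := z.2.2.2
    have h1' : (0 : ℝ) < z.1.1 := h1
    have h2' : (z.1.1 : ℝ) < 1 := h2
    have h3' : (0 : ℝ) < z.1.2 := h3
    have h4' : (z.1.2 : ℝ) < 1 := h4
    rw [mem_ball_zero_iff, pi_norm_lt_iff one_pos]
    intro i
    fin_cases i
    · show ‖2 * (z.1.1 : ℝ) - 1‖ < 1
      rw [Real.norm_eq_abs, abs_lt]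
      constructor <;> linarith
    · show ‖2 * (z.1.2 : ℝ) - 1‖ < 1
      rw [Real.norm_eq_abs, abs_lt]
      constructor <;> linarith⟩
  invFun x := ⟨(⟨((x.1 0 : ℝ) + 1) / 2, by
      have h := (pi_norm_lt_iff one_pos).1 (mem_ball_zero_iff.1 x.2) 0
      rw [Real.norm_eq_abs, abs_lt] at h
      constructor <;> linarith⟩, ⟨((x.1 1 : ℝ) + 1) / 2, by
      have h := (pi_norm_lt_iff one_pos).1 (mem_ball_zero_iff.1 x.2) 1
      rw [Real.norm_eq_abs, abs_lt] at h
      constructor <;> linarith⟩), by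
      have h := (pi_norm_lt_iff one_pos).1 (mem_ball_zero_iff.1 x.2) 0
      have h' := (pi_norm_lt_iff one_pos).1 (mem_ball_zero_iff.1 x.2) 1
      rw [Real.norm_eq_abs, abs_lt] at h h'
      refine ⟨⟨?_, ?_⟩, ⟨?_, ?_⟩⟩
      · show (0 : ℝ) < ((x.1 0 : ℝ) + 1) / 2
        linarith
      · show ((x.1 0 : ℝ) + 1) / 2 < (1 : ℝ)
        linarith
      · show (0 : ℝ) < ((x.1 1 : ℝ) + 1) / 2
        linarith
      · show ((x.1 1 : ℝ) + 1) / 2 < (1 : ℝ)
        linarith⟩
  left_inv z := by
    apply Subtype.ext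
    apply Prod.ext
    · apply Subtype.ext
      show (2 * (z.1.1 : ℝ) - 1 + 1) / 2 = z.1.1
      ring
    · apply Subtype.ext
      show (2 * (z.1.2 : ℝ) - 1 + 1) / 2 = z.1.2
      ring
  right_inv x := by
    apply Subtype.ext
    funext i
    fin_cases i
    · show 2 * (((x.1 0 : ℝ) + 1) / 2) - 1 = x.1 0
      ring
    · show 2 * (((x.1 1 : ℝ) + 1) / 2) - 1 = x.1 1
      ring
  continuous_toFun := by
    apply Continuous.subtype_mk
    refine continuous_pi fun i => ?_
    fin_cases i
    · show Continuous fun z : Sint => 2 * (z.1.1 : ℝ) - 1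
      fun_prop
    · show Continuous fun z : Sint => 2 * (z.1.2 : ℝ) - 1
      fun_prop
  continuous_invFun := by
    apply Continuous.subtype_mk
    apply Continuous.prodMk
    · apply Continuous.subtype_mk
      exact (((continuous_apply (0 : Fin 2)).comp continuous_subtype_val).add
        continuous_const).div_const 2
    · apply Continuous.subtype_mk
      exact (((continuous_apply (1 : Fin 2)).comp continuous_subtype_val).add
        continuous_const).div_const 2

theorem sqB_zero (z : Sint) : ((sqB z).1 0 : ℝ) = 2 * (z.1.1 : ℝ) - 1 := rfl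
theorem sqB_one (z : Sint) : ((sqB z).1 1 : ℝ) = 2 * (z.1.2 : ℝ) - 1 := rfl
theorem sqB_symm_fst (x : Crest.Agent.R185.Att.B 2) :
    ((sqB.symm x).1.1 : ℝ) = ((x.1 0 : ℝ) + 1) / 2 := rfl
theorem sqB_symm_snd (x : Crest.Agent.R185.Att.B 2) :
    ((sqB.symm x).1.2 : ℝ) = ((x.1 1 : ℝ) + 1) / 2 := rfl

section coverB
variable {G : Type} [Group G] {E X : Type} [TopologicalSpace E] [TopologicalSpace X]
  [MulAction G E] [ContinuousConstSMul G E] {q : E → X} (h : GCov G q) (C : TwoCx X)

/-- charts of the open 2-cells of the cover with model `B 2` -/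
noncomputable def cb (g : G) (j : C.J) : C(Crest.Agent.R185.Att.B 2, E) :=
  (cs h C g j).comp ⟨sqB.symm, sqB.symm.continuous⟩

theorem cb_apply (g : G) (j : C.J) (x) : cb h C g j x = cs h C g j (sqB.symm x) := rfl

theorem cb_sqB (g : G) (j : C.J) (z : Sint) : cb h C g j (sqB z) = g • ft h C j z.1 := by
  rw [cb_apply, sqB.symm_apply_apply, cs_apply]

theorem isOpenEmbedding_cb (g : G) (j : C.J) : IsOpenEmbedding (cb h C g j) :=
  (isOpenEmbedding_cs h C g j).comp sqB.symm.isOpenEmbedding

theorem cb_mul (g g' : G) (j : C.J) (x) : cb h C (g * g') j x = g • cb h C g' j x :=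
  cs_mul h C g g' j _

theorem cb_disj {g g' : G} {j j' : C.J} {x x'} (heq : cb h C g j x = cb h C g' j' x') :
    g = g' ∧ j = j' ∧ x = x' := by
  obtain ⟨h1, h2, h3⟩ := cs_disj h C heq
  exact ⟨h1, h2, sqB.symm.injective h3⟩

theorem isClosed_cb_centres (x : Crest.Agent.R185.Att.B 2) :
    IsClosed {e : E | ∃ g j, e = cb h C g j x} := isClosed_cs_centres h C (sqB.symm x)

theorem cb_notMem_X1 (g : G) (j : C.J) (x) : q (cb h C g j x) ∉ C.X1 := cs_notMem_X1 h C g j _

theorem cases_Eb (e : E) : q e ∈ C.X1 ∨ ∃ g j x, e = cb h C g j x := by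
  rcases cases_E h C e with h1 | ⟨g, j, z, hz⟩
  · exact Or.inl h1
  · exact Or.inr ⟨g, j, sqB z, by rw [cb_sqB, hz, cs_apply]⟩

theorem ftg_eq_cb (g : G) (j : C.J) {s : I × I} (hs : s ∈ Sint) :
    ftg h C g j s = cb h C g j (sqB ⟨s, hs⟩) := by
  rw [cb_sqB]; rfl

end coverB

end Crest.Agent.R251.YC
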