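import Mathlib
import Crest.Agent.R251.YC971b
import Crest.Agent.R251.LB972

/-!
Row 251 (S0388), Y side (helper971): the lifted open 2-cells as an instance of helper972's `Cells`, and
`GCov` from Mathlib's `IsQuotientCoveringMap`.
-/

set_option autoImplicit false

open scoped unitInterval
open Topology

namespace Crest.Agent.R251.YC

open Crest.Agent.R197 Crest.Agent.R197.TwoCx

/-- a quotient covering map by a discrete group gives a `GCov` -/
theorem GCov.of_isQuotientCoveringMap {G E X : Type} [Group G] [TopologicalSpace E]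
    [TopologicalSpace X] [MulAction G E] {q : E → X} (hq : IsQuotientCoveringMap q G) :
    GCov G q where
  cov := hq.isCoveringMap
  surj := hq.surjective
  inv g z := (hq.apply_eq_iff_mem_orbit).2 ⟨g, rfl⟩
  tra z z' hz := by
    have := (hq.apply_eq_iff_mem_orbit).1 hz.symm
    obtain ⟨g, hg⟩ := this
    exact ⟨g, hg⟩
  free g z hz := by
    obtain ⟨U, hU, hdis⟩ := hq.disjoint z
    exact hdis g ⟨z, ⟨z, mem_of_mem_nhds hU, hz⟩, mem_of_mem_nhds hU⟩

section
variable {G : Type} [Group G] {E X : Type} [TopologicalSpace E] [TopologicalSpace X]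
  [MulAction G E] [ContinuousConstSMul G E] {q : E → X} (h : GCov G q) (C : TwoCx X)

/-- the lifted open 2-cells in helper972's form -/
noncomputable def ycells : LB.Cells G E C.J (Crest.Agent.R185.Att.B 2) where
  chart := cb h C
  emb := isOpenEmbedding_cb h C
  equi := cb_mul h C
  disj := fun heq => ⟨(cb_disj h C heq).1, (cb_disj h C heq).2.1⟩
  c0 := ⟨0, Metric.mem_ball_self one_pos⟩
  closed := isClosed_cb_centres h C _

theorem ycells_chart (g : G) (j : C.J) : (ycells h C).chart g j = cb h C g j := rfl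

/-- the part over the 1-skeleton misses the centres -/
theorem notMem_ctr_of_X1 {e : E} (he : q e ∈ C.X1) : e ∈ (ycells h C).ctrᶜ := by
  rintro ⟨g, j, rfl⟩
  exact cb_notMem_X1 h C g j _ he

/-- the centre of the square -/
noncomputable def mid : I × I :=
  (⟨1 / 2, by norm_num, by norm_num⟩, ⟨1 / 2, by norm_num, by norm_num⟩)

theorem mid_mem : mid ∈ Sint := by
  have h1 : (⟨1 / 2, by norm_num, by norm_num⟩ : I) ∈ Iint := by
    constructor
    · show (0 : ℝ) < 1 / 2
      norm_num
    · show (1 / 2 : ℝ) < 1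
      norm_num
  exact ⟨h1, h1⟩

theorem sqB_mid : sqB ⟨mid, mid_mem⟩ = ⟨0, Metric.mem_ball_self one_pos⟩ := by
  apply Subtype.ext
  funext i
  fin_cases i
  · show 2 * (1 / 2 : ℝ) - 1 = 0
    norm_num
  · show 2 * (1 / 2 : ℝ) - 1 = 0
    norm_num

/-- the closed cell meets the centres only in the centre of the square -/
theorem ftg_mem_ctr_iff (g : G) (j : C.J) (s : I × I) :
    ftg h C g j s ∈ (ycells h C).ctr ↔ s = mid := by
  constructor
  · rintro ⟨g', j', hg⟩
    by_cases hs : s ∈ Sint
    · rw [ftg_eq_cb h C g j hs] at hg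
      obtain ⟨-, -, h3⟩ := cb_disj h C hg
      have h4 : sqB ⟨s, hs⟩ = sqB ⟨mid, mid_mem⟩ := by rw [h3, sqB_mid]; rfl
      exact congrArg Subtype.val (sqB.injective h4)
    · exfalso
      exact notMem_ctr_of_X1 h C (q_ftg_of_notMem h C g j hs) ⟨g', j', hg⟩
  · rintro rfl
    exact ⟨g, j, by rw [ftg_eq_cb h C g j mid_mem, sqB_mid]; rfl⟩

theorem ftg_smul (g g' : G) (j : C.J) (s : I × I) :
    ftg h C (g * g') j s = g • ftg h C g' j s := mul_smul _ _ _

end

end Crest.Agent.R251.YC
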