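import Mathlib
import Crest.Agent.R197.CW2Defs
import Crest.Agent.R197.CW2Of
import Crest.Agent.R197.RelData
import Crest.Agent.R197.OutOne
import Crest.Agent.R197.OutTwo
import Crest.Agent.R197.OutThree

/-! Row 251, Y-side: presentation of the deck group from a two-dimensional cell complex. -/

set_option autoImplicit false

open scoped unitInterval
open Crest.Agent.R197

namespace Crest.Agent.R251.YS

/-! ### derivations on a free group -/

section der
variable {α K : Type} [Field K]

/-- affine permutation `x ↦ m x + δ` -/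
def aff (m : Kˣ) (δ : K) : Equiv.Perm K where
  toFun x := (m : K) * x + δ
  invFun x := ((m⁻¹ : Kˣ) : K) * (x - δ)
  left_inv x := by
    simp
  right_inv x := by
    simp

/-- affine representation of a free group -/
def affHom (m : FreeGroup α →* Kˣ) (δ : α → K) : FreeGroup α →* Equiv.Perm K :=
  FreeGroup.lift fun i => aff (m (FreeGroup.of i)) (δ i)

theorem affHom_apply (m : FreeGroup α →* Kˣ) (δ : α → K) (a : FreeGroup α) :
    ∀ x : K, affHom m δ a x = (m a : K) * x + affHom m δ a 0 := by
  induction a using FreeGroup.induction_on with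
  | C1 => intro x; simp
  | of i => intro x; simp [affHom, aff]
  | inv_of i _ =>
    intro x
    have h : ∀ y, affHom m δ (FreeGroup.of i)⁻¹ y
        = (((m (FreeGroup.of i))⁻¹ : Kˣ) : K) * (y - δ i) := by
      intro y
      rw [map_inv]
      show (affHom m δ (FreeGroup.of i)).symm y = _
      rw [affHom, FreeGroup.lift_apply_of]
      rfl
    rw [h, h, map_inv]
    ring
  | mul a b ha hb =>
    intro x
    rw [map_mul, map_mul, Equiv.Perm.mul_apply, Equiv.Perm.mul_apply, ha, hb x,
      ha (affHom m δ b 0)]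
    push_cast
    ring

/-- the derivation with prescribed values on the generators -/
def der (m : FreeGroup α →* Kˣ) (δ : α → K) (a : FreeGroup α) : K := affHom m δ a 0

theorem der_one (m : FreeGroup α →* Kˣ) (δ : α → K) : der m δ 1 = 0 := by
  simp [der]

theorem der_of (m : FreeGroup α →* Kˣ) (δ : α → K) (i : α) :
    der m δ (FreeGroup.of i) = δ i := by
  simp [der, affHom, aff]

theorem der_mul (m : FreeGroup α →* Kˣ) (δ : α → K) (a b : FreeGroup α) :
    der m δ (a * b) = der m δ a + (m a : K) * der m δ b := by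
  unfold der
  rw [map_mul, Equiv.Perm.mul_apply, affHom_apply m δ a]
  ring

theorem der_inv (m : FreeGroup α →* Kˣ) (δ : α → K) (a : FreeGroup α) :
    der m δ a⁻¹ = - (((m a)⁻¹ : Kˣ) : K) * der m δ a := by
  have h := der_mul m δ a⁻¹ a
  rw [inv_mul_cancel, der_one, map_inv] at h
  linear_combination -h

end der

/-! ### free actions with quotient covering -/

/-- `G` acts freely on `Yt`, the covering `q` being the quotient map. -/
structure Act (G : Type) {Y Yt : Type} [Group G] [TopologicalSpace Y] [TopologicalSpace Yt]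
    [MulAction G Yt] (q : Yt → Y) : Prop where
  cov : IsCoveringMap q
  surj : Function.Surjective q
  cont : ∀ g : G, Continuous (fun y : Yt => g • y)
  orb : ∀ a b : Yt, q a = q b → ∃ g : G, g • a = b
  inv : ∀ (g : G) (a : Yt), q (g • a) = q a
  free : ∀ (g : G) (a : Yt), g • a = a → g = 1

section main
variable {G Y Yt : Type} [Group G] [TopologicalSpace Y] [TopologicalSpace Yt] [MulAction G Yt]
  {q : Yt → Y}

/-- translate of a map -/
def tr (A : Act G q) (g : G) {Z : Type*} [TopologicalSpace Z] (s : C(Z, Yt)) : C(Z, Yt) :=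
  ⟨fun t => g • s t, (A.cont g).comp s.continuous⟩

@[simp] theorem tr_apply (A : Act G q) (g : G) {Z : Type*} [TopologicalSpace Z] (s : C(Z, Yt))
    (z : Z) : tr A g s z = g • s z := rfl

variable (C : TwoCx Y) (A : Act G q) (ot : C.O → Yt) (hot : ∀ o, q (ot o) = C.v o)

/-- the lift of the edge `i` starting at the base lift of its source -/
noncomputable def el (i : C.E) : C(I, Yt) :=
  A.cov.liftPath (C.e i) (ot (C.src i)) ((C.e_zero i).trans (hot (C.src i)).symm)

theorem el_zero (i : C.E) : el C A ot hot i 0 = ot (C.src i) := A.cov.liftPath_zero _ _ _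

theorem q_el (i : C.E) (t : I) : q (el C A ot hot i t) = C.e i t :=
  congrFun (A.cov.liftPath_lifts _ _ _) t

theorem exists_ge (i : C.E) : ∃ g : G, g • ot (C.tgt i) = el C A ot hot i 1 :=
  A.orb _ _ (by rw [q_el C A ot hot, hot, C.e_one])

/-- holonomy of an edge -/
noncomputable def ge (i : C.E) : G := (exists_ge C A ot hot i).choose

theorem ge_spec (i : C.E) : ge C A ot hot i • ot (C.tgt i) = el C A ot hot i 1 :=
  (exists_ge C A ot hot i).choose_spec

/-- the homomorphism from the free group on the edges to the deck group -/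
noncomputable def phi : FreeGroup C.E →* G := FreeGroup.lift (ge C A ot hot)

theorem phi_of (i : C.E) : phi C A ot hot (FreeGroup.of i) = ge C A ot hot i := by
  simp [phi]

theorem lift_eq_zero (A : Act G q) (Q Q' : C(I, Yt)) (h : ∀ t, q (Q t) = q (Q' t)) (h0 : Q 0 = Q' 0) :
    Q = Q' := by
  ext t
  exact congrFun (A.cov.eq_of_comp_eq Q.continuous Q'.continuous (funext h) 0 h0) t

theorem lift_eq_one (A : Act G q) (Q Q' : C(I, Yt)) (h : ∀ t, q (Q t) = q (Q' t)) (h1 : Q 1 = Q' 1) :
    Q = Q' := by
  ext t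
  exact congrFun (A.cov.eq_of_comp_eq Q.continuous Q'.continuous (funext h) 1 h1) t

/-- a lift of an edge from a translate of the base lift is the translate of `el`. -/
theorem lift_edge (i : C.E) (g : G) {m : Yt} (Q : Path (g • ot (C.src i)) m)
    (hQ : ∀ t, q (Q t) = C.e i t) : (Q : C(I, Yt)) = tr A g (el C A ot hot i) := by
  apply lift_eq_zero A
  · intro t
    show q (Q t) = _
    rw [tr_apply, A.inv, q_el C A ot hot, hQ]
  · show Q 0 = _
    rw [tr_apply, el_zero, Q.source]

theorem lift_edge_end (i : C.E) (g : G) {m : Yt} (Q : Path (g • ot (C.src i)) m)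
    (hQ : ∀ t, q (Q t) = C.e i t) : m = (g * ge C A ot hot i) • ot (C.tgt i) := by
  have h := lift_edge C A ot hot i g Q hQ
  have h1 : Q 1 = g • el C A ot hot i 1 := congrArg (fun f : C(I, Yt) => f 1) h
  rw [Q.target] at h1
  rw [h1, mul_smul, ge_spec]

/-- a lift of an edge ending in a translate of the base lift -/
theorem lift_edge' (i : C.E) (g : G) {m : Yt} (Q : Path m (g • ot (C.tgt i)))
    (hQ : ∀ t, q (Q t) = C.e i t) :
    (Q : C(I, Yt)) = tr A (g * (ge C A ot hot i)⁻¹) (el C A ot hot i) := by
  apply lift_eq_one A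
  · intro t
    show q (Q t) = _
    rw [tr_apply, A.inv, q_el C A ot hot, hQ]
  · show Q 1 = _
    rw [tr_apply, ← ge_spec, Q.target, ← mul_smul, inv_mul_cancel_right]

theorem lift_edge_start (i : C.E) (g : G) {m : Yt} (Q : Path m (g • ot (C.tgt i)))
    (hQ : ∀ t, q (Q t) = C.e i t) : m = (g * (ge C A ot hot i)⁻¹) • ot (C.src i) := by
  have h := lift_edge' C A ot hot i g Q hQ
  have h1 : Q 0 = _ := congrArg (fun f : C(I, Yt) => f 0) h
  rw [Q.source] at h1
  rw [h1, tr_apply, el_zero]

/-- end point of the lift of an edge path -/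
theorem end_EP {o o' : C.O} {w : C.Wd} {r : Path (C.v1 o) (C.v1 o')} (h : C.EP o o' w r) :
    ∀ (g : G) {b : Yt} (Q : Path (g • ot o) b), (∀ t, q (Q t) = (r t).1) →
      b = (g * phi C A ot hot (C.wordOf w)) • ot o' := by
  induction h with
  | nil o =>
    intro g b Q hQ
    have := A.cov.const_of_comp (g := fun t => Q t) Q.continuous
        (fun t t' => (hQ t).trans (hQ t').symm) 1 0
    simp only [Q.target, Q.source] at this
    rw [this, TwoCx.wordOf, map_one, mul_one]
  | fwd i o' w r _ ih =>
    intro g b Q hQ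
    obtain ⟨m, Q1, Q2, rfl⟩ := exists_split Q
    have h1 : ∀ t, q (Q1 t) = C.e i t := fun t => by
      have := hQ (hA t)
      rw [trans_hA, trans_hA] at this
      exact this
    have h2 : ∀ t, q (Q2 t) = (r t).1 := fun t => by
      have := hQ (hB t)
      rw [trans_hB, trans_hB] at this
      exact this
    obtain rfl := lift_edge_end C A ot hot i g Q1 h1
    rw [ih _ Q2 h2, TwoCx.wordOf, map_mul, phi_of, mul_assoc]
  | bwd i o' w r _ ih =>
    intro g b Q hQ
    obtain ⟨m, Q1, Q2, rfl⟩ := exists_split Q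
    have h1 : ∀ t, q (Q1.symm t) = C.e i t := fun t => by
      have := hQ (hA (unitInterval.symm t))
      rw [trans_hA, trans_hA] at this
      refine this.trans ?_
      show C.e i (unitInterval.symm (unitInterval.symm t)) = C.e i t
      rw [unitInterval.symm_symm]
    have h2 : ∀ t, q (Q2 t) = (r t).1 := fun t => by
      have := hQ (hB t)
      rw [trans_hB, trans_hB] at this
      exact this
    obtain rfl := lift_edge_start C A ot hot i g Q1.symm h1
    rw [ih _ Q2 h2, TwoCx.wordOf, map_mul, map_inv, phi_of, mul_assoc]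

/-! ### functionals on paths -/

variable {K : Type} [Field K]

/-- equivariant additive functional on paths, homotopy invariant over the 1-skeleton -/
structure Fn (μ : G →* Kˣ) where
  Λ : C(I, Yt) → K
  trans : ∀ {a b c : Yt} (s : Path a b) (s' : Path b c), (∀ t, q (s t) ∈ C.X1) →
    (∀ t, q (s' t) ∈ C.X1) → Λ (s.trans s') = Λ s + Λ s'
  homotopic : ∀ {a b : Yt} (s s' : Path a b) (H : s.Homotopy s'), (∀ z, q (H z) ∈ C.X1) →
    Λ s = Λ s'
  equiv : ∀ (g : G) (s : C(I, Yt)), (∀ t, q (s t) ∈ C.X1) → Λ (tr A g s) = (μ g : K) * Λ s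

variable {C A}
variable {μ : G →* Kˣ} (F : Fn C A μ)

theorem Fn.refl (a : Yt) (ha : q a ∈ C.X1) : F.Λ (Path.refl a) = 0 := by
  have h1 := F.trans (Path.refl a) (Path.refl a) (fun _ => ha) (fun _ => ha)
  have h2 := F.homotopic ((Path.refl a).trans (Path.refl a)) (Path.refl a)
    (Path.Homotopy.transRefl (Path.refl a)) (fun z => by
      have : (Path.Homotopy.transRefl (Path.refl a)) z = a := rfl
      rw [this]; exact ha)
  rw [h2] at h1
  simpa using h1

theorem Fn.symm {a b : Yt} (s : Path a b) (hs : ∀ t, q (s t) ∈ C.X1) :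
    F.Λ s.symm = - F.Λ s := by
  have h1 := F.trans s s.symm hs (fun t => hs _)
  have h2 := F.homotopic (Path.refl a) (s.trans s.symm) (Path.Homotopy.reflTransSymm s)
    (fun z => by
      obtain ⟨t, ht⟩ : ∃ t, (Path.Homotopy.reflTransSymm s) z = s t := ⟨_, rfl⟩
      rw [ht]; exact hs _)
  rw [F.refl a (by simpa using hs 0), h1] at h2
  exact (neg_eq_of_add_eq_zero_right h2.symm).symm

variable (C A) in
/-- the multiplier on the free group -/
noncomputable def mu' (μ : G →* Kˣ) : FreeGroup C.E →* Kˣ := μ.comp (phi C A ot hot)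

/-- the derivation of a functional -/
noncomputable def Fn.d : FreeGroup C.E → K :=
  der (mu' C A ot hot μ) (fun i => F.Λ (el C A ot hot i))

theorem el_mem (i : C.E) (t : I) : q (el C A ot hot i t) ∈ C.X1 := by
  rw [q_el C A ot hot]; exact Or.inr ⟨i, t, rfl⟩

theorem Fn.d_of (i : C.E) : F.d ot hot (FreeGroup.of i) = F.Λ (el C A ot hot i) := der_of _ _ _

theorem Fn.d_mul (a b : FreeGroup C.E) :
    F.d ot hot (a * b) = F.d ot hot a + (mu' C A ot hot μ a : K) * F.d ot hot b := der_mul _ _ _ _

/-- value of the functional on the lift of an edge path -/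
theorem Fn.EP_val {o o' : C.O} {w : C.Wd} {r : Path (C.v1 o) (C.v1 o')} (h : C.EP o o' w r) :
    ∀ (g : G) {b : Yt} (Q : Path (g • ot o) b), (∀ t, q (Q t) = (r t).1) →
      F.Λ Q = (μ g : K) * F.d ot hot (C.wordOf w) := by
  induction h with
  | nil o =>
    intro g b Q hQ
    have h := A.cov.const_of_comp (g := fun t => Q t) Q.continuous
        (fun t t' => (hQ t).trans (hQ t').symm)
    have hb := h 1 0
    simp only [Q.target, Q.source] at hb
    subst hb
    have hQ' : Q = Path.refl _ := by
      ext t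
      have := h t 0
      simp only [Q.source] at this
      exact this
    rw [hQ', F.refl _ (by rw [A.inv, hot]; exact Or.inl ⟨o, rfl⟩), TwoCx.wordOf, Fn.d, der_one,
      mul_zero]
  | fwd i o' w r _ ih =>
    intro g b Q hQ
    obtain ⟨m, Q1, Q2, rfl⟩ := exists_split Q
    have h1 : ∀ t, q (Q1 t) = C.e i t := fun t => by
      have := hQ (hA t)
      rw [trans_hA, trans_hA] at this
      exact this
    have h2 : ∀ t, q (Q2 t) = (r t).1 := fun t => by
      have := hQ (hB t)
      rw [trans_hB, trans_hB] at this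
      exact this
    rw [F.trans Q1 Q2 (fun t => by rw [h1]; exact Or.inr ⟨i, t, rfl⟩)
      (fun t => by rw [h2]; exact (r t).2)]
    obtain rfl := lift_edge_end C A ot hot i g Q1 h1
    rw [lift_edge C A ot hot i g Q1 h1, F.equiv g _ (el_mem ot hot i), ih _ Q2 h2,
      TwoCx.wordOf, F.d_mul, F.d_of, map_mul, mu', MonoidHom.comp_apply, phi_of]
    push_cast
    ring
  | bwd i o' w r _ ih =>
    intro g b Q hQ
    obtain ⟨m, Q1, Q2, rfl⟩ := exists_split Q
    have h1 : ∀ t, q (Q1.symm t) = C.e i t := fun t => by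
      have := hQ (hA (unitInterval.symm t))
      rw [trans_hA, trans_hA] at this
      refine this.trans ?_
      show C.e i (unitInterval.symm (unitInterval.symm t)) = C.e i t
      rw [unitInterval.symm_symm]
    have h2 : ∀ t, q (Q2 t) = (r t).1 := fun t => by
      have := hQ (hB t)
      rw [trans_hB, trans_hB] at this
      exact this
    have h1m : ∀ t, q (Q1.symm t) ∈ C.X1 := fun t => by rw [h1]; exact Or.inr ⟨i, t, rfl⟩
    have h1m' : ∀ t, q (Q1 t) ∈ C.X1 := fun t => by
      have := h1m (unitInterval.symm t)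
      have h3 : Q1.symm (unitInterval.symm t) = Q1 t := by
        show Q1 (unitInterval.symm (unitInterval.symm t)) = Q1 t
        rw [unitInterval.symm_symm]
      rwa [h3] at this
    rw [F.trans Q1 Q2 h1m' (fun t => by rw [h2]; exact (r t).2)]
    have h4 := F.symm Q1 h1m'
    obtain rfl := lift_edge_start C A ot hot i g Q1.symm h1
    rw [lift_edge' C A ot hot i g Q1.symm h1, F.equiv _ _ (el_mem ot hot i)] at h4
    rw [ih _ Q2 h2, TwoCx.wordOf, F.d_mul, ← neg_eq_iff_eq_neg.mpr h4]
    have h5 : F.d ot hot (FreeGroup.of i)⁻¹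
        = - (((mu' C A ot hot μ (FreeGroup.of i))⁻¹ : Kˣ) : K) * F.d ot hot (FreeGroup.of i) :=
      der_inv _ _ _
    rw [h5, F.d_of, map_inv (mu' C A ot hot μ), mu', MonoidHom.comp_apply, phi_of, map_mul,
      map_inv]
    push_cast
    ring

end main

end Crest.Agent.R251.YS
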