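import Mathlib
import Crest.Agent.R251.YS770A

/-! Row 251, Y-side: relator words, surjectivity and kernel of the holonomy homomorphism. -/

set_option autoImplicit false

open scoped unitInterval
open Crest.Agent.R197

namespace Crest.Agent.R251.YS

section main
variable {G Y Yt : Type} [Group G] [TopologicalSpace Y] [TopologicalSpace Yt] [MulAction G Yt]
  {q : Yt → Y} {C : TwoCx Y} (A : Act G q)

include A in
/-- lift of a homotopy over the 1-skeleton -/
theorem exists_lift_homotopy {x y : C.X1} {s s' : Path x y} (H : s.Homotopy s') {a b b' : Yt}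
    (Q : Path a b) (Q' : Path a b') (hQ : ∀ t, q (Q t) = (s t).1)
    (hQ' : ∀ t, q (Q' t) = (s' t).1) :
    ∃ R : C(I × I, Yt), (∀ t, R (0, t) = Q t) ∧ (∀ t, R (1, t) = Q' t) ∧
      (∀ t, R (t, 0) = a) ∧ (∀ t, R (t, 1) = b) ∧ ∀ z, q (R z) = (H z).1 := by
  have h0 : ∀ t, (C.incl.comp H.toContinuousMap) (0, t) = q ((Q : C(I, Yt)) t) := fun t => by
    show (H (0, t)).1 = q (Q t)
    rw [hQ, H.apply_zero]
    rfl
  let R := A.cov.liftHomotopy (C.incl.comp H.toContinuousMap) (Q : C(I, Yt)) h0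
  have hR : ∀ z, q (R z) = (H z).1 := fun z =>
    congrFun (A.cov.liftHomotopy_lifts (C.incl.comp H.toContinuousMap) (Q : C(I, Yt)) h0) z
  have hR0 : ∀ t, R (0, t) = Q t := fun t =>
    A.cov.liftHomotopy_zero (C.incl.comp H.toContinuousMap) (Q : C(I, Yt)) h0 t
  have hl : ∀ t, R (t, 0) = a := fun t => by
    have h1 := A.cov.const_of_comp (g := fun t : I => R (t, 0)) (by fun_prop)
      (fun t t' => by
        rw [hR, hR]
        rw [H.source, H.source]) t 0
    simp only [hR0, Q.source] at h1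
    exact h1
  have hr : ∀ t, R (t, 1) = b := fun t => by
    have h1 := A.cov.const_of_comp (g := fun t : I => R (t, 1)) (by fun_prop)
      (fun t t' => by
        rw [hR, hR]
        rw [H.target, H.target]) t 0
    simp only [hR0, Q.target] at h1
    exact h1
  refine ⟨R, hR0, ?_, hl, hr, hR⟩
  intro t
  have h1 : (R.comp ⟨fun t : I => ((1 : I), t), by fun_prop⟩ : C(I, Yt)) = Q' := by
    apply lift_eq_zero A
    · intro t
      show q (R (1, t)) = q (Q' t)
      rw [hR, hQ', H.apply_one]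
      rfl
    · show R (1, 0) = Q' 0
      rw [hl, Q'.source]
  exact congrArg (fun f : C(I, Yt) => f t) h1

include A in
theorem end_eq {x y : C.X1} {s s' : Path x y} (h : s.Homotopic s') {a b b' : Yt}
    (Q : Path a b) (Q' : Path a b') (hQ : ∀ t, q (Q t) = (s t).1)
    (hQ' : ∀ t, q (Q' t) = (s' t).1) : b' = b := by
  obtain ⟨H⟩ := h
  obtain ⟨R, h0, h1, hl, hr, hR⟩ := exists_lift_homotopy A H Q Q' hQ hQ'
  rw [← hr 1, h1, Q'.target]

variable {K : Type} [Field K] {μ : G →* Kˣ}

variable {A} in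
theorem Fn.eq_of_homotopic (F : Fn C A μ) {x y : C.X1} {s s' : Path x y} (h : s.Homotopic s')
    {a b : Yt} (Q : Path a b) (Q' : Path a b) (hQ : ∀ t, q (Q t) = (s t).1)
    (hQ' : ∀ t, q (Q' t) = (s' t).1) : F.Λ Q = F.Λ Q' := by
  obtain ⟨H⟩ := h
  obtain ⟨R, h0, h1, hl, hr, hR⟩ := exists_lift_homotopy A H Q Q' hQ hQ'
  refine F.homotopic Q Q'
    { toFun := R
      continuous_toFun := R.continuous
      map_zero_left := h0
      map_one_left := h1
      prop' := ?_ } ?_
  · rintro t x hx
    rcases hx with rfl | hx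
    · exact (hl t).trans Q.source.symm
    · rw [Set.mem_singleton_iff] at hx
      subst hx
      exact (hr t).trans Q.target.symm
  · intro z
    show q (R z) ∈ C.X1
    rw [hR]
    exact (H z).2

include A in
/-- lift of a path of the 1-skeleton -/
theorem exists_lift_path {x y : C.X1} (s : Path x y) (a : Yt) (ha : q a = x.1) :
    ∃ (b : Yt) (Q : Path a b), ∀ t, q (Q t) = (s t).1 := by
  let f : C(I, Y) := C.incl.comp (s : C(I, C.X1))
  have h0 : f 0 = q a := by
    rw [ha]
    show (s 0).1 = x.1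
    rw [s.source]
  refine ⟨_, ⟨A.cov.liftPath f a h0, A.cov.liftPath_zero _ _ _, rfl⟩, fun t => ?_⟩
  exact congrFun (A.cov.liftPath_lifts f a h0) t

variable (ot : C.O → Yt) (hot : ∀ o, q (ot o) = C.v o)

/-- the end point of the lift of a path of the 1-skeleton with edge word `w` -/
theorem end_of_rep {o o' : C.O} {w : C.Wd} {s : Path (C.v1 o) (C.v1 o')}
    (h : C.Rep o o' w (Path.Homotopic.Quotient.mk s)) (g : G) {b : Yt} (Q : Path (g • ot o) b)
    (hQ : ∀ t, q (Q t) = (s t).1) : b = (g * phi C A ot hot (C.wordOf w)) • ot o' := by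
  obtain ⟨r, hr, hrs⟩ := C.exists_EP h
  obtain ⟨b', Q', hQ'⟩ := exists_lift_path A r (g • ot o) (by rw [A.inv, hot]; rfl)
  have h1 := end_EP C A ot hot hr g Q' hQ'
  rw [← h1]
  exact end_eq A (Path.Homotopic.Quotient.exact hrs) Q' Q hQ' hQ

variable {A} in
/-- the value of the functional on the lift of a path of the 1-skeleton with edge word `w` -/
theorem Fn.val_of_rep (F : Fn C A μ) {o o' : C.O} {w : C.Wd} {s : Path (C.v1 o) (C.v1 o')}
    (h : C.Rep o o' w (Path.Homotopic.Quotient.mk s)) (g : G) {b : Yt} (Q : Path (g • ot o) b)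
    (hQ : ∀ t, q (Q t) = (s t).1) : F.Λ Q = (μ g : K) * F.d ot hot (C.wordOf w) := by
  obtain ⟨r, hr, hrs⟩ := C.exists_EP h
  obtain ⟨b', Q', hQ'⟩ := exists_lift_path A r (g • ot o) (by rw [A.inv, hot]; rfl)
  obtain rfl : b' = b := (end_eq A (Path.Homotopic.Quotient.exact hrs) Q' Q hQ' hQ).symm
  rw [← F.EP_val ot hot hr g Q' hQ']
  exact (F.eq_of_homotopic (Path.Homotopic.Quotient.exact hrs) Q' Q hQ' hQ).symm

variable (D : C.RelData)

/-- path to the corner of a 2-cell, in `Y` -/
def tauY (j : C.J) : Path (C.v (D.bo j)) (C.f j (0, 0)) :=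
  (D.τ j).map C.incl.continuous

include A hot in
/-- lift of the connecting path and of the 2-cell -/
theorem exists_uj (j : C.J) : ∃ (a : Yt) (T : Path (ot (D.bo j)) a) (u : C(I × I, Yt)),
    u (0, 0) = a ∧ (∀ z, q (u z) = C.f j z) ∧ ∀ t, q (T t) = (D.τ j t).1 := by
  obtain ⟨a, T, hT⟩ := exists_lift_path A (D.τ j) (ot (D.bo j)) (hot _)
  have ha : C.f j (0, 0) = q a := by
    have := hT 1
    rw [T.target, (D.τ j).target] at this
    exact this.symm
  obtain ⟨u, hu0, hu⟩ := TwoCx.exists_liftSq A.cov (C.f j) a ha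
  exact ⟨a, T, u, hu0, hu, hT⟩

/-- the lift of the 2-cell `j` attached to the base lift -/
noncomputable def uj (j : C.J) : C(I × I, Yt) :=
  (exists_uj A ot hot D j).choose_spec.choose_spec.choose

theorem q_uj (j : C.J) (z : I × I) : q (uj A ot hot D j z) = C.f j z :=
  (exists_uj A ot hot D j).choose_spec.choose_spec.choose_spec.2.1 z

/-- the lift of the connecting path -/
noncomputable def Tj (j : C.J) : Path (ot (D.bo j)) (uj A ot hot D j (0, 0)) :=
  (exists_uj A ot hot D j).choose_spec.choose.cast rfl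
    (exists_uj A ot hot D j).choose_spec.choose_spec.choose_spec.1

theorem q_Tj (j : C.J) (t : I) : q (Tj A ot hot D j t) = (D.τ j t).1 :=
  (exists_uj A ot hot D j).choose_spec.choose_spec.choose_spec.2.2 t

/-- the lifted boundary curve of the 2-cell -/
noncomputable def bj (j : C.J) : Path (uj A ot hot D j (0, 0)) (uj A ot hot D j (0, 0)) :=
  TwoCx.bdSq.map (uj A ot hot D j).continuous

theorem bj_apply (j : C.J) (t : I) : bj A ot hot D j t = uj A ot hot D j (TwoCx.bdSq t) := rfl

/-- closed lift of the relator loop -/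
noncomputable def Qj (j : C.J) : Path (ot (D.bo j)) (ot (D.bo j)) :=
  ((Tj A ot hot D j).trans (bj A ot hot D j)).trans (Tj A ot hot D j).symm

theorem q_Qj (j : C.J) (t : I) : q (Qj A ot hot D j t) =
    ((((D.τ j).trans (C.bd1 j)).trans (D.τ j).symm) t).1 := by
  unfold Qj
  simp only [Path.trans_apply]
  split_ifs
  · exact q_Tj A ot hot D j _
  · exact q_uj A ot hot D j _
  · exact q_Tj A ot hot D j _

theorem phi_rel (j : C.J) : phi C A ot hot (C.wordOf (D.w j)) = 1 := by
  let Q : Path ((1 : G) • ot (D.bo j)) (ot (D.bo j)) :=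
    (Qj A ot hot D j).cast (one_smul G _) rfl
  have h := end_of_rep A ot hot (D.rep j) 1 Q (fun t => q_Qj A ot hot D j t)
  rw [one_mul] at h
  exact A.free _ _ h.symm

variable {A} in
/-- **the derivation takes the value of the functional on the boundary of the 2-cell** -/
theorem Fn.d_rel (F : Fn C A μ) (j : C.J) : F.d ot hot (C.wordOf (D.w j)) =
    F.Λ (bj A ot hot D j) := by
  let Q : Path ((1 : G) • ot (D.bo j)) (ot (D.bo j)) :=
    (Qj A ot hot D j).cast (one_smul G _) rfl
  have h := F.val_of_rep ot hot (D.rep j) 1 Q (fun t => q_Qj A ot hot D j t)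
  rw [map_one, Units.val_one, one_mul] at h
  rw [← h]
  have hT : ∀ t, q (Tj A ot hot D j t) ∈ C.X1 := fun t => by
    rw [q_Tj A ot hot]; exact (D.τ j t).2
  have hb : ∀ t, q (bj A ot hot D j t) ∈ C.X1 := fun t => by
    rw [bj_apply, q_uj A ot hot]; exact C.f_bdSq_mem j t
  have h1 : ∀ t, q (((Tj A ot hot D j).trans (bj A ot hot D j)) t) ∈ C.X1 := fun t => by
    rw [Path.trans_apply]
    split_ifs
    · exact hT _
    · exact hb _
  show F.Λ (Qj A ot hot D j) = _
  unfold Qj
  rw [F.trans _ _ h1 (fun t => hT _), F.trans _ _ hT hb, F.symm _ hT]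
  ring

/-- every element of the group is the holonomy of an edge loop -/
theorem exists_word [PreconnectedSpace Yt] (o : C.O) (g : G) :
    ∃ (w : C.Wd) (γ : Path.Homotopic.Quotient (C.v1 o) (C.v1 o)),
      C.Rep o o w γ ∧ phi C A ot hot (C.wordOf w) = g := by
  have hm : ∀ g : G, q (g • ot o) ∈ C.X1 := fun g => by
    rw [A.inv, hot]; exact Or.inl ⟨o, rfl⟩
  obtain ⟨Δ, hΔ⟩ := OutOne.reach_all A.cov ((1 : G) • ot o) (g • ot o) (hm 1) (hm g)
  let δ : Path (C.v1 o) (C.v1 o) :=
    { toFun := fun s => ⟨q (Δ s), hΔ s⟩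
      continuous_toFun := Continuous.subtype_mk (A.cov.continuous.comp Δ.continuous) _
      source' := Subtype.ext (by
        show q (Δ 0) = C.v o
        rw [Δ.source, A.inv, hot])
      target' := Subtype.ext (by
        show q (Δ 1) = C.v o
        rw [Δ.target, A.inv, hot]) }
  obtain ⟨w, hw⟩ := C.exists_rep o o (Path.Homotopic.Quotient.mk δ)
  refine ⟨w, _, hw, ?_⟩
  have h := end_of_rep A ot hot hw 1 Δ (fun t => rfl)
  rw [one_mul] at h
  have h2 : (g⁻¹ * phi C A ot hot (C.wordOf w)) • ot o = ot o := by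
    rw [mul_smul, ← h, inv_smul_smul]
  have h3 := A.free _ _ h2
  rw [inv_mul_eq_one] at h3
  exact h3.symm

/-- the kernel of the holonomy on edge loops is the normal closure of the relators -/
theorem mem_normalClosure [SimplyConnectedSpace Yt] {o : C.O} {w : C.Wd}
    {γ : Path.Homotopic.Quotient (C.v1 o) (C.v1 o)} (h : C.Rep o o w γ)
    (hw : phi C A ot hot (C.wordOf w) = 1) :
    C.wordOf w ∈ Subgroup.normalClosure (Set.range fun j => C.wordOf (D.w j)) := by
  have hrep := h
  obtain ⟨r, hr, rfl⟩ := C.exists_EP h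
  obtain ⟨b, Q, hQ⟩ := exists_lift_path A r ((1 : G) • ot o) (by rw [A.inv, hot]; rfl)
  have hb := end_EP C A ot hot hr 1 Q hQ
  rw [hw, mul_one] at hb
  subst hb
  have h1 : (Path.Homotopic.Quotient.mk r).map C.incl =
      Path.Homotopic.Quotient.refl (C.v o) := by
    have hq : q ((1 : G) • ot o) = C.v o := by rw [A.inv, hot]
    have h2 := TwoCx.mk_eq_of_lifts A.cov.continuous hq hq Q (Path.refl _) (r.map C.incl.continuous)
      (Path.refl (C.v o)) hQ (fun t => hq)
    exact h2
  have h2 := out2 C D (FreeGroup C.E ⧸ Subgroup.normalClosure (Set.range fun j =>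
    C.wordOf (D.w j))) (QuotientGroup.mk' _) (fun j => (QuotientGroup.eq_one_iff _).mpr
      (Subgroup.subset_normalClosure ⟨j, rfl⟩)) o w _ hrep h1
  exact (QuotientGroup.eq_one_iff _).mp h2

end main

end Crest.Agent.R251.YS
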