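import Mathlib
import Crest.Agent.R251.YC971c
import Crest.Agent.R251.YS770B
import Crest.Agent.R251.PC752
import Crest.Agent.R251.LB972
import Crest.Agent.R251.Fin711

/-!
Row 251 (S0388), the Y-side joint, part a (helper971): an equivariant 1-cochain closed off the centres
gives helper770's path functional, and its value on the boundary of a lifted 2-cell is the
"area" of the coboundary.
-/

set_option autoImplicit false

open scoped unitInterval
open Topology
open Crest.GeometryTopology.DeckCochains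

namespace Crest.Agent.R251.YJ

open Crest.Agent.R197 Crest.Agent.R197.TwoCx Crest.Agent.R251

/-- value of a 2-cochain on a square: lower triangle minus upper triangle -/
noncomputable def ar {E : Type} [TopologicalSpace E] {M : Type*} [AddCommGroup M]
    (u : SingSimplex E 2 → M) (f : C(I × I, E)) : M :=
  u (PC.lin f ![((0 : I), (0 : I)), (1, 0), (1, 1)]) - u (PC.lin f ![((0 : I), (0 : I)), (0, 1), (1, 1)])

section bd
variable {E : Type} [TopologicalSpace E] {M : Type*} [AddCommGroup M] {ψ : SingSimplex E 1 → M}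
  {U : Set E}

theorem ps_bdSq (hcl : PC.ClosedOn ψ U) (f : C(I × I, E)) (hf : ∀ z, z ∉ Sint → f z ∈ U) :
    ψ (PC.ps (bdSq.map f.continuous : C(I, E))) = ar (cochainCobdry ψ) f := by
  let p1 : Path ((0, 0) : I × I) (1, 0) := ⟨⟨fun s => (s, 0), by fun_prop⟩, rfl, rfl⟩
  let p2 : Path ((1, 0) : I × I) (1, 1) := ⟨⟨fun s => (1, s), by fun_prop⟩, rfl, rfl⟩
  let p3 : Path ((1, 1) : I × I) (0, 1) :=
    ⟨⟨fun s => (unitInterval.symm s, 1), by fun_prop⟩, by simp, by simp⟩
  let p4 : Path ((0, 1) : I × I) (0, 0) :=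
    ⟨⟨fun s => (0, unitInterval.symm s), by fun_prop⟩, by simp, by simp⟩
  have hbd : bdSq = ((p1.trans p2).trans p3).trans p4 := rfl
  have n1 : ∀ t, p1 t ∉ Sint := fun t h => by
    have : (0 : ℝ) < ((0 : I) : ℝ) := h.2.1
    simp at this
  have n2 : ∀ t, p2 t ∉ Sint := fun t h => by
    have : ((1 : I) : ℝ) < (1 : ℝ) := h.1.2
    simp at this
  have n3 : ∀ t, p3 t ∉ Sint := fun t h => by
    have : ((1 : I) : ℝ) < (1 : ℝ) := h.2.2
    simp at this
  have n4 : ∀ t, p4 t ∉ Sint := fun t h => by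
    have : (0 : ℝ) < ((0 : I) : ℝ) := h.1.1
    simp at this
  have m1 : ∀ t, (p1.map f.continuous) t ∈ U := fun t => hf _ (n1 t)
  have m2 : ∀ t, (p2.map f.continuous) t ∈ U := fun t => hf _ (n2 t)
  have m3 : ∀ t, (p3.map f.continuous) t ∈ U := fun t => hf _ (n3 t)
  have m4 : ∀ t, (p4.map f.continuous) t ∈ U := fun t => hf _ (n4 t)
  have m12 : ∀ t, ((p1.map f.continuous).trans (p2.map f.continuous)) t ∈ U := fun t => by
    rw [Path.trans_apply]; split_ifs
    · exact m1 _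
    · exact m2 _
  have m123 : ∀ t, (((p1.map f.continuous).trans (p2.map f.continuous)).trans
      (p3.map f.continuous)) t ∈ U := fun t => by
    rw [Path.trans_apply]; split_ifs
    · exact m12 _
    · exact m3 _
  rw [hbd, Path.map_trans, Path.map_trans, Path.map_trans, hcl.trans _ _ m123 m4,
    hcl.trans _ _ m12 m3, hcl.trans _ _ m1 m2]
  have e1 : (p1.map f.continuous : C(I, E)) = PC.horz f 0 := rfl
  have e2 : (p2.map f.continuous : C(I, E)) = PC.vert f 1 := rfl
  let r3 : Path ((0, 1) : I × I) (1, 1) := ⟨⟨fun s => (s, 1), by fun_prop⟩, rfl, rfl⟩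
  let r4 : Path ((0, 0) : I × I) (0, 1) := ⟨⟨fun s => (0, s), by fun_prop⟩, rfl, rfl⟩
  have k3 : ∀ t, r3 t ∉ Sint := fun t h => by
    have : ((1 : I) : ℝ) < (1 : ℝ) := h.2.2
    simp at this
  have k4 : ∀ t, r4 t ∉ Sint := fun t h => by
    have : (0 : ℝ) < ((0 : I) : ℝ) := h.1.1
    simp at this
  have e3 : ψ (PC.ps (p3.map f.continuous : C(I, E))) = - ψ (PC.ps (PC.horz f 1)) :=
    hcl.symm (r3.map f.continuous) (fun t => hf _ (k3 t))
  have e4 : ψ (PC.ps (p4.map f.continuous : C(I, E))) = - ψ (PC.ps (PC.vert f 0)) :=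
    hcl.symm (r4.map f.continuous) (fun t => hf _ (k4 t))
  rw [e1, e2, e3, e4]
  have h1 := PC.stokes ψ f
  unfold ar
  have h2 : cochainCobdry ψ (PC.lin f ![((0 : I), (0 : I)), (1, 0), (1, 1)]) -
      cochainCobdry ψ (PC.lin f ![((0 : I), (0 : I)), (0, 1), (1, 1)]) =
      -(ψ (PC.ps (PC.vert f 0)) + ψ (PC.ps (PC.horz f 1)) - ψ (PC.ps (PC.vert f 1)) -
        ψ (PC.ps (PC.horz f 0))) := by
    rw [← h1]; abel
  rw [h2]
  abel

end bd

section fn
variable {G E X : Type} [Group G] [TopologicalSpace E] [TopologicalSpace X] [MulAction G E]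
  [ContinuousConstSMul G E] {q : E → X} {K : Type} [Field K] {μ : G →* Kˣ}

theorem act_of (h : YC.GCov G q) : YS.Act G q :=
  ⟨h.cov, h.surj, fun g => continuous_const_smul g, h.tra, h.inv, h.free⟩

/-- helper770's path functional from an equivariant 1-cochain closed over the 1-skeleton -/
noncomputable def fnOf (A : YS.Act G q) (C : TwoCx X) {ψ : SingSimplex E 1 → Fin.Tw μ}
    (hψ : Fin.Eqv G ψ) {U : Set E} (hU : ∀ y, q y ∈ C.X1 → y ∈ U) (hcl : PC.ClosedOn ψ U) :
    YS.Fn C A μ where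
  Λ γ := ψ (PC.ps γ)
  trans s s' hs hs' := hcl.trans s s' (fun t => hU _ (hs t)) (fun t => hU _ (hs' t))
  homotopic s s' H hH := hcl.homotopy H (fun z => hU _ (hH z))
  equiv g s _ := hψ g (PC.ps s)

theorem fnOf_Λ (A : YS.Act G q) (C : TwoCx X) {ψ : SingSimplex E 1 → Fin.Tw μ}
    (hψ : Fin.Eqv G ψ) {U : Set E} (hU : ∀ y, q y ∈ C.X1 → y ∈ U) (hcl : PC.ClosedOn ψ U)
    (γ : C(I, E)) : (fnOf A C hψ hU hcl).Λ γ = ψ (PC.ps γ) := rfl

end fn

end Crest.Agent.R251.YJ
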