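import Mathlib
import Crest.Agent.R251.YS770B
import Crest.Agent.R251.Tor711

/-! Row 251, Y-side: torsion elements of the deck group are killed by `μ`. -/

set_option autoImplicit false

open scoped unitInterval
open Crest.Agent.R197

namespace Crest.Agent.R251.YS

section pow
variable {Y : Type} [TopologicalSpace Y] (C : TwoCx Y)

theorem exists_O [Nonempty Y] : Nonempty C.O := by
  obtain ⟨x⟩ := ‹Nonempty Y›
  rcases C.cover x with ⟨o, _⟩ | ⟨i, _, _, _⟩ | ⟨j, _, _, _⟩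
  · exact ⟨o⟩
  · exact ⟨C.src i⟩
  · rcases C.f_bd j (0, 0) (fun h => lt_irrefl _ h.1.1) with ⟨o, _⟩ | ⟨i, _⟩
    · exact ⟨o⟩
    · exact ⟨C.src i⟩

variable {C}

theorem exists_rep_pow {o : C.O} {w : C.Wd} {γ : Path.Homotopic.Quotient (C.v1 o) (C.v1 o)}
    (h : C.Rep o o w γ) (n : ℕ) : ∃ (w' : C.Wd)
      (γ' : Path.Homotopic.Quotient (C.v1 o) (C.v1 o)), C.Rep o o w' γ' ∧
        C.wordOf w' = C.wordOf w ^ n := by
  induction n with
  | zero => exact ⟨[], _, TwoCx.Rep.nil o, by simp [TwoCx.wordOf]⟩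
  | succ n ih =>
    obtain ⟨w', γ', h', hw'⟩ := ih
    refine ⟨w' ++ w, _, h'.trans h, ?_⟩
    rw [C.wordOf_append, hw', pow_succ]

end pow

section main
variable {G Y Yt : Type} [Group G] [TopologicalSpace Y] [TopologicalSpace Yt] [MulAction G Yt]
  {q : Yt → Y} {C : TwoCx Y} (A : Act G q) {K : Type} [Field K] {μ : G →* Kˣ}
  (ot : C.O → Yt) (hot : ∀ o, q (ot o) = C.v o) (D : C.RelData)

/-- **Y-side theorem, combinatorial form.** -/
theorem mu_eq_one_of_sur [SimplyConnectedSpace Yt]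
    (hS : ∀ b : C.J → K, ∃ F : Fn C A μ, ∀ j, F.Λ (bj A ot hot D j) = b j)
    (c : G) (n : ℕ) (hn : n ≠ 0) (hc : c ^ n = 1) : μ c = 1 := by
  have hY : Nonempty Y := by
    obtain ⟨y⟩ : Nonempty Yt := inferInstance
    exact ⟨q y⟩
  obtain ⟨o⟩ := exists_O C
  obtain ⟨w, γ, hw, hwc⟩ := exists_word A ot hot o c
  obtain ⟨w', γ', hw', hww⟩ := exists_rep_pow hw n
  have h1 : phi C A ot hot (C.wordOf w') = 1 := by rw [hww, map_pow, hwc, hc]
  have h2 := mem_normalClosure A ot hot D hw' h1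
  rw [hww] at h2
  have h3 := Tor711.torsion (mu' C A ot hot μ) (fun j => C.wordOf (D.w j))
    (fun j => by
      show μ (phi C A ot hot (C.wordOf (D.w j))) = 1
      rw [phi_rel A ot hot D j, map_one])
    (fun b => by
      obtain ⟨F, hF⟩ := hS b
      exact ⟨F.d ot hot, fun x y => F.d_mul ot hot x y, fun j =>
        (F.d_rel ot hot D j).trans (hF j)⟩)
    (C.wordOf w) n hn h2
  have h4 : μ (phi C A ot hot (C.wordOf w)) = 1 := h3
  rwa [hwc] at h4

end main

end Crest.Agent.R251.YS
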