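import Mathlib
import Crest.Agent.R251.YJ971a
import Crest.Agent.R251.YS770C
import Crest.Agent.R251.Fin711b
import Crest.Agent.R197.CW2Of

/-!
Row 251 (S0388), the Y-side joint, part b (helper971): `Fin.YCore` from the cell cocycles (Lemma B) on the
cover of a two-dimensional complex.
-/

set_option autoImplicit false

open scoped unitInterval
open Topology
open Crest.GeometryTopology.DeckCochains

namespace Crest.Agent.R251.YJ

open Crest.Agent.R197 Crest.Agent.R197.TwoCx Crest.Agent.R251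

/-- Lemma B for the cover of a two-dimensional complex: cell cocycles with prescribed values. -/
def CellCocycles {G E X : Type} [Group G] [TopologicalSpace E] [TopologicalSpace X] [MulAction G E]
    [ContinuousConstSMul G E] {q : E → X} (h : YC.GCov G q) (C : TwoCx X) (M : Type)
    [AddCommGroup M] [DistribMulAction G M] : Prop :=
  ∀ b : C.J → M, ∃ u : SingSimplex E 2 → M, cochainCobdry u = 0 ∧ Fin.Eqv G u ∧
    (∀ s : SingSimplex E 2, (∀ x, q (Pr.us s x) ∈ C.X1) → u s = 0) ∧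
    ∀ (g : G) (j : C.J), ar u (YC.ftg h C g j) = g • b j

section
variable {G E X : Type} [Group G] [TopologicalSpace E] [TopologicalSpace X] [MulAction G E]
  [ContinuousConstSMul G E] {q : E → X} (h : YC.GCov G q) (C : TwoCx X)

/-- any lift of a face is a translate of `ft` -/
theorem exists_ftg {j : C.J} (u : C(I × I, E)) (hu : ∀ z, q (u z) = C.f j z) :
    ∃ g : G, YC.ftg h C g j = u := by
  obtain ⟨g, hg⟩ := h.tra (YC.ft h C j (0, 0)) (u (0, 0)) (by rw [YC.q_ft h, hu])
  refine ⟨g, ?_⟩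
  have := h.cov.eq_of_comp_eq (g₁ := fun z => YC.ftg h C g j z) (g₂ := fun z => u z)
    (YC.ftg h C g j).continuous u.continuous (funext fun z => by
      show q (g • YC.ft h C j z) = q (u z)
      rw [h.inv, YC.q_ft h, hu]) (0, 0) hg
  ext z
  exact congrFun this z

/-- **the Sur hypothesis of helper770 from the cell cocycles and `H² = 0`** -/
theorem sur_of {K : Type} [Field K] {μ : G →* Kˣ} (hV : Fin.HV G E (Fin.Tw μ) 1)
    (hB : CellCocycles h C (Fin.Tw μ)) (A : YS.Act G q) (ot : C.O → E)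
    (hot : ∀ o, q (ot o) = C.v o) (D : C.RelData) (b : C.J → K) :
    ∃ F : YS.Fn C A μ, ∀ j, F.Λ (YS.bj A ot hot D j) = b j := by
  choose gj hgj using fun j => exists_ftg h C (YS.uj A ot hot D j) (YS.q_uj A ot hot D j)
  let b' : C.J → Fin.Tw μ := fun j => (gj j)⁻¹ • (show Fin.Tw μ from b j)
  obtain ⟨u, hu1, hu2, hu3, hu4⟩ := hB b'
  obtain ⟨ψ, hψ, hd⟩ := hV u hu2 hu1
  have hcl : PC.ClosedOn ψ {y : E | q y ∈ C.X1} := by
    intro τ hτ
    rw [hd]
    apply hu3
    intro x
    rw [Pr.us_sx]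
    exact hτ x
  refine ⟨fnOf A C hψ (fun y hy => hy) hcl, fun j => ?_⟩
  rw [fnOf_Λ]
  have h1 := ps_bdSq hcl (YS.uj A ot hot D j) (fun z hz => by
    show q (YS.uj A ot hot D j z) ∈ C.X1
    rw [YS.q_uj A ot hot D j z]
    rcases C.f_bd j z hz with ⟨o, ho⟩ | ⟨i, t, hi⟩
    · exact Or.inl ⟨o, ho⟩
    · exact Or.inr ⟨i, t, hi⟩)
  refine h1.trans ?_
  rw [hd, ← hgj j, hu4]
  show gj j • (gj j)⁻¹ • (show Fin.Tw μ from b j) = b j
  rw [smul_inv_smul]

end

/-- **YCore from Lemma B** -/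
theorem ycore_of {K : Type} [Field K]
    (hB : ∀ (G E X : Type) [Group G] [TopologicalSpace E] [TopologicalSpace X] [MulAction G E]
      [ContinuousConstSMul G E] (q : E → X) (h : YC.GCov G q) (C : TwoCx X) (M : Type)
      [AddCommGroup M] [DistribMulAction G M], CellCocycles h C M) : Fin.YCore K := by
  intro G _ Yt Y _ _ _ _ q hc μ hV _ _ hdim c n hn hcn
  have h : YC.GCov G q := ⟨hc.cov, hc.surj, hc.inv, hc.fib, hc.free⟩
  have A : YS.Act G q := act_of h
  have hsc := hc.sc
  obtain ⟨C⟩ : Nonempty (TwoCx Y) := exists_twoCx Y hdim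
  obtain ⟨D⟩ := exists_relData C
  exact YS.mu_eq_one_of_sur A (YC.vt h C) (YC.q_vt h C) D
    (fun b => sur_of h C hV (hB G Yt Y q h C (Fin.Tw μ)) A _ _ D b) c n hn hcn

end Crest.Agent.R251.YJ
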