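import Mathlib
import Crest.Agent.R251.YJ971b
import Crest.Agent.R251.LB972c
import Crest.Agent.R251.Om239

/-!
Row 251 (S0388), the Y-side joint, part c (helper971): the cell cocycles on the cover of a
two-dimensional complex (helper972's Lemma B with helper239's winding cocycle), and `YCore`.
-/

set_option autoImplicit false

open scoped unitInterval
open Topology
open Crest.GeometryTopology.DeckCochains

namespace Crest.Agent.R251.YJ

open Crest.Agent.R197 Crest.Agent.R197.TwoCx Crest.Agent.R251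

/-- helper239's winding cocycle has value one on helper972's inner square -/
theorem w2_lowB_upB : Om.w2 (LB.sx LB.lowB) - Om.w2 (LB.sx LB.upB) = 1 := by
  have hr : (1 / 2 : ℝ) < 1 := by norm_num
  have ha : |(-(1 / 2) : ℝ)| = 1 / 2 := by rw [abs_neg, abs_of_pos (by norm_num)]
  have hb : |((1 / 2) : ℝ)| = 1 / 2 := abs_of_pos (by norm_num)
  have key := Om.w2_sq (Om.cB (1 / 2) hr (-(1 / 2)) (-(1 / 2)) ha ha)
    (Om.cB (1 / 2) hr (1 / 2) (-(1 / 2)) hb ha) (Om.cB (1 / 2) hr (-(1 / 2)) (1 / 2) ha hb)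
    (Om.cB (1 / 2) hr (1 / 2) (1 / 2) hb hb) (1 / 2) (by norm_num) rfl rfl rfl rfl
  have e1 : Om.triB (Om.cB (1 / 2) hr (-(1 / 2)) (-(1 / 2)) ha ha)
      (Om.cB (1 / 2) hr (1 / 2) (-(1 / 2)) hb ha) (Om.cB (1 / 2) hr (1 / 2) (1 / 2) hb hb) =
      LB.lowB := by
    ext x i
    fin_cases i
    · show x.1 0 * (-(1 / 2)) + x.1 1 * (1 / 2) + x.1 2 * (1 / 2) = (-x.1 0 + x.1 1 + x.1 2) / 2
      ring
    · show x.1 0 * (-(1 / 2)) + x.1 1 * (-(1 / 2)) + x.1 2 * (1 / 2) = (-x.1 0 - x.1 1 + x.1 2) / 2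
      ring
  have e2 : Om.triB (Om.cB (1 / 2) hr (-(1 / 2)) (-(1 / 2)) ha ha)
      (Om.cB (1 / 2) hr (-(1 / 2)) (1 / 2) ha hb) (Om.cB (1 / 2) hr (1 / 2) (1 / 2) hb hb) =
      LB.upB := by
    ext x i
    fin_cases i
    · show x.1 0 * (-(1 / 2)) + x.1 1 * (-(1 / 2)) + x.1 2 * (1 / 2) = (-x.1 0 - x.1 1 + x.1 2) / 2
      ring
    · show x.1 0 * (-(1 / 2)) + x.1 1 * (1 / 2) + x.1 2 * (1 / 2) = (-x.1 0 + x.1 1 + x.1 2) / 2
      ring
  rw [e1, e2] at key
  exact key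

/-- **Lemma B with all inputs**, for any family of free 2-cells in helper972's form. -/
theorem exists_cocycle {G E J M : Type} [Group G] [TopologicalSpace E] [MulAction G E]
    [ContinuousConstSMul G E] [AddCommGroup M] [DistribMulAction G M]
    (K : LB.Cells G E J LB.B2) (hc0 : K.c0 = LB.b0) (b : J → M) :
    ∃ u : SingSimplex E 2 → M, cochainCobdry u = 0 ∧
      (∀ (g : G) (s : SingSimplex E 2), u (LB.tr g s) = g • u s) ∧
      (∀ s : SingSimplex E 2, Set.range (LB.un s) ⊆ K.ctrᶜ → u s = 0) ∧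
      (∀ (g : G) (j : J) (f : C(I × I, E)),
        (∀ (s : I × I) (x : LB.B2), (x : Fin 2 → ℝ) = ![2 * (s.1 : ℝ) - 1, 2 * (s.2 : ℝ) - 1] →
          f s = K.chart g j x) →
        (∀ s : I × I, ¬ LB.inSq s → f s ∉ K.ctr) → LB.ar u f = g • b j) :=
  LB.exists_uB K hc0 Om.w2 Om.w2_cocycle (fun τ hτ => Om.w2_zero' _ (by
    have : Om.mp (LB.sx τ) = τ := Om.mp_mk τ
    rw [this]; exact hτ)) w2_lowB_upB b

section
variable {G E X : Type} [Group G] [TopologicalSpace E] [TopologicalSpace X] [MulAction G E]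
  [ContinuousConstSMul G E] {q : E → X} (h : YC.GCov G q) (C : TwoCx X)

theorem cellCocycles (M : Type) [AddCommGroup M] [DistribMulAction G M] : CellCocycles h C M := by
  intro b
  obtain ⟨u, h1, h2, h3, h4⟩ := exists_cocycle (YC.ycells h C) rfl b
  refine ⟨u, h1, h2, fun s hs => h3 s ?_, fun g j => ?_⟩
  · rintro _ ⟨x, rfl⟩
    exact YC.notMem_ctr_of_X1 h C (hs x)
  · refine h4 g j (YC.ftg h C g j) (fun s x hx => ?_) (fun s hs hc => ?_)
    · have hx0 : (x : Fin 2 → ℝ) 0 = 2 * (s.1 : ℝ) - 1 := by rw [hx]; rfl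
      have hx1 : (x : Fin 2 → ℝ) 1 = 2 * (s.2 : ℝ) - 1 := by rw [hx]; rfl
      have h0 := (pi_norm_lt_iff one_pos).1 (mem_ball_zero_iff.1 x.2) 0
      have h1' := (pi_norm_lt_iff one_pos).1 (mem_ball_zero_iff.1 x.2) 1
      rw [Real.norm_eq_abs, abs_lt, hx0] at h0
      rw [Real.norm_eq_abs, abs_lt, hx1] at h1'
      have hs : s ∈ Sint := by
        refine ⟨⟨?_, ?_⟩, ⟨?_, ?_⟩⟩
        · show (0 : ℝ) < s.1
          linarith
        · show (s.1 : ℝ) < 1
          linarith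
        · show (0 : ℝ) < s.2
          linarith
        · show (s.2 : ℝ) < 1
          linarith
      rw [YC.ftg_eq_cb h C g j hs]
      show YC.cb h C g j (YC.sqB ⟨s, hs⟩) = YC.cb h C g j x
      congr 1
      apply Subtype.ext
      rw [hx]
      rfl
    · have hm := (YC.ftg_mem_ctr_iff h C g j s).1 hc
      apply hs
      subst hm
      have h5 := YC.mid_mem
      exact ⟨h5.1.1, h5.1.2, h5.2.1, h5.2.2⟩

end

/-- **the Y side of S0388** -/
theorem ycore (K : Type) [Field K] : Fin.YCore K :=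
  ycore_of (fun _ _ _ _ _ _ _ _ _ h C M _ _ => cellCocycles h C M)

end Crest.Agent.R251.YJ
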