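import Crest.Agent.R251.CS577D
import Crest.Agent.R251.CS577E
import Crest.Agent.R251.CZ470d
import Crest.Agent.R251.Fin711b
import Crest.Agent.R251.YJ971c

/-! Row 251, LINE B: final joint (helper577). -/

set_option autoImplicit false

namespace Crest.Agent.R251.CS

/-- **LINE B**: `S0388` from simple connectivity of `EB` (j), (g) and (h) -/
theorem statementB (sc : SimplyConnectedSpace EB) (hg : CZ.Surj3) (hh : CZ.Exact2) :
    Fin.Statement := by
  have hfin : _root_.Finite XS.Ch := inferInstanceAs (_root_.Finite Cham)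
  obtain ⟨cw, fin, dim⟩ := Sys.exists_cw XS
  have cov : Fin.Cov GB EB XL.p := Fin.Cov.of_isQuotientCoveringMap XL.isQuotientCoveringMap_p
  exact Fin.skeleton Fin.c0 (Fin.ythm_of_core (Crest.Agent.R251.YJ.ycore (ZMod 7)))
    (CZ.modelB cw fin dim cov hg hh (gen 0) 6 (by norm_num) rel_c mu_c_ne)

end Crest.Agent.R251.CS
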