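import Mathlib

/-!
# Row 251, line B block (d) (helper470): the Čech–singular zigzag, abstract (semisimplicial) form

`Sim G` = semisimplicial set with an action of (the set) `G`; `U i` = subcomplexes (`In i σ`), `G`-invariant,
indexed by a finite linear order.  `Dom S σ`: `σ` is small (lies in some `U i`) and lies in `U i` for all `i ∈ S`.
`zigzag`: if `H^{n+1-|S|}(U_S) = 0` for `1 ≤ |S| ≤ n` and every `D`-closed family of 0-cocycles on the
`U_S`, `|S| = n+1`, is `D` of a family of 0-cocycles on the `U_S`, `|S| = n`, then every `n`-cocycle on the small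
simplices (`n ≥ 1`) is the coboundary of a cochain (on the small simplices).
-/

set_option autoImplicit false
set_option linter.unusedSectionVars false

open Finset

namespace Crest.Agent.R251.CZ

/-- semisimplicial sets with operators -/
structure Sim (G : Type) where
  X : ℕ → Type
  fc : ∀ {n : ℕ}, Fin (n + 2) → X (n + 1) → X n
  act : G → ∀ {n : ℕ}, X n → X n
  act_fc : ∀ (g : G) {n : ℕ} (i : Fin (n + 2)) (σ : X (n + 1)), fc i (act g σ) = act g (fc i σ)
  fc_fc : ∀ {n : ℕ} (i j : Fin (n + 2)) (_ : i ≤ j) (σ : X (n + 2)),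
    fc i (fc j.succ σ) = fc j (fc i.castSucc σ)

variable {G : Type} (K : Sim G) {M : Type} [AddCommGroup M]

/-- coboundary -/
def cb {n : ℕ} (φ : K.X n → M) : K.X (n + 1) → M :=
  fun σ => ∑ i : Fin (n + 2), ((-1 : ℤ) ^ (i : ℕ)) • φ (K.fc i σ)

variable {K}

theorem cb_sub {n : ℕ} (φ ψ : K.X n → M) : cb K (fun σ => φ σ - ψ σ) = fun σ => cb K φ σ - cb K ψ σ := by
  funext σ
  simp only [cb, smul_sub, Finset.sum_sub_distrib]

theorem cb_add {n : ℕ} (φ ψ : K.X n → M) : cb K (fun σ => φ σ + ψ σ) = fun σ => cb K φ σ + cb K ψ σ := by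
  funext σ
  simp only [cb, smul_add, Finset.sum_add_distrib]

theorem cb_congr {n : ℕ} {φ ψ : K.X n → M} {σ : K.X (n + 1)} (h : ∀ i, φ (K.fc i σ) = ψ (K.fc i σ)) :
    cb K φ σ = cb K ψ σ := by
  simp only [cb, h]

theorem cb_zero' {n : ℕ} {φ : K.X n → M} {σ : K.X (n + 1)} (h : ∀ i, φ (K.fc i σ) = 0) :
    cb K φ σ = 0 := by
  simp only [cb, h, smul_zero, Finset.sum_const_zero]

theorem cb_cb {n : ℕ} (φ : K.X n → M) (σ : K.X (n + 2)) : cb K (cb K φ) σ = 0 := by
  unfold cb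
  simp only [Finset.smul_sum, smul_smul]
  rw [← Finset.sum_product']
  let P := Fin (n + 3) × Fin (n + 2)
  let S : Finset P := {ij : P | (ij.1 : ℕ) ≤ (ij.2 : ℕ)}
  rw [Finset.univ_product_univ, ← Finset.sum_add_sum_compl S, ← eq_neg_iff_add_eq_zero,
    ← Finset.sum_neg_distrib]
  let e : ∀ ij : P, ij ∈ S → P := fun ij hij =>
    (ij.2.succ, Fin.castLT ij.1 (lt_of_le_of_lt (Finset.mem_filter.mp hij).right (Fin.is_lt ij.2)))
  apply Finset.sum_bij e
  · intro ij hij
    simp only [e, S, Finset.mem_univ, Finset.compl_filter, Finset.mem_filter, true_and,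
      Fin.val_succ, Fin.val_castLT] at hij ⊢
    omega
  · rintro ⟨i, j⟩ hij ⟨i', j'⟩ hij' h
    rw [Prod.mk_inj] at h
    simp only [Fin.succ_inj] at h
    obtain ⟨h1, h2⟩ := h
    have h3 : (i : ℕ) = i' := by
      have := congrArg (fun x : Fin (n + 2) => (x : ℕ)) h2
      simpa using this
    exact Prod.ext (Fin.ext h3) h1
  · rintro ⟨i', j'⟩ hij'
    simp only [S, Finset.mem_compl, Finset.mem_filter, Finset.mem_univ, true_and, not_le] at hij'
    have hi' : i' ≠ 0 := by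
      rintro rfl
      simp at hij'
    refine ⟨(j'.castSucc, i'.pred hi'), ?_, ?_⟩
    · simp only [S, Finset.mem_filter, Finset.mem_univ, true_and, Fin.val_castSucc, Fin.val_pred]
      omega
    · simp only [e]
      ext <;> simp
  · rintro ⟨i, j⟩ hij
    simp only [S, Finset.mem_filter, Finset.mem_univ, true_and] at hij
    simp only [e]
    have h := K.fc_fc (Fin.castLT i (lt_of_le_of_lt hij (Fin.is_lt j))) j (by
      rw [Fin.le_def]; simpa using hij) σ
    rw [h]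
    have h2 : (Fin.castLT i (lt_of_le_of_lt hij (Fin.is_lt j))).castSucc = i := by
      ext; simp
    rw [h2]
    simp only [Fin.val_succ, Fin.val_castLT]
    rw [← neg_smul]
    congr 1
    ring

variable {ι : Type} [LinearOrder ι] [Fintype ι]

/-- position sign -/
def sg (i : ι) (S : Finset ι) : ℤ := (-1) ^ #(S.filter (· < i))

/-- Čech differential (pointwise) -/
def DD {T : Type} (c : Finset ι → T → M) (S : Finset ι) (σ : T) : M :=
  ∑ i ∈ S, sg i S • c (S.erase i) σ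

theorem sg_erase_of_lt {i j : ι} {S : Finset ι} (hij : i < j) (hi : i ∈ S) :
    sg j (S.erase i) = - sg j S := by
  unfold sg
  have h : (S.filter (· < j)) = insert i ((S.erase i).filter (· < j)) := by
    ext x
    simp only [Finset.mem_filter, Finset.mem_insert, Finset.mem_erase]
    by_cases hx : x = i
    · subst hx; simp [hi, hij]
    · simp [hx]
  rw [h, Finset.card_insert_of_notMem (by simp), pow_succ]
  ring

theorem sg_erase_of_gt {i j : ι} {S : Finset ι} (hij : i < j) :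
    sg i (S.erase j) = sg i S := by
  unfold sg
  have h : ((S.erase j).filter (· < i)) = S.filter (· < i) := by
    ext x
    simp only [Finset.mem_filter, Finset.mem_erase]
    constructor
    · rintro ⟨⟨h1, h2⟩, h3⟩; exact ⟨h2, h3⟩
    · rintro ⟨h2, h3⟩; exact ⟨⟨(lt_trans h3 hij).ne, h2⟩, h3⟩
  rw [h]

theorem DD_DD {T : Type} (c : Finset ι → T → M) (S : Finset ι) (σ : T) : DD (DD c) S σ = 0 := by
  unfold DD
  simp only [Finset.smul_sum, smul_smul]
  rw [Finset.sum_sigma']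
  refine Finset.sum_involution (fun x _ => ⟨x.2, x.1⟩) ?_ ?_ ?_ ?_
  · rintro ⟨i, j⟩ hij
    simp only [Finset.mem_sigma, Finset.mem_erase] at hij
    obtain ⟨hi, hji, hj⟩ := hij
    simp only
    rw [Finset.erase_right_comm (a := j) (b := i)]
    rw [← add_smul]
    have : sg i S * sg j (S.erase i) + sg j S * sg i (S.erase j) = 0 := by
      rcases lt_or_gt_of_ne hji with h | h
      · rw [sg_erase_of_lt h hj, sg_erase_of_gt h]; ring
      · rw [sg_erase_of_lt h hi, sg_erase_of_gt h]; ring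
    rw [this, zero_smul]
  · rintro ⟨i, j⟩ hij hne h
    simp only [Finset.mem_sigma, Finset.mem_erase] at hij
    have := congrArg Sigma.fst h
    exact hij.2.1 this
  · rintro ⟨i, j⟩ hij
    simp only [Finset.mem_sigma, Finset.mem_erase] at hij ⊢
    exact ⟨hij.2.2, fun h => hij.2.1 h.symm, hij.1⟩
  · rintro ⟨i, j⟩ hij
    rfl

theorem cb_DD {n : ℕ} (c : Finset ι → K.X n → M) (S : Finset ι) (σ : K.X (n + 1)) :
    cb K (DD c S) σ = DD (fun S => cb K (c S)) S σ := by
  unfold cb DD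
  simp only [Finset.smul_sum, smul_smul]
  rw [Finset.sum_comm]
  refine Finset.sum_congr rfl fun i _ => Finset.sum_congr rfl fun j _ => ?_
  rw [mul_comm]

theorem DD_sub {T : Type} (c d : Finset ι → T → M) (S : Finset ι) (σ : T) :
    DD (fun S σ => c S σ - d S σ) S σ = DD c S σ - DD d S σ := by
  simp only [DD, smul_sub, Finset.sum_sub_distrib]

theorem DD_congr {T : Type} {c d : Finset ι → T → M} {S : Finset ι} {σ : T}
    (h : ∀ i ∈ S, c (S.erase i) σ = d (S.erase i) σ) : DD c S σ = DD d S σ := by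
  unfold DD
  exact Finset.sum_congr rfl fun i hi => by rw [h i hi]

theorem DD_zero' {T : Type} {c : Finset ι → T → M} {S : Finset ι} {σ : T}
    (h : ∀ i ∈ S, c (S.erase i) σ = 0) : DD c S σ = 0 := by
  unfold DD
  exact Finset.sum_eq_zero fun i hi => by rw [h i hi, smul_zero]

/-! ### the cover -/

variable (K) (ι)

/-- an invariant cover by subcomplexes -/
structure Cov where
  In : ι → ∀ {n : ℕ}, K.X n → Prop
  fc : ∀ (i : ι) {n : ℕ} (j : Fin (n + 2)) (σ : K.X (n + 1)), In i σ → In i (K.fc j σ)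
  act : ∀ (i : ι) (g : G) {n : ℕ} (σ : K.X n), In i (K.act g σ) ↔ In i σ

variable {K ι}

namespace Cov

variable (U : Cov K ι)

/-- small simplices -/
def Sm {n : ℕ} (σ : K.X n) : Prop := ∃ i, U.In i σ

/-- small simplices in `U_S` -/
def Dom (S : Finset ι) {n : ℕ} (σ : K.X n) : Prop := U.Sm σ ∧ ∀ i ∈ S, U.In i σ

variable {U}

theorem Sm.fc {n : ℕ} {σ : K.X (n + 1)} (h : U.Sm σ) (j : Fin (n + 2)) : U.Sm (K.fc j σ) := by
  obtain ⟨i, hi⟩ := h
  exact ⟨i, U.fc i j σ hi⟩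

theorem Dom.fc {S : Finset ι} {n : ℕ} {σ : K.X (n + 1)} (h : U.Dom S σ) (j : Fin (n + 2)) :
    U.Dom S (K.fc j σ) := ⟨h.1.fc j, fun i hi => U.fc i j σ (h.2 i hi)⟩

theorem Dom.erase {S : Finset ι} {n : ℕ} {σ : K.X n} (h : U.Dom S σ) (j : ι) :
    U.Dom (S.erase j) σ := ⟨h.1, fun i hi => h.2 i (Finset.mem_of_mem_erase hi)⟩

theorem sm_act {n : ℕ} (g : G) (σ : K.X n) : U.Sm (K.act g σ) ↔ U.Sm σ := by
  unfold Sm
  simp only [U.act]

open Classical in
/-- the first open set containing a small simplex -/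
noncomputable def mn {n : ℕ} (σ : K.X n) (h : U.Sm σ) : ι :=
  (Finset.univ.filter (fun i => U.In i σ)).min' (by
    obtain ⟨i, hi⟩ := h
    exact ⟨i, by simp [hi]⟩)

theorem mn_in {n : ℕ} (σ : K.X n) (h : U.Sm σ) : U.In (mn σ h) σ := by
  classical
  have := Finset.min'_mem (Finset.univ.filter (fun i => U.In i σ)) (by
    obtain ⟨i, hi⟩ := h
    exact ⟨i, by simp [hi]⟩)
  exact (Finset.mem_filter.1 this).2

theorem mn_le {n : ℕ} (σ : K.X n) (h : U.Sm σ) {i : ι} (hi : U.In i σ) : mn σ h ≤ i := by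
  classical
  exact Finset.min'_le _ _ (by simp [hi])

theorem mn_act {n : ℕ} (g : G) (σ : K.X n) (h : U.Sm σ) (h' : U.Sm (K.act g σ)) :
    mn (K.act g σ) h' = mn σ h := by
  apply le_antisymm
  · exact mn_le _ _ ((U.act _ g σ).2 (mn_in σ h))
  · exact mn_le _ _ ((U.act _ g σ).1 (mn_in _ h'))

variable (U)

open Classical in
/-- contraction of the Čech complex -/
noncomputable def hh {n : ℕ} (c : Finset ι → K.X n → M) (S : Finset ι) (σ : K.X n) : M :=
  if h : U.Sm σ then (if mn σ h ∈ S then 0 else c (insert (mn σ h) S) σ) else 0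

variable {U}

theorem sg_min {m : ι} {S : Finset ι} (h : ∀ i ∈ S, m ≤ i) : sg m S = 1 := by
  unfold sg
  have : S.filter (· < m) = ∅ := by
    ext x
    simp only [Finset.mem_filter, Finset.notMem_empty, iff_false, not_and, not_lt]
    exact fun hx => h x hx
  rw [this]; simp

theorem hh_DD {n : ℕ} (c : Finset ι → K.X n → M) {S : Finset ι} {σ : K.X n} (hσ : U.Dom S σ) :
    DD (U.hh c) S σ + U.hh (DD c) S σ = c S σ := by
  classical
  obtain ⟨h, hS⟩ := hσ
  have hle : ∀ i ∈ S, mn σ h ≤ i := fun i hi => mn_le σ h (hS i hi)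
  by_cases hm : mn σ h ∈ S
  · have h1 : U.hh (DD c) S σ = 0 := by simp [hh, h, hm]
    have h2 : DD (U.hh c) S σ = sg (mn σ h) S • U.hh c (S.erase (mn σ h)) σ := by
      unfold DD
      refine Finset.sum_eq_single_of_mem _ hm fun i hi hne => ?_
      have : mn σ h ∈ S.erase i := Finset.mem_erase.2 ⟨fun e => hne e.symm, hm⟩
      simp [hh, h, this]
    rw [h1, h2, sg_min hle, one_smul, add_zero]
    simp [hh, h, Finset.insert_erase hm]
  · have h1 : U.hh (DD c) S σ = c S σ - DD (U.hh c) S σ := by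
      have e1 : U.hh (DD c) S σ = DD c (insert (mn σ h) S) σ := by simp [hh, h, hm]
      rw [e1]
      unfold DD
      rw [Finset.sum_insert hm, Finset.erase_insert hm]
      rw [sg_min (m := mn σ h) (S := insert (mn σ h) S) (by
        intro i hi
        rcases Finset.mem_insert.1 hi with rfl | hi
        · exact le_rfl
        · exact hle i hi), one_smul, sub_eq_add_neg, ← Finset.sum_neg_distrib]
      congr 1
      refine Finset.sum_congr rfl fun i hi => ?_
      have hlt : mn σ h < i := lt_of_le_of_ne (hle i hi) (fun e => hm (e ▸ hi))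
      have e2 : sg i (insert (mn σ h) S) = - sg i S := by
        have := sg_erase_of_lt (S := insert (mn σ h) S) hlt (Finset.mem_insert_self _ _)
        rw [Finset.erase_insert hm] at this
        rw [this]; ring
      have e3 : (insert (mn σ h) S).erase i = insert (mn σ h) (S.erase i) :=
        Finset.erase_insert_of_ne hlt.ne
      have e4 : mn σ h ∉ S.erase i := fun e => hm (Finset.mem_of_mem_erase e)
      rw [e2, e3, neg_smul]
      simp [hh, h, e4]
    rw [h1]; abel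

/-! ### equivariance -/

variable [Group G] [DistribMulAction G M]

/-- equivariant cochains -/
def Eqv {n : ℕ} (φ : K.X n → M) : Prop := ∀ (g : G) (σ : K.X n), φ (K.act g σ) = g • φ σ

theorem Eqv.cb {n : ℕ} {φ : K.X n → M} (h : Eqv φ) : Eqv (CZ.cb K φ) := by
  intro g σ
  unfold CZ.cb
  simp only [K.act_fc, Finset.smul_sum]
  refine Finset.sum_congr rfl fun i _ => ?_
  rw [h g]
  rw [smul_comm]

theorem Eqv.sub {n : ℕ} {φ ψ : K.X n → M} (h : Eqv φ) (h' : Eqv ψ) : Eqv (fun σ => φ σ - ψ σ) := by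
  intro g σ
  simp only [h g, h' g, smul_sub]

theorem Eqv.add {n : ℕ} {φ ψ : K.X n → M} (h : Eqv φ) (h' : Eqv ψ) : Eqv (fun σ => φ σ + ψ σ) := by
  intro g σ
  simp only [h g, h' g, smul_add]

theorem Eqv.zero {n : ℕ} : Eqv (fun _ : K.X n => (0 : M)) := fun g σ => (smul_zero g).symm

theorem Eqv.DD {n : ℕ} {c : Finset ι → K.X n → M} (h : ∀ S, Eqv (c S)) (S : Finset ι) :
    Eqv (CZ.DD c S) := by
  intro g σ
  unfold CZ.DD
  simp only [Finset.smul_sum]
  refine Finset.sum_congr rfl fun i _ => ?_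
  rw [h _ g, smul_comm]

theorem Eqv.hh {n : ℕ} {c : Finset ι → K.X n → M} (h : ∀ S, Eqv (c S)) (S : Finset ι) :
    Eqv (U.hh c S) := by
  classical
  intro g σ
  unfold Cov.hh
  by_cases hs : U.Sm σ
  · have hs' : U.Sm (K.act g σ) := (sm_act g σ).2 hs
    rw [dif_pos hs, dif_pos hs', mn_act g σ hs hs']
    split_ifs
    · exact (smul_zero g).symm
    · exact h _ g σ
  · have hs' : ¬ U.Sm (K.act g σ) := fun h' => hs ((sm_act g σ).1 h')
    rw [dif_neg hs, dif_neg hs']
    exact (smul_zero g).symm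

variable (U M)

/-- `H^{k+1}(U_S; M) = 0` (small simplices) -/
def Ac (S : Finset ι) (k : ℕ) : Prop :=
  ∀ φ : K.X (k + 1) → M, Eqv φ → (∀ σ : K.X (k + 2), U.Dom S σ → CZ.cb K φ σ = 0) →
    ∃ ψ : K.X k → M, Eqv ψ ∧ ∀ σ : K.X (k + 1), U.Dom S σ → CZ.cb K ψ σ = φ σ

/-- the Čech complex of the 0-cocycles is exact at level `p + 1` -/
def H0 (p : ℕ) : Prop :=
  ∀ c : Finset ι → K.X 0 → M, (∀ S, Eqv (c S)) →
    (∀ S : Finset ι, #S = p + 1 → ∀ σ : K.X 1, U.Dom S σ → CZ.cb K (c S) σ = 0) →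
    (∀ S : Finset ι, #S = p + 2 → ∀ σ : K.X 0, U.Dom S σ → CZ.DD c S σ = 0) →
    ∃ e : Finset ι → K.X 0 → M, (∀ S, Eqv (e S)) ∧
      (∀ S : Finset ι, #S = p → ∀ σ : K.X 1, U.Dom S σ → CZ.cb K (e S) σ = 0) ∧
      (∀ S : Finset ι, #S = p + 1 → ∀ σ : K.X 0, U.Dom S σ → CZ.DD e S σ = c S σ)

variable {U M}

theorem tic (q : ℕ) : ∀ (p : ℕ), 1 ≤ p → (∀ (S : Finset ι) (k : ℕ), 1 ≤ #S → #S + k = p + q → U.Ac M S k) →
    U.H0 M (p + q) → ∀ c : Finset ι → K.X (q + 1) → M, (∀ S, Eqv (c S)) →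
    (∀ S : Finset ι, #S = p → ∀ σ : K.X (q + 2), U.Dom S σ → CZ.cb K (c S) σ = 0) →
    (∀ S : Finset ι, #S = p + 1 → ∀ σ : K.X (q + 1), U.Dom S σ → CZ.DD c S σ = 0) →
    ∃ b : Finset ι → K.X q → M, (∀ S, Eqv (b S)) ∧
      (∀ S : Finset ι, #S = p → ∀ σ : K.X (q + 1), U.Dom S σ → CZ.cb K (b S) σ = c S σ) ∧
      (∀ S : Finset ι, #S = p + 1 → ∀ σ : K.X q, U.Dom S σ → CZ.DD b S σ = 0) := by
  classical
  induction q with
  | zero =>
    intro p hp hAc h0 c hc hcb hcD
    have step : ∀ S : Finset ι, ∃ ψ : K.X 0 → M, Eqv ψ ∧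
        (#S = p → ∀ σ : K.X 1, U.Dom S σ → CZ.cb K ψ σ = c S σ) := by
      intro S
      by_cases hS : #S = p
      · obtain ⟨ψ, h1, h2⟩ := hAc S 0 (by omega) (by omega) (c S) (hc S) (hcb S hS)
        exact ⟨ψ, h1, fun _ => h2⟩
      · exact ⟨fun _ => 0, Eqv.zero, fun h => absurd h hS⟩
    choose b0 hb0 hb1 using step
    have hcard : ∀ (S : Finset ι) (n : ℕ), #S = n + 1 → ∀ i ∈ S, #(S.erase i) = n := by
      intro S n hS i hi
      rw [Finset.card_erase_of_mem hi, hS]; rfl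
    obtain ⟨e, he, he0, he1⟩ := h0 (CZ.DD b0) (fun S => Eqv.DD hb0 S) (by
        intro S hS σ hσ
        rw [cb_DD]
        have : CZ.DD (fun S => CZ.cb K (b0 S)) S σ = CZ.DD c S σ :=
          DD_congr fun i hi => hb1 _ (hcard S p hS i hi) σ (hσ.erase i)
        rw [this]
        exact hcD S hS σ hσ) (by
        intro S hS σ hσ
        exact DD_DD b0 S σ)
    refine ⟨fun S σ => b0 S σ - e S σ, fun S => (hb0 S).sub (he S), ?_, ?_⟩
    · intro S hS σ hσ
      rw [cb_sub]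
      show CZ.cb K (b0 S) σ - CZ.cb K (e S) σ = c S σ
      rw [hb1 S hS σ hσ, he0 S (by omega) σ hσ, sub_zero]
    · intro S hS σ hσ
      rw [DD_sub, he1 S (by omega) σ hσ, sub_self]
  | succ q ih =>
    intro p hp hAc h0 c hc hcb hcD
    have step : ∀ S : Finset ι, ∃ ψ : K.X (q + 1) → M, Eqv ψ ∧
        (#S = p → ∀ σ : K.X (q + 2), U.Dom S σ → CZ.cb K ψ σ = c S σ) := by
      intro S
      by_cases hS : #S = p
      · obtain ⟨ψ, h1, h2⟩ := hAc S (q + 1) (by omega) (by omega) (c S) (hc S) (hcb S hS)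
        exact ⟨ψ, h1, fun _ => h2⟩
      · exact ⟨fun _ => 0, Eqv.zero, fun h => absurd h hS⟩
    choose b0 hb0 hb1 using step
    have hcard : ∀ (S : Finset ι) (n : ℕ), #S = n + 1 → ∀ i ∈ S, #(S.erase i) = n := by
      intro S n hS i hi
      rw [Finset.card_erase_of_mem hi, hS]; rfl
    obtain ⟨b', hb', hb'1, hb'2⟩ := ih (p + 1) (by omega)
      (fun S k h1 h2 => hAc S k h1 (by omega)) (by
        have : p + 1 + q = p + (q + 1) := by omega
        rw [this]; exact h0) (CZ.DD b0) (fun S => Eqv.DD hb0 S) (by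
        intro S hS σ hσ
        rw [cb_DD]
        have : CZ.DD (fun S => CZ.cb K (b0 S)) S σ = CZ.DD c S σ :=
          DD_congr fun i hi => hb1 _ (hcard S p hS i hi) σ (hσ.erase i)
        rw [this]
        exact hcD S hS σ hσ) (by
        intro S hS σ hσ
        exact DD_DD b0 S σ)
    have hh0 : ∀ S : Finset ι, #S = p + 1 → ∀ σ : K.X q, U.Dom S σ → CZ.DD (U.hh b') S σ = b' S σ := by
      intro S hS σ hσ
      have h1 := hh_DD b' hσ
      have h2 : U.hh (CZ.DD b') S σ = 0 := by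
        have hs : U.Sm σ := hσ.1
        unfold Cov.hh
        rw [dif_pos hs]
        split_ifs with hm
        · rfl
        · refine hb'2 _ ?_ σ ⟨hs, ?_⟩
          · rw [Finset.card_insert_of_notMem hm, hS]
          · intro i hi
            rcases Finset.mem_insert.1 hi with rfl | hi
            · exact mn_in σ hs
            · exact hσ.2 i hi
      rw [h2, add_zero] at h1
      exact h1
    refine ⟨fun S σ => b0 S σ - CZ.cb K (U.hh b' S) σ, fun S => (hb0 S).sub (Eqv.hh hb' S).cb, ?_, ?_⟩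
    · intro S hS σ hσ
      rw [cb_sub]
      show CZ.cb K (b0 S) σ - CZ.cb K (CZ.cb K (U.hh b' S)) σ = c S σ
      rw [hb1 S hS σ hσ, cb_cb, sub_zero]
    · intro S hS σ hσ
      rw [DD_sub, ← cb_DD]
      have h1 : CZ.cb K (CZ.DD (U.hh b') S) σ = CZ.cb K (b' S) σ :=
        cb_congr fun j => hh0 S hS _ (hσ.fc j)
      rw [h1, hb'1 S hS σ hσ, sub_self]

/-- **The zigzag.** -/
theorem zigzag (q : ℕ) (hAc : ∀ (S : Finset ι) (k : ℕ), 1 ≤ #S → #S + k = 1 + q → U.Ac M S k)
    (h0 : U.H0 M (1 + q)) (φ : K.X (q + 1) → M) (hφ : Eqv φ)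
    (hcl : ∀ σ : K.X (q + 2), U.Sm σ → CZ.cb K φ σ = 0) :
    ∃ ψ : K.X q → M, Eqv ψ ∧ ∀ σ : K.X (q + 1), U.Sm σ → CZ.cb K ψ σ = φ σ := by
  classical
  obtain ⟨b, hb, hb1, hb2⟩ := tic q 1 le_rfl hAc h0 (CZ.DD (fun _ => φ)) (fun S => Eqv.DD (fun _ => hφ) S)
    (by
      intro S hS σ hσ
      rw [cb_DD]
      exact DD_zero' fun i hi => hcl σ hσ.1)
    (fun S hS σ hσ => DD_DD _ S σ)
  refine ⟨U.hh b ∅, Eqv.hh hb ∅, ?_⟩
  intro σ hσ
  obtain ⟨i, hi⟩ := hσ
  have hdom : ∀ {n : ℕ} {τ : K.X n}, U.In i τ → U.Dom {i} τ := by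
    intro n τ hτ
    refine ⟨⟨i, hτ⟩, ?_⟩
    intro j hj
    rw [Finset.mem_singleton] at hj
    subst hj; exact hτ
  have hsing : ∀ {T : Type} (c : Finset ι → T → M) (τ : T), CZ.DD c {i} τ = c ∅ τ := by
    intro T c τ
    unfold CZ.DD
    rw [Finset.sum_singleton]
    have : sg i {i} = 1 := sg_min (by intro j hj; rw [Finset.mem_singleton] at hj; exact hj.ge)
    rw [this, one_smul, Finset.erase_singleton]
  have key : ∀ j, U.hh b ∅ (K.fc j σ) = b {i} (K.fc j σ) := by
    intro j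
    have hτ : U.In i (K.fc j σ) := U.fc i j σ hi
    have hs : U.Sm (K.fc j σ) := ⟨i, hτ⟩
    have h1 := hh_DD b (hdom hτ)
    have h2 : U.hh (CZ.DD b) {i} (K.fc j σ) = 0 := by
      unfold Cov.hh
      rw [dif_pos hs]
      split_ifs with hm
      · rfl
      · refine hb2 _ ?_ _ ⟨hs, ?_⟩
        · rw [Finset.card_insert_of_notMem hm, Finset.card_singleton]
        · intro l hl
          rcases Finset.mem_insert.1 hl with rfl | hl
          · exact mn_in _ hs
          · exact (hdom hτ).2 l hl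
    rw [h2, add_zero, hsing] at h1
    exact h1
  rw [cb_congr key, hb1 {i} (Finset.card_singleton i) σ (hdom hi)]
  exact hsing (fun _ => φ) σ

/-- with the small simplices theorem (`hC1`) the zigzag gives vanishing of cohomology -/
theorem zigzag_full (q : ℕ)
    (hC1 : ∀ η : K.X (q + 1) → M, Eqv η → (∀ σ, CZ.cb K η σ = 0) → (∀ σ, U.Sm σ → η σ = 0) →
      ∃ ψ : K.X q → M, Eqv ψ ∧ ∀ σ, CZ.cb K ψ σ = η σ)
    (hAc : ∀ (S : Finset ι) (k : ℕ), 1 ≤ #S → #S + k = 1 + q → U.Ac M S k)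
    (h0 : U.H0 M (1 + q)) (φ : K.X (q + 1) → M) (hφ : Eqv φ) (hcl : ∀ σ, CZ.cb K φ σ = 0) :
    ∃ ψ : K.X q → M, Eqv ψ ∧ ∀ σ, CZ.cb K ψ σ = φ σ := by
  obtain ⟨χ, h1, h2⟩ := zigzag q hAc h0 φ hφ (fun σ _ => hcl σ)
  obtain ⟨ψ, h3, h4⟩ := hC1 (fun σ => φ σ - CZ.cb K χ σ) (hφ.sub h1.cb) (by
    intro σ
    rw [cb_sub]
    show CZ.cb K φ σ - CZ.cb K (CZ.cb K χ) σ = 0
    rw [hcl, cb_cb, sub_zero]) (by
    intro σ hσ
    rw [h2 σ hσ, sub_self])
  refine ⟨fun σ => χ σ + ψ σ, h1.add h3, ?_⟩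
  intro σ
  rw [cb_add]
  show CZ.cb K χ σ + CZ.cb K ψ σ = φ σ
  rw [h4]; abel

/-- level above the number of open sets: nothing to check -/
theorem H0_of_card_lt {p : ℕ} (hp : Fintype.card ι < p + 1) : U.H0 M p := by
  intro c hc _ _
  refine ⟨fun _ _ => 0, fun _ => Eqv.zero, fun S _ σ _ => cb_zero' fun _ => rfl, ?_⟩
  intro S hS
  have := Finset.card_le_univ S
  omega

end Cov

end Crest.Agent.R251.CZ
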