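import Crest.Agent.R251.CZ470
import Crest.Agent.R251.Pr963b
import Crest.Agent.R251.Sm82C
import Crest.Agent.R251.PC752

/-!
# Row 251, line B block (d) (helper470): the Čech–singular zigzag for a `G`-space

`HV_of_cech`: `E` a `G`-space, `U : ι → Set E` a finite open invariant cover (ι linearly ordered).
-/

set_option autoImplicit false
set_option linter.unusedSectionVars false
set_option linter.unusedVariables false

open Finset CategoryTheory Simplicial Opposite
open Crest.GeometryTopology.DeckCochains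
open Crest.Agent.R251.Pr (Dl sx us push EqC HV act)
open scoped unitInterval

namespace Crest.Agent.R251.CZ

noncomputable section

variable {G : Type} [Group G] {E : Type} [TopologicalSpace E] [MulAction G E]
  [ContinuousConstSMul G E] {M : Type} [AddCommGroup M] [DistribMulAction G M]

/-- singular simplices of a `G`-space -/
def simG (G : Type) [Group G] (E : Type) [TopologicalSpace E] [MulAction G E]
    [ContinuousConstSMul G E] : Sim G where
  X n := SingSimplex E n
  fc i s := simplexFace i s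
  act g _ s := push (act g) s
  act_fc g _ i s := (Pr.push_face (act g) s i).symm
  fc_fc i j h s := SSet.δ_comp_δ_apply h s

theorem cb_simG {n : ℕ} (φ : SingSimplex E n → M) :
    cb (simG G E) φ = cochainCobdry φ := rfl

/-- image in a set -/
def InS (A : Set E) {n : ℕ} (s : SingSimplex E n) : Prop := ∀ t, us s t ∈ A

theorem InS.face {A : Set E} {n : ℕ} {s : SingSimplex E (n + 1)} (h : InS A s) (i : Fin (n + 2)) :
    InS A (simplexFace i s) := by
  intro t
  rw [Pr.us_face]
  exact h _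

theorem inS_push {A : Set E} {g : G} (hinv : ∀ x, g • x ∈ A ↔ x ∈ A) {n : ℕ}
    (s : SingSimplex E n) : InS A (push (act g) s) ↔ InS A s := by
  unfold InS
  rw [Pr.us_push]
  exact forall_congr' fun t => hinv (us s t)

/-- an invariant family of sets gives an invariant family of subcomplexes -/
def covG {ι : Type} (U : ι → Set E) (hinv : ∀ i (g : G) x, g • x ∈ U i ↔ x ∈ U i) :
    Cov (simG G E) ι where
  In i _ s := InS (U i) s
  fc i _ j s h := InS.face h j
  act i g _ s := inS_push (hinv i g) s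

variable {ι : Type} [LinearOrder ι] [Fintype ι] (U : ι → Set E)

/-- the intersection -/
def UI (S : Finset ι) : Set E := {x | ∀ i ∈ S, x ∈ U i}

variable {U}

theorem dom_iff (hinv : ∀ i (g : G) x, g • x ∈ U i ↔ x ∈ U i) {S : Finset ι} (hS : 1 ≤ #S) {n : ℕ}
    (s : SingSimplex E n) : (covG U hinv).Dom S (n := n) s ↔ InS (UI U S) s := by
  constructor
  · rintro ⟨-, h⟩ t i hi
    exact h i hi t
  · intro h
    obtain ⟨i, hi⟩ := Finset.card_pos.1 (by omega : 0 < #S)
    exact ⟨⟨i, fun t => h t i hi⟩, fun j hj t => h t j hj⟩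

variable (G M U)

/-- `H^{k+1}_G(A; M) = 0` for a subset `A` -/
def AcE (A : Set E) (k : ℕ) : Prop :=
  ∀ φ : SingSimplex E (k + 1) → M, EqC G φ →
    (∀ s : SingSimplex E (k + 2), InS A s → cochainCobdry φ s = 0) →
    ∃ ψ : SingSimplex E k → M, EqC G ψ ∧
      ∀ s : SingSimplex E (k + 1), InS A s → cochainCobdry ψ s = φ s

/-- the Čech complex of 0-cocycles is exact at level `p + 1` -/
def H0E (p : ℕ) : Prop :=
  ∀ c : Finset ι → SingSimplex E 0 → M, (∀ S, EqC G (c S)) →
    (∀ S : Finset ι, #S = p + 1 → ∀ s : SingSimplex E 1, InS (UI U S) s →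
      cochainCobdry (c S) s = 0) →
    (∀ S : Finset ι, #S = p + 2 → ∀ s : SingSimplex E 0, InS (UI U S) s → DD c S s = 0) →
    ∃ e : Finset ι → SingSimplex E 0 → M, (∀ S, EqC G (e S)) ∧
      (∀ S : Finset ι, #S = p → ∀ s : SingSimplex E 1, InS (UI U S) s →
        cochainCobdry (e S) s = 0) ∧
      (∀ S : Finset ι, #S = p + 1 → ∀ s : SingSimplex E 0, InS (UI U S) s → DD e S s = c S s)

variable {G M U}

/-- **the zigzag for an open invariant cover** -/
theorem HV_of_cech (hU : ∀ i, IsOpen (U i)) (hinv : ∀ i (g : G) x, g • x ∈ U i ↔ x ∈ U i)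
    (hc : ∀ x, ∃ i, x ∈ U i) (q : ℕ)
    (hAc : ∀ (S : Finset ι) (k : ℕ), 1 ≤ #S → #S + k = 1 + q → AcE G M (UI U S) k)
    (h0 : H0E G M U (1 + q)) : HV G E q M := by
  intro φ hφ hcl
  have hmain := Cov.zigzag_full (U := covG U hinv) (M := M) q
    (by
      intro η hη hcb hsm
      obtain ⟨ψ, h1, -, -, h2⟩ := Sm.small_vanish (Set.range U) (by
          rintro _ ⟨i, rfl⟩; exact hU i) (by
          intro x
          obtain ⟨i, hi⟩ := hc x
          exact ⟨U i, ⟨i, rfl⟩, hi⟩) (φ := η) (funext hcb) (by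
          rintro s ⟨_, ⟨i, rfl⟩, hs⟩
          exact hsm s ⟨i, fun t => hs ⟨t, rfl⟩⟩)
      refine ⟨ψ, ?_, fun s => congrFun h1 s⟩
      intro g s
      exact h2 (act g) (DistribSMul.toAddMonoidHom M g) (fun s => hη g s) s)
    (by
      intro S k hS hk φ hφ hcb
      obtain ⟨ψ, h1, h2⟩ := hAc S k hS hk φ hφ (fun s hs => hcb s ((dom_iff hinv hS s).2 hs))
      exact ⟨ψ, h1, fun s hs => h2 s ((dom_iff hinv hS s).1 hs)⟩)
    (by
      intro c hc h1 h2
      obtain ⟨e, he, he1, he2⟩ := h0 c hc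
        (fun S hS s hs => h1 S hS s ((dom_iff hinv (by omega) s).2 hs))
        (fun S hS s hs => h2 S hS s ((dom_iff hinv (by omega) s).2 hs))
      exact ⟨e, he, fun S hS s hs => he1 S hS s ((dom_iff hinv (by omega) s).1 hs),
        fun S hS s hs => he2 S hS s ((dom_iff hinv (by omega) s).1 hs)⟩)
    φ hφ (fun s => congrFun hcl s)
  obtain ⟨ψ, h1, h2⟩ := hmain
  exact ⟨ψ, h1, funext h2⟩

/-! ### 0-simplices -/

/-- a point as a 0-simplex -/
def p0 (x : E) : SingSimplex E 0 := sx (ContinuousMap.const _ x)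

/-- the vertex of the 0-dimensional simplex -/
def v0 : Dl 0 := stdSimplex.vertex 0

theorem Dl0_eq (t : Dl 0) : t = v0 := by
  apply Subtype.ext
  funext i
  have h1 := stdSimplex.sum_eq_one t
  have h2 := stdSimplex.sum_eq_one v0
  rw [Fin.sum_univ_one] at h1 h2
  fin_cases i
  exact h1.trans h2.symm

/-- the point of a 0-simplex -/
def ev0 (s : SingSimplex E 0) : E := us s v0

theorem p0_ev0 (s : SingSimplex E 0) : p0 (ev0 s) = s := by
  rw [← Pr.sx_us s, p0, ev0, Pr.us_sx]
  congr 1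
  ext t
  rw [Dl0_eq t]; rfl

@[simp] theorem ev0_p0 (x : E) : ev0 (p0 x) = x := by
  rw [ev0, p0, Pr.us_sx]; rfl

theorem push_p0 (g : G) (x : E) : push (act g) (p0 x) = p0 (g • x) := by
  rw [p0, Pr.push_sx]; rfl

theorem inS_p0 {A : Set E} {x : E} : InS A (p0 x) ↔ x ∈ A := by
  constructor
  · intro h
    have := h v0
    rw [p0, Pr.us_sx] at this
    exact this
  · intro h t
    rw [p0, Pr.us_sx]
    exact h

theorem cobdry_ps (c : SingSimplex E 0 → M) (γ : C(I, E)) :
    cochainCobdry c (PC.ps γ) = c (p0 (γ 1)) - c (p0 (γ 0)) := by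
  have h : ∀ a : I, PC.lin γ ![a] = p0 (γ a) := by
    intro a
    rw [← p0_ev0 (PC.lin γ ![a])]
    congr 1
    rw [ev0, PC.us_lin]
    show γ (PC.aff ![a] v0) = γ a
    congr 1
    exact PC.aff_vertex ![a] 0
  rw [Pr.cobdry_apply, Fin.sum_univ_two]
  have f0 : simplexFace (0 : Fin 2) (PC.ps γ) = p0 (γ 1) := by
    rw [← h 1]
    show simplexFace (0 : Fin 2) (PC.lin γ ![0, 1]) = _
    rw [PC.face_lin]
    congr 1
  have f1 : simplexFace (1 : Fin 2) (PC.ps γ) = p0 (γ 0) := by
    rw [← h 0]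
    show simplexFace (1 : Fin 2) (PC.lin γ ![0, 1]) = _
    rw [PC.face_lin]
    congr 1
    funext i; fin_cases i; rfl
  rw [f0, f1]
  simp [sub_eq_add_neg]

theorem inS_ps {A : Set E} {γ : C(I, E)} (h : ∀ t, γ t ∈ A) : InS A (PC.ps γ) := by
  intro t
  show us (PC.lin γ ![0, 1]) t ∈ A
  rw [PC.us_lin]
  exact h _

theorem inS_ps_iff {A : Set E} {γ : C(I, E)} : InS A (PC.ps γ) ↔ ∀ t, γ t ∈ A := by
  refine ⟨fun h t => ?_, inS_ps⟩
  have := h (PC.pt t)
  change us (PC.lin γ ![0, 1]) (PC.pt t) ∈ A at this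
  rw [PC.us_lin] at this
  rw [ContinuousMap.comp_apply, PC.aff01_pt] at this
  exact this

end

end Crest.Agent.R251.CZ
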