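import Crest.Agent.R251.CZ470b
import Crest.Agent.R251.CS577B

/-!
# Row 251, line B block (d) (helper470): the typed form of the zigzag for labelled chamber systems
-/

set_option autoImplicit false
set_option linter.unusedSectionVars false
set_option linter.unusedVariables false

open Finset
open Crest.GeometryTopology.DeckCochains
open Crest.Agent.R251.Pr (us sx push EqC HV act)
open scoped unitInterval

namespace Crest.Agent.R251.CZ

open Crest.Agent.R251.CS

noncomputable section

variable {S : Sys} {G : Type} [Group G] (L : Lab S G)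
variable {M : Type} [AddCommGroup M] [DistribMulAction G M]

/-- the four open sets -/
def U4 (i : Fin 4) : Set L.E := L.UE {i}

theorem UI_U4 (J : Finset (Fin 4)) : UI (U4 L) J = L.UE J := by
  ext y
  obtain ⟨g, C, x, rfl⟩ := L.exists_epc y
  rw [Lab.epc_mem_UE]
  constructor
  · intro h i hi
    have := h i hi
    rw [U4, Lab.epc_mem_UE] at this
    exact this (Finset.mem_singleton_self i)
  · intro h i hi
    rw [U4, Lab.epc_mem_UE]
    intro j hj
    rw [Finset.mem_singleton] at hj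
    subst hj
    exact h hi

/-- typed exactness in the Čech complex: functions on the faces of type `J` -/
def Typed (M : Type) [AddCommGroup M] [DistribMulAction G M] (q : ℕ) : Prop :=
  ∀ c : ∀ J : Finset (Fin 4), S.F J → M,
    (∀ J : Finset (Fin 4), #J = q + 3 → ∀ C : S.Ch,
      ∑ i ∈ J, sg i J • (L.a (J.erase i) C • c (J.erase i) (S.fc (J.erase i) C)) = 0) →
    ∃ e : ∀ J : Finset (Fin 4), S.F J → M, ∀ J : Finset (Fin 4), #J = q + 2 → ∀ C : S.Ch,
      ∑ i ∈ J, sg i J • (L.a (J.erase i) C • e (J.erase i) (S.fc (J.erase i) C)) =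
        L.a J C • c J (S.fc J C)

/-! ### typed functions to cochains -/

open Classical in
/-- the equivariant 0-cochain of a function on the faces of type `J` -/
def toC (J : Finset (Fin 4)) (f : S.F J → M) (s : SingSimplex L.E 0) : M :=
  if h : ∃ p : S.F J × G, ev0 s ∈ L.WE J p.1 p.2 then h.choose.2 • f h.choose.1 else 0

theorem toC_eq {J : Finset (Fin 4)} (hJ : J.Nonempty) (f : S.F J → M) {s : SingSimplex L.E 0}
    {α : S.F J} {g : G} (h : ev0 s ∈ L.WE J α g) : toC L J f s = g • f α := by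
  have hex : ∃ p : S.F J × G, ev0 s ∈ L.WE J p.1 p.2 := ⟨(α, g), h⟩
  rw [toC, dif_pos hex]
  have := Sys.W_disjoint (S := L.cov) hJ (α := (hex.choose.1, hex.choose.2)) (β := (α, g))
    hex.choose_spec h
  have h1 : hex.choose.1 = α := congrArg Prod.fst this
  have h2 : hex.choose.2 = g := congrArg Prod.snd this
  rw [h1, h2]

theorem toC_epc {J : Finset (Fin 4)} (hJ : J.Nonempty) (f : S.F J → M) {g : G} {C : S.Ch} {x : Dl}
    (hx : J ⊆ supp x) : toC L J f (p0 (L.epc g C x)) = (g * L.a J C) • f (S.fc J C) := by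
  apply toC_eq L hJ
  rw [ev0_p0, Lab.epc_mem_WE L hJ]
  exact ⟨hx, rfl, rfl⟩

theorem toC_eqC {J : Finset (Fin 4)} (hJ : J.Nonempty) (f : S.F J → M) : EqC G (toC L J f) := by
  intro g s
  rw [← p0_ev0 s, push_p0]
  by_cases h : ∃ p : S.F J × G, ev0 s ∈ L.WE J p.1 p.2
  · obtain ⟨⟨α, k⟩, hk⟩ := h
    rw [toC_eq L hJ f (s := p0 (ev0 s)) (α := α) (g := k) (by rw [ev0_p0]; exact hk),
      toC_eq L hJ f (s := p0 (g • ev0 s)) (α := α) (g := g * k) (by
        rw [ev0_p0]; exact (Lab.smul_mem_WE L hJ).2 hk), mul_smul]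
  · have h' : ¬ ∃ p : S.F J × G, ev0 (p0 (g • ev0 s)) ∈ L.WE J p.1 p.2 := by
      rintro ⟨⟨α, k⟩, hk⟩
      apply h
      refine ⟨(α, g⁻¹ * k), ?_⟩
      rw [ev0_p0] at hk
      have : g • ev0 s ∈ L.WE J α (g * (g⁻¹ * k)) := by
        rw [mul_inv_cancel_left]; exact hk
      exact (Lab.smul_mem_WE L hJ).1 this
    have h'' : ¬ ∃ p : S.F J × G, ev0 (p0 (ev0 s)) ∈ L.WE J p.1 p.2 := by
      rw [ev0_p0]; exact h
    rw [toC, toC, dif_neg h', dif_neg h'', smul_zero]

/-- `toC` is locally constant -/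
theorem toC_closed {J : Finset (Fin 4)} (hJ : J.Nonempty) (f : S.F J → M) (s : SingSimplex L.E 1)
    (hs : InS (L.UE J) s) : cochainCobdry (toC L J f) s = 0 := by
  obtain ⟨γ, rfl⟩ := PC.ps_surj s
  rw [inS_ps_iff] at hs
  rw [cobdry_ps]
  -- the type of the face is locally constant along γ
  obtain ⟨p, hp⟩ := (Sys.mem_U_iff (S := L.cov)).1 (hs 0)
  have hpc : PreconnectedSpace I := inferInstance
  have key : ∀ t : I, γ t ∈ L.WE J p.1 p.2 := by
    have h1 : IsClopen {t : I | γ t ∈ L.WE J p.1 p.2} := by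
      constructor
      · have : {t : I | γ t ∈ L.WE J p.1 p.2}ᶜ = ⋃ q : {q : S.F J × G // q ≠ p}, {t : I | γ t ∈ L.WE J q.1.1 q.1.2} := by
          ext t
          simp only [Set.mem_compl_iff, Set.mem_ofPred_eq, Set.mem_iUnion]
          constructor
          · intro h
            obtain ⟨q, hq⟩ := (Sys.mem_U_iff (S := L.cov)).1 (hs t)
            refine ⟨⟨q, ?_⟩, hq⟩
            rintro rfl
            exact h hq
          · rintro ⟨⟨q, hq⟩, hqt⟩ h
            exact hq (Sys.W_disjoint (S := L.cov) hJ hqt h)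
        rw [← isOpen_compl_iff, this]
        exact isOpen_iUnion fun q => (L.isOpen_WE hJ q.1.1 q.1.2).preimage γ.continuous
      · exact (L.isOpen_WE hJ p.1 p.2).preimage γ.continuous
    have h2 := h1.eq_univ ⟨0, hp⟩
    intro t
    have : t ∈ {t : I | γ t ∈ L.WE J p.1 p.2} := by rw [h2]; trivial
    exact this
  rw [toC_eq L hJ f (s := p0 (γ 1)) (α := p.1) (g := p.2) (by rw [ev0_p0]; exact key 1),
    toC_eq L hJ f (s := p0 (γ 0)) (α := p.1) (g := p.2) (by rw [ev0_p0]; exact key 0), sub_self]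

/-! ### cochains to typed functions -/

/-- a 0-cocycle on `UE J` is constant on the stars -/
theorem closed_epc {J : Finset (Fin 4)} (hJ : J.Nonempty) {c : SingSimplex L.E 0 → M}
    (hc : ∀ s : SingSimplex L.E 1, InS (L.UE J) s → cochainCobdry c s = 0) {g : G} {C : S.Ch}
    {x : Dl} (hx : J ⊆ supp x) : c (p0 (L.epc g C x)) = c (p0 (L.epc g C (bar J hJ))) := by
  have hy : L.epc g C x ∈ L.UE J := L.epc_mem_UE.2 hx
  have h := hc (PC.ps (L.ctrE J hJ (L.epc g C x))) (inS_ps fun t => by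
    obtain ⟨p, hp⟩ := (Sys.mem_U_iff (S := L.cov)).1 hy
    exact (Sys.mem_U_iff (S := L.cov)).2 ⟨p, Sys.ctr_mem_W J hJ (Finset.Subset.refl J) hJ hy hp t⟩)
  rw [cobdry_ps, L.ctrE_zero J hJ hy, L.ctrE_one J hJ hx, sub_eq_zero] at h
  exact h.symm

open Classical in
/-- the typed function of a 0-cocycle -/
def ofC (J : Finset (Fin 4)) (c : SingSimplex L.E 0 → M) (α : S.F J) : M :=
  if h : J.Nonempty ∧ ∃ C : S.Ch, S.fc J C = α then
    (L.a J h.2.choose)⁻¹ • c (p0 (L.epc 1 h.2.choose (bar J h.1))) else 0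

theorem ofC_eq {J : Finset (Fin 4)} (hJ : J.Nonempty) {c : SingSimplex L.E 0 → M} (hE : EqC G c)
    (C : S.Ch) : L.a J C • ofC L J c (S.fc J C) = c (p0 (L.epc 1 C (bar J hJ))) := by
  have hex : J.Nonempty ∧ ∃ C' : S.Ch, S.fc J C' = S.fc J C := ⟨hJ, C, rfl⟩
  rw [ofC, dif_pos hex]
  generalize hC' : hex.2.choose = C'
  have hf : S.fc J C' = S.fc J C := by rw [← hC']; exact hex.2.choose_spec
  rw [← hE, push_p0, Lab.smul_epc, ← hE, push_p0, Lab.smul_epc]
  congr 2
  rw [L.epc_eq_iff, supp_bar]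
  refine ⟨rfl, hf, ?_⟩
  group

theorem closed_eq {J : Finset (Fin 4)} (hJ : J.Nonempty) {c : SingSimplex L.E 0 → M} (hE : EqC G c)
    (hc : ∀ s : SingSimplex L.E 1, InS (L.UE J) s → cochainCobdry c s = 0) {g : G} {C : S.Ch}
    {x : Dl} (hx : J ⊆ supp x) :
    c (p0 (L.epc g C x)) = g • (L.a J C • ofC L J c (S.fc J C)) := by
  rw [closed_epc L hJ hc hx, ofC_eq L hJ hE C]
  have : L.epc g C (bar J hJ) = g • L.epc 1 C (bar J hJ) := by rw [Lab.smul_epc, mul_one]
  rw [this, ← push_p0, hE]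

/-- **block (d)**: the zigzag for the total space of a labelled chamber system -/
theorem HV_of_typed (q : ℕ)
    (hAc : ∀ (J : Finset (Fin 4)) (k : ℕ), J.Nonempty → AcE G M (L.UE J) k)
    (hT : Typed L M q) : HV G L.E q M := by
  refine HV_of_cech (U := U4 L) (fun i => L.isOpen_UE {i}) (fun i g x => L.smul_mem_UE)
    (fun x => Sys.exists_mem_U x) q (fun J k hJ _ => by
      rw [UI_U4]
      exact hAc J k (Finset.card_pos.1 (by omega))) ?_
  intro c hE h1 h2
  have hne : ∀ J : Finset (Fin 4), 1 ≤ #J → J.Nonempty := fun J h => Finset.card_pos.1 (by omega)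
  obtain ⟨e, he⟩ := hT (fun J => ofC L J (c J)) (by
    intro J hJ C
    have h3 := h2 J (by omega) (p0 (L.epc 1 C (bar J (hne J (by omega))))) (by
      rw [UI_U4, inS_p0, Lab.epc_mem_UE, supp_bar])
    unfold DD at h3
    rw [← h3]
    refine Finset.sum_congr rfl fun i hi => ?_
    have hcard : #(J.erase i) = q + 2 := by rw [Finset.card_erase_of_mem hi, hJ]; rfl
    rw [closed_eq L (J := J.erase i) (hne _ (by omega)) (hE _) (fun s hs => h1 _ (by omega) s (by
        rw [UI_U4]; exact hs)) (by rw [supp_bar]; exact Finset.erase_subset _ _), one_smul])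
  refine ⟨fun J => if J.Nonempty then toC L J (e J) else fun _ => 0, ?_, ?_, ?_⟩
  · intro J
    dsimp only
    split_ifs with h
    · exact toC_eqC L h _
    · exact fun g s => (smul_zero g).symm
  · intro J hJ s hs
    dsimp only
    rw [if_pos (hne J (by omega))]
    rw [UI_U4] at hs
    exact toC_closed L (hne J (by omega)) _ s hs
  · intro J hJ s hs
    rw [UI_U4] at hs
    have hs' : ev0 s ∈ L.UE J := hs v0
    obtain ⟨g, C, x, hx⟩ := L.exists_epc (ev0 s)
    obtain rfl : s = p0 (L.epc g C x) := by rw [hx, p0_ev0]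
    rw [ev0_p0, Lab.epc_mem_UE] at hs'
    rw [closed_eq L (hne J (by omega)) (hE J) (fun s hs => h1 J (by omega) s (by
      rw [UI_U4]; exact hs)) hs', ← he J (by omega) C]
    unfold DD
    rw [Finset.smul_sum]
    refine Finset.sum_congr rfl fun i hi => ?_
    have hcard : #(J.erase i) = q + 1 := by rw [Finset.card_erase_of_mem hi, hJ]; omega
    have hn : (J.erase i).Nonempty := hne _ (by omega)
    dsimp only
    rw [if_pos hn, toC_epc L hn _ ((Finset.erase_subset _ _).trans hs'), mul_smul, smul_comm]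

/-- above the number of open sets the typed condition is empty -/
theorem typed_of_le {q : ℕ} (hq : 3 ≤ q) : Typed L M q := by
  intro c _
  refine ⟨fun _ _ => 0, fun J hJ => ?_⟩
  have := Finset.card_le_univ J
  simp only [Fintype.card_fin] at this
  omega

end

end Crest.Agent.R251.CZ
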