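import Mathlib
import Crest.Prelude.Def_DeckCochains

/-!
# R251, block COH (1): vocabulary for equivariant singular cochains and the gluing lemma (C3')

Raw cochains `SingSimplex E n → M`; equations only on simplices with image in an open set.
-/

set_option autoImplicit false

open CategoryTheory Simplicial Opposite
open Crest.GeometryTopology.DeckCochains

namespace Crest.Agent.R251.Coh

noncomputable section

variable {E : Type} [TopologicalSpace E] {M : Type} [AddCommGroup M]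

/-- the standard simplex -/
abbrev Dn (n : ℕ) : Type := stdSimplex ℝ (Fin (n + 1))

/-- the continuous map underlying a singular simplex -/
def ev {n : ℕ} (σ : SingSimplex E n) : C(Dn n, E) := TopCat.toSSetObjEquiv (TopCat.of E) (op ⦋n⦌) σ

/-- the singular simplex of a continuous map -/
def sx {n : ℕ} (f : C(Dn n, E)) : SingSimplex E n :=
  (TopCat.toSSetObjEquiv (TopCat.of E) (op ⦋n⦌)).symm f

@[simp] theorem ev_sx {n : ℕ} (f : C(Dn n, E)) : ev (sx f) = f := Equiv.apply_symm_apply _ _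
@[simp] theorem sx_ev {n : ℕ} (σ : SingSimplex E n) : sx (ev σ) = σ := Equiv.symm_apply_apply _ _

theorem ev_injective {n : ℕ} : Function.Injective (ev : SingSimplex E n → C(Dn n, E)) :=
  Equiv.injective _

/-- face inclusions -/
def fc (n : ℕ) (i : Fin (n + 2)) : C(Dn n, Dn (n + 1)) :=
  ⟨stdSimplex.map i.succAbove, stdSimplex.continuous_map _⟩

theorem ev_face {n : ℕ} (i : Fin (n + 2)) (σ : SingSimplex E (n + 1)) :
    ev (simplexFace i σ) = (ev σ).comp (fc n i) := rfl

theorem ev_translate {n : ℕ} (g : E ≃ₜ E) (σ : SingSimplex E n) :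
    ev (simplexTranslate g σ) = (g : C(E, E)).comp (ev σ) := rfl

/-- the simplex has image in `U` -/
def In (U : Set E) {n : ℕ} (σ : SingSimplex E n) : Prop := ∀ x, ev σ x ∈ U

theorem In.face {U : Set E} {n : ℕ} {σ : SingSimplex E (n + 1)} (h : In U σ) (i : Fin (n + 2)) :
    In U (simplexFace i σ) := fun x => h (fc n i x)

theorem In.mono {U V : Set E} (hUV : U ⊆ V) {n : ℕ} {σ : SingSimplex E n} (h : In U σ) : In V σ :=
  fun x => hUV (h x)

/-- double coboundary vanishes -/
theorem cobdry_cobdry {n : ℕ} (φ : SingSimplex E n → M) : cochainCobdry (cochainCobdry φ) = 0 := by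
  funext σ
  simp only [cochainCobdry, Finset.smul_sum, Pi.zero_apply]
  rw [← Finset.sum_product']
  let P := Fin (n + 3) × Fin (n + 2)
  let S : Finset P := Finset.univ.filter (fun ij : P => (ij.1 : ℕ) ≤ (ij.2 : ℕ))
  rw [Finset.univ_product_univ, ← Finset.sum_add_sum_compl S, ← eq_neg_iff_add_eq_zero,
    ← Finset.sum_neg_distrib]
  let ψ : ∀ ij : P, ij ∈ S → P := fun ij hij =>
    (ij.2.succ, Fin.castLT ij.1 (lt_of_le_of_lt (Finset.mem_filter.mp hij).right (Fin.is_lt ij.2)))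
  apply Finset.sum_bij ψ
  · intro ij hij
    simp_rw [S, ψ, Finset.compl_filter, Finset.mem_filter_univ, Fin.val_succ,
      Fin.val_castLT] at hij ⊢
    lia
  · rintro ⟨i, j⟩ hij ⟨i', j'⟩ hij' h
    rw [Prod.mk_inj]
    exact ⟨by simpa [ψ, Fin.castSucc_castLT] using! congr_arg Fin.castSucc (congr_arg Prod.snd h),
      by simpa [ψ] using! congr_arg Prod.fst h⟩
  · rintro ⟨i', j'⟩ hij'
    simp_rw [S, Finset.compl_filter, Finset.mem_filter_univ, not_le] at hij'
    refine ⟨(Fin.castSucc j', i'.pred <| ?_), ?_, ?_⟩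
    · rintro rfl
      simp only [Fin.val_zero, not_lt_zero] at hij'
    · simpa [S] using! Nat.le_sub_one_of_lt hij'
    · simp only [ψ, Fin.castLT_castSucc, Fin.succ_pred]
  · rintro ⟨i, j⟩ hij
    simp only [smul_smul, ← neg_smul]
    have h1 : simplexFace j (simplexFace i σ) =
        simplexFace (ψ (i, j) hij).2 (simplexFace (ψ (i, j) hij).1 σ) := by
      have H : i ≤ Fin.castSucc j := by
        have := (Finset.mem_filter.mp hij).2
        exact this
      have h := SimplicialObject.δ_comp_δ'' (TopCat.toSSet.obj (TopCat.of E)) H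
      exact (ConcreteCategory.congr_hom h σ).symm
    rw [h1]
    congr 1
    simp only [ψ, Fin.val_succ, pow_add, pow_one, mul_neg, mul_one, Fin.val_castLT]
    ring

section sv

/-- the small-simplices theorem for a cover by two open sets (82's `small_vanish`), as a proposition -/
def SV : Prop := ∀ (E : Type) [TopologicalSpace E] (U V : Set E), IsOpen U → IsOpen V →
  U ∪ V = Set.univ → ∀ (M : Type) [AddCommGroup M] (n : ℕ) (φ : SingSimplex E (n + 1) → M),
  cochainCobdry φ = 0 → (∀ σ, In U σ ∨ In V σ → φ σ = 0) →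
  ∃ ψ : SingSimplex E n → M, cochainCobdry ψ = φ ∧ (∀ σ, In U σ ∨ In V σ → ψ σ = 0) ∧
    ∀ (g : E ≃ₜ E) (a : M →+ M), (∀ x, g x ∈ U ↔ x ∈ U) → (∀ x, g x ∈ V ↔ x ∈ V) →
      (∀ s, φ (simplexTranslate g s) = a (φ s)) → ∀ s, ψ (simplexTranslate g s) = a (ψ s)

end sv

section eqv

variable {G : Type} [Group G] [MulAction G E] [ContinuousConstSMul G E] [DistribMulAction G M]

/-- translation of simplices by a group element -/
abbrev tr (g : G) {n : ℕ} (σ : SingSimplex E n) : SingSimplex E n :=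
  simplexTranslate (Homeomorph.smul g) σ

theorem ev_tr (g : G) {n : ℕ} (σ : SingSimplex E n) (x : Dn n) : ev (tr g σ) x = g • ev σ x := rfl

theorem tr_face (g : G) {n : ℕ} (i : Fin (n + 2)) (σ : SingSimplex E (n + 1)) :
    simplexFace i (tr g σ) = tr g (simplexFace i σ) := rfl

variable (G) in
/-- equivariance of a cochain -/
def Eqv {n : ℕ} (φ : SingSimplex E n → M) : Prop := ∀ (g : G) (σ : SingSimplex E n),
  φ (tr g σ) = g • φ σ

theorem Eqv.zero {n : ℕ} : Eqv G (0 : SingSimplex E n → M) := fun g _ => (smul_zero g).symm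

theorem Eqv.add {n : ℕ} {φ ψ : SingSimplex E n → M} (h : Eqv G φ) (k : Eqv G ψ) :
    Eqv G (φ + ψ) := fun g σ => by simp [h g σ, k g σ, smul_add]

theorem Eqv.sub {n : ℕ} {φ ψ : SingSimplex E n → M} (h : Eqv G φ) (k : Eqv G ψ) :
    Eqv G (φ - ψ) := fun g σ => by simp [h g σ, k g σ, smul_sub]

theorem Eqv.neg {n : ℕ} {φ : SingSimplex E n → M} (h : Eqv G φ) :
    Eqv G (-φ) := fun g σ => by simp [h g σ, smul_neg]

theorem Eqv.cobdry {n : ℕ} {φ : SingSimplex E n → M} (h : Eqv G φ) : Eqv G (cochainCobdry φ) := by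
  intro g σ
  simp only [cochainCobdry, Finset.smul_sum]
  refine Finset.sum_congr rfl fun i _ => ?_
  rw [tr_face, h g, smul_comm]

theorem cobdry_add {n : ℕ} (φ ψ : SingSimplex E n → M) :
    cochainCobdry (φ + ψ) = cochainCobdry φ + cochainCobdry ψ := by
  funext σ
  simp only [cochainCobdry, Pi.add_apply, smul_add, Finset.sum_add_distrib]

theorem cobdry_sub {n : ℕ} (φ ψ : SingSimplex E n → M) :
    cochainCobdry (φ - ψ) = cochainCobdry φ - cochainCobdry ψ := by
  funext σ
  simp only [cochainCobdry, Pi.sub_apply, smul_sub, Finset.sum_sub_distrib]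

theorem cobdry_neg {n : ℕ} (φ : SingSimplex E n → M) :
    cochainCobdry (-φ) = -cochainCobdry φ := by
  funext σ
  simp only [cochainCobdry, Pi.neg_apply, smul_neg, Finset.sum_neg_distrib]

theorem cobdry_zero {n : ℕ} : cochainCobdry (0 : SingSimplex E n → M) = 0 := by
  funext σ
  simp [cochainCobdry]

/-- `U` is invariant -/
def Inv (G : Type) [Group G] [MulAction G E] (U : Set E) : Prop := ∀ (g : G) (x : E), g • x ∈ U ↔ x ∈ U

theorem In_tr {U : Set E} (hU : Inv G U) (g : G) {n : ℕ} (σ : SingSimplex E n) :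
    In U (tr g σ) ↔ In U σ :=
  forall_congr' fun x => hU g (ev σ x)

/-- equality of coboundaries on a simplex from equality on the faces -/
theorem cobdry_congr {n : ℕ} {φ ψ : SingSimplex E n → M} {σ : SingSimplex E (n + 1)}
    (h : ∀ i, φ (simplexFace i σ) = ψ (simplexFace i σ)) : cochainCobdry φ σ = cochainCobdry ψ σ :=
  Finset.sum_congr rfl fun i _ => by rw [h i]

/-- solve on small simplices, then everywhere -/
theorem solve_of_small (hsv : SV) {U V : Set E} (hU : IsOpen U) (hV : IsOpen V)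
    (hUV : U ∪ V = Set.univ) (iU : Inv G U) (iV : Inv G V) {n : ℕ}
    {ω : SingSimplex E (n + 1) → M} (hω : Eqv G ω) (hc : cochainCobdry ω = 0)
    (ψ : SingSimplex E n → M) (hψ : Eqv G ψ)
    (h : ∀ σ, In U σ ∨ In V σ → cochainCobdry ψ σ = ω σ) :
    ∃ ψ' : SingSimplex E n → M, Eqv G ψ' ∧ cochainCobdry ψ' = ω ∧
      ∀ σ, In U σ ∨ In V σ → ψ' σ = ψ σ := by
  obtain ⟨χ, h1, h2, h3⟩ := hsv E U V hU hV hUV M n (ω - cochainCobdry ψ)
    (by rw [cobdry_sub, hc, cobdry_cobdry, sub_zero])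
    (fun σ hσ => by rw [Pi.sub_apply, h σ hσ, sub_self])
  have he : Eqv G (ω - cochainCobdry ψ) := hω.sub hψ.cobdry
  refine ⟨ψ + χ, hψ.add fun g σ => ?_, ?_, fun σ hσ => ?_⟩
  · exact h3 (Homeomorph.smul g) (DistribSMul.toAddMonoidHom M g) (iU g) (iV g)
      (fun s => he g s) σ
  · rw [cobdry_add, h1]; abel
  · rw [Pi.add_apply, h2 σ hσ, add_zero]

/-- **(C3')** the refined Mayer-Vietoris gluing lemma. -/
theorem glue (hsv : SV) {U V : Set E} (hU : IsOpen U) (hV : IsOpen V)
    (hUV : U ∪ V = Set.univ) (iU : Inv G U) (iV : Inv G V) {n : ℕ}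
    {ω : SingSimplex E (n + 2) → M} (hω : Eqv G ω) (hc : cochainCobdry ω = 0)
    (bU bV : SingSimplex E (n + 1) → M) (hbU : Eqv G bU) (hbV : Eqv G bV)
    (η : SingSimplex E n → M) (hη : Eqv G η)
    (h1 : ∀ σ, In U σ → cochainCobdry bU σ = ω σ) (h2 : ∀ σ, In V σ → cochainCobdry bV σ = ω σ)
    (h3 : ∀ σ, In U σ → In V σ → bU σ - bV σ = cochainCobdry η σ) :
    ∃ ψ : SingSimplex E (n + 1) → M, Eqv G ψ ∧ cochainCobdry ψ = ω ∧
      (∀ σ, In U σ → ψ σ = bU σ) ∧ ∀ σ, In V σ → ψ σ = bV σ + cochainCobdry η σ := by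
  classical
  let ψ₀ : SingSimplex E (n + 1) → M := fun σ => if In U σ then bU σ else
    if In V σ then bV σ + cochainCobdry η σ else 0
  have hU0 : ∀ σ, In U σ → ψ₀ σ = bU σ := fun σ h => if_pos h
  have hV0 : ∀ σ, In V σ → ψ₀ σ = bV σ + cochainCobdry η σ := fun σ h => by
    by_cases h' : In U σ
    · rw [hU0 σ h', ← h3 σ h' h]; abel
    · simp only [ψ₀, if_neg h', if_pos h]
  have he : Eqv G ψ₀ := by
    intro g σ
    simp only [ψ₀, In_tr iU, In_tr iV]
    split_ifs
    · exact hbU g σ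
    · rw [hbV g σ, hη.cobdry g σ, smul_add]
    · exact (smul_zero g).symm
  obtain ⟨ψ, h4, h5, h6⟩ := solve_of_small hsv hU hV hUV iU iV hω hc ψ₀ he (by
    rintro σ (h | h)
    · rw [← h1 σ h]
      exact cobdry_congr fun i => hU0 _ (h.face i)
    · have : cochainCobdry ψ₀ σ = cochainCobdry (bV + cochainCobdry η) σ :=
        cobdry_congr fun i => hV0 _ (h.face i)
      rw [this, cobdry_add, cobdry_cobdry, add_zero, h2 σ h])
  exact ⟨ψ, h4, h5, fun σ h => (h6 σ (Or.inl h)).trans (hU0 σ h),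
    fun σ h => (h6 σ (Or.inr h)).trans (hV0 σ h)⟩

/-- extension of a small cocycle (82's trick (c)) -/
theorem extend (hsv : SV) {U V : Set E} (hU : IsOpen U) (hV : IsOpen V)
    (hUV : U ∪ V = Set.univ) (iU : Inv G U) (iV : Inv G V) {n : ℕ}
    (φ : SingSimplex E (n + 1) → M) (hφ : Eqv G φ)
    (h : ∀ σ, In U σ ∨ In V σ → cochainCobdry φ σ = 0) :
    ∃ φ' : SingSimplex E (n + 1) → M, Eqv G φ' ∧ cochainCobdry φ' = 0 ∧
      ∀ σ, In U σ ∨ In V σ → φ' σ = φ σ := by
  obtain ⟨χ, h1, h2, h3⟩ := hsv E U V hU hV hUV M (n + 1) (cochainCobdry φ) (cobdry_cobdry φ) h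
  refine ⟨φ - χ, hφ.sub fun g σ => ?_, ?_, fun σ hσ => ?_⟩
  · exact h3 (Homeomorph.smul g) (DistribSMul.toAddMonoidHom M g) (iU g) (iV g)
      (fun s => hφ.cobdry g s) σ
  · rw [cobdry_sub, h1, sub_self]
  · rw [Pi.sub_apply, h2 σ hσ, sub_zero]

end eqv

end

end Crest.Agent.R251.Coh
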