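import Crest.Agent.R185.Att3
import Crest.Agent.R185.Base3

/-!
# Row 251: the model (definitions)

`G` a group, `gen : ι → G`, relator words `wd : κ → List (ι × Bool)`, `val wd = 1`.
`T1 G` vertices, `T2` Cayley graph, `T3` Cayley complex (free `G`-spaces, R185/Att attachments),
`T4 f` = one free orbit of 3-cells attached along `f : C(S 3, T3.Z)`.
-/

set_option autoImplicit false
set_option linter.unusedSectionVars false

open Set Metric Topology unitInterval
open Crest.Agent.R185.Att Crest.Agent.R185.Base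

namespace Crest.Agent.R251.Mod

/-! ### small spheres -/

instance : IsEmpty (S 0) := ⟨fun x => by
  have h := x.norm_eq
  have h2 : (x : Fin 0 → ℝ) = 0 := Subsingleton.elim _ _
  rw [h2, norm_zero] at h
  exact zero_ne_one h⟩

/-- the point of `B 0` -/
def o0 : B 0 := ⟨0, by simp⟩

theorem B0_eq (x : B 0) : x = o0 := Subtype.ext (Subsingleton.elim _ _)

theorem S1_cases (x : S 1) : (x : Fin 1 → ℝ) 0 = 1 ∨ (x : Fin 1 → ℝ) 0 = -1 := by
  have h : ‖(x : Fin 1 → ℝ)‖ = 1 := x.norm_eq
  have h1 : (x : Fin 1 → ℝ) = fun _ => (x : Fin 1 → ℝ) 0 := by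
    funext i; rw [Subsingleton.elim i 0]
  rw [h1, pi_norm_const, Real.norm_eq_abs] at h
  exact eq_or_eq_neg_of_abs_eq h

theorem S1_ext {x y : S 1} (h : (x : Fin 1 → ℝ) 0 = (y : Fin 1 → ℝ) 0) : x = y := by
  apply Subtype.ext
  funext i; rw [Subsingleton.elim i 0]; exact h

instance : Finite (S 1) := by
  refine Finite.of_injective (fun x : S 1 => decide (0 < (x : Fin 1 → ℝ) 0)) ?_
  intro x y h
  have h' : (0 < (x : Fin 1 → ℝ) 0) ↔ (0 < (y : Fin 1 → ℝ) 0) := by
    simpa using h
  apply S1_ext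
  rcases S1_cases x with hx | hx <;> rcases S1_cases y with hy | hy <;> rw [hx, hy] at h' ⊢ <;>
    norm_num at h'

/-! ### loops and maps of the circle `S 2` -/

/-- `I → S 2`, once around -/
noncomputable def crI : C(I, S 2) := ⟨fun t => cr t, continuous_cr.comp continuous_subtype_val⟩

theorem crI_quot : IsQuotientMap crI :=
  crI.continuous.isClosedMap.isQuotientMap crI.continuous cr_surj

/-- the map of the circle `S 2` given by a loop -/
noncomputable def circ {Z : Type*} [TopologicalSpace Z] {z : Z} (γ : Path z z) : C(S 2, Z) :=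
  crI_quot.lift γ.toContinuousMap (by
    intro a b hab
    rcases cr_inj hab with rfl | ⟨rfl, rfl⟩ | ⟨rfl, rfl⟩
    · rfl
    · exact γ.source.trans γ.target.symm
    · exact γ.target.trans γ.source.symm)

@[simp] theorem circ_cr {Z : Type*} [TopologicalSpace Z] {z : Z} (γ : Path z z) (t : I) :
    circ γ (cr t) = γ t := by
  have := crI_quot.lift_comp γ.toContinuousMap (by
    intro a b hab
    rcases cr_inj hab with rfl | ⟨rfl, rfl⟩ | ⟨rfl, rfl⟩
    · rfl
    · exact γ.source.trans γ.target.symm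
    · exact γ.target.trans γ.source.symm)
  exact congrArg (fun k : C(I, Z) => k t) this

/-! ### the stages -/

section stages

variable (G : Type) [Group G]

instance : ContinuousConstSMul G Empty := ⟨fun _ => continuous_of_discreteTopology⟩

/-- attaching maps of the vertices -/
def φ0 : Unit → C(S 0, Empty) :=
  fun _ => ⟨fun x => isEmptyElim x, continuous_of_const fun x => isEmptyElim x⟩

/-- the vertices (stage 1) -/
abbrev Z1 : Type := GAtt G φ0

variable {G}

/-- the vertex `g` in stage 1 -/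
def v1 (g : G) : Z1 G := inB φ0 g () o0

@[simp] theorem smul_v1 (g h : G) : g • v1 h = v1 (g * h) := rfl

theorem v1_surj (z : Z1 G) : ∃ g, z = v1 g := by
  induction z using GAtt.cases' with
  | hZ z => exact Empty.elim z
  | hB g c x => exact ⟨g, by rw [B0_eq x]; rfl⟩

theorem v1_inj {g h : G} (e : v1 g = v1 h) : g = h :=
  (inB_inj.1 e).1

variable {ι : Type} (gen : ι → G)

/-- attaching maps of the edges: `-1 ↦ 1`, `1 ↦ gen i` -/
noncomputable def φ1 (i : ι) : C(S 1, Z1 G) :=
  ⟨fun x => if 0 < (x : Fin 1 → ℝ) 0 then v1 (gen i) else v1 1, continuous_of_discreteTopology⟩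

/-- the Cayley graph (stage 2) -/
abbrev Z2 : Type := GAtt G (φ1 gen)

/-- the vertex `g` in the Cayley graph -/
noncomputable def v (g : G) : Z2 gen := inZ (φ1 gen) (v1 g)

@[simp] theorem smul_v (g h : G) : g • v gen h = v gen (g * h) := rfl

/-- the point `2t-1` of `D 1` -/
noncomputable def d1 (t : I) : D 1 := ⟨fun _ => 2 * (t : ℝ) - 1, by
  rw [mem_closedBall_zero_iff, pi_norm_const, Real.norm_eq_abs, abs_le]
  constructor <;> linarith [t.2.1, t.2.2]⟩

theorem continuous_d1 : Continuous d1 := by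
  apply Continuous.subtype_mk
  fun_prop

theorem chr_d1_zero (g : G) (i : ι) : chr (φ1 gen) g i (d1 0) = v gen g := by
  have h : d1 0 = sd 1 ⟨fun _ => -1, by rw [mem_sphere_zero_iff_norm, pi_norm_const]; simp⟩ := by
    apply Subtype.ext; funext; simp [d1]
  rw [h, chr_sd]
  have h2 : φ1 gen i ⟨fun _ => -1, by rw [mem_sphere_zero_iff_norm, pi_norm_const]; simp⟩ = v1 1 := by
    show (if _ then _ else _) = _
    rw [if_neg (by norm_num)]
  rw [h2, smul_v1, mul_one]; rfl

theorem chr_d1_one (g : G) (i : ι) : chr (φ1 gen) g i (d1 1) = v gen (g * gen i) := by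
  have h : d1 1 = sd 1 ⟨fun _ => 1, by rw [mem_sphere_zero_iff_norm, pi_norm_const]; simp⟩ := by
    apply Subtype.ext; funext; simp [d1]; norm_num
  rw [h, chr_sd]
  have h2 : φ1 gen i ⟨fun _ => 1, by rw [mem_sphere_zero_iff_norm, pi_norm_const]; simp⟩ = v1 (gen i) := by
    show (if _ then _ else _) = _
    rw [if_pos (by norm_num)]
  rw [h2, smul_v1]; rfl

/-- the edge `(g, i)` from `v g` to `v (g * gen i)` -/
noncomputable def edge (g : G) (i : ι) : Path (v gen g) (v gen (g * gen i)) where
  toFun t := chr (φ1 gen) g i (d1 t)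
  continuous_toFun := (continuous_chr g i).comp continuous_d1
  source' := chr_d1_zero gen g i
  target' := chr_d1_one gen g i

/-- value of a word -/
def val : List (ι × Bool) → G
  | [] => 1
  | (i, true) :: l => gen i * val l
  | (i, false) :: l => (gen i)⁻¹ * val l

theorem val_eq (l : List (ι × Bool)) : val gen l = FreeGroup.lift gen (FreeGroup.mk l) := by
  induction l with
  | nil => simp [val]
  | cons a l ih =>
    obtain ⟨i, b⟩ := a
    cases b <;> simp [val, ih, FreeGroup.lift_mk]

/-- the edge path of a word starting at `g` -/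
noncomputable def wpath : ∀ (g : G) (l : List (ι × Bool)), Path (v gen g) (v gen (g * val gen l))
  | g, [] => (Path.refl _).cast rfl (by rw [val, mul_one])
  | g, (i, true) :: l => ((edge gen g i).trans (wpath (g * gen i) l)).cast rfl
      (by rw [val, mul_assoc])
  | g, (i, false) :: l => (((edge gen (g * (gen i)⁻¹) i).symm.cast
      (by rw [inv_mul_cancel_right]) rfl).trans (wpath (g * (gen i)⁻¹) l)).cast rfl
      (by rw [val, mul_assoc])

/-- the loop at `v 1` of a word of value one -/
noncomputable def wloop (l : List (ι × Bool)) (h : val gen l = 1) : Path (v gen (1 : G)) (v gen 1) :=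
  (wpath gen 1 l).cast rfl (by rw [h, mul_one])

variable {κ : Type} (wd : κ → List (ι × Bool)) (hwd : ∀ j, val gen (wd j) = 1)

/-- attaching maps of the 2-cells -/
noncomputable def φ2 (j : κ) : C(S 2, Z2 gen) := circ (wloop gen (wd j) (hwd j))

/-- the Cayley complex (stage 3) -/
abbrev Z3 : Type := GAtt G (φ2 gen wd hwd)

/-- inclusion of the Cayley graph -/
noncomputable def i2 : C(Z2 gen, Z3 gen wd hwd) :=
  ⟨fun z => inZ (φ2 gen wd hwd) z, continuous_inZ⟩

/-- the closed 2-cell `(g, j)` -/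
noncomputable def cell2 (g : G) (j : κ) : C(D 2, Z3 gen wd hwd) :=
  ⟨chr (φ2 gen wd hwd) g j, continuous_chr g j⟩

theorem cell2_sd (g : G) (j : κ) (x : S 2) :
    cell2 gen wd hwd g j (sd 2 x) = i2 gen wd hwd (g • circ (wloop gen (wd j) (hwd j)) x) :=
  chr_sd g j x

/-- the 1-skeleton together with the 2-cells of type `j ∈ J` -/
def Sk (J : Set κ) : Set (Z3 gen wd hwd) :=
  range (i2 gen wd hwd) ∪ ⋃ g : G, ⋃ j ∈ J, range (cell2 gen wd hwd g j)

variable {gen wd hwd} in
/-- attaching map of the 3-cell -/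
def φ3 (f : C(S 3, Z3 gen wd hwd)) : Unit → C(S 3, Z3 gen wd hwd) := fun _ => f

variable {gen wd hwd} in
/-- the 3-complex (stage 4) -/
abbrev Z4 (f : C(S 3, Z3 gen wd hwd)) : Type := GAtt G (φ3 f)

/-! ### the same as a tower of R185 -/

variable (G) in
/-- stage 1 as a bundled `G`-space -/
def T1 : GSp G := ⟨Z1 G⟩
/-- stage 2 -/
noncomputable def T2 : GSp G := ⟨Z2 gen⟩
/-- stage 3 -/
noncomputable def T3 : GSp G := ⟨Z3 gen wd hwd⟩
variable {gen wd hwd} in
/-- stage 4 -/
noncomputable def T4 (f : C(S 3, Z3 gen wd hwd)) : GSp G := ⟨Z4 f⟩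

variable (G) in
/-- cells of dimension 0 -/
def c0 : Cells (GSp.emp G) 0 := ⟨Unit, φ0⟩
variable [Finite ι] [Finite κ]
/-- cells of dimension 1 -/
noncomputable def c1 : Cells (T1 G) 1 := ⟨ι, φ1 gen⟩
/-- cells of dimension 2 -/
noncomputable def c2 : Cells (T2 gen) 2 := ⟨κ, φ2 gen wd hwd⟩
variable {gen wd hwd} in
/-- cells of dimension 3 -/
def c3 (f : C(S 3, Z3 gen wd hwd)) : Cells (T3 gen wd hwd) 3 := ⟨Unit, φ3 f⟩

open Classical in
variable {gen wd hwd} in
/-- attaching data for the tower of R185 -/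
noncomputable def FF (f : C(S 3, Z3 gen wd hwd)) : ∀ (m : ℕ) (X : GSp G), Cells X m
  | 0 => fun X => if h : X = GSp.emp G then h ▸ c0 G else Cells.none X 0
  | 1 => fun X => if h : X = T1 G then h ▸ c1 gen else Cells.none X 1
  | 2 => fun X => if h : X = T2 gen then h ▸ c2 gen wd hwd else Cells.none X 2
  | 3 => fun X => if h : X = T3 gen wd hwd then h ▸ c3 f else Cells.none X 3
  | m + 4 => fun X => Cells.none X (m + 4)

variable {gen wd hwd} (f : C(S 3, Z3 gen wd hwd))

theorem tower_0 : tower (FF f) 0 = GSp.emp G := rfl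

theorem tower_1 : tower (FF f) 1 = T1 G := by
  show GSp.att _ (FF f 0 (GSp.emp G)) = _
  have : FF f 0 (GSp.emp G) = c0 G := dif_pos rfl
  rw [this]; rfl

theorem tower_2 : tower (FF f) 2 = T2 gen := by
  rw [tower_succ, tower_1]
  have : FF f 1 (T1 G) = c1 gen := dif_pos rfl
  rw [this]; rfl

theorem tower_3 : tower (FF f) 3 = T3 gen wd hwd := by
  rw [tower_succ, tower_2]
  have : FF f 2 (T2 gen) = c2 gen wd hwd := dif_pos rfl
  rw [this]; rfl

theorem tower_4 : tower (FF f) 4 = T4 f := by
  rw [tower_succ, tower_3]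
  have : FF f 3 (T3 gen wd hwd) = c3 f := dif_pos rfl
  rw [this]; rfl

theorem cel_ge (m : ℕ) (hm : 4 ≤ m) : IsEmpty (cel (FF f) m) := by
  obtain ⟨k, rfl⟩ := Nat.exists_eq_add_of_le' hm
  exact ⟨fun c => Empty.elim c⟩

end stages

end Crest.Agent.R251.Mod
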