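import Crest.Agent.R251.L679
import Crest.Agent.R251.PC752
import Crest.Agent.R251.Mod19

/-!
# R251 (S0388) (helper539): K2, part 1: Lemma Z

`lemmaZ`: for 2-cells (`m = 2`), an equivariant 2-cocycle of `GAtt G φ` which vanishes on the simplices
of `UU φ` and has zero holonomy on the cells is an equivariant coboundary.
-/

set_option autoImplicit false
set_option linter.unusedSectionVars false

open CategoryTheory Simplicial Opposite Set Metric Topology
open scoped unitInterval
open Crest.GeometryTopology.DeckCochains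
open Crest.Agent.R251.Pr Crest.Agent.R251.Orb
open Crest.Agent.R251.Mod (crI)
open Crest.Agent.R185.Base (cr)

namespace Crest.Agent.R251.Coh

noncomputable section

/-! ### loops -/

section loops

variable {F : Type} [TopologicalSpace F] {M : Type*} [AddCommGroup M]

/-- a point as a singular simplex -/
def ptx (x : F) : SingSimplex F 0 := Pr.sx (ContinuousMap.const _ x)

theorem zero_simplex (s : SingSimplex F 0) : s = ptx (us s (stdSimplex.vertex 0)) := by
  rw [← Pr.sx_us s]
  unfold ptx
  congr 1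
  ext x
  rw [us_sx]
  have : x = stdSimplex.vertex 0 := by
    apply Subtype.ext
    funext i
    have h : x.1 0 = 1 := by
      have := x.2.2
      rwa [Fin.sum_univ_one] at this
    have hi : i = 0 := by omega
    rw [hi, h]
    simp
  rw [this]
  rfl

theorem face_ps_zero (γ : C(I, F)) : simplexFace 0 (PC.ps γ) = ptx (γ 1) := by
  unfold PC.ps
  rw [PC.face_lin]
  unfold PC.lin ptx
  congr 1
  ext x
  have : (![(0 : I), 1] ∘ Fin.succAbove (0 : Fin 2)) = fun _ => 1 := by
    funext i; rw [Subsingleton.elim i 0]; rfl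
  show γ (PC.aff (![(0 : I), 1] ∘ Fin.succAbove (0 : Fin 2)) x) = γ 1
  rw [this, PC.aff_const]

theorem face_ps_one (γ : C(I, F)) : simplexFace 1 (PC.ps γ) = ptx (γ 0) := by
  unfold PC.ps
  rw [PC.face_lin]
  unfold PC.lin ptx
  congr 1
  ext x
  have : (![(0 : I), 1] ∘ Fin.succAbove (1 : Fin 2)) = fun _ => 0 := by
    funext i; rw [Subsingleton.elim i 0]; rfl
  show γ (PC.aff (![(0 : I), 1] ∘ Fin.succAbove (1 : Fin 2)) x) = γ 0
  rw [this, PC.aff_const]

/-- coboundary of a 0-cochain on a path -/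
theorem cobdry0_ps (θ : SingSimplex F 0 → M) (γ : C(I, F)) :
    cochainCobdry θ (PC.ps γ) = θ (ptx (γ 1)) - θ (ptx (γ 0)) := by
  rw [cobdry_apply, Fin.sum_univ_two, face_ps_zero, face_ps_one]
  simp [sub_eq_add_neg]

/-- closed 1-cochains vanish on loops when `H^1 = 0` -/
theorem loop_eq_zero (hF : Van0 F M 0) {κ : SingSimplex F 1 → M} (hκ : cochainCobdry κ = 0)
    (γ : C(I, F)) (h : γ 0 = γ 1) : κ (PC.ps γ) = 0 := by
  obtain ⟨θ, rfl⟩ := hF κ hκ
  rw [cobdry0_ps, h, sub_self]

/-- two 1-cochains with the same coboundary agree on the loops of a contractible space -/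
theorem loop_eq [ContractibleSpace F] {κ κ' : SingSimplex F 1 → M}
    (h : cochainCobdry κ = cochainCobdry κ') (γ : C(I, F)) (hγ : γ 0 = γ 1) :
    κ (PC.ps γ) = κ' (PC.ps γ) := by
  have h1 := loop_eq_zero (van0_contractible (F := F) (M := M) 0) (κ := κ - κ')
    (by rw [Pr.cobdry_sub, h, sub_self]) γ hγ
  exact sub_eq_zero.1 h1

end loops

/-- plain exactness on the circle -/
def CE (M : Type*) [AddCommGroup M] : Prop :=
  ∀ κ : SingSimplex (Crest.Agent.R185.Att.S 2) 1 → M, cochainCobdry κ = 0 → κ (PC.ps crI) = 0 →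
    ∃ θ : SingSimplex (Crest.Agent.R185.Att.S 2) 0 → M, cochainCobdry θ = κ

section att

open Crest.Agent.R185.Att Crest.Agent.R251.DR

/-- radial square between the circle of radius `3/4` and the circle of radius `1` in `D 2` -/
def radSq : C(I × I, D 2) where
  toFun p := ⟨(3 / 4 + (p.1 : ℝ) / 4) • (cr p.2 : Fin 2 → ℝ), by
    have h0 : (0 : ℝ) ≤ p.1 := p.1.2.1
    have h1 : (p.1 : ℝ) ≤ 1 := p.1.2.2
    rw [mem_closedBall_zero_iff, norm_smul, (cr p.2).norm_eq, mul_one,
      Real.norm_of_nonneg (by linarith)]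
    linarith⟩
  continuous_toFun := by
    refine Continuous.subtype_mk ?_ _
    have h1 : Continuous fun p : I × I => (cr p.2 : Fin 2 → ℝ) :=
      continuous_subtype_val.comp (crI.continuous.comp continuous_snd)
    exact (by fun_prop : Continuous fun p : I × I => (3 / 4 + (p.1 : ℝ) / 4)).smul h1

theorem radSq_coe (p : I × I) : ((radSq p : D 2) : Fin 2 → ℝ) =
    (3 / 4 + (p.1 : ℝ) / 4) • (cr p.2 : Fin 2 → ℝ) := rfl

theorem half_lt_radSq (p : I × I) : 1 / 2 < ‖((radSq p : D 2) : Fin 2 → ℝ)‖ := by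
  have h0 : (0 : ℝ) ≤ p.1 := p.1.2.1
  rw [radSq_coe, norm_smul, (cr p.2).norm_eq, mul_one, Real.norm_of_nonneg (by linarith)]
  linarith

/-- the circle of radius `3/4` in the open ball -/
def c34 : C(I, B 2) := (⟨Subtype.val, continuous_subtype_val⟩ : C(Col 2, B 2)).comp
  ((colS 2).comp crI)

variable {G : Type} [Group G] {Z : Type} [TopologicalSpace Z] [MulAction G Z]
  [ContinuousConstSMul G Z] {C : Type} {φ : C → C(S 2, Z)}
  {M : Type} [AddCommGroup M] [DistribMulAction G M]

theorem crI_zero_one : crI 0 = crI 1 :=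
  (Crest.Agent.R185.Base.cpath.source.trans Crest.Agent.R185.Base.cpath.target.symm)

theorem coe_cpath : (Crest.Agent.R185.Base.cpath : C(I, S 2)) = crI := rfl

/-- **Lemma Z** -/
theorem lemmaZ (hCE : CE M) {ω : SingSimplex (GAtt G φ) 2 → M} (hω : EqC G ω)
    (hc : cochainCobdry ω = 0) (h0 : ∀ s, SIn (UU φ) s → ω s = 0)
    (hol : ∀ c, ∃ β : SingSimplex (D 2) 1 → M,
      cochainCobdry β = pull (⟨chr φ 1 c, continuous_chr 1 c⟩ : C(D 2, GAtt G φ)) ω ∧
        β (PC.ps ((sd 2).comp crI)) = 0) :
    ∃ ψ : SingSimplex (GAtt G φ) 1 → M, EqC G ψ ∧ cochainCobdry ψ = ω := by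
  obtain ⟨bV, hbV, h2⟩ := hvi_VV (G := G) (φ := φ) (M := M) 1 ω hω (fun s _ => congrFun hc s)
  obtain ⟨η, hη, h3⟩ := exists_eta_UV (G := G) (φ := φ) (κ := 0 - bV) (EqC.zero.sub hbV)
    (fun s hs => by
      rw [Pr.cobdry_sub, Pi.sub_apply, Pr.cobdry_zero, h2 s fun t => (hs t).2,
        h0 s fun t => (hs t).1]
      simp)
    (fun c => by
      refine hCE _ ?_ ?_
      · rw [cobdry_pull]
        funext s
        have hs : SIn (UV G φ) (Pr.push ((incl (UV G φ)).comp
            (((orbUV G φ).inc 1 c).comp (colS 2))) s) := fun t => by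
          rw [us_push]
          exact (((orbUV G φ).inc 1 c) (colS 2 (us s t))).2
        show cochainCobdry (0 - bV) _ = 0
        rw [Pr.cobdry_sub, Pi.sub_apply, Pr.cobdry_zero, h2 _ fun t => (hs t).2,
          h0 _ fun t => (hs t).1]
        simp
      · obtain ⟨β, hβ, hβ0⟩ := hol c
        -- the open ball
        let k : C(B 2, GAtt G φ) :=
          (⟨chr φ 1 c, continuous_chr 1 c⟩ : C(D 2, GAtt G φ)).comp (bd 2)
        have e1 : cochainCobdry (pull k bV) = cochainCobdry (pull (bd 2) β) := by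
          rw [cobdry_pull, cobdry_pull, hβ, pull_pull]
          funext s
          refine h2 _ fun t => ?_
          rw [us_push]
          show chr φ 1 c (bd 2 (us s t)) ∈ VV φ
          rw [chr_bd]
          exact inB_mem_VV _ _ _
        have e2 := loop_eq e1 c34 (by
          show _ = (((colS 2) (crI 1) : Col 2) : B 2)
          rw [← crI_zero_one]; rfl)
        -- the collar of the closed ball
        have hcl : PC.ClosedOn β {x | 1 / 2 < ‖((x : D 2) : Fin 2 → ℝ)‖} := by
          intro τ hτ
          rw [hβ]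
          refine h0 _ fun t => ?_
          rw [us_push]
          show chr φ 1 c _ ∈ UU φ
          rw [chr_mem_UU, us_sx]
          exact hτ t
        have e3 := hcl.square radSq half_lt_radSq
        have e4 : PC.horz radSq 1 = PC.horz radSq 0 := by
          ext1 s
          apply Subtype.ext
          show (3 / 4 + (s : ℝ) / 4) • (crI 1 : Fin 2 → ℝ) = (3 / 4 + (s : ℝ) / 4) • (crI 0 : Fin 2 → ℝ)
          rw [crI_zero_one]
        have e5 : PC.vert radSq 1 = (sd 2).comp crI := by
          ext1 t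
          apply Subtype.ext
          show (3 / 4 + ((1 : I) : ℝ) / 4) • (cr t : Fin 2 → ℝ) = (cr t : Fin 2 → ℝ)
          have : (3 / 4 + ((1 : I) : ℝ) / 4) = 1 := by
            show (3 / 4 + (1 : ℝ) / 4) = 1
            norm_num
          rw [this, one_smul]
        have e6 : PC.vert radSq 0 = (bd 2).comp c34 := by
          ext1 t
          apply Subtype.ext
          show (3 / 4 + ((0 : I) : ℝ) / 4) • (cr t : Fin 2 → ℝ) = (3 / 4 : ℝ) • (cr t : Fin 2 → ℝ)
          have : (3 / 4 + ((0 : I) : ℝ) / 4) = (3 / 4 : ℝ) := by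
            show (3 / 4 + (0 : ℝ) / 4) = (3 / 4 : ℝ)
            norm_num
          rw [this]
        rw [e4, e5, e6, hβ0, zero_add] at e3
        have e7 : β (PC.ps ((bd 2).comp c34)) = 0 := by
          have := congrArg (fun z => z - β (PC.ps (PC.horz radSq 0))) e3
          simpa using this
        have e8 : bV (PC.ps (k.comp c34)) = 0 := by
          have h := e2
          rw [pull_apply, pull_apply, PC.push_ps, PC.push_ps, e7] at h
          exact h
        have e9 : ((incl (UV G φ)).comp (((orbUV G φ).inc 1 c).comp (colS 2))).comp crI =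
            k.comp c34 := by
          ext1 t
          exact (chr_bd (φ := φ) 1 c _).symm
        rw [pull_apply, PC.push_ps, e9, Pi.sub_apply, Pi.zero_apply, e8, sub_zero])
  obtain ⟨ψ, h4, h5, -⟩ := glueP isOpen_UU isOpen_VV UU_union_VV invUU invVV hω hc 0 bV
    EqC.zero hbV η hη (fun s hs => by rw [Pr.cobdry_zero, h0 s hs]; rfl) h2
    (fun s hU hV => (h3 s (hU.inter hV)).symm)
  exact ⟨ψ, h4, h5⟩

end att

end

end Crest.Agent.R251.Coh
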