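import Crest.Agent.R251.Joint19
import Crest.Agent.R251.Ar348C

/-! # Row 251: the attaching sphere of the 3-cell -/

set_option autoImplicit false

open Set Metric Topology unitInterval
open Crest.Agent.R185.Att Crest.Agent.R185.Base
open Crest.GeometryTopology.DeckCochains

namespace Crest.Agent.R251.J19
open Crest.Agent.R251.Mod Crest.Agent.R251.Wl
open Crest.Agent.R251

noncomputable section

/-- the tail `S 3 → D 2` -/
def tl3 : C(S 3, D 2) := (tl 2).comp (sd 3)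

theorem tl3_coe (x : S 3) : (tl3 x : Fin 2 → ℝ) = Fin.tail (x : Fin 3 → ℝ) := rfl

theorem tl3_cons (a : ℝ) (y : Fin 2 → ℝ) (h : ‖(Fin.cons a y : Fin 3 → ℝ)‖ = 1) :
    (tl3 ⟨Fin.cons a y, mem_sphere_zero_iff_norm.2 h⟩ : Fin 2 → ℝ) = y := by
  rw [tl3_coe]
  exact Fin.tail_cons (α := fun _ => ℝ) a y

/-- away from the caps the tail is on the boundary circle -/
theorem norm_tl3 (x : S 3) (h : |(x : Fin 3 → ℝ) 0| < 1) : ‖(tl3 x : Fin 2 → ℝ)‖ = 1 := by
  refine le_antisymm (D.norm_le _) ?_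
  by_contra h1
  rw [not_le] at h1
  have h2 : ‖(x : Fin 3 → ℝ)‖ < 1 := by
    rw [pi_norm_lt_iff one_pos]
    intro i
    refine Fin.cases ?_ (fun j => ?_) i
    · rwa [Real.norm_eq_abs]
    · exact lt_of_le_of_lt (norm_le_pi_norm (tl3 x : Fin 2 → ℝ) j) h1
  rw [x.norm_eq] at h2
  exact lt_irrefl _ h2

variable {E : Type} [TopologicalSpace E]

/-- two discs with the same boundary give a sphere -/
theorem exists_glue (a b : C(D 2, E)) (h : ∀ y : S 2, a (sd 2 y) = b (sd 2 y)) :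
    ∃ f : C(S 3, E), (∀ x : S 3, -1 < (x : Fin 3 → ℝ) 0 → f x = a (tl3 x)) ∧
      (∀ x : S 3, (x : Fin 3 → ℝ) 0 < 1 → f x = b (tl3 x)) := by
  have hb : ∀ x : S 3, |(x : Fin 3 → ℝ) 0| < 1 → a (tl3 x) = b (tl3 x) := fun x hx =>
    h ⟨tl3 x, mem_sphere_zero_iff_norm.2 (norm_tl3 x hx)⟩
  have h0 : Continuous fun x : S 3 => (x : Fin 3 → ℝ) 0 :=
    (continuous_apply 0).comp continuous_subtype_val
  refine ⟨⟨fun x => if 0 ≤ (x : Fin 3 → ℝ) 0 then a (tl3 x) else b (tl3 x), ?_⟩, fun x hx => ?_,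
    fun x hx => ?_⟩
  · refine Continuous.if_le (a.continuous.comp tl3.continuous) (b.continuous.comp tl3.continuous)
      continuous_const h0 fun x hx => hb x ?_
    rw [← hx, abs_zero]; exact one_pos
  · show (if _ then _ else _) = _
    split_ifs with h1
    · rfl
    · exact (hb x (abs_lt.2 ⟨hx, by linarith [not_le.1 h1]⟩)).symm
  · show (if _ then _ else _) = _
    split_ifs with h1
    · exact hb x (abs_lt.2 ⟨by linarith, hx⟩)
    · rfl

/-- **the attaching sphere**: the `U`-cell and a disc of period zero in the Cayley complex -/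
theorem exists_sphere : ∃ (h2 : C(D 2, EE2)) (f : C(S 3, EE2)),
    (∀ x : S 3, -1 < (x : Fin 3 → ℝ) 0 → f x = cU (tl3 x)) ∧
    (∀ x : S 3, (x : Fin 3 → ℝ) 0 < 1 → f x = h2 (tl3 x)) ∧
    ∀ (M : Type) [AddCommGroup M] (u : SingSimplex EE2 2 → M), Ar.AdmS inc u →
      ∀ β : SingSimplex (D 2) 1 → M, cochainCobdry β = Pr.pull h2 u → β (PC.ps Ar.cp) = 0 := by
  obtain ⟨g, hg, hz⟩ := Ar.exists_disc_zero nz_U
  obtain ⟨f, hf1, hf2⟩ := exists_glue cU g fun y => by
    obtain ⟨t, rfl⟩ := cr_surj y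
    rw [cU_sd, hg]
  exact ⟨g, f, hf1, hf2, hz⟩

end

end Crest.Agent.R251.J19
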