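import Crest.Agent.R251.Mod19c
import Crest.Agent.R251.Fin711

/-!
# Row 251: the link between the derivations of `Alg449` and the recursion on words of `Kr337a`
-/

set_option autoImplicit false
set_option linter.unusedSectionVars false

open Crest.Agent.R251.Alg (FF fc ft wr wU rels GG gc gt mu muF exists_deriv_wr)
open Crest.Agent.R251.Mod (gn wdd mk_wdd RR)
open Crest.Agent.R251.Fin (Tw)

namespace Crest.Agent.R251.KD10

variable {K : Type} [Field K]

section gen
variable {ι G : Type} [Group G] {gen : ι → G} {μ : G →* Kˣ}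

theorem smul_tw (g : G) (z : K) :
    (g • (show Tw μ from z) : Tw μ) = (show Tw μ from ((μ g : Kˣ) : K) * z) := rfl

/-- a function on words with the recursion of the Fox derivative is the derivation -/
theorem rec_eq {D : FreeGroup ι → K}
    (hD : ∀ a b, D (a * b) = D a + (μ (FreeGroup.lift gen a) : K) * D b)
    {δ : List (ι × Bool) → Tw μ} (h0 : δ [] = 0)
    (ht : ∀ i l, δ ((i, true) :: l) = (show Tw μ from D (FreeGroup.of i)) + gen i • δ l)
    (hf : ∀ i l, δ ((i, false) :: l) =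
      -((gen i)⁻¹ • (show Tw μ from D (FreeGroup.of i))) + (gen i)⁻¹ • δ l)
    (l : List (ι × Bool)) : δ l = (show Tw μ from D (FreeGroup.mk l)) := by
  have h1 : D 1 = 0 := by
    have := hD 1 1
    simpa using this
  induction l with
  | nil =>
    rw [h0]
    exact h1.symm
  | cons p l ih =>
    obtain ⟨i, b⟩ := p
    cases b with
    | true =>
      rw [ht, ih]
      have e : FreeGroup.mk ((i, true) :: l) = FreeGroup.of i * FreeGroup.mk l := by
        rw [FreeGroup.of, FreeGroup.mul_mk]; rfl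
      rw [e, hD, FreeGroup.lift_apply_of]
      rfl
    | false =>
      rw [hf, ih]
      have e : FreeGroup.mk ((i, false) :: l) = (FreeGroup.of i)⁻¹ * FreeGroup.mk l := by
        rw [FreeGroup.of, FreeGroup.inv_mk, FreeGroup.mul_mk]; rfl
      have h2 : D (FreeGroup.of i)⁻¹ = -(((μ (gen i))⁻¹ : Kˣ) : K) * D (FreeGroup.of i) := by
        have h3 := hD (FreeGroup.of i)⁻¹ (FreeGroup.of i)
        rw [inv_mul_cancel, h1, map_inv, FreeGroup.lift_apply_of, map_inv] at h3
        linear_combination -h3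
      rw [e, hD, map_inv, FreeGroup.lift_apply_of, h2]
      change -((((μ ((gen i)⁻¹)) : Kˣ) : K) * D (FreeGroup.of i)) +
        (((μ ((gen i)⁻¹)) : Kˣ) : K) * D (FreeGroup.mk l) = _
      rw [map_inv]
      change _ = -(((μ (gen i))⁻¹ : Kˣ) : K) * D (FreeGroup.of i) +
        (((μ (gen i))⁻¹ : Kˣ) : K) * D (FreeGroup.mk l)
      ring

end gen

/-- **the hypothesis of KR5** for `M = Tw μ`: there are edge values `D0` such that the Fox
derivative of the relator `r` is `b` (and that of `U` is `0`) -/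
theorem exists_D0 (ζ : Kˣ) (hζ : ζ ^ 6 = 1) (h3 : ζ ^ 3 ≠ 1) (h2 : ζ ^ 2 ≠ 1)
    (b : Tw (mu ζ hζ)) :
    ∃ D0 : Fin 2 → Tw (mu ζ hζ), ∀ δ : List (Fin 2 × Bool) → Tw (mu ζ hζ), δ [] = 0 →
      (∀ i l, δ ((i, true) :: l) = D0 i + gn i • δ l) →
      (∀ i l, δ ((i, false) :: l) = -((gn i)⁻¹ • D0 i) + (gn i)⁻¹ • δ l) →
      δ (wdd 0) = b ∧ δ (wdd 1) = 0 := by
  obtain ⟨D, hD, hU, hr⟩ := exists_deriv_wr ζ hζ h3 h2 (show K from b)
  have hD' : ∀ a b, D (a * b) = D a + ((mu ζ hζ) (FreeGroup.lift gn a) : K) * D b := by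
    intro a b
    rw [hD, Mod.lift_gn]
    rfl
  refine ⟨fun i => (show Tw (mu ζ hζ) from D (FreeGroup.of i)), fun δ h0 ht hf => ?_⟩
  have key := rec_eq (gen := gn) (μ := mu ζ hζ) hD' h0 ht hf
  constructor
  · rw [key, mk_wdd]
    exact hr
  · rw [key, mk_wdd]
    exact hU

end Crest.Agent.R251.KD10
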