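import Crest.Agent.R251.PC752
import Crest.Agent.R251.DR679b
import Crest.Agent.R251.Mod19
import Crest.Agent.R251.Coh539A

/-!
# R251 (S0388), block KR2 (helper34): 1-cochains on the circle `S 2` and on the collar `Col 2`

A 1-cochain which is closed on the circle and has zero period is a coboundary: (A) abstract form
(`circle_prim`, `col_prim`), (B) equivariant form on `UU ∩ VV` of an attachment of 2-cells
(`uv_prim`).
-/

set_option autoImplicit false
set_option linter.unusedSectionVars false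

open CategoryTheory Simplicial Opposite Set Topology unitInterval
open Crest.GeometryTopology.DeckCochains
open Crest.Agent.R185.Att Crest.Agent.R185.Base
open Crest.Agent.R251.PC Crest.Agent.R251.DR
open Crest.Agent.R251.Mod (crI)

namespace Crest.Agent.R251.K34

noncomputable section

/-! ### lifting paths of the circle `S 2` -/

/-- the complex number of a point -/
def cz (x : S 2) : ℂ := ⟨(x : Fin 2 → ℝ) 0, (x : Fin 2 → ℝ) 1⟩

theorem cz_ne (x : S 2) : cz x ≠ 0 := by
  intro h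
  have h0 : (x : Fin 2 → ℝ) 0 = 0 := congrArg Complex.re h
  have h1 : (x : Fin 2 → ℝ) 1 = 0 := congrArg Complex.im h
  have h2 : (x : Fin 2 → ℝ) = 0 := by
    funext i; fin_cases i
    · exact h0
    · exact h1
  have h3 := x.norm_eq
  rw [h2, norm_zero] at h3
  exact zero_ne_one h3

theorem continuous_cz : Continuous cz := by
  have h : cz = fun x : S 2 => (((x : Fin 2 → ℝ) 0 : ℝ) : ℂ) + ((x : Fin 2 → ℝ) 1 : ℝ) * Complex.I := by
    funext x
    exact (Complex.mk_eq_add_mul_I _ _)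
  rw [h]
  have h0 : ∀ i : Fin 2, Continuous fun x : S 2 => (((x : Fin 2 → ℝ) i : ℝ) : ℂ) := fun i =>
    Complex.continuous_ofReal.comp ((continuous_apply i).comp continuous_subtype_val)
  exact (h0 0).add ((h0 1).mul continuous_const)

/-- the circle `S 2` mapped to the round circle -/
def nm : C(S 2, Circle) where
  toFun x := ⟨((‖cz x‖⁻¹ : ℝ) : ℂ) * cz x, by
    show _ ∈ Metric.sphere (0 : ℂ) 1
    rw [mem_sphere_zero_iff_norm, norm_mul, Complex.norm_real, norm_inv, norm_norm]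
    exact inv_mul_cancel₀ (norm_ne_zero_iff.2 (cz_ne x))⟩
  continuous_toFun := by
    refine Continuous.subtype_mk ?_ _
    exact (Complex.continuous_ofReal.comp (continuous_cz.norm.inv₀ fun x =>
      norm_ne_zero_iff.2 (cz_ne x))).mul continuous_cz

theorem cr_of_exp {a : ℝ} {x : S 2} (h : Circle.exp a = nm x) : cr (a / (2 * Real.pi)) = x := by
  have h1 : Complex.exp (a * Complex.I) = ((‖cz x‖⁻¹ : ℝ) : ℂ) * cz x := by
    have := congrArg (fun z : Circle => (z : ℂ)) h
    simp only [Circle.coe_exp] at this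
    exact this
  have h2 : 2 * Real.pi * (a / (2 * Real.pi)) = a := by field_simp
  have hcs : cs (a / (2 * Real.pi)) = ‖cz x‖⁻¹ • (x : Fin 2 → ℝ) := by
    funext i
    fin_cases i
    · show Real.cos (2 * Real.pi * (a / (2 * Real.pi))) = ‖cz x‖⁻¹ * (x : Fin 2 → ℝ) 0
      rw [h2]
      have := congrArg Complex.re h1
      rw [Complex.exp_ofReal_mul_I_re, Complex.re_ofReal_mul] at this
      exact this
    · show Real.sin (2 * Real.pi * (a / (2 * Real.pi))) = ‖cz x‖⁻¹ * (x : Fin 2 → ℝ) 1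
      rw [h2]
      have := congrArg Complex.im h1
      rw [Complex.exp_ofReal_mul_I_im, Complex.im_ofReal_mul] at this
      exact this
  symm
  refine rad_unique _ ?_
  rw [hcs, norm_smul, x.norm_eq, mul_one, norm_inv, norm_norm]

/-- every path of `S 2` lifts through `cr` -/
theorem lift_S2 (γ : C(I, S 2)) : ∃ θ : C(I, ℝ), ∀ s, cr (θ s) = γ s := by
  obtain ⟨e, he⟩ := Circle.exp_surjective (nm (γ 0))
  let Γ := Circle.isCoveringMap_exp.liftPath (nm.comp γ) e he.symm
  have hΓ : ∀ s, Circle.exp (Γ s) = nm (γ s) := fun s =>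
    congrFun (Circle.isCoveringMap_exp.liftPath_lifts (nm.comp γ) e he.symm) s
  exact ⟨⟨fun s => Γ s / (2 * Real.pi), by fun_prop⟩, fun s => cr_of_exp (hΓ s)⟩

/-- two real numbers with the same image differ by an integer -/
theorem cr_eq_int {t t' : ℝ} (h : cr t = cr t') : ∃ k : ℤ, t = t' + k := by
  have h1 := cr_eq h
  have h2 : Real.cos (2 * Real.pi * t) = Real.cos (2 * Real.pi * t') := congrFun h1 0
  have h3 : Real.sin (2 * Real.pi * t) = Real.sin (2 * Real.pi * t') := congrFun h1 1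
  have h4 := Real.Angle.cos_sin_inj h2 h3
  rw [Real.Angle.angle_eq_iff_two_pi_dvd_sub] at h4
  obtain ⟨k, hk⟩ := h4
  refine ⟨k, ?_⟩
  have : 2 * Real.pi * t = 2 * Real.pi * (t' + k) := by linarith
  exact mul_left_cancel₀ (by positivity) this

theorem cs_add_one (t : ℝ) : cs (t + 1) = cs t := by
  funext i; fin_cases i
  · show Real.cos (2 * Real.pi * (t + 1)) = Real.cos (2 * Real.pi * t)
    rw [mul_add, mul_one, Real.cos_add_two_pi]
  · show Real.sin (2 * Real.pi * (t + 1)) = Real.sin (2 * Real.pi * t)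
    rw [mul_add, mul_one, Real.sin_add_two_pi]

theorem cr_add_one (t : ℝ) : cr (t + 1) = cr t := by
  unfold cr
  congr 1
  exact cs_add_one t

/-! ### affine simplices of `ℝ` -/

instance : Cvx ℝ where
  aff {n} a := ⟨fun s => ∑ i, s i • a i, by
    refine continuous_finsetSum _ fun i _ => ?_
    exact ((continuous_apply i).comp continuous_subtype_val).smul continuous_const⟩
  aff_face a i := by
    ext s
    exact sum_face (V := ℝ) a i s
  aff_vertex a i := sum_vertex (V := ℝ) a i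
  aff_const z s := by
    show ∑ i, s i • z = z
    rw [← Finset.sum_smul]
    have : ∑ i, s i = 1 := s.2.2
    rw [this, one_smul]

theorem seg_apply_R (a b : ℝ) (t : I) : seg a b t = (1 - t) * a + t * b := by
  show (∑ i, (pt t) i • ![a, b] i : ℝ) = _
  rw [Fin.sum_univ_two]
  rfl

/-! ### a closed 1-cochain on a circle with zero period -/

section circle

variable {E : Type} [TopologicalSpace E] {M : Type} [AddCommGroup M] {β : SingSimplex E 1 → M}

/-- the universal covering of the circle -/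
def crR : C(ℝ, S 2) := ⟨cr, continuous_cr⟩

theorem lin_shift (q : C(S 2, E)) (a b : ℝ) :
    lin (q.comp crR) ![a + 1, b + 1] = lin (q.comp crR) ![a, b] := by
  rw [lin_eq_ps, lin_eq_ps]
  congr 1
  ext t
  show q (cr (seg (a + 1) (b + 1) t)) = q (cr (seg a b t))
  have h : (seg (a + 1) (b + 1) t : ℝ) = seg a b t + 1 := by
    rw [seg_apply_R, seg_apply_R]; ring
  rw [h, cr_add_one]

/-- path in the line -/
theorem line_path {U : Set E} (κ : C(ℝ, E)) (hβ : ClosedOn β U) (hκ : ∀ x, κ x ∈ U) (θ : C(I, ℝ)) :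
    β (ps (κ.comp θ)) = β (lin κ ![θ 0, θ 1]) := by
  rw [lin_eq_ps]
  let f : C(I × I, ℝ) := ⟨fun p => (1 - (p.1 : ℝ)) * θ p.2 + p.1 * ((1 - p.2) * θ 0 + p.2 * θ 1),
    by fun_prop⟩
  have h := hβ.square (κ.comp f) (fun z => hκ _)
  have e0 : vert (κ.comp f) 0 = κ.comp θ := by
    ext t
    show κ ((1 - ((0 : I) : ℝ)) * θ t + ((0 : I) : ℝ) * ((1 - t) * θ 0 + t * θ 1)) = κ (θ t)
    congr 1
    simp
  have e1 : vert (κ.comp f) 1 = κ.comp (seg (θ 0) (θ 1)) := by
    ext t
    show κ ((1 - ((1 : I) : ℝ)) * θ t + ((1 : I) : ℝ) * ((1 - t) * θ 0 + t * θ 1)) =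
      κ (seg (θ 0) (θ 1) t)
    rw [seg_apply_R]
    congr 1
    simp
  have e2 : horz (κ.comp f) 0 = ContinuousMap.const I (κ (θ 0)) := by
    ext t
    show κ ((1 - (t : ℝ)) * θ 0 + t * ((1 - ((0 : I) : ℝ)) * θ 0 + ((0 : I) : ℝ) * θ 1)) = κ (θ 0)
    congr 1
    simp
    ring
  have e3 : horz (κ.comp f) 1 = ContinuousMap.const I (κ (θ 1)) := by
    ext t
    show κ ((1 - (t : ℝ)) * θ 1 + t * ((1 - ((1 : I) : ℝ)) * θ 0 + ((1 : I) : ℝ) * θ 1)) = κ (θ 1)
    congr 1
    simp
    ring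
  rw [e0, e1, e2, e3, hβ.const (hκ _), hβ.const (hκ _), add_zero, add_zero] at h
  exact h

theorem circle_prim (q : C(S 2, E)) (hβ : ClosedOn β (range q)) (h0 : β (ps (q.comp crI)) = 0) :
    ∃ f : S 2 → M, ∀ γ : C(I, S 2), β (ps (q.comp γ)) = f (γ 1) - f (γ 0) := by
  let κ : C(ℝ, E) := q.comp crR
  have hκ : ∀ x, κ x ∈ range q := fun x => ⟨cr x, rfl⟩
  have tri : ∀ a b c : ℝ, β (lin κ ![a, c]) = β (lin κ ![a, b]) + β (lin κ ![b, c]) :=
    fun a b c => hβ.tri' κ hκ a b c
  have per : β (lin κ ![(0 : ℝ), 1]) = 0 := by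
    rw [← h0, lin_eq_ps]
    congr 2
    ext t
    show q (cr (seg (0 : ℝ) 1 t)) = q (cr t)
    rw [seg_apply_R]
    simp
  have f1 : ∀ t : ℝ, β (lin κ ![0, t + 1]) = β (lin κ ![0, t]) := fun t => by
    rw [tri 0 1 (t + 1), per, zero_add]
    have := lin_shift q 0 t
    rw [zero_add] at this
    rw [this]
  have f2 : ∀ (k : ℕ) (t : ℝ), β (lin κ ![0, t + k]) = β (lin κ ![0, t]) := by
    intro k
    induction k with
    | zero => intro t; simp
    | succ k ih =>
      intro t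
      rw [Nat.cast_succ, ← add_assoc, f1, ih]
  have f3 : ∀ (k : ℤ) (t : ℝ), β (lin κ ![0, t + k]) = β (lin κ ![0, t]) := by
    intro k t
    obtain ⟨n, rfl | rfl⟩ := k.eq_nat_or_neg
    · exact_mod_cast f2 n t
    · have := f2 n (t + ((-(n : ℤ) : ℤ) : ℝ))
      rw [← this]
      have e : t + ((-(n : ℤ) : ℤ) : ℝ) + n = t := by push_cast; ring
      rw [e]
  choose T hT using cr_surj
  let f : S 2 → M := fun x => β (lin κ ![0, (T x : ℝ)])
  have hf : ∀ t : ℝ, f (cr t) = β (lin κ ![0, t]) := by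
    intro t
    obtain ⟨k, hk⟩ := cr_eq_int (hT (cr t))
    show β (lin κ ![0, (T (cr t) : ℝ)]) = _
    rw [hk, f3]
  refine ⟨f, fun γ => ?_⟩
  obtain ⟨θ, hθ⟩ := lift_S2 γ
  have h1 : q.comp γ = κ.comp θ := by
    ext s
    show q (γ s) = q (cr (θ s))
    rw [hθ]
  rw [h1, line_path κ hβ hκ, ← hθ 0, ← hθ 1, hf, hf, tri 0 (θ 0) (θ 1)]
  abel

/-- the collar version -/
theorem col_prim (q : C(Col 2, E)) (hβ : ClosedOn β (range q))
    (h0 : β (ps (q.comp ((colS 2).comp crI))) = 0) :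
    ∃ f : Col 2 → M, ∀ γ : C(I, Col 2), β (ps (q.comp γ)) = f (γ 1) - f (γ 0) := by
  obtain ⟨f, hf⟩ := circle_prim (q.comp (colS 2)) (hβ.mono (by
    rintro _ ⟨x, rfl⟩; exact ⟨_, rfl⟩)) h0
  let T : Col 2 → M := fun x => β (ps (q.comp ⟨fun s => colH 2 (x, s), by fun_prop⟩))
  refine ⟨fun x => f (colR 2 x) - T x, fun γ => ?_⟩
  have h := hβ.square (q.comp ⟨fun p : I × I => colH 2 (γ p.2, p.1), by fun_prop⟩)
    (fun z => ⟨_, rfl⟩)
  have e0 : vert (q.comp ⟨fun p : I × I => colH 2 (γ p.2, p.1), by fun_prop⟩) 0 = q.comp γ := by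
    ext t
    show q (colH 2 (γ t, 0)) = q (γ t)
    rw [colH_zero]
  have e1 : vert (q.comp ⟨fun p : I × I => colH 2 (γ p.2, p.1), by fun_prop⟩) 1 =
      (q.comp (colS 2)).comp ((colR 2).comp γ) := by
    ext t
    show q (colH 2 (γ t, 1)) = q (colS 2 (colR 2 (γ t)))
    rw [colH_one]
  rw [e0, e1, hf] at h
  have e2 : β (ps (horz (q.comp ⟨fun p : I × I => colH 2 (γ p.2, p.1), by fun_prop⟩) 0)) =
    T (γ 0) := rfl
  have e3 : β (ps (horz (q.comp ⟨fun p : I × I => colH 2 (γ p.2, p.1), by fun_prop⟩) 1)) =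
    T (γ 1) := rfl
  rw [e2, e3] at h
  show _ = f (colR 2 (γ 1)) - T (γ 1) - (f (colR 2 (γ 0)) - T (γ 0))
  have h4 := eq_sub_of_add_eq h
  rw [h4]
  show f (colR 2 (γ 1)) - f (colR 2 (γ 0)) + T (γ 0) - T (γ 1) = _
  abel

/-- coboundary of a 0-cochain given by a function -/
theorem cobdry0 (v : E → M) (γ : C(I, E)) :
    cochainCobdry (fun s : SingSimplex E 0 => v (Coh.ev s (stdSimplex.vertex 0))) (ps γ) =
      v (γ 1) - v (γ 0) := by
  have h0 : Coh.ev (simplexFace 0 (ps γ)) (stdSimplex.vertex 0) = γ 1 := by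
    show γ (aff ![(0 : I), 1] (stdSimplex.map (Fin.succAbove (0 : Fin 2))
      (stdSimplex.vertex (0 : Fin 1)))) = γ 1
    rw [stdSimplex.map_vertex]
    exact congrArg γ (aff_vertex ![(0 : I), 1] 1)
  have h1 : Coh.ev (simplexFace 1 (ps γ)) (stdSimplex.vertex 0) = γ 0 := by
    show γ (aff ![(0 : I), 1] (stdSimplex.map (Fin.succAbove (1 : Fin 2))
      (stdSimplex.vertex (0 : Fin 1)))) = γ 0
    rw [stdSimplex.map_vertex]
    exact congrArg γ (aff_vertex ![(0 : I), 1] 0)
  refine (Fin.sum_univ_two _).trans ?_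
  simp only [h0, h1]
  simp [sub_eq_add_neg]

/-- **detect2** (s1): a 1-cocycle on the circle with zero period is a coboundary -/
theorem detect2 (κ : SingSimplex (S 2) 1 → M) (hκ : cochainCobdry κ = 0) (h0 : κ (ps crI) = 0) :
    ∃ θ : SingSimplex (S 2) 0 → M, cochainCobdry θ = κ := by
  obtain ⟨f, hf⟩ := circle_prim (β := κ) (ContinuousMap.id (S 2))
    ((closedOn_univ hκ).mono (subset_univ _)) h0
  refine ⟨fun s => f (Coh.ev s (stdSimplex.vertex 0)), ?_⟩
  funext s
  obtain ⟨γ, rfl⟩ := ps_surj s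
  rw [cobdry0]
  exact (hf γ).symm

/-- two 1-cocycles on the circle with the same period are cohomologous -/
theorem detect2' (κ κ' : SingSimplex (S 2) 1 → M) (hκ : cochainCobdry κ = 0)
    (hκ' : cochainCobdry κ' = 0) (h0 : κ (ps crI) = κ' (ps crI)) :
    ∃ θ : SingSimplex (S 2) 0 → M, cochainCobdry θ = κ - κ' :=
  detect2 (κ - κ') (by rw [Coh.cobdry_sub, hκ, hκ', sub_zero]) (by
    rw [Pi.sub_apply, h0, sub_self])

end circle

end

end Crest.Agent.R251.K34
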