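import Crest.Agent.R251.Kr337c
import Crest.Agent.R251.Kr34a
import Crest.Agent.R251.KD10

/-!
# Row 251: KR4, KR5 without the hypothesis `Det2`, and KR5 for the row (`J = {0}`, `M = Tw μ`)
-/

set_option autoImplicit false

open Set Metric Topology
open scoped unitInterval
open Crest.GeometryTopology.DeckCochains
open Crest.Agent.R185.Att Crest.Agent.R185.Base
open Crest.Agent.R251.Pr (Dl EqC EqM push pull act HV InS)
open Crest.Agent.R251.PC
open Crest.Agent.R251.Mod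
open Crest.Agent.R251.Alg (GG mu)
open Crest.Agent.R251.Fin (Tw)

namespace Crest.Agent.R251.Kr

noncomputable section

/-- a 1-cocycle on the circle of period zero is a coboundary -/
theorem det2 {M : Type} [AddCommGroup M] : Det2 M := fun φ h h0 => K34.detect2 φ h h0

section gen
variable {G : Type} [Group G] {ι : Type} (gen : ι → G) {M : Type} [AddCommGroup M]
  [DistribMulAction G M] {κ : Type} (wd : κ → List (ι × Bool)) (hwd : ∀ j, val gen (wd j) = 1)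

/-- **KR4** -/
theorem kr4' (hD : ∀ b : κ → M, ∃ D0 : ι → M, ∀ j, der gen D0 (wd j) = b j) :
    HV G (Z3 gen wd hwd) 1 M := kr4 gen wd hwd det2 hD

/-- **KR5** -/
theorem kr5' (J : Set κ) (hD : ∀ b : J → M, ∃ D0 : ι → M, ∀ j : J, der gen D0 (wd j) = b j)
    (ω : SingSimplex (Z3 gen wd hwd) 2 → M) (hω : EqC G ω) (hc : cochainCobdry ω = 0) :
    ∃ ψ : SingSimplex (Z3 gen wd hwd) 1 → M, EqC G ψ ∧
      cochainCobdry (ω - cochainCobdry ψ) = 0 ∧ EqC G (ω - cochainCobdry ψ) ∧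
      ∀ s, InS (Sk gen wd hwd J) s → (ω - cochainCobdry ψ) s = 0 :=
  kr5 gen wd hwd J det2 hD ω hω hc

end gen

section row
variable {K : Type} [Field K]

theorem hD_row (ζ : Kˣ) (hζ : ζ ^ 6 = 1) (h3 : ζ ^ 3 ≠ 1) (h2 : ζ ^ 2 ≠ 1)
    (b : ({0} : Set (Fin 2)) → Tw (mu ζ hζ)) :
    ∃ D0 : Fin 2 → Tw (mu ζ hζ), ∀ j : ({0} : Set (Fin 2)), der gn D0 (wdd j) = b j := by
  obtain ⟨D0, hD0⟩ := KD10.exists_D0 ζ hζ h3 h2 (b ⟨0, rfl⟩)
  refine ⟨D0, ?_⟩
  rintro ⟨j, hj⟩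
  obtain rfl : j = 0 := hj
  exact (hD0 (der gn D0) rfl (fun _ _ => rfl) (fun _ _ => rfl)).1

/-- **KR5 for the row**: an equivariant 2-cocycle on `EE2` with values in `Tw μ` can be made zero
on the simplices in `Kr` (the Cayley complex with the cells of the relator `r` only) -/
theorem kr5_row (ζ : Kˣ) (hζ : ζ ^ 6 = 1) (h3 : ζ ^ 3 ≠ 1) (h2 : ζ ^ 2 ≠ 1)
    (ω : SingSimplex EE2 2 → Tw (mu ζ hζ)) (hω : EqC GG ω) (hc : cochainCobdry ω = 0) :
    ∃ ψ : SingSimplex EE2 1 → Tw (mu ζ hζ), EqC GG ψ ∧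
      cochainCobdry (ω - cochainCobdry ψ) = 0 ∧ EqC GG (ω - cochainCobdry ψ) ∧
      ∀ s, InS Mod.Kr s → (ω - cochainCobdry ψ) s = 0 :=
  kr5' gn wdd hwdd {0} (hD_row ζ hζ h3 h2) ω hω hc

end row

end

end Crest.Agent.R251.Kr
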