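import Crest.Agent.R251.L3_416
import Crest.Agent.R251.PC752
import Crest.Agent.R185.Base3

/-!
# R251: (s3) `H^1(S 3; M) = 0`

* `van0_zero_of_cover`: a space covered by two open sets with vanishing `H^1` and path connected
  intersection has vanishing `H^1`.
* `van0_S3 : Van0 (S 3) M 0`.
-/

set_option autoImplicit false
set_option linter.unusedSectionVars false

open CategoryTheory Simplicial Opposite Set Metric Topology
open scoped unitInterval
open Crest.GeometryTopology.DeckCochains
open Crest.Agent.R251.Pr (Dl sx us face sx_surj face_sx us_sx sx_us push pull cobdry_pull)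
open Crest.Agent.R251.Orb (Van0 van0_contractible SIn HVi incl sin_push_incl pull_incl_eq_iff pull_ext0
  ext0 us_injective)

namespace Crest.Agent.R251.L3

section gen

variable {X : Type} [TopologicalSpace X] {M : Type} [AddCommGroup M]

theorem dl0_eq (x y : Dl 0) : x = y := by
  apply Subtype.ext
  funext i
  have hx : ∑ i, x i = 1 := x.2.2
  have hy : ∑ i, y i = 1 := y.2.2
  have hi : i = 0 := Fin.ext (Nat.lt_one_iff.1 i.isLt)
  subst hi
  have h1 : x 0 = 1 := by simpa using hx
  have h2 : y 0 = 1 := by simpa using hy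
  exact h1.trans h2.symm

/-- the point of `Dl 0` -/
noncomputable def d0 : Dl 0 := stdSimplex.vertex 0

/-- 0-simplices are determined by their point -/
theorem zero_ext {s t : SingSimplex X 0} (h : us s d0 = us t d0) : s = t := by
  apply us_injective
  ext1 x
  rw [dl0_eq x d0]; exact h

/-- the 0-simplex at a point -/
noncomputable def pt0 (x : X) : SingSimplex X 0 := sx (ContinuousMap.const _ x)

theorem us_pt0 (x : X) (t : Dl 0) : us (pt0 x) t = x := by
  unfold pt0; rw [us_sx]; rfl

theorem eq_pt0 (s : SingSimplex X 0) : s = pt0 (us s d0) := zero_ext (us_pt0 _ _).symm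

theorem sin_pt0 {A : Set X} {x : X} : SIn A (pt0 x) ↔ x ∈ A :=
  ⟨fun h => by have := h d0; rwa [us_pt0] at this, fun h t => by rwa [us_pt0]⟩

theorem sin_zero {A : Set X} {s : SingSimplex X 0} : SIn A s ↔ us s d0 ∈ A :=
  ⟨fun h => h d0, fun h t => by rw [dl0_eq t d0]; exact h⟩

/-- the coboundary of a 0-cochain on a path -/
theorem cobdry_zero_ps (ψ : SingSimplex X 0 → M) (γ : C(I, X)) :
    cochainCobdry ψ (PC.ps γ) = ψ (pt0 (γ 1)) - ψ (pt0 (γ 0)) := by
  unfold cochainCobdry
  rw [Fin.sum_univ_two]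
  have h0 : simplexFace (0 : Fin 2) (PC.ps γ) = pt0 (γ 1) := by
    unfold PC.ps
    rw [PC.face_lin]
    apply zero_ext
    rw [PC.us_lin, us_pt0]
    show γ (PC.Cvx.aff _ d0) = _
    congr 1
    have : (![(0 : I), 1] ∘ (0 : Fin 2).succAbove : Fin 1 → I) = fun _ => 1 := by
      funext i; fin_cases i; rfl
    rw [this]
    exact PC.Cvx.aff_const _ _
  have h1 : simplexFace (1 : Fin 2) (PC.ps γ) = pt0 (γ 0) := by
    unfold PC.ps
    rw [PC.face_lin]
    apply zero_ext
    rw [PC.us_lin, us_pt0]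
    show γ (PC.Cvx.aff _ d0) = _
    congr 1
    have : (![(0 : I), 1] ∘ (1 : Fin 2).succAbove : Fin 1 → I) = fun _ => 0 := by
      funext i; fin_cases i; rfl
    rw [this]
    exact PC.Cvx.aff_const _ _
  rw [h0, h1]
  simp [sub_eq_add_neg]

theorem us_ps (γ : C(I, X)) (t : Dl 1) : us (PC.ps γ) t = γ (PC.Cvx.aff ![(0 : I), 1] t) := by
  unfold PC.ps
  rw [PC.us_lin]; rfl

/-- `H^1` of a union of two open sets with vanishing `H^1` and path connected intersection -/
theorem van0_zero_of_cover {A B : Set X} (hA : IsOpen A) (hB : IsOpen B) (hAB : A ∪ B = univ)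
    (vA : Van0 A M 0) (vB : Van0 B M 0)
    (hp : ∀ x ∈ A ∩ B, ∀ y ∈ A ∩ B, JoinedIn (A ∩ B) x y) : Van0 X M 0 := by
  classical
  intro φ hc
  have key : ∀ {A : Set X}, Van0 A M 0 → ∃ a : SingSimplex X 0 → M,
      ∀ s : SingSimplex X 1, SIn A s → cochainCobdry a s = φ s := by
    intro A vA
    obtain ⟨a', ha'⟩ := vA (pull (incl A) φ) (by rw [cobdry_pull, hc]; rfl)
    refine ⟨ext0 a', ?_⟩
    rw [← pull_incl_eq_iff, ← cobdry_pull, pull_ext0, ha']
  obtain ⟨a, ha⟩ := key vA
  obtain ⟨b, hb⟩ := key vB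
  -- the difference is constant on the intersection
  obtain ⟨k, hk⟩ : ∃ k : M, ∀ x ∈ A ∩ B, a (pt0 x) - b (pt0 x) = k := by
    by_cases hne : (A ∩ B).Nonempty
    · obtain ⟨x0, hx0⟩ := hne
      refine ⟨a (pt0 x0) - b (pt0 x0), fun x hx => ?_⟩
      obtain ⟨γ, hγ⟩ := hp x0 hx0 x hx
      have h1 := ha (PC.ps γ.toContinuousMap) (fun t => by rw [us_ps]; exact (hγ _).1)
      have h2 := hb (PC.ps γ.toContinuousMap) (fun t => by rw [us_ps]; exact (hγ _).2)
      rw [cobdry_zero_ps] at h1 h2
      have e1 : γ.toContinuousMap 1 = x := γ.target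
      have e0 : γ.toContinuousMap 0 = x0 := γ.source
      rw [e1, e0] at h1 h2
      have h3 := h1.trans h2.symm
      rw [sub_eq_sub_iff_sub_eq_sub]
      exact h3
    · exact ⟨0, fun x hx => absurd ⟨x, hx⟩ hne⟩
  let ψ : SingSimplex X 0 → M := fun s => if SIn A s then a s else b s + k
  have hψA : ∀ s : SingSimplex X 0, SIn A s → ψ s = a s := fun s h => if_pos h
  have hψB : ∀ s : SingSimplex X 0, SIn B s → ψ s = b s + k := fun s h => by
    by_cases h' : SIn A s
    · rw [hψA s h']
      have := hk _ ⟨sin_zero.1 h', sin_zero.1 h⟩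
      rw [← eq_pt0] at this
      rw [← this]; abel
    · exact if_neg h'
  obtain ⟨χ, h1, -, -⟩ := sv X A B hA hB hAB M 0 (φ - cochainCobdry ψ)
    (by rw [Coh.cobdry_sub, hc, Coh.cobdry_cobdry, sub_zero])
    (by
      rintro s (h | h)
      · have hs : SIn A s := h
        rw [Pi.sub_apply, Coh.cobdry_congr (fun i => hψA _ (hs.face i)), ha s hs, sub_self]
      · have hs : SIn B s := h
        have e : cochainCobdry ψ s = cochainCobdry (b + fun _ => k) s :=
          Coh.cobdry_congr (fun i => hψB _ (hs.face i))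
        rw [Pi.sub_apply, e, Coh.cobdry_add, Pi.add_apply, hb s hs]
        have : cochainCobdry (fun _ : SingSimplex X 0 => k) s = 0 := by
          unfold cochainCobdry
          rw [Fin.sum_univ_two]; simp
        rw [this]; abel)
  exact ⟨ψ + χ, by rw [Coh.cobdry_add, h1]; abel⟩

end gen

section sphere

open Crest.Agent.R185.Att Crest.Agent.R185.Base

variable {M : Type} [AddCommGroup M]

/-- the open cap `-1/2 < e * x 0` -/
def cap (k : ℕ) (e : ℝ) : Set (S (k + 1)) := {x | -1/2 < e * (x : Fin (k + 1) → ℝ) 0}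

theorem isOpen_cap (k : ℕ) (e : ℝ) : IsOpen (cap k e) := by
  apply isOpen_lt continuous_const
  exact continuous_const.mul ((continuous_apply _).comp continuous_subtype_val)

theorem cap_union (k : ℕ) : cap k 1 ∪ cap k (-1) = univ := by
  refine eq_univ_of_forall fun x => ?_
  rcases le_or_gt 0 ((x : Fin (k + 1) → ℝ) 0) with h | h
  · left; show (-1/2 : ℝ) < 1 * (x : Fin (k + 1) → ℝ) 0; linarith
  · right; show (-1/2 : ℝ) < -1 * (x : Fin (k + 1) → ℝ) 0; linarith

/-- the pole -/
def pole (k : ℕ) (e : ℝ) : Fin (k + 1) → ℝ := fun i => if i = 0 then e else 0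

theorem norm_pole (k : ℕ) {e : ℝ} (he : |e| = 1) : ‖pole k e‖ = 1 := by
  apply le_antisymm
  · rw [pi_norm_le_iff_of_nonneg zero_le_one]
    intro i
    unfold pole
    split_ifs
    · rw [Real.norm_eq_abs, he]
    · simp
  · have := norm_le_pi_norm (pole k e) 0
    rw [show pole k e 0 = e from if_pos rfl, Real.norm_eq_abs, he] at this
    exact this

/-- the straight segment from `x` to the pole -/
def vv (k : ℕ) (e : ℝ) (x : Fin (k + 1) → ℝ) (t : ℝ) : Fin (k + 1) → ℝ := (1 - t) • x + t • pole k e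

theorem vv_zero_coord {k : ℕ} {e : ℝ} (x : Fin (k + 1) → ℝ) (t : ℝ) :
    vv k e x t 0 = (1 - t) * x 0 + t * e := by
  simp [vv, pole]

theorem vv_other {k : ℕ} {e : ℝ} (x : Fin (k + 1) → ℝ) (t : ℝ) {i : Fin (k + 1)} (hi : i ≠ 0) :
    vv k e x t i = (1 - t) * x i := by
  simp [vv, pole, hi]

theorem cap_key {k : ℕ} {e : ℝ} (he : |e| = 1) {x : S (k + 1)} (hx : x ∈ cap k e) {t : ℝ}
    (h0 : 0 ≤ t) (h1 : t ≤ 1) :
    0 < ‖vv k e x t‖ ∧ -1/2 * ‖vv k e x t‖ < e * vv k e x t 0 := by
  have hee : e * e = 1 := by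
    rw [← abs_mul_abs_self, he, one_mul]
  have hx' : -1/2 < e * (x : Fin (k + 1) → ℝ) 0 := hx
  have hc : |vv k e x t 0| ≤ ‖vv k e x t‖ := norm_le_pi_norm (vv k e x t) 0
  have hv : e * vv k e x t 0 = (1 - t) * (e * (x : Fin (k + 1) → ℝ) 0) + t := by
    rw [vv_zero_coord]; linear_combination t * hee
  have habs : |e * vv k e x t 0| = |vv k e x t 0| := by rw [abs_mul, he, one_mul]
  rcases le_or_gt 0 (e * (x : Fin (k + 1) → ℝ) 0) with hp | hn
  · -- the point is in the upper half
    have h3 : 0 ≤ e * vv k e x t 0 := by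
      rw [hv]; exact add_nonneg (mul_nonneg (by linarith) hp) h0
    have h4 : 0 < ‖vv k e x t‖ := by
      rcases eq_or_lt_of_le h0 with rfl | h0'
      · have : vv k e (x : Fin (k + 1) → ℝ) 0 = x := by simp [vv]
        rw [this, x.norm_eq]; exact one_pos
      · have : 0 < e * vv k e x t 0 := by
          rw [hv]; exact add_pos_of_nonneg_of_pos (mul_nonneg (by linarith) hp) h0'
        calc (0 : ℝ) < |e * vv k e x t 0| := abs_pos.2 this.ne'
          _ = |vv k e x t 0| := habs
          _ ≤ _ := hc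
    exact ⟨h4, by linarith⟩
  · -- the point is in the collar: another coordinate has absolute value one
    have hlt : |(x : Fin (k + 1) → ℝ) 0| < 1 := by
      have : |e * (x : Fin (k + 1) → ℝ) 0| = |(x : Fin (k + 1) → ℝ) 0| := by
        rw [abs_mul, he, one_mul]
      rw [← this, abs_lt]; constructor <;> linarith
    obtain ⟨i, hi, hi1⟩ : ∃ i, i ≠ 0 ∧ |(x : Fin (k + 1) → ℝ) i| = 1 := by
      by_contra hcon
      push Not at hcon
      have hn1 : ‖(x : Fin (k + 1) → ℝ)‖ < 1 := by
        rw [pi_norm_lt_iff one_pos]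
        intro i
        rw [Real.norm_eq_abs]
        by_cases h : i = 0
        · subst h; exact hlt
        · refine lt_of_le_of_ne ?_ (hcon i h)
          have := norm_le_pi_norm (x : Fin (k + 1) → ℝ) i
          rwa [x.norm_eq, Real.norm_eq_abs] at this
      exact absurd x.norm_eq hn1.ne
    have h5 : 1 - t ≤ ‖vv k e x t‖ := by
      have := norm_le_pi_norm (vv k e x t) i
      rw [vv_other _ _ hi, Real.norm_eq_abs, abs_mul, hi1, mul_one, abs_of_nonneg (by linarith)] at this
      exact this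
    rcases eq_or_lt_of_le h1 with rfl | h1'
    · have e1 : e * vv k e x 1 0 = 1 := by rw [hv]; ring
      have h6 : (1 : ℝ) ≤ ‖vv k e x 1‖ := by
        calc (1 : ℝ) = |e * vv k e x 1 0| := by rw [e1]; simp
          _ = _ := habs
          _ ≤ _ := hc
      exact ⟨by linarith, by rw [e1]; linarith⟩
    · have h7 : 0 < ‖vv k e x t‖ := by linarith
      refine ⟨h7, ?_⟩
      rw [hv]
      nlinarith

/-- the contraction of the cap -/
noncomputable def capH (k : ℕ) {e : ℝ} (he : |e| = 1) : C(I × cap k e, cap k e) where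
  toFun p := ⟨⟨‖vv k e (p.2 : S (k + 1)) p.1‖⁻¹ • vv k e (p.2 : S (k + 1)) p.1, by
      rw [mem_sphere_zero_iff_norm, norm_smul, norm_inv, norm_norm]
      exact inv_mul_cancel₀ (cap_key he p.2.2 p.1.2.1 p.1.2.2).1.ne'⟩, by
      have h := cap_key he p.2.2 p.1.2.1 p.1.2.2
      show -1/2 < e * (‖vv k e (p.2 : S (k + 1)) p.1‖⁻¹ * vv k e (p.2 : S (k + 1)) p.1 0)
      rw [mul_left_comm, ← div_eq_inv_mul, lt_div_iff₀ h.1]
      exact h.2⟩
  continuous_toFun := by
    have hcont : Continuous fun p : I × cap k e => vv k e (p.2 : S (k + 1)) p.1 := by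
      unfold vv
      have c1 : Continuous fun p : I × cap k e => ((p.2 : S (k + 1)) : Fin (k + 1) → ℝ) :=
        continuous_subtype_val.comp (continuous_subtype_val.comp continuous_snd)
      have c2 : Continuous fun p : I × cap k e => (p.1 : ℝ) := continuous_subtype_val.comp continuous_fst
      exact ((continuous_const.sub c2).smul c1).add (c2.smul continuous_const)
    refine Continuous.subtype_mk (Continuous.subtype_mk ?_ _) _
    exact (hcont.norm.inv₀ fun p => (cap_key he p.2.2 p.1.2.1 p.1.2.2).1.ne').smul hcont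

theorem pole_mem (k : ℕ) {e : ℝ} (he : |e| = 1) :
    (⟨pole k e, mem_sphere_zero_iff_norm.2 (norm_pole k he)⟩ : S (k + 1)) ∈ cap k e := by
  have hee : e * e = 1 := by rw [← abs_mul_abs_self, he, one_mul]
  show -1/2 < e * pole k e 0
  rw [show pole k e 0 = e from if_pos rfl, hee]; norm_num

theorem contractible_cap (k : ℕ) {e : ℝ} (he : |e| = 1) : ContractibleSpace (cap k e) := by
  rw [contractible_iff_id_nullhomotopic]
  refine ⟨⟨⟨pole k e, mem_sphere_zero_iff_norm.2 (norm_pole k he)⟩, pole_mem k he⟩, ⟨⟨capH k he, ?_, ?_⟩⟩⟩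
  · intro x
    apply Subtype.ext; apply Subtype.ext
    show ‖vv k e (x : S (k + 1)) ((0 : I) : ℝ)‖⁻¹ • vv k e (x : S (k + 1)) ((0 : I) : ℝ) = _
    have : vv k e ((x : S (k + 1)) : Fin (k + 1) → ℝ) ((0 : I) : ℝ) = x := by simp [vv]
    rw [this, (x : S (k + 1)).norm_eq]
    simp
  · intro x
    apply Subtype.ext; apply Subtype.ext
    show ‖vv k e (x : S (k + 1)) ((1 : I) : ℝ)‖⁻¹ • vv k e (x : S (k + 1)) ((1 : I) : ℝ) = pole k e
    have : vv k e ((x : S (k + 1)) : Fin (k + 1) → ℝ) ((1 : I) : ℝ) = pole k e := by simp [vv]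
    rw [this, norm_pole k he]
    simp

instance pathConnected_S2 : PathConnectedSpace (S 2) := by
  have hs : Function.Surjective (fun t : I => cr t) := fun s => cr_surj s
  have hI : PathConnectedSpace I :=
    isPathConnected_iff_pathConnectedSpace.1 ((convex_Icc (0 : ℝ) 1).isPathConnected ⟨0, by simp⟩)
  exact hs.pathConnectedSpace (continuous_cr.comp continuous_subtype_val)

/-- the band `|x 0| < 1/2` of `S (k + 1)` from `S k` -/
noncomputable def band (k : ℕ) (p : Ioo (-1/2 : ℝ) (1/2) × S k) : S (k + 1) :=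
  ⟨Fin.cons (p.1 : ℝ) (p.2 : Fin k → ℝ), by
    rw [mem_sphere_zero_iff_norm]
    apply le_antisymm
    · rw [pi_norm_le_iff_of_nonneg zero_le_one]
      intro i
      refine Fin.cases ?_ (fun j => ?_) i
      · rw [Fin.cons_zero, Real.norm_eq_abs, abs_le]
        have := p.1.2; constructor <;> linarith [this.1, this.2]
      · rw [Fin.cons_succ]
        have := norm_le_pi_norm (p.2 : Fin k → ℝ) j
        rwa [p.2.norm_eq] at this
    · have h3 : ‖(p.2 : Fin k → ℝ)‖ ≤
          ‖(Fin.cons (p.1 : ℝ) (p.2 : Fin k → ℝ) : Fin (k + 1) → ℝ)‖ := by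
        rw [pi_norm_le_iff_of_nonneg (norm_nonneg _)]
        intro j
        have := norm_le_pi_norm (Fin.cons (p.1 : ℝ) (p.2 : Fin k → ℝ) : Fin (k + 1) → ℝ) j.succ
        rwa [Fin.cons_succ] at this
      have h4 := p.2.norm_eq
      linarith⟩

theorem continuous_band (k : ℕ) : Continuous (band k) := by
  apply Continuous.subtype_mk
  refine continuous_pi fun i => ?_
  refine Fin.cases ?_ (fun j => ?_) i
  · simp only [Fin.cons_zero]
    exact continuous_subtype_val.comp continuous_fst
  · simp only [Fin.cons_succ]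
    exact (continuous_apply j).comp (continuous_subtype_val.comp continuous_snd)

theorem range_band (k : ℕ) : range (band k) = cap k 1 ∩ cap k (-1) := by
  ext x
  constructor
  · rintro ⟨p, rfl⟩
    have h := p.1.2
    constructor
    · show -1/2 < 1 * (Fin.cons (p.1 : ℝ) (p.2 : Fin k → ℝ) : Fin (k + 1) → ℝ) 0
      rw [Fin.cons_zero]; linarith [h.1]
    · show -1/2 < -1 * (Fin.cons (p.1 : ℝ) (p.2 : Fin k → ℝ) : Fin (k + 1) → ℝ) 0
      rw [Fin.cons_zero]; linarith [h.2]
  · rintro ⟨h1, h2⟩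
    have h1' : -1/2 < 1 * (x : Fin (k + 1) → ℝ) 0 := h1
    have h2' : -1/2 < -1 * (x : Fin (k + 1) → ℝ) 0 := h2
    have hy : ‖Fin.tail (x : Fin (k + 1) → ℝ)‖ = 1 := by
      apply le_antisymm
      · rw [pi_norm_le_iff_of_nonneg zero_le_one]
        intro j
        have := norm_le_pi_norm (x : Fin (k + 1) → ℝ) j.succ
        rwa [x.norm_eq] at this
      · by_contra hcon
        push Not at hcon
        have hn1 : ‖(x : Fin (k + 1) → ℝ)‖ < 1 := by
          rw [pi_norm_lt_iff one_pos]
          intro i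
          refine Fin.cases ?_ (fun j => ?_) i
          · rw [Real.norm_eq_abs, abs_lt]; constructor <;> linarith
          · exact lt_of_le_of_lt (norm_le_pi_norm (Fin.tail (x : Fin (k + 1) → ℝ)) j) hcon
        exact absurd x.norm_eq hn1.ne
    refine ⟨(⟨(x : Fin (k + 1) → ℝ) 0, by constructor <;> linarith⟩,
      ⟨Fin.tail (x : Fin (k + 1) → ℝ), mem_sphere_zero_iff_norm.2 hy⟩), ?_⟩
    apply Subtype.ext
    exact Fin.cons_self_tail (x : Fin (k + 1) → ℝ)

theorem joined_band (k : ℕ) [PathConnectedSpace (S k)] {x y : S (k + 1)}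
    (hx : x ∈ cap k 1 ∩ cap k (-1)) (hy : y ∈ cap k 1 ∩ cap k (-1)) :
    JoinedIn (cap k 1 ∩ cap k (-1)) x y := by
  have hI : PathConnectedSpace (Ioo (-1/2 : ℝ) (1/2)) :=
    isPathConnected_iff_pathConnectedSpace.1 ((convex_Ioo _ _).isPathConnected ⟨0, by norm_num⟩)
  have h : IsPathConnected (range (band k)) := isPathConnected_range (continuous_band k)
  rw [range_band] at h
  exact h.joinedIn x hx y hy

/-- **(s3)** -/
theorem van0_S3 : Van0 (S 3) M 0 := by
  have h1 : ContractibleSpace (cap 2 1) := contractible_cap 2 (by simp)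
  have h2 : ContractibleSpace (cap 2 (-1)) := contractible_cap 2 (by simp)
  exact van0_zero_of_cover (isOpen_cap 2 1) (isOpen_cap 2 (-1)) (cap_union 2)
    (van0_contractible 0) (van0_contractible 0) (fun x hx y hy => joined_band 2 hx hy)

end sphere

end Crest.Agent.R251.L3
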