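import Crest.Agent.R251.Coh539B
import Crest.Agent.R251.Kr337d
import Crest.Agent.R251.S3_416
import Crest.Agent.R251.Ar348D
import Crest.Agent.R251.Joint19b

/-!
# R251 (S0388) (helper539): K2

`hvmu`: `H^2(EE3 f / GG; Tw μ) = 0` for the sphere `f` made of the `U`-cell and of a disc of area zero.
-/

set_option autoImplicit false
set_option linter.unusedSectionVars false

open CategoryTheory Simplicial Opposite Set Metric Topology
open scoped unitInterval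
open Crest.GeometryTopology.DeckCochains
open Crest.Agent.R251.Pr Crest.Agent.R251.Orb
open Crest.Agent.R251.Mod (crI EE1 EE2 EE3 gn wdd hwdd φ2 φ3 Kr Sk)
open Crest.Agent.R185.Base (cr)
open Crest.Agent.R185.Att Crest.Agent.R251.DR
open Crest.Agent.R251.Alg (GG mu)

namespace Crest.Agent.R251.Coh

noncomputable section

/-- the circle input of Lemma Z -/
theorem ce (M : Type) [AddCommGroup M] : CE M := fun κ h h0 => K34.detect2 κ h h0

variable {M : Type} [AddCommGroup M] [DistribMulAction GG M]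

/-- an equivariant 2-cocycle of `EE2` which vanishes on `Kr` and has zero holonomy on the `U`-cell is an
equivariant coboundary -/
theorem cob_of_hol {w : SingSimplex EE2 2 → M} (hw : EqC GG w) (hc : cochainCobdry w = 0)
    (h0 : ∀ s, InS Kr s → w s = 0) {β : SingSimplex (D 2) 1 → M}
    (hβ : cochainCobdry β = pull J19.cU w) (hβ0 : β (PC.ps Ar.cp) = 0) :
    ∃ ψ : SingSimplex EE2 1 → M, EqC GG ψ ∧ cochainCobdry ψ = w := by
  have hH : EqH GG (Hst GG (φ2 gn wdd hwdd)) := fun g p t => Hst_smul g p t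
  -- the pull back along the retraction
  set w2 : SingSimplex EE2 2 → M := pull (end1 (Hst GG (φ2 gn wdd hwdd))) w with hw2
  have e0 : end0 (Hst GG (φ2 gn wdd hwdd)) = ContinuousMap.id _ := by
    ext1 p; exact Hst_zero p
  have hp := cobdry_prism (Hst GG (φ2 gn wdd hwdd)) w
  rw [hc, prism_zero, add_zero, e0, pull_id] at hp
  have hE1 : EqM GG (end1 (Hst GG (φ2 gn wdd hwdd))) := fun g p => Hst_smul g p 1
  -- the radial stretch of the disc
  let ρ : C(D 2, D 2) := end1 (str 2)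
  have hρ : ρ.comp Ar.cp = Ar.cp := by
    ext1 t
    exact str_sd (cr t) 1
  have hchr : ∀ c : Fin 2, (end1 (Hst GG (φ2 gn wdd hwdd))).comp
      (⟨chr (φ2 gn wdd hwdd) 1 c, continuous_chr 1 c⟩ : C(D 2, EE2)) =
      (⟨chr (φ2 gn wdd hwdd) 1 c, continuous_chr 1 c⟩ : C(D 2, EE2)).comp ρ := by
    intro c
    ext1 x
    exact Hst_chr 1 c x 1
  obtain ⟨ψ, h4, h5⟩ := lemmaZ (φ := φ2 gn wdd hwdd) (ce M) (ω := w2) (hw.pull hE1)
    (by rw [hw2, cobdry_pull, hc]; rfl)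
    (fun s hs => by
      refine h0 _ fun t => ?_
      rw [us_push]
      obtain ⟨z, hz⟩ := Hst_one_mem (hs t)
      show Hst GG (φ2 gn wdd hwdd) (us s t, 1) ∈ Kr
      rw [hz]
      exact Or.inl ⟨z, rfl⟩)
    (fun c => by
      have e1 : pull (⟨chr (φ2 gn wdd hwdd) 1 c, continuous_chr 1 c⟩ : C(D 2, EE2)) w2 =
          pull ρ (pull (⟨chr (φ2 gn wdd hwdd) 1 c, continuous_chr 1 c⟩ : C(D 2, EE2)) w) := by
        rw [hw2, pull_pull, pull_pull, hchr c]
      rw [e1]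
      fin_cases c
      · -- the relator `r`
        refine ⟨0, ?_, rfl⟩
        rw [Pr.cobdry_zero]
        funext s
        symm
        refine h0 _ fun t => ?_
        rw [us_push, us_push]
        refine Or.inr (mem_iUnion.2 ⟨1, mem_iUnion.2 ⟨0, mem_iUnion.2 ⟨rfl, ?_⟩⟩⟩)
        exact ⟨_, rfl⟩
      · refine ⟨pull ρ β, ?_, ?_⟩
        · rw [cobdry_pull, hβ]
          rfl
        · show β (PC.ps (ρ.comp Ar.cp)) = 0
          rw [hρ, hβ0])
  refine ⟨ψ - prism (Hst GG (φ2 gn wdd hwdd)) w, h4.sub (hw.prism hH), ?_⟩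
  rw [Pr.cobdry_sub, h5, hp]
  abel

/-- the pull back of a cocycle of the 3-complex to the sphere is a coboundary -/
theorem pull_sphere {f : C(S 3, EE2)} {ω : SingSimplex (EE3 f) 2 → M} (hc : cochainCobdry ω = 0) :
    ∃ κ : SingSimplex (S 3) 1 → M,
      cochainCobdry κ = pull f (pull (inZc GG (φ3 f)) ω) := by
  let k : C(D 3, EE3 f) := ⟨chr (φ3 f) 1 (), continuous_chr 1 ()⟩
  obtain ⟨κ, hκ⟩ := van0_contractible (F := D 3) (M := M) 1 (pull k ω) (by
    rw [cobdry_pull, hc]; rfl)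
  refine ⟨pull (sd 3) κ, ?_⟩
  rw [cobdry_pull, hκ, pull_pull, pull_pull]
  congr 1
  ext1 x
  show chr (φ3 f) 1 () (sd 3 x) = inZ (φ3 f) (f x)
  rw [chr_sd, one_smul]
  rfl

/-- **K2**, general form: it is enough to make the cocycles zero on `Kr` -/
theorem hv1_of (h2 : C(D 2, EE2)) (f : C(S 3, EE2))
    (hA : ∀ x ∈ Ar.VA, f x = J19.cU (Ar.tS x)) (hB : ∀ x ∈ Ar.VB, f x = h2 (Ar.tS x))
    (hz : ∀ u : SingSimplex EE2 2 → M, Ar.AdmS J19.inc u → ∀ β : SingSimplex (D 2) 1 → M,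
      cochainCobdry β = pull h2 u → β (PC.ps Ar.cp) = 0)
    (hKr : ∀ ω : SingSimplex EE2 2 → M, EqC GG ω → cochainCobdry ω = 0 →
      ∃ ψ : SingSimplex EE2 1 → M, EqC GG ψ ∧ cochainCobdry (ω - cochainCobdry ψ) = 0 ∧
        EqC GG (ω - cochainCobdry ψ) ∧ ∀ s, InS Kr s → (ω - cochainCobdry ψ) s = 0) :
    HV GG (EE3 f) 1 M := by
  intro ω hω hc
  set w : SingSimplex EE2 2 → M := pull (inZc GG (φ3 f)) ω with hwdef
  have hw : EqC GG w := hω.pull eqM_inZc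
  have hwc : cochainCobdry w = 0 := by rw [hwdef, cobdry_pull, hc]; rfl
  obtain ⟨ψ, hψ, h1c, h1e, h1z⟩ := hKr w hw hwc
  set w1 := w - cochainCobdry ψ with hw1
  -- the sphere
  obtain ⟨κ', hκ'⟩ := pull_sphere (f := f) hc
  have hκ : cochainCobdry (κ' - pull f ψ) = pull f w1 := by
    rw [Pr.cobdry_sub, hκ', cobdry_pull, hw1]
    rfl
  obtain ⟨β₁, hβ₁⟩ := van0_contractible (F := D 2) (M := M) 1 (pull J19.cU w1) (by
    rw [cobdry_pull, h1c]; rfl)
  obtain ⟨β₂, hβ₂⟩ := van0_contractible (F := D 2) (M := M) 1 (pull h2 w1) (by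
    rw [cobdry_pull, h1c]; rfl)
  have hadm : Ar.AdmS J19.inc w1 := ⟨h1c, fun s hs => h1z _ fun t => by
    have := hs t
    rw [J19.range_inc] at this
    rw [us_sx]
    exact this⟩
  have a1 := Ar.eq_of_primA hA hβ₁ (ψ := κ' - pull f ψ) (fun τ _ => by rw [hκ])
  have a2 := Ar.eq_of_primB hB hβ₂ (ψ := κ' - pull f ψ) (fun τ _ => by rw [hκ])
  have a3 : β₁ (PC.ps Ar.cp) = 0 := by
    rw [← a1, a2]
    exact hz w1 hadm β₂ hβ₂
  obtain ⟨χ, hχ, hχ2⟩ := cob_of_hol h1e h1c h1z hβ₁ a3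
  refine L3.exists_cobdry_of_restrict (G := GG) (φ := φ3 f) (n := 0) L3.van0_S3 hω hc
    (ψ := ψ + χ) (hψ.add hχ) ?_
  rw [Pr.cobdry_add, hχ2, hw1]
  show cochainCobdry ψ + (w - cochainCobdry ψ) = w
  abel

/-- **K2**: for the sphere of `J19.exists_sphere` -/
theorem hvmu (h2 : C(D 2, EE2)) (f : C(S 3, EE2))
    (hA : ∀ x : S 3, -1 < (x : Fin 3 → ℝ) 0 → f x = J19.cU (J19.tl3 x))
    (hB : ∀ x : S 3, (x : Fin 3 → ℝ) 0 < 1 → f x = h2 (J19.tl3 x))
    (hz : ∀ (M : Type) [AddCommGroup M] (u : SingSimplex EE2 2 → M), Ar.AdmS J19.inc u →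
      ∀ β : SingSimplex (D 2) 1 → M, cochainCobdry β = pull h2 u → β (PC.ps Ar.cp) = 0)
    {K : Type} [Field K] (ζ : Kˣ) (hζ : ζ ^ 6 = 1) (h3 : ζ ^ 3 ≠ 1) (h2' : ζ ^ 2 ≠ 1) :
    Fin.HV GG (EE3 f) (Fin.Tw (mu ζ hζ)) 1 :=
  hv1_of (M := Fin.Tw (mu ζ hζ)) h2 f hA hB (fun u hu β hβ => hz _ u hu β hβ)
    (Kr.kr5_row ζ hζ h3 h2')

end

end Crest.Agent.R251.Coh
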