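import Crest.Agent.R251.Sph679
import Crest.Agent.R251.Kr34a

/-!
# R251 (S0388) (helper679): detection of 2-cocycles on `S 3` (s2)

`detect3` : a 2-cocycle `κ` on `S 3` with primitives `βA`, `βB` on the two caps whose difference
vanishes on the equator loop is a coboundary.
-/

set_option autoImplicit false
set_option linter.unusedSectionVars false

open CategoryTheory Simplicial Opposite Set Metric Topology
open scoped unitInterval
open Crest.GeometryTopology.DeckCochains
open Crest.Agent.R251.Pr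

namespace Crest.Agent.R251.Orb

section detect
open Crest.Agent.R185.Att Crest.Agent.R251.PC
open Crest.Agent.R251.Mod (crI)

variable {M : Type} [AddCommGroup M]

/-- the equator loop of `S 3` -/
noncomputable def eq3 : C(I, S 3) :=
  ⟨fun t => ⟨Fin.cons 0 (crI t : Fin 2 → ℝ), mem_sphere_zero_iff_norm.2
    (norm_cons_of_le (m := 2) (by norm_num) (crI t))⟩, by
    refine Continuous.subtype_mk (continuous_pi fun i => ?_) _
    refine Fin.cases ?_ (fun j => ?_) i
    · exact continuous_const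
    · exact (continuous_apply j).comp (continuous_subtype_val.comp crI.continuous)⟩

theorem eq3_coe (t : I) : ((eq3 t : S 3) : Fin 3 → ℝ) = Fin.cons 0 (crI t : Fin 2 → ℝ) := rfl

/-- primitives on the two caps -/
theorem exists_betas {n : ℕ} (m : ℕ) (κ : SingSimplex (S (m + 1)) (n + 1) → M)
    (hκ : cochainCobdry κ = 0) :
    ∃ βA βB : SingSimplex (S (m + 1)) n → M,
      (∀ s, SIn {x | -(1/2 : ℝ) < ((x : S (m + 1)) : Fin (m + 1) → ℝ) 0} s →
        cochainCobdry βA s = κ s) ∧
      (∀ s, SIn {x | ((x : S (m + 1)) : Fin (m + 1) → ℝ) 0 < 1/2} s →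
        cochainCobdry βB s = κ s) := by
  obtain ⟨βA, hA⟩ := van0_on (van0_SA m n) κ (fun s _ => congrFun hκ s)
  obtain ⟨βB, hB⟩ := van0_on (van0_SB m n) κ (fun s _ => congrFun hκ s)
  exact ⟨βA, βB, hA, hB⟩

/-- a 1-cocycle on the belt of `S 3` with period zero along the equator is a coboundary -/
theorem belt_prim (k : SingSimplex (Belt 2) 1 → M) (hk : cochainCobdry k = 0)
    (h0 : k (ps ((beltS 2).comp crI)) = 0) :
    ∃ η : SingSimplex (Belt 2) 0 → M, cochainCobdry η = k := by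
  obtain ⟨θ, hθ⟩ := K34.detect2 (pull (beltS 2) k) (by rw [cobdry_pull, hk]; rfl) h0
  refine ⟨pull (beltR 2) θ - prism (beltH 2) k, ?_⟩
  have h1 := cobdry_prism (beltH 2) k
  have e1 : end1 (beltH 2) = (beltS 2).comp (beltR 2) := by
    ext1 x; exact beltH_one x
  have e0 : end0 (beltH 2) = ContinuousMap.id _ := by
    ext1 x; exact beltH_zero x
  rw [hk, e1, e0] at h1
  have hz : prism (beltH 2) (0 : SingSimplex (Belt 2) 2 → M) = 0 := prism_zero _
  rw [hz, add_zero] at h1
  rw [Pr.cobdry_sub, cobdry_pull, hθ, h1]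
  have e2 : pull ((beltS 2).comp (beltR 2)) k = pull (beltR 2) (pull (beltS 2) k) := rfl
  have e3 : pull (ContinuousMap.id (Belt 2)) k = k := by
    funext s
    show k (Pr.push _ s) = k s
    rw [push_id]
  rw [e2, e3, sub_sub_cancel]

/-- **(s2)** -/
theorem detect3 (κ : SingSimplex (S 3) 2 → M) (hκ : cochainCobdry κ = 0)
    (βA βB : SingSimplex (S 3) 1 → M)
    (hA : ∀ s, SIn {x | -(1/2 : ℝ) < ((x : S 3) : Fin 3 → ℝ) 0} s → cochainCobdry βA s = κ s)
    (hB : ∀ s, SIn {x | ((x : S 3) : Fin 3 → ℝ) 0 < 1/2} s → cochainCobdry βB s = κ s)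
    (h0 : βA (ps eq3) = βB (ps eq3)) : ∃ θ : SingSimplex (S 3) 1 → M, cochainCobdry θ = κ := by
  let k : SingSimplex (Belt 2) 1 → M := pull (incl (SA 2 ∩ SB 2)) (βA - βB)
  have hk : cochainCobdry k = 0 := by
    show cochainCobdry (pull _ _) = 0
    rw [cobdry_pull]
    funext s
    show cochainCobdry (βA - βB) (Pr.push (incl (SA 2 ∩ SB 2)) s) = 0
    have hs := sin_push_incl (A := SA 2 ∩ SB 2) s
    rw [Pr.cobdry_sub, Pi.sub_apply, hA _ fun t => (hs t).1, hB _ fun t => (hs t).2, sub_self]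
  obtain ⟨η, hη⟩ := belt_prim k hk (by
    show (βA - βB) (Pr.push (incl (SA 2 ∩ SB 2)) (ps ((beltS 2).comp crI))) = 0
    have e : Pr.push (incl (SA 2 ∩ SB 2)) (ps ((beltS 2).comp crI)) = ps eq3 := rfl
    rw [e, Pi.sub_apply, h0, sub_self])
  obtain ⟨ψ, h4, -⟩ := glue0 (isOpen_SA 2) (isOpen_SB 2) (SA_union_SB 2) hκ βA βB (ext0 η) hA hB
    (fun s hs ht => by
      have h5 : pull (incl (SA 2 ∩ SB 2)) (cochainCobdry (ext0 η)) =
          pull (incl (SA 2 ∩ SB 2)) (βA - βB) := by
        rw [← cobdry_pull, pull_ext0, hη]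
      exact ((pull_incl_eq_iff.1 h5 : _) s (hs.inter ht)).symm)
  exact ⟨ψ, h4⟩

end detect

end Crest.Agent.R251.Orb
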