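import Crest.Agent.R251.Mod19b
import Crest.Agent.R251.Alg449

/-!
# Row 251: the model, part 3: the instance `G = GG`, generators `c, t`, relators `r, U`
-/

set_option autoImplicit false
set_option linter.unusedSectionVars false

open Set Metric Topology unitInterval
open Crest.Agent.R185.Att Crest.Agent.R185.Base
open Crest.Agent.R251
open Crest.Agent.R251.Alg (FF fc ft wr wU rels GG gc gt)

namespace Crest.Agent.R251.Mod

/-- the relators `0 ↦ r`, `1 ↦ U` -/
def RR : Fin 2 → FreeGroup (Fin 2) := ![wr fc ft, wU fc]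

/-- the generators of `GG` -/
def gn : Fin 2 → GG := PresentedGroup.of

@[simp] theorem gn_zero : gn 0 = gc := rfl
@[simp] theorem gn_one : gn 1 = gt := rfl

/-- the relator words -/
def wdd (j : Fin 2) : List (Fin 2 × Bool) := (RR j).toWord

theorem mk_wdd (j : Fin 2) : FreeGroup.mk (wdd j) = RR j := FreeGroup.mk_toWord

theorem lift_gn (x : FreeGroup (Fin 2)) : FreeGroup.lift gn x = PresentedGroup.mk rels x := by
  induction x using FreeGroup.induction_on with
  | C1 => simp
  | of i => simp [gn]; rfl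
  | inv_of i h => simp [h]
  | mul x y hx hy => simp [hx, hy]

theorem lift_gn_eq_one_iff (x : FreeGroup (Fin 2)) : FreeGroup.lift gn x = 1 ↔ x ∈ Alg.Rel := by
  rw [lift_gn]
  exact PresentedGroup.mk_eq_one_iff

theorem val_gn (l : List (Fin 2 × Bool)) : val gn l = PresentedGroup.mk rels (FreeGroup.mk l) := by
  rw [val_eq, lift_gn]

theorem val_eq_one_iff (l : List (Fin 2 × Bool)) : val gn l = 1 ↔ FreeGroup.mk l ∈ Alg.Rel := by
  rw [val_eq, lift_gn_eq_one_iff]

theorem RR_mem (j : Fin 2) : RR j ∈ Alg.Rel := by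
  fin_cases j
  · exact Crest.Agent.R251.Alg.wr_mem_Rel
  · exact Crest.Agent.R251.Alg.wU_mem_Rel

theorem hwdd (j : Fin 2) : val gn (wdd j) = 1 := by
  rw [val_eq_one_iff, mk_wdd]
  exact RR_mem j

theorem range_RR : Set.range RR = {wr fc ft, wU fc} := by
  ext x
  constructor
  · rintro ⟨j, rfl⟩
    fin_cases j
    · exact Or.inl rfl
    · exact Or.inr rfl
  · rintro (rfl | rfl)
    · exact ⟨0, rfl⟩
    · exact ⟨1, rfl⟩

theorem range_mk_wdd : (Set.range fun j => FreeGroup.mk (wdd j)) = {wr fc ft, wU fc} := by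
  rw [← range_RR]
  exact congrArg Set.range (funext mk_wdd)

/-- the normal closure of the relator words is the kernel -/
theorem nc_wdd : Subgroup.normalClosure (Set.range fun j => FreeGroup.mk (wdd j)) = Alg.Rel := by
  rw [range_mk_wdd]
  exact Crest.Agent.R251.Alg.nc_rU_eq

theorem mk_mem_nc_of_val (l : List (Fin 2 × Bool)) (h : val gn l = 1) :
    FreeGroup.mk l ∈ Subgroup.normalClosure (Set.range fun j => FreeGroup.mk (wdd j)) := by
  rw [nc_wdd]
  exact (val_eq_one_iff l).1 h

/-- the Cayley graph of `GG` -/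
abbrev EE1 : Type := Z2 gn
/-- the Cayley complex of `<c,t | r, U>` -/
abbrev EE2 : Type := Z3 gn wdd hwdd
/-- the 3-complex -/
abbrev EE3 (f : C(S 3, EE2)) : Type := Z4 f
/-- `Kr`: the Cayley graph and the `r`-cells -/
def Kr : Set EE2 := Sk gn wdd hwdd {0}

end Crest.Agent.R251.Mod
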