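import Crest.Agent.R251.SC796
import Crest.Agent.R185.Att1

/-!
# Row 251, block B2(b) (helper796): pushing paths off the cells of dimension at least two

`push`: every path of `GAtt G φ` (`m ≥ 2`) with endpoints in `Z` is homotopic to a path of `Z`.
-/

set_option autoImplicit false
set_option linter.unusedSectionVars false

open Set unitInterval Topology Metric

namespace Crest.Agent.R251.SC

open Path.Homotopic.Quotient
open Crest.Agent.R185.Att

/-- radial expansion of the cube -/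
noncomputable def ex (m : ℕ) : C(D m × I, D m) where
  toFun p := ⟨(max ‖(p.1 : Fin m → ℝ)‖ (1 - 3 / 4 * (p.2 : ℝ)))⁻¹ • (p.1 : Fin m → ℝ), by
    have h1 : 0 < 1 - 3 / 4 * (p.2 : ℝ) := by linarith [p.2.2.2]
    have h2 : 0 < max ‖(p.1 : Fin m → ℝ)‖ (1 - 3 / 4 * (p.2 : ℝ)) := lt_max_of_lt_right h1
    rw [mem_closedBall_zero_iff, norm_smul, norm_inv, Real.norm_of_nonneg h2.le,
      inv_mul_le_iff₀ h2, mul_one]
    exact le_max_left _ _⟩
  continuous_toFun := by
    have hx : Continuous fun p : D m × I => (p.1 : Fin m → ℝ) :=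
      continuous_subtype_val.comp continuous_fst
    have ht : Continuous fun p : D m × I => 1 - 3 / 4 * (p.2 : ℝ) :=
      continuous_const.sub (continuous_const.mul (continuous_subtype_val.comp continuous_snd))
    refine Continuous.subtype_mk (Continuous.smul (Continuous.inv₀ (hx.norm.max ht) ?_) hx) _
    intro p
    have h1 : 0 < 1 - 3 / 4 * (p.2 : ℝ) := by linarith [p.2.2.2]
    exact (lt_max_of_lt_right h1).ne'

theorem ex_coe {m : ℕ} (x : D m) (t : I) : (ex m (x, t) : Fin m → ℝ) =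
    (max ‖(x : Fin m → ℝ)‖ (1 - 3 / 4 * (t : ℝ)))⁻¹ • (x : Fin m → ℝ) := rfl

theorem ex_sd {m : ℕ} (x : S m) (t : I) : ex m (sd m x, t) = sd m x := by
  apply Subtype.ext
  rw [ex_coe]
  have h : max ‖((sd m x : D m) : Fin m → ℝ)‖ (1 - 3 / 4 * (t : ℝ)) = 1 := by
    rw [sd_coe, x.norm_eq]
    exact max_eq_left (by linarith [t.2.1])
  rw [h, inv_one, one_smul]

theorem ex_zero {m : ℕ} (x : D m) : ex m (x, 0) = x := by
  apply Subtype.ext
  rw [ex_coe]
  have h : max ‖(x : Fin m → ℝ)‖ (1 - 3 / 4 * ((0 : I) : ℝ)) = 1 := by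
    rw [Icc.coe_zero, mul_zero, sub_zero]
    exact max_eq_right x.norm_le
  rw [h, inv_one, one_smul]

theorem ex_one_norm {m : ℕ} (x : D m) (hx : 1 / 4 < ‖(x : Fin m → ℝ)‖) :
    ‖(ex m (x, 1) : Fin m → ℝ)‖ = 1 := by
  rw [ex_coe]
  have h : max ‖(x : Fin m → ℝ)‖ (1 - 3 / 4 * ((1 : I) : ℝ)) = ‖(x : Fin m → ℝ)‖ := by
    rw [Icc.coe_one]
    exact max_eq_left (by linarith)
  have h0 : 0 < ‖(x : Fin m → ℝ)‖ := by linarith
  rw [h, norm_smul, norm_inv, norm_norm, inv_mul_cancel₀ h0.ne']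

section

variable {G : Type} [Group G] {Z : Type} [TopologicalSpace Z] [MulAction G Z]
  {m : ℕ} {C : Type} {φ : C → C(S m, Z)}

/-- the homotopy, radial expansion of the cells -/
noncomputable def Hf (p : GAtt G φ × I) : GAtt G φ :=
  Sum.elim (fun z => inZ φ z) (fun q => chr φ q.1 q.2.1 (ex m (bd m q.2.2, p.2))) p.1

theorem Hf_inZ (z : Z) (t : I) : Hf (inZ φ z, t) = (inZ φ z : GAtt G φ) := rfl

theorem Hf_inB (g : G) (c : C) (x : B m) (t : I) :
    Hf (inB φ g c x, t) = chr φ g c (ex m (bd m x, t)) := rfl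

theorem Hf_chr (g : G) (c : C) (x : D m) (t : I) :
    Hf (chr φ g c x, t) = chr φ g c (ex m (x, t)) := by
  induction x using D.cases' with
  | hB x => rw [chr_bd, Hf_inB]
  | hS x => rw [chr_sd, ex_sd, chr_sd, Hf_inZ]

theorem continuous_Hf : Continuous (Hf : GAtt G φ × I → GAtt G φ) := by
  rw [continuous_prod_iff]
  constructor
  · exact continuous_inZ.comp continuous_fst
  · intro g c
    have : (fun p : D m × I => (Hf (chr φ g c p.1, p.2) : GAtt G φ)) =
        fun p => chr φ g c (ex m p) := by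
      funext p
      exact Hf_chr g c p.1 p.2
    rw [this]
    exact (continuous_chr g c).comp (ex m).continuous

theorem Hf_zero (p : GAtt G φ) : Hf (p, 0) = p := by
  induction p using GAtt.cases' with
  | hZ z => rfl
  | hB g c x => rw [Hf_inB, ex_zero, chr_bd]

variable (φ) in
/-- the end of the expansion -/
noncomputable def Rm : C(GAtt G φ, GAtt G φ) := ⟨fun p => Hf (p, 1), continuous_Hf.comp (by fun_prop)⟩

theorem Rm_apply (p : GAtt G φ) : Rm φ p = Hf (p, 1) := rfl

variable (φ) in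
/-- the homotopy from the identity to `Rm` -/
noncomputable def HH : ContinuousMap.Homotopy (ContinuousMap.id (GAtt G φ)) (Rm φ) where
  toFun p := Hf (p.2, p.1)
  continuous_toFun := continuous_Hf.comp (by fun_prop)
  map_zero_left p := Hf_zero p
  map_one_left p := rfl

theorem HH_apply (p : GAtt G φ) (t : I) : HH φ (t, p) = Hf (p, t) := rfl

/-- the points far from the centres of the cells -/
def far (φ : C → C(S m, Z)) : Set (GAtt G φ) :=
  {p | ∀ g c (x : B m), p = inB φ g c x → 1 / 4 < ‖(x : Fin m → ℝ)‖}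

/-- the points near the centre of a cell -/
def near (φ : C → C(S m, Z)) (g : G) (c : C) : Set (GAtt G φ) :=
  inB φ g c '' {x : B m | ‖(x : Fin m → ℝ)‖ < 1 / 2}

theorem inZ_mem_far (z : Z) : (inZ φ z : GAtt G φ) ∈ far φ := fun _ _ _ h => absurd h inZ_ne_inB

theorem inB_mem_far {g : G} {c : C} {x : B m} :
    (inB φ g c x : GAtt G φ) ∈ far φ ↔ 1 / 4 < ‖(x : Fin m → ℝ)‖ := by
  constructor
  · intro h; exact h g c x rfl
  · intro h g' c' x' h'
    obtain ⟨rfl, rfl, rfl⟩ := inB_inj.1 h'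
    exact h

theorem isOpen_far : IsOpen (far φ : Set (GAtt G φ)) := by
  rw [Crest.Agent.R185.Att.isOpen_iff]
  constructor
  · convert isOpen_univ
    ext z
    simp only [mem_preimage, mem_univ, iff_true]
    exact inZ_mem_far z
  · intro g c
    have : chr φ g c ⁻¹' (far φ) = {x : D m | 1 / 4 < ‖(x : Fin m → ℝ)‖} := by
      ext x
      induction x using D.cases' with
      | hB x => rw [mem_preimage, chr_bd, inB_mem_far]; rfl
      | hS x =>
        rw [mem_preimage, chr_sd]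
        simp only [mem_ofPred_eq, sd_coe, x.norm_eq]
        exact ⟨fun _ => by norm_num, fun _ => inZ_mem_far _⟩
    rw [this]
    exact isOpen_lt continuous_const (by fun_prop)

theorem isOpen_near (g : G) (c : C) : IsOpen (near φ g c) :=
  isOpen_inB_image (isOpen_lt (by fun_prop) continuous_const)

theorem exists_Rm {p : GAtt G φ} (hp : p ∈ far φ) : Rm φ p ∈ range (inZ φ : Z → GAtt G φ) := by
  induction p using GAtt.cases' with
  | hZ z => exact ⟨z, rfl⟩
  | hB g c x =>
    rw [Rm_apply, Hf_inB]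
    have h := ex_one_norm (bd m x) (inB_mem_far.1 hp)
    have h2 : ex m (bd m x, 1) = sd m ⟨_, mem_sphere_zero_iff_norm.2 h⟩ := rfl
    rw [h2, chr_sd]
    exact ⟨_, rfl⟩

theorem continuous_inB (g : G) (c : C) : Continuous (inB φ g c : B m → GAtt G φ) := by
  have : (inB φ g c : B m → GAtt G φ) = chr φ g c ∘ bd m := by
    funext x; exact (chr_bd g c x).symm
  rw [this]
  exact (continuous_chr g c).comp (bd m).continuous

theorem isOpenEmbedding_inB (g : G) (c : C) : IsOpenEmbedding (inB φ g c : B m → GAtt G φ) :=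
  IsOpenEmbedding.of_continuous_injective_isOpenMap (continuous_inB g c)
    (fun _ _ h => (inB_inj.1 h).2.2) (fun _ hV => isOpen_inB_image hV)

/-- lift a path along an embedding -/
theorem lift_path {X Y : Type*} [TopologicalSpace X] [TopologicalSpace Y] {f : X → Y}
    (hf : IsEmbedding f) {a b : X} (γ : Path (f a) (f b)) (h : ∀ s, γ s ∈ range f) :
    ∃ γ' : Path a b, γ'.map hf.continuous = γ := by
  choose g hg using h
  refine ⟨⟨⟨g, ?_⟩, ?_, ?_⟩, ?_⟩
  · rw [hf.isInducing.continuous_iff]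
    have : f ∘ g = γ := funext hg
    rw [this]
    exact γ.continuous
  · apply hf.injective
    show f (g 0) = f a
    rw [hg, γ.source]
  · apply hf.injective
    show f (g 1) = f b
    rw [hg, γ.target]
  · ext s
    exact hg s

instance : ContractibleSpace (B m) :=
  (convex_ball (0 : Fin m → ℝ) 1).contractibleSpace ⟨0, by simp⟩

/-- paths in the annulus -/
theorem annulus (hm : 2 ≤ m) (a b : B m) (ha : 1 / 4 < ‖(a : Fin m → ℝ)‖)
    (hb : 1 / 4 < ‖(b : Fin m → ℝ)‖) :
    ∃ η : Path a b, ∀ s, 1 / 4 < ‖(η s : Fin m → ℝ)‖ := by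
  have hr : 1 < Module.rank ℝ (Fin m → ℝ) := by
    rw [rank_fin_fun]
    exact_mod_cast hm
  have hpc := isPathConnected_compl_singleton_of_one_lt_rank hr (0 : Fin m → ℝ)
  have ha0 : (a : Fin m → ℝ) ∈ ({0}ᶜ : Set (Fin m → ℝ)) := by
    simp only [mem_compl_iff, mem_singleton_iff]
    intro h; rw [h, norm_zero] at ha; linarith
  have hb0 : (b : Fin m → ℝ) ∈ ({0}ᶜ : Set (Fin m → ℝ)) := by
    simp only [mem_compl_iff, mem_singleton_iff]
    intro h; rw [h, norm_zero] at hb; linarith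
  obtain ⟨p, hp⟩ := hpc.joinedIn _ ha0 _ hb0
  have hp0 : ∀ s, 0 < ‖p s‖ := fun s => norm_pos_iff.2 (hp s)
  set r1 := min ‖(a : Fin m → ℝ)‖ ‖(b : Fin m → ℝ)‖ with hr1
  set r2 := max ‖(a : Fin m → ℝ)‖ ‖(b : Fin m → ℝ)‖ with hr2
  have h14 : 1 / 4 < r1 := lt_min ha hb
  have h1 : r2 < 1 := max_lt a.norm_lt b.norm_lt
  have h12 : r1 ≤ r2 := (min_le_left _ _).trans (le_max_left _ _)
  let ν : (Fin m → ℝ) → (Fin m → ℝ) := fun x => (max r1 (min ‖x‖ r2) / ‖x‖) • x
  have hν : ∀ s, ‖ν (p s)‖ = max r1 (min ‖p s‖ r2) := by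
    intro s
    have h0 : 0 ≤ max r1 (min ‖p s‖ r2) := le_max_of_le_left (by linarith)
    show ‖(max r1 (min ‖p s‖ r2) / ‖p s‖) • p s‖ = _
    rw [norm_smul, Real.norm_of_nonneg (div_nonneg h0 (hp0 s).le), div_mul_cancel₀ _ (hp0 s).ne']
  have hνc : Continuous fun s => ν (p s) := by
    refine Continuous.smul (Continuous.div (by fun_prop) (by fun_prop) fun s => (hp0 s).ne') p.continuous
  have hfix : ∀ x : Fin m → ℝ, r1 ≤ ‖x‖ → ‖x‖ ≤ r2 → 0 < ‖x‖ → ν x = x := by
    intro x h1 h2 h3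
    show (max r1 (min ‖x‖ r2) / ‖x‖) • x = x
    rw [min_eq_left h2, max_eq_right h1, div_self h3.ne', one_smul]
  refine ⟨⟨⟨fun s => ⟨ν (p s), ?_⟩, ?_⟩, ?_, ?_⟩, ?_⟩
  · rw [mem_ball_zero_iff, hν]
    exact max_lt (by linarith) (lt_of_le_of_lt (min_le_right _ _) h1)
  · exact Continuous.subtype_mk hνc _
  · apply Subtype.ext
    show ν (p 0) = a
    rw [p.source]
    exact hfix _ (min_le_left _ _) (le_max_left _ _) (norm_pos_iff.2 ha0)
  · apply Subtype.ext
    show ν (p 1) = b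
    rw [p.target]
    exact hfix _ (min_le_right _ _) (le_max_right _ _) (norm_pos_iff.2 hb0)
  · intro s
    show 1 / 4 < ‖ν (p s)‖
    rw [hν]
    exact lt_of_lt_of_le h14 (le_max_left _ _)

/-- connecting paths: nothing at the far points, a path to `x₀` in the cell otherwise -/
inductive Conn (x₀ : B m) : ∀ p q : GAtt G φ, PQ p q → Prop
  | refl (p : GAtt G φ) (hp : p ∈ far φ) : Conn x₀ p p (Path.Homotopic.Quotient.refl p)
  | cell (g : G) (c : C) (x : B m) (hx : ‖(x : Fin m → ℝ)‖ ≤ 1 / 4) (γ : Path x x₀) :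
      Conn x₀ (inB φ g c x) (inB φ g c x₀) (mk (γ.map (continuous_inB g c)))

/-- classes represented by far paths -/
def FarCl (φ : C → C(S m, Z)) (x y : GAtt G φ) (κ : PQ x y) : Prop :=
  ∃ γ : Path x y, mk γ = κ ∧ ∀ s, γ s ∈ far φ

theorem FarCl.trans {x y z : GAtt G φ} {a : PQ x y} {b : PQ y z} (ha : FarCl φ x y a)
    (hb : FarCl φ y z b) : FarCl φ x z (a.trans b) := by
  obtain ⟨γ, rfl, h1⟩ := ha
  obtain ⟨γ', rfl, h2⟩ := hb
  refine ⟨γ.trans γ', mk_trans _ _, fun s => ?_⟩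
  rw [Path.trans_apply]
  split_ifs
  · exact h1 _
  · exact h2 _

/-- a connecting path inside the near part of a cell -/
theorem Conn.cases_near {x₀ : B m} (h0 : 1 / 4 < ‖(x₀ : Fin m → ℝ)‖) {g : G} {c : C}
    {x x' : GAtt G φ} {δ : PQ x x'} (h : Conn x₀ x x' δ) (hx : x ∈ near φ g c) :
    ∃ (a a' : B m) (hxa : x = inB φ g c a) (hxa' : x' = inB φ g c a') (ρ : Path a a'),
      1 / 4 < ‖(a' : Fin m → ℝ)‖ ∧ δ = (mk (ρ.map (continuous_inB g c))).cast hxa hxa' := by
  cases h with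
  | refl _ hp =>
    obtain ⟨a, ha, rfl⟩ := hx
    refine ⟨a, a, rfl, rfl, Path.refl a, inB_mem_far.1 hp, ?_⟩
    rw [cast_rfl_rfl]
    rfl
  | cell g' c' y hy γ =>
    obtain ⟨a, ha, hX⟩ := hx
    obtain ⟨rfl, rfl, rfl⟩ := inB_inj.1 hX
    exact ⟨a, x₀, rfl, rfl, γ, h0, (cast_rfl_rfl _).symm⟩

/-- a connecting path at a far point is constant -/
theorem Conn.cases_far {x₀ : B m} {x x' : GAtt G φ} {δ : PQ x x'} (h : Conn x₀ x x' δ)
    (hx : x ∈ far φ) :
    ∃ e : x' = x, δ = (Path.Homotopic.Quotient.refl x).cast rfl e := by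
  cases h with
  | refl _ hp => exact ⟨rfl, (cast_rfl_rfl _).symm⟩
  | cell g' c' y hy γ => exact absurd (inB_mem_far.1 hx) (not_lt.2 hy)

/-- every path between far points is homotopic to a far path -/
theorem farCl (hm : 2 ≤ m) {x y : GAtt G φ} (hx : x ∈ far φ) (hy : y ∈ far φ) (γ : Path x y) :
    FarCl φ x y (mk γ) := by
  -- the auxiliary point
  have hm0 : 0 < m := by omega
  let x₀ : B m := ⟨fun _ => 3 / 8, by
    rw [mem_ball_zero_iff, pi_norm_lt_iff one_pos]
    intro _; rw [Real.norm_of_nonneg (by norm_num)]; norm_num⟩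
  have h0 : 1 / 4 < ‖(x₀ : Fin m → ℝ)‖ := by
    have h1 := norm_le_pi_norm (x₀ : Fin m → ℝ) ⟨0, hm0⟩
    have h2 : ‖(x₀ : Fin m → ℝ) ⟨0, hm0⟩‖ = 3 / 8 := by
      show ‖(3 / 8 : ℝ)‖ = _
      rw [Real.norm_of_nonneg (by norm_num)]
    rw [h2] at h1
    linarith
  have key := gen (W := GAtt G φ) (ι := Option (G × C))
    (fun i => i.elim (far φ) (fun p => near φ p.1 p.2))
    (by
      rintro (_ | ⟨g, c⟩)
      · exact isOpen_far
      · exact isOpen_near g c)
    (by
      intro p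
      induction p using GAtt.cases' with
      | hZ z => exact ⟨none, inZ_mem_far z⟩
      | hB g c x =>
        by_cases h : 1 / 4 < ‖(x : Fin m → ℝ)‖
        · exact ⟨none, inB_mem_far.2 h⟩
        · refine ⟨some (g, c), x, ?_, rfl⟩
          show ‖(x : Fin m → ℝ)‖ < 1 / 2
          linarith [not_lt.1 h])
    (fun p q δ => Conn x₀ p q δ)
    (by
      intro p
      induction p using GAtt.cases' with
      | hZ z => exact ⟨_, _, Conn.refl _ (inZ_mem_far z)⟩
      | hB g c x =>
        by_cases h : 1 / 4 < ‖(x : Fin m → ℝ)‖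
        · exact ⟨_, _, Conn.refl _ (inB_mem_far.2 h)⟩
        · exact ⟨_, _, Conn.cell g c x (not_lt.1 h) (PathConnectedSpace.somePath x x₀)⟩)
    (FarCl φ) (fun _ _ _ _ _ => FarCl.trans)
    (by
      rintro (_ | ⟨g, c⟩) x y γ hγ x' y' δ ε hδ hε
      · -- far piece
        have hx : x ∈ far φ := by rw [← γ.source]; exact hγ 0
        have hy : y ∈ far φ := by rw [← γ.target]; exact hγ 1
        obtain ⟨rfl, rfl⟩ := hδ.cases_far hx
        obtain ⟨rfl, rfl⟩ := hε.cases_far hy
        refine ⟨γ, ?_, hγ⟩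
        simp only [cast_rfl_rfl, trans_refl]
        have : (Path.Homotopic.Quotient.refl x').symm = Path.Homotopic.Quotient.refl x' := by
          rw [← mk_refl, ← mk_symm, Path.refl_symm]
        rw [this, refl_trans]
      · -- near piece
        have hx : x ∈ near φ g c := by rw [← γ.source]; exact hγ 0
        have hy : y ∈ near φ g c := by rw [← γ.target]; exact hγ 1
        obtain ⟨a, a', rfl, rfl, ρ, ha', rfl⟩ := hδ.cases_near h0 hx
        obtain ⟨b, b', rfl, rfl, ρ', hb', rfl⟩ := hε.cases_near h0 hy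
        obtain ⟨γ', rfl⟩ := lift_path (isOpenEmbedding_inB (φ := φ) g c).isEmbedding γ (fun s => by
          obtain ⟨u, -, hu⟩ := hγ s
          exact ⟨u, hu⟩)
        obtain ⟨η, hη⟩ := annulus hm a' b' ha' hb'
        refine ⟨η.map (continuous_inB g c), ?_, fun s => inB_mem_far.2 (hη s)⟩
        rw [cast_rfl_rfl, cast_rfl_rfl]
        have h1 : (mk η : PQ a' b') = (mk ρ).symm.trans ((mk γ').trans (mk ρ')) :=
          Subsingleton.elim _ _
        have h2 := congrArg (fun κ : PQ a' b' => κ.map ⟨_, continuous_inB (φ := φ) g c⟩) h1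
        have e1 : mk (η.map (continuous_inB (φ := φ) g c)) =
          (mk η : PQ a' b').map ⟨_, continuous_inB (φ := φ) g c⟩ := rfl
        rw [e1, h2]
        have e2 : (mk ρ).symm.trans ((mk γ').trans (mk ρ')) =
          mk (ρ.symm.trans (γ'.trans ρ')) := rfl
        rw [e2]
        show mk ((ρ.symm.trans (γ'.trans ρ')).map (continuous_inB (φ := φ) g c)) = _
        rw [Path.map_trans, Path.map_trans]
        rfl)
    γ (Path.Homotopic.Quotient.refl x) (Path.Homotopic.Quotient.refl y) (Conn.refl _ hx) (Conn.refl _ hy)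
  have : (Path.Homotopic.Quotient.refl x).symm = Path.Homotopic.Quotient.refl x := by
    rw [← mk_refl, ← mk_symm, Path.refl_symm]
  rw [this, refl_trans, trans_refl] at key
  exact key

theorem push_aux {z z' : Z} (γ₁ γR : Path (inZ φ z : GAtt G φ) (inZ φ z'))
    (hR : ∀ s, γR s = Hf (γ₁ s, 1)) : γ₁.Homotopic γR := by
  refine ⟨⟨⟨⟨fun p => Hf (γ₁ p.2, p.1), ?_⟩, ?_, ?_⟩, ?_⟩⟩
  · exact continuous_Hf.comp ((γ₁.continuous.comp continuous_snd).prodMk continuous_fst)
  · intro s
    exact Hf_zero _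
  · intro s
    exact (hR s).symm
  · intro t s hs
    rcases hs with rfl | hs
    · show Hf (γ₁ 0, t) = γ₁ 0
      rw [γ₁.source]; rfl
    · rw [mem_singleton_iff] at hs
      subst hs
      show Hf (γ₁ 1, t) = γ₁ 1
      rw [γ₁.target]; rfl

/-- **pushing**: every path between points of `Z` is homotopic to a path of `Z` -/
theorem push (hm : 2 ≤ m) [ContinuousConstSMul G Z] {z z' : Z}
    (γ : Path (inZ φ z : GAtt G φ) (inZ φ z')) :
    ∃ γ₀ : Path z z', (γ₀.map continuous_inZ).Homotopic γ := by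
  obtain ⟨γ₁, h1, h2⟩ := farCl hm (inZ_mem_far z) (inZ_mem_far z') γ
  let γR : Path (inZ φ z : GAtt G φ) (inZ φ z') :=
    ⟨⟨fun s => Hf (γ₁ s, 1), continuous_Hf.comp (γ₁.continuous.prodMk continuous_const)⟩, by
      show Hf (γ₁ 0, 1) = _
      rw [γ₁.source]; rfl, by
      show Hf (γ₁ 1, 1) = _
      rw [γ₁.target]; rfl⟩
  have hR : ∀ s, γR s ∈ range (inZ φ : Z → GAtt G φ) := fun s => exists_Rm (h2 s)
  obtain ⟨γ₀, hγ₀⟩ := lift_path (isClosedEmbedding_inZ (φ := φ) (G := G)).isEmbedding γR hR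
  refine ⟨γ₀, ?_⟩
  rw [hγ₀]
  exact (push_aux γ₁ γR fun s => rfl).symm.trans (Path.Homotopic.Quotient.eq.1 h1)

/-- every point is joined to a point of `Z` -/
theorem joined_inZ (hm : 1 ≤ m) (p : GAtt G φ) : ∃ z : Z, Joined p (inZ φ z) := by
  induction p using GAtt.cases' with
  | hZ z => exact ⟨z, Joined.refl _⟩
  | hB g c x =>
    let y : S m := ⟨fun _ => 1, by
      rw [mem_sphere_zero_iff_norm]
      haveI : Nonempty (Fin m) := ⟨⟨0, hm⟩⟩
      rw [pi_norm_const, norm_one]⟩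
    refine ⟨g • φ c y, ?_⟩
    have h : Joined (bd m x) (sd m y) := PathConnectedSpace.joined _ _
    have h2 := h.map (continuous_chr (φ := φ) g c)
    rwa [chr_bd, chr_sd] at h2

theorem pathConnected (hm : 1 ≤ m) [PathConnectedSpace Z] : PathConnectedSpace (GAtt G φ) := by
  obtain ⟨z₀⟩ := PathConnectedSpace.nonempty (X := Z)
  refine ⟨⟨inZ φ z₀⟩, fun x y => ?_⟩
  obtain ⟨z, hz⟩ := joined_inZ hm x
  obtain ⟨z', hz'⟩ := joined_inZ hm y
  exact hz.trans (((PathConnectedSpace.joined z z').map continuous_inZ).trans hz'.symm)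

/-- **simple connectivity criterion**: it is enough to kill the loops of `Z` at one point -/
theorem sc_att (hm : 2 ≤ m) [ContinuousConstSMul G Z] [PathConnectedSpace Z] (z₀ : Z)
    (h : ∀ γ : Path z₀ z₀, (γ.map (continuous_inZ (φ := φ) (G := G))).Homotopic
      (Path.refl (inZ φ z₀))) : SimplyConnectedSpace (GAtt G φ) := by
  haveI := pathConnected (φ := φ) (G := G) (by omega : 1 ≤ m)
  rw [simply_connected_iff_loops_nullhomotopic]
  refine ⟨inferInstance, fun x γ => ?_⟩
  let δ : Path (inZ φ z₀) x := PathConnectedSpace.somePath _ _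
  obtain ⟨γ₀, hγ₀⟩ := push hm (δ.trans (γ.trans δ.symm))
  have h1 := (Path.Homotopic.Quotient.eq.2 hγ₀).symm.trans (Path.Homotopic.Quotient.eq.2 (h γ₀))
  rw [mk_trans, mk_trans, mk_symm, mk_refl] at h1
  rw [← Path.Homotopic.Quotient.eq, mk_refl]
  calc (mk γ) = (mk δ).symm.trans (((mk δ).trans ((mk γ).trans (mk δ).symm)).trans (mk δ)) := by
        simp only [trans_assoc, symm_trans, trans_refl]
        rw [← trans_assoc, symm_trans, refl_trans]
    _ = Path.Homotopic.Quotient.refl x := by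
        rw [h1, refl_trans, symm_trans]

/-- attaching cells of dimension at least two preserves simple connectivity -/
theorem sc_of_sc (hm : 2 ≤ m) [ContinuousConstSMul G Z] [SimplyConnectedSpace Z] :
    SimplyConnectedSpace (GAtt G φ) := by
  obtain ⟨z₀⟩ := PathConnectedSpace.nonempty (X := Z)
  exact sc_att hm z₀ fun γ => (SimplyConnectedSpace.paths_homotopic γ (Path.refl z₀)).map
    ⟨_, continuous_inZ⟩

end

end Crest.Agent.R251.SC
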