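import Crest.Agent.R251.Wl19b
import Crest.Agent.R251.Cay337
import Crest.Agent.R251.SC796P

/-! # Row 251: the Cayley complex and the 3-complex are simply connected -/

set_option autoImplicit false

open Set Metric Topology unitInterval
open Crest.Agent.R185.Att Crest.Agent.R185.Base

namespace Crest.Agent.R251.SC19
open Crest.Agent.R251.Mod Crest.Agent.R251.Wl
open Crest.Agent.R251

/-- general form -/
theorem simplyConnected_Z3 {G : Type} [Group G] {ι : Type} (gen : ι → G) {κ : Type}
    (wd : κ → List (ι × Bool)) (hwd : ∀ j, val gen (wd j) = 1)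
    (hgen : ∀ g : G, ∃ l, val gen l = g)
    (hker : ∀ l, val gen l = 1 →
      FreeGroup.mk l ∈ Subgroup.normalClosure (Set.range fun k => FreeGroup.mk (wd k))) :
    SimplyConnectedSpace (Z3 gen wd hwd) := by
  have := Cay.pathConnected_of_generate gen hgen
  refine SC.sc_att (φ := φ2 gen wd hwd) le_rfl (v gen 1) fun γ => ?_
  obtain ⟨l, e, hl⟩ := Cay.exists_wloop gen γ
  exact (hl.map ⟨_, continuous_inZ⟩).trans (wloop_null gen wd hwd l e (hker l e))

instance pathConnected_EE1 : PathConnectedSpace EE1 :=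
  Cay.pathConnected_of_generate gn fun g => by
    obtain ⟨x, rfl⟩ := PresentedGroup.mk_surjective _ g
    obtain ⟨l, rfl⟩ := exists_mk x
    exact ⟨l, val_gn l⟩

instance simplyConnected_EE2 : SimplyConnectedSpace EE2 :=
  simplyConnected_Z3 gn wdd hwdd (fun g => by
    obtain ⟨x, rfl⟩ := PresentedGroup.mk_surjective _ g
    obtain ⟨l, rfl⟩ := exists_mk x
    exact ⟨l, val_gn l⟩) mk_mem_nc_of_val

instance simplyConnected_EE3 (f : C(S 3, EE2)) : SimplyConnectedSpace (EE3 f) :=
  SC.sc_of_sc (φ := φ3 f) (by norm_num)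

end Crest.Agent.R251.SC19
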