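import Crest.Agent.R251.Fin711c
import Crest.Agent.R251.YJ971c

/-!
R251 (helper711), block K3, fourth part: the `Y`-side plugged in; what is left is the sphere.
-/

set_option autoImplicit false

open CategoryTheory
open Crest.GeometryTopology.DeckCochains

namespace Crest.Agent.R251.Fin

open Crest.Agent.R185.Att Crest.Agent.R251.Mod
open Crest.Agent.R251.Alg (GG gc gt mu mu_gc)

/-- S0388 from the sphere `f` and the two vanishing theorems -/
theorem statement_of_sphere (f : C(S 3, EE2))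
    (hv : ∀ n : ℕ, 2 ≤ n → ∀ (M : Type) [AddCommGroup M] [DistribMulAction GG M], HV GG (EE3 f) M n)
    (hvμ : ∀ (ζ : ℂˣ) (hζ : ζ ^ 6 = 1), ζ ^ 3 ≠ 1 → ζ ^ 2 ≠ 1 → HV GG (EE3 f) (Tw (mu ζ hζ)) 1) :
    Statement :=
  statement_of f hv hvμ (Crest.Agent.R251.YJ.ycore ℂ)

end Crest.Agent.R251.Fin
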