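import Crest.Agent.R251.SC19
import Crest.Agent.R251.Ar348B

/-! # Row 251: the joint of the word `U` with the areas (helper348) -/

set_option autoImplicit false

open Set Metric Topology unitInterval
open Crest.Agent.R185.Att Crest.Agent.R185.Base

namespace Crest.Agent.R251.J19
open Crest.Agent.R251.Mod Crest.Agent.R251.Wl
open Crest.Agent.R251

noncomputable section

/-- in a simply connected space every loop bounds a square -/
theorem exists_null {Z E : Type} [TopologicalSpace Z] [TopologicalSpace E] [SimplyConnectedSpace E]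
    (i : C(Z, E)) {z : Z} (γ : Path z z) : ∃ h, Ar.Null i γ h := by
  obtain ⟨H⟩ := SimplyConnectedSpace.paths_homotopic (γ.map i.continuous) (Path.refl (i z))
  refine ⟨⟨fun x => H (projIcc (0 : ℝ) 1 zero_le_one x.2, projIcc (0 : ℝ) 1 zero_le_one x.1), ?_⟩,
    ⟨fun s => ?_, fun t => ?_, fun t => ?_, fun s => ?_⟩⟩
  · have h1 : Continuous fun x : Ar.Pl => projIcc (0 : ℝ) 1 zero_le_one x.2 :=
      continuous_projIcc.comp continuous_snd
    have h2 : Continuous fun x : Ar.Pl => projIcc (0 : ℝ) 1 zero_le_one x.1 :=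
      continuous_projIcc.comp continuous_fst
    exact H.continuous.comp (h1.prodMk h2)
  · show H (projIcc (0 : ℝ) 1 zero_le_one 0, projIcc (0 : ℝ) 1 zero_le_one s) = _
    rw [projIcc_left, projIcc_val]
    exact H.apply_zero s
  · show H (projIcc (0 : ℝ) 1 zero_le_one t, projIcc (0 : ℝ) 1 zero_le_one 0) = _
    rw [projIcc_left]
    exact (H.source _)
  · show H (projIcc (0 : ℝ) 1 zero_le_one t, projIcc (0 : ℝ) 1 zero_le_one 1) = _
    rw [projIcc_right]
    exact (H.target _)
  · show H (projIcc (0 : ℝ) 1 zero_le_one 1, projIcc (0 : ℝ) 1 zero_le_one s) = _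
    rw [projIcc_right]
    exact H.apply_one _

/-- the inclusion `Kr → EE2` -/
def inc : C(Kr, EE2) := ⟨Subtype.val, continuous_subtype_val⟩

theorem range_inc : range inc = Kr := Subtype.range_coe

/-- the loop of the word `U` in `Kr` -/
def gU : Path (iK (v gn 1)) (iK (v gn 1)) := (wloop gn (wdd 1) (hwdd 1)).map iK.continuous

/-- the loop of `U` has a null-homotopy of area zero -/
theorem nz_U : Ar.NZ inc gU :=
  Ar.nz_of_mem_commutator (fun γ => exists_null inc γ) gU U_mem_commutator

/-- the closed `U`-cell -/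
def cU : C(D 2, EE2) := cell2 gn wdd hwdd 1 1

theorem cU_sd (t : I) : cU (sd 2 (cr t)) = inc (gU t) := by
  show cell2 gn wdd hwdd 1 1 (sd 2 (cr t)) = _
  rw [cell2_sd, one_smul, circ_cr]
  rfl

end

end Crest.Agent.R251.J19
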