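import Crest.Agent.R251.HB830D
import Crest.Agent.R251.Joint19
import Crest.Agent.R251.Ar348C

/-!
# Row 251 (S0388): the Lemma-B input of K1 / K2 in the notation of Ar348C (helper686)

For every value `m` on the `U`-cell there is an equivariant 2-cocycle on `EE2` which vanishes on all
simplices in `Kr` (Cayley graph and closed `r`-cells) and whose area on the closed `U`-cell is `m`.
-/

set_option autoImplicit false
set_option linter.unusedSectionVars false

open Set Metric Topology unitInterval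
open Crest.Agent.R185.Att Crest.Agent.R185.Base
open Crest.GeometryTopology.DeckCochains
open Crest.Agent.R197 (OrbSep)

namespace Crest.Agent.R251.JB
open Crest.Agent.R251.Mod
open Crest.Agent.R251
open Crest.Agent.R251.Alg (GG)

noncomputable section

section sep

variable (G : Type) [Group G] {ι κ : Type} (gen : ι → G) (wd : κ → List (ι × Bool))
  (hwd : ∀ j, val gen (wd j) = 1)

theorem orbSep_Z1 : OrbSep G (Z1 G) := orbSep (fun z => z.elim)
theorem orbSep_Z2 : OrbSep G (Z2 gen) := orbSep (orbSep_Z1 G)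
theorem orbSep_Z3 : OrbSep G (Z3 gen wd hwd) := orbSep (orbSep_Z2 G gen)

instance t2_Z1 : T2Space (Z1 G) := t2_of_orbSep (orbSep_Z1 G)
instance t2_Z2 : T2Space (Z2 gen) := t2_of_orbSep (orbSep_Z2 G gen)
instance t2_Z3 : T2Space (Z3 gen wd hwd) := t2_of_orbSep (orbSep_Z3 G gen wd hwd)

end sep

section gen

variable {G : Type} [Group G] {ι κ : Type} (gen : ι → G) (wd : κ → List (ι × Bool))
  (hwd : ∀ j, val gen (wd j) = 1)

/-- points of open cells of types outside `J` are not in `Sk J` -/
theorem inB_notMem_Sk {J : Set κ} {g : G} {j : κ} (hj : j ∉ J) (y : B 2) :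
    (inB (φ2 gen wd hwd) g j y : Z3 gen wd hwd) ∉ Sk gen wd hwd J := by
  rintro (⟨z, hz⟩ | h)
  · exact inZ_ne_inB hz
  · obtain ⟨h, j', hj', x, hx⟩ : ∃ h : G, ∃ j' : κ, j' ∈ J ∧ ∃ x,
        cell2 gen wd hwd h j' x = inB (φ2 gen wd hwd) g j y := by
      simpa only [mem_iUnion, mem_range, exists_prop] using h
    change chr (φ2 gen wd hwd) h j' x = _ at hx
    induction x using D.cases' with
    | hB x =>
      rw [chr_bd] at hx
      rw [(inB_inj.1 hx).2.1] at hj'
      exact hj hj'
    | hS x =>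
      rw [chr_sd] at hx
      exact inZ_ne_inB hx

/-- **Lemma B for the Cayley complex**, in the notation of Ar348C: `b` on the 2-cells, zero on the
simplices in `Sk J` as soon as `b = 0` on `J` -/
theorem exists_cocycle (M : Type) [AddCommGroup M] [DistribMulAction G M] (b : κ → M) :
    ∃ u : SingSimplex (Z3 gen wd hwd) 2 → M, Pr.EqC G u ∧ cochainCobdry u = 0 ∧
      (∀ (J : Set κ), (∀ j ∈ J, b j = 0) → ∀ s : SingSimplex (Z3 gen wd hwd) 2,
        (∀ x, Pr.us s x ∈ Sk gen wd hwd J) → u s = 0) ∧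
      ∀ (g : G) (j : κ), Ar.area u ((cell2 gen wd hwd g j).comp LBg.sq) = g • b j := by
  obtain ⟨u, h1, h2, h3, h4⟩ := HB.lemmaB_gatt (G := G) (φ2 gen wd hwd) b
  refine ⟨u, h1, h2, fun J hJ s hs => h3 s fun x g c y hc hx => ?_, fun g j => h4 g j⟩
  have h5 := hs x
  rw [hx] at h5
  exact inB_notMem_Sk gen wd hwd (fun hcJ => hc (hJ c hcJ)) y h5

end gen

/-- **input of K1 / K2**: for every `m` an equivariant 2-cocycle on `EE2`, admissible for `Kr`, of
area `m` on the closed `U`-cell `cU` -/
theorem exists_adm (M : Type) [AddCommGroup M] [DistribMulAction GG M] (m : M) :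
    ∃ u : SingSimplex EE2 2 → M, Pr.EqC GG u ∧ cochainCobdry u = 0 ∧ Ar.AdmS J19.inc u ∧
      Ar.area u (J19.cU.comp LBg.sq) = m := by
  obtain ⟨u, h1, h2, h3, h4⟩ := exists_cocycle gn wdd hwdd M ![0, m]
  refine ⟨u, h1, h2, ⟨h2, fun s hs => ?_⟩, ?_⟩
  · refine h3 {0} ?_ _ fun x => ?_
    · rintro j rfl
      rfl
    · rw [Pr.us_sx]
      have := hs x
      rw [J19.range_inc] at this
      exact this
  · have := h4 1 1
    rw [one_smul] at this
    exact this

end

end Crest.Agent.R251.JB
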