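import Crest.Agent.R251.S3_416

/-!
# R251: (s0) vanishing of the cohomology of the spheres `S m` in degrees `≥ m`

* `van0_succ_of_cover` : Mayer-Vietoris, plain form.
* `van0_S : 1 ≤ m → m ≤ n + 1 → Van0 (S m) M n`.
-/

set_option autoImplicit false
set_option linter.unusedSectionVars false

open CategoryTheory Simplicial Opposite Set Metric Topology
open scoped unitInterval
open Crest.GeometryTopology.DeckCochains
open Crest.Agent.R251.Pr (Dl sx us face sx_surj face_sx us_sx sx_us push pull cobdry_pull)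
open Crest.Agent.R251.Orb (Van0 van0_contractible SIn HVi incl sin_push_incl pull_incl_eq_iff pull_ext0
  ext0 us_injective)

namespace Crest.Agent.R251.L3

section gen

variable {X : Type} [TopologicalSpace X] {M : Type} [AddCommGroup M]

/-- partial primitives on an open set with vanishing cohomology -/
theorem exists_prim {A : Set X} {n : ℕ} (vA : Van0 A M n) (φ : SingSimplex X (n + 1) → M)
    (hc : ∀ s, SIn A s → cochainCobdry φ s = 0) :
    ∃ a : SingSimplex X n → M, ∀ s, SIn A s → cochainCobdry a s = φ s := by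
  obtain ⟨a', ha'⟩ := vA (pull (incl A) φ) (by
    rw [cobdry_pull]
    exact (pull_incl_eq_iff (φ' := (0 : SingSimplex X (n + 2) → M))).2 hc)
  refine ⟨ext0 a', ?_⟩
  rw [← pull_incl_eq_iff, ← cobdry_pull, pull_ext0, ha']

/-- Mayer-Vietoris vanishing -/
theorem van0_succ_of_cover {A B : Set X} (hA : IsOpen A) (hB : IsOpen B) (hAB : A ∪ B = univ)
    {n : ℕ} (vA : Van0 A M (n + 1)) (vB : Van0 B M (n + 1))
    (vAB : Van0 (A ∩ B : Set X) M n) : Van0 X M (n + 1) := by
  classical
  intro φ hc
  obtain ⟨a, ha⟩ := exists_prim vA φ (fun s _ => by rw [hc]; rfl)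
  obtain ⟨b, hb⟩ := exists_prim vB φ (fun s _ => by rw [hc]; rfl)
  obtain ⟨η, hη⟩ := exists_prim vAB (a - b) (fun s hs => by
    have h1 : SIn A s := hs.mono inter_subset_left
    have h2 : SIn B s := hs.mono inter_subset_right
    rw [Coh.cobdry_sub, Pi.sub_apply, ha s h1, hb s h2, sub_self])
  let ψ : SingSimplex X (n + 1) → M := fun s => if SIn A s then a s else b s + cochainCobdry η s
  have hψA : ∀ s : SingSimplex X (n + 1), SIn A s → ψ s = a s := fun s h => if_pos h
  have hψB : ∀ s : SingSimplex X (n + 1), SIn B s → ψ s = (b + cochainCobdry η) s := fun s h => by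
    by_cases h' : SIn A s
    · rw [hψA s h', Pi.add_apply, hη s (SIn.inter h' h), Pi.sub_apply]; abel
    · exact if_neg h'
  obtain ⟨χ, h1, -, -⟩ := sv X A B hA hB hAB M (n + 1) (φ - cochainCobdry ψ)
    (by rw [Coh.cobdry_sub, hc, Coh.cobdry_cobdry, sub_zero])
    (by
      rintro s (h | h)
      · have hs : SIn A s := h
        rw [Pi.sub_apply, Coh.cobdry_congr (fun i => hψA _ (hs.face i)), ha s hs, sub_self]
      · have hs : SIn B s := h
        rw [Pi.sub_apply, Coh.cobdry_congr (fun i => hψB _ (hs.face i)), Coh.cobdry_add,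
          Pi.add_apply, Coh.cobdry_cobdry, hb s hs, Pi.zero_apply, add_zero, sub_self])
  exact ⟨ψ + χ, by rw [Coh.cobdry_add, h1]; abel⟩

end gen

section sphere

open Crest.Agent.R185.Att Crest.Agent.R185.Base

variable {M : Type} [AddCommGroup M]

theorem band_mem (k : ℕ) (p : Ioo (-1/2 : ℝ) (1/2) × S k) :
    band k p ∈ cap k 1 ∩ cap k (-1) := by
  rw [← range_band]; exact ⟨p, rfl⟩

/-- the projection of the band to the smaller sphere -/
noncomputable def bandPr (k : ℕ) : C((cap k 1 ∩ cap k (-1) : Set (S (k + 1))), S k) where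
  toFun x := ⟨Fin.tail ((x : S (k + 1)) : Fin (k + 1) → ℝ), by
    have h : (x : S (k + 1)) ∈ range (band k) := by rw [range_band]; exact x.2
    obtain ⟨p, hp⟩ := h
    rw [← hp]
    show Fin.tail (Fin.cons (p.1 : ℝ) (p.2 : Fin k → ℝ) : Fin (k + 1) → ℝ) ∈ _
    rw [Fin.tail_cons]
    exact p.2.2⟩
  continuous_toFun := by
    refine Continuous.subtype_mk (continuous_pi fun j => ?_) _
    exact (continuous_apply j.succ).comp (continuous_subtype_val.comp continuous_subtype_val)

/-- the equator -/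
noncomputable def bandIn (k : ℕ) : C(S k, (cap k 1 ∩ cap k (-1) : Set (S (k + 1)))) where
  toFun y := ⟨band k (⟨0, by norm_num⟩, y), band_mem k _⟩
  continuous_toFun := by
    refine Continuous.subtype_mk ((continuous_band k).comp (Continuous.prodMk ?_ ?_)) _
    · exact continuous_const
    · exact continuous_id

/-- the deformation of the band onto the equator -/
noncomputable def bandH (k : ℕ) :
    C(I × (cap k 1 ∩ cap k (-1) : Set (S (k + 1))), (cap k 1 ∩ cap k (-1) : Set (S (k + 1)))) where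
  toFun p := ⟨band k (⟨(1 - (p.1 : ℝ)) * ((p.2 : S (k + 1)) : Fin (k + 1) → ℝ) 0, by
      have h1 : (-1/2 : ℝ) < 1 * ((p.2 : S (k + 1)) : Fin (k + 1) → ℝ) 0 := p.2.2.1
      have h2 : (-1/2 : ℝ) < -1 * ((p.2 : S (k + 1)) : Fin (k + 1) → ℝ) 0 := p.2.2.2
      have h3 := p.1.2.1
      have h4 := p.1.2.2
      have h5 : abs (((p.2 : S (k + 1)) : Fin (k + 1) → ℝ) 0) < 1/2 := by
        rw [abs_lt]; constructor <;> linarith
      have h6 : abs ((1 - (p.1 : ℝ)) * ((p.2 : S (k + 1)) : Fin (k + 1) → ℝ) 0) < 1/2 := by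
        rw [abs_mul, abs_of_nonneg (by linarith : (0 : ℝ) ≤ 1 - (p.1 : ℝ))]
        exact lt_of_le_of_lt (mul_le_of_le_one_left (abs_nonneg _) (by linarith)) h5
      rw [abs_lt] at h6
      constructor <;> linarith [h6.1, h6.2]⟩, bandPr k p.2), band_mem k _⟩
  continuous_toFun := by
    refine Continuous.subtype_mk ((continuous_band k).comp (Continuous.prodMk ?_ ?_)) _
    · refine Continuous.subtype_mk ?_ _
      exact (continuous_const.sub (continuous_subtype_val.comp continuous_fst)).mul
        ((continuous_apply 0).comp (continuous_subtype_val.comp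
          (continuous_subtype_val.comp continuous_snd)))
    · exact (bandPr k).continuous.comp continuous_snd

/-- the band is homotopy equivalent to the smaller sphere -/
noncomputable def bandEquiv (k : ℕ) :
    ContinuousMap.HomotopyEquiv (cap k 1 ∩ cap k (-1) : Set (S (k + 1))) (S k) where
  toFun := bandPr k
  invFun := bandIn k
  left_inv := by
    refine ⟨ContinuousMap.Homotopy.symm ⟨bandH k, ?_, ?_⟩⟩
    · intro x
      apply Subtype.ext; apply Subtype.ext
      show (Fin.cons ((1 - ((0 : I) : ℝ)) * ((x : S (k + 1)) : Fin (k + 1) → ℝ) 0)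
        (Fin.tail ((x : S (k + 1)) : Fin (k + 1) → ℝ)) : Fin (k + 1) → ℝ) =
          ((x : S (k + 1)) : Fin (k + 1) → ℝ)
      rw [show ((1 - ((0 : I) : ℝ)) * ((x : S (k + 1)) : Fin (k + 1) → ℝ) 0) =
        ((x : S (k + 1)) : Fin (k + 1) → ℝ) 0 by simp]
      exact Fin.cons_self_tail _
    · intro x
      apply Subtype.ext; apply Subtype.ext
      show (Fin.cons ((1 - ((1 : I) : ℝ)) * ((x : S (k + 1)) : Fin (k + 1) → ℝ) 0)
        (Fin.tail ((x : S (k + 1)) : Fin (k + 1) → ℝ)) : Fin (k + 1) → ℝ) =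
          (Fin.cons (0 : ℝ) (Fin.tail ((x : S (k + 1)) : Fin (k + 1) → ℝ)) : Fin (k + 1) → ℝ)
      congr 1
      simp
  right_inv := by
    have : (bandPr k).comp (bandIn k) = ContinuousMap.id _ := by
      ext1 y
      apply Subtype.ext
      show Fin.tail (Fin.cons (0 : ℝ) (y : Fin k → ℝ) : Fin (k + 1) → ℝ) = _
      rw [Fin.tail_cons]; rfl
    rw [this]

theorem van0_S_succ {k n : ℕ} (h : Van0 (S k) M n) : Van0 (S (k + 1)) M (n + 1) := by
  have h1 : ContractibleSpace (cap k 1) := contractible_cap k (by simp)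
  have h2 : ContractibleSpace (cap k (-1)) := contractible_cap k (by simp)
  exact van0_succ_of_cover (isOpen_cap k 1) (isOpen_cap k (-1)) (cap_union k)
    (van0_contractible _) (van0_contractible _) (Orb.Van0.of_equiv h (bandEquiv k))

theorem S1_coord (x : S 1) : (x : Fin 1 → ℝ) 0 = 1 ∨ (x : Fin 1 → ℝ) 0 = -1 := by
  have h : ‖(x : Fin 1 → ℝ)‖ = 1 := x.norm_eq
  have h1 : (x : Fin 1 → ℝ) = fun _ => (x : Fin 1 → ℝ) 0 := by
    funext i; rw [Subsingleton.elim i 0]
  rw [h1, pi_norm_const, Real.norm_eq_abs] at h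
  exact eq_or_eq_neg_of_abs_eq h

theorem van0_S1 (n : ℕ) : Van0 (S 1) M n := by
  have hf : Finite (S 1) := by
    refine Finite.of_injective (fun x : S 1 => decide (0 < (x : Fin 1 → ℝ) 0)) ?_
    intro x y h
    have h' : (0 < (x : Fin 1 → ℝ) 0) ↔ (0 < (y : Fin 1 → ℝ) 0) := by simpa using h
    apply Subtype.ext
    funext i
    rw [Subsingleton.elim i 0]
    rcases S1_coord x with hx | hx <;> rcases S1_coord y with hy | hy <;> rw [hx, hy] at h' ⊢ <;>
      norm_num at h'
  have hd : DiscreteTopology (S 1) := Finite.instDiscreteTopology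
  refine Orb.van0_of_const fun m τ => ?_
  have hc : ConnectedSpace (Dl m) := inferInstanceAs (ConnectedSpace (Orb.Dn m))
  have hx := fun t t' => PreconnectedSpace.constant (α := Dl m) inferInstance τ.continuous (x := t) (y := t')
  exact ⟨τ (stdSimplex.vertex 0), ContinuousMap.ext fun t => hx t _⟩

/-- **(s0)** -/
theorem van0_S {m n : ℕ} (hm : 1 ≤ m) (hmn : m ≤ n + 1) : Van0 (S m) M n := by
  obtain ⟨k, rfl⟩ := Nat.exists_eq_add_of_le' hm
  clear hm
  induction k generalizing n with
  | zero => exact van0_S1 n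
  | succ k ih =>
    obtain ⟨n', rfl⟩ : ∃ n', n = n' + 1 := ⟨n - 1, by omega⟩
    exact van0_S_succ (ih (by omega))

end sphere

end Crest.Agent.R251.L3
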