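import Crest.Agent.R251.Kr337c
import Crest.Agent.R251.Mod19c
import Crest.Agent.R251.Sph416

/-!
# R251 (helper391): K1 in high degrees

`HV` of the Cayley complex in degrees `≥ 3` and of the 3-complex in degrees `≥ 4`.
-/

set_option autoImplicit false

open Crest.Agent.R185.Att Crest.Agent.R251.Mod
open Crest.Agent.R251.Alg (GG)
open Crest.Agent.R251.Pr (HV)
open Crest.Agent.R251.Orb (Van0)

namespace Crest.Agent.R251.K1a

section gen

variable {G : Type} [Group G] {ι : Type} (gen : ι → G) {κ : Type} (wd : κ → List (ι × Bool))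
  (hwd : ∀ j, val gen (wd j) = 1) {M : Type} [AddCommGroup M] [DistribMulAction G M]

/-- the Cayley complex has no cohomology above degree 2 (any presentation) -/
theorem hv_Z3 (n : ℕ) (hn : 2 ≤ n) : HV G (Z3 gen wd hwd) n M := by
  obtain ⟨k, rfl⟩ : ∃ k, n = k + 1 := ⟨n - 1, by omega⟩
  exact Orb.L1 (Kr.hv_Z2 gen k) (L3.van0_S (by omega) (by omega))

/-- the 3-complex has no cohomology above degree 3 (any attaching map) -/
theorem hv_Z4 (f : C(S 3, Z3 gen wd hwd)) (n : ℕ) (hn : 3 ≤ n) : HV G (Z4 f) n M := by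
  obtain ⟨k, rfl⟩ : ∃ k, n = k + 1 := ⟨n - 1, by omega⟩
  exact Orb.L1 (hv_Z3 gen wd hwd (k + 1) (by omega)) (L3.van0_S (by omega) (by omega))

end gen

variable {M : Type} [AddCommGroup M] [DistribMulAction GG M]

/-- `H^{n+1}(EE2; M) = 0` for `n ≥ 2` -/
theorem hv_EE2 (n : ℕ) (hn : 2 ≤ n) : HV GG EE2 n M := hv_Z3 gn wdd hwdd n hn

/-- `H^{n+1}(EE3 f; M) = 0` for `n ≥ 3` -/
theorem hv_ge (f : C(S 3, EE2)) (n : ℕ) (hn : 3 ≤ n) : HV GG (EE3 f) n M :=
  hv_Z4 gn wdd hwdd f n hn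

end Crest.Agent.R251.K1a
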