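import Crest.Agent.R251.L679
import Crest.Agent.R251.Ar348C
import Crest.Agent.R251.Kr34a
import Crest.Agent.R251.S3_416

/-!
# R251 (S0388), block K1 (helper34): attaching one free orbit of 3-cells along a sphere
`f = top ∪ bot` : `H^3_G = 0`.
-/

set_option autoImplicit false
set_option linter.unusedSectionVars false

open CategoryTheory Simplicial Opposite Set Topology
open scoped unitInterval
open Crest.GeometryTopology.DeckCochains
open Crest.Agent.R185.Att Crest.Agent.R185.Base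
open Crest.Agent.R251.PC Crest.Agent.R251.DR
open Crest.Agent.R251.Mod (crI)
open Crest.Agent.R251.Pr (EqC HV us pull pull_apply cobdry_pull sx_surj)
open Crest.Agent.R251.Orb (Van0 SIn L2 incl ext0 pull_incl_eq_iff pull_ext0 van0_contractible us_injective)
open Crest.Agent.R251.Ar (cp)

namespace Crest.Agent.R251.KH34

noncomputable section

/-- the equator of `S 3` -/
def eq3 : C(I, S 3) where
  toFun t := ⟨Fin.cons (0 : ℝ) (crI t : Fin 2 → ℝ), by
    rw [mem_sphere_zero_iff_norm]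
    apply le_antisymm
    · exact (norm_cons_le (0 : ℝ) (crI t : Fin 2 → ℝ)).2 ⟨by simp, (crI t).norm_eq.le⟩
    · by_contra h
      have h2 := ((norm_cons_lt (0 : ℝ) (crI t : Fin 2 → ℝ)).1 (not_le.1 h)).2
      rw [(crI t).norm_eq] at h2
      exact lt_irrefl _ h2⟩
  continuous_toFun := by
    refine Continuous.subtype_mk (continuous_pi fun i => ?_) _
    refine Fin.cases ?_ (fun j => ?_) i
    · exact continuous_const
    · exact (continuous_apply j).comp (continuous_subtype_val.comp crI.continuous)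

/-- the tail `S 3 → D 2` -/
def tlc : C(S 3, D 2) := (tl 2).comp (sd 3)

theorem tlc_eq3 : tlc.comp eq3 = cp := by
  ext1 t
  apply Subtype.ext
  show Fin.tail (Fin.cons (0 : ℝ) (crI t : Fin 2 → ℝ) : Fin 3 → ℝ) = _
  rw [Fin.tail_cons]
  rfl

/-- the upper cap -/
def capA : Set (S 3) := setOf fun x : S 3 => -1 / 2 < (x : Fin 3 → ℝ) 0

/-- the lower cap -/
def capB : Set (S 3) := setOf fun x : S 3 => (x : Fin 3 → ℝ) 0 < 1 / 2

/-- detect3 (the form of #13798) -/
def Det3 (M : Type) [AddCommGroup M] : Prop :=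
  ∀ κ : SingSimplex (S 3) 2 → M, cochainCobdry κ = 0 → ∀ βA βB : SingSimplex (S 3) 1 → M,
    (∀ s, SIn capA s → cochainCobdry βA s = κ s) →
    (∀ s, SIn capB s → cochainCobdry βB s = κ s) →
    βA (ps eq3) = βB (ps eq3) → ∃ θ, cochainCobdry θ = κ

section
variable {M : Type} [AddCommGroup M]

theorem exists_prim {X : Type} [TopologicalSpace X] (A : Set X) [ContractibleSpace A] {n : ℕ}
    (κ : SingSimplex X (n + 1) → M) (hκ : cochainCobdry κ = 0) :
    ∃ β : SingSimplex X n → M, ∀ s, SIn A s → cochainCobdry β s = κ s := by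
  obtain ⟨b, hb⟩ := van0_contractible (F := A) n (pull (incl A) κ) (by rw [cobdry_pull, hκ]; rfl)
  refine ⟨ext0 b, ?_⟩
  rw [← pull_incl_eq_iff, ← cobdry_pull, pull_ext0, hb]

theorem exists_betas (κ : SingSimplex (S 3) 2 → M) (hκ : cochainCobdry κ = 0) :
    ∃ βA βB : SingSimplex (S 3) 1 → M,
      (∀ s, SIn capA s → cochainCobdry βA s = κ s) ∧
      (∀ s, SIn capB s → cochainCobdry βB s = κ s) := by
  haveI h1 : ContractibleSpace (L3.cap 2 1) := L3.contractible_cap 2 (by simp)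
  haveI h2 : ContractibleSpace (L3.cap 2 (-1)) := L3.contractible_cap 2 (by simp)
  obtain ⟨βA, hA⟩ := exists_prim (L3.cap 2 1) κ hκ
  obtain ⟨βB, hB⟩ := exists_prim (L3.cap 2 (-1)) κ hκ
  refine ⟨βA, βB, fun s hs => hA s (hs.mono ?_), fun s hs => hB s (hs.mono ?_)⟩
  · intro x hx
    show -1 / 2 < 1 * (x : Fin 3 → ℝ) 0
    rw [one_mul]; exact hx
  · intro x hx
    show -1 / 2 < -1 * (x : Fin 3 → ℝ) 0
    have : (x : Fin 3 → ℝ) 0 < 1 / 2 := hx
    linarith

instance : ContractibleSpace (D 2) :=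
  (convex_closedBall (0 : Fin 2 → ℝ) 1).contractibleSpace ⟨0, by simp⟩

end

variable {G : Type} [Group G] {Z : Type} [TopologicalSpace Z] [MulAction G Z]
  [ContinuousConstSMul G Z] {M : Type} [AddCommGroup M] [DistribMulAction G M]

theorem pull_congr_on {X : Type} [TopologicalSpace X] {Y : Type} [TopologicalSpace Y] {n : ℕ}
    {A : Set X} {f g : C(X, Y)} (h : ∀ x ∈ A, f x = g x) (u : SingSimplex Y n → M)
    {s : SingSimplex X n} (hs : SIn A s) : pull f u s = pull g u s := by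
  rw [pull_apply, pull_apply]
  congr 1
  apply us_injective
  rw [Pr.us_push, Pr.us_push]
  ext1 t
  exact h _ (hs t)

theorem hv2_of (f : C(S 3, Z)) (top bot : C(D 2, Z))
    (hA : ∀ x : S 3, -1 < (x : Fin 3 → ℝ) 0 → f x = top (tlc x))
    (hB : ∀ x : S 3, (x : Fin 3 → ℝ) 0 < 1 → f x = bot (tlc x))
    (hu : ∀ b : M, ∃ u : SingSimplex Z 2 → M, EqC G u ∧ cochainCobdry u = 0 ∧
      (∀ α : SingSimplex (D 2) 1 → M, cochainCobdry α = pull top u → α (ps cp) = b) ∧
      ∀ β : SingSimplex (D 2) 1 → M, cochainCobdry β = pull bot u → β (ps cp) = 0)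
    (hdet : Det3 M) (hZ : HV G Z 2 M) : HV G (GAtt G (fun _ : Unit => f)) 2 M := by
  refine L2 hZ fun κ hκ => ?_
  obtain ⟨βA, βB, h1, h2⟩ := exists_betas (κ ()) (hκ ())
  obtain ⟨u, hE, hc, hα, hβ⟩ := hu (βA (ps eq3) - βB (ps eq3))
  obtain ⟨α, hα1⟩ := van0_contractible (F := D 2) 1 (pull top u) (by rw [cobdry_pull, hc]; rfl)
  obtain ⟨β, hβ1⟩ := van0_contractible (F := D 2) 1 (pull bot u) (by rw [cobdry_pull, hc]; rfl)
  refine ⟨u, hE, hc, fun _ => hdet _ ?_ (βA - pull tlc α) (βB - pull tlc β) ?_ ?_ ?_⟩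
  · rw [Pr.cobdry_sub, hκ, cobdry_pull, hc]
    show (0 : SingSimplex (S 3) 3 → M) - 0 = 0
    exact sub_zero _
  · intro s hs
    rw [Pr.cobdry_sub, Pi.sub_apply, Pi.sub_apply, h1 s hs, cobdry_pull, hα1, Pr.pull_pull]
    congr 1
    exact pull_congr_on (fun x hx => (hA x (lt_trans (by norm_num) hx)).symm) u hs
  · intro s hs
    rw [Pr.cobdry_sub, Pi.sub_apply, Pi.sub_apply, h2 s hs, cobdry_pull, hβ1, Pr.pull_pull]
    congr 1
    exact pull_congr_on (fun x hx => (hB x (lt_trans hx (by norm_num))).symm) u hs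
  · have e1 : pull tlc α (ps eq3) = βA (ps eq3) - βB (ps eq3) := by
      rw [← hα α hα1, ← tlc_eq3]; rfl
    have e2 : pull tlc β (ps eq3) = 0 := by
      rw [← hβ β hβ1, ← tlc_eq3]; rfl
    rw [Pi.sub_apply, Pi.sub_apply, e1, e2]
    abel

end

end Crest.Agent.R251.KH34
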