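import Crest.Agent.R251.Fin711d
import Crest.Agent.R251.Coh539C
import Crest.Agent.R251.KH34
import Crest.Agent.R251.K1a391
import Crest.Agent.R251.JB686
import Crest.Agent.R251.Ar348E
import Crest.Agent.R251.Det679
import Crest.Agent.R251.Joint19b

/-!
R251 (helper711), block K3, last part: S0388.
-/

set_option autoImplicit false

open CategoryTheory
open Crest.GeometryTopology.DeckCochains

namespace Crest.Agent.R251.Fin

open Crest.Agent.R185.Att Crest.Agent.R251.Mod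
open Crest.Agent.R251.Alg (GG gc gt mu mu_gc)

theorem det3 (M : Type) [AddCommGroup M] : Crest.Agent.R251.KH34.Det3 M := by
  intro κ hκ βA βB hA hB h0
  have heq : Crest.Agent.R251.Orb.eq3 = Crest.Agent.R251.KH34.eq3 := by
    ext1 t
    rfl
  refine Crest.Agent.R251.Orb.detect3 κ hκ βA βB (fun s hs => hA s ?_) (fun s hs => hB s ?_)
    (by rw [heq]; exact h0)
  · intro x
    have h1 := hs x
    have h2 : (-(1 / 2 : ℝ)) = -1 / 2 := by norm_num
    rw [h2] at h1
    exact h1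
  · intro x
    exact hs x

theorem hv_sphere (h2 : C(D 2, EE2)) (f : C(S 3, EE2))
    (hA : ∀ x : S 3, -1 < (x : Fin 3 → ℝ) 0 → f x = Crest.Agent.R251.J19.cU (Crest.Agent.R251.J19.tl3 x))
    (hB : ∀ x : S 3, (x : Fin 3 → ℝ) 0 < 1 → f x = h2 (Crest.Agent.R251.J19.tl3 x))
    (hz : ∀ (M : Type) [AddCommGroup M] (u : SingSimplex EE2 2 → M),
      Crest.Agent.R251.Ar.AdmS Crest.Agent.R251.J19.inc u →
      ∀ β : SingSimplex (D 2) 1 → M, cochainCobdry β = Crest.Agent.R251.Pr.pull h2 u →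
        β (Crest.Agent.R251.PC.ps Crest.Agent.R251.Ar.cp) = 0)
    (n : ℕ) (hn : 2 ≤ n) (M : Type) [AddCommGroup M] [DistribMulAction GG M] :
    HV GG (EE3 f) M n := by
  rcases Nat.lt_or_ge n 3 with h | h
  · obtain rfl : n = 2 := by omega
    refine hv_iff_pr.2 (Crest.Agent.R251.KH34.hv2_of f Crest.Agent.R251.J19.cU h2 hA hB (fun b => ?_)
      (det3 M) (Crest.Agent.R251.K1a.hv_EE2 2 le_rfl))
    obtain ⟨u, hu1, hu2, hu3, hu4⟩ := Crest.Agent.R251.JB.exists_adm M b
    refine ⟨u, hu1, hu2, fun α hα => ?_, fun β hβ => hz M u hu3 β hβ⟩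
    rw [← hu4]
    refine Crest.Agent.R251.Ar.cell_per (fun t => ?_) hu3 hα (fun x => rfl)
    exact ⟨_, (Crest.Agent.R251.J19.cU_sd t).symm⟩
  · exact hv_iff_pr.2 (Crest.Agent.R251.K1a.hv_ge f n h)

theorem statement : Statement := by
  obtain ⟨h2, f, hA, hB, hz⟩ := Crest.Agent.R251.J19.exists_sphere
  exact statement_of_sphere f (fun n hn M _ _ => hv_sphere h2 f hA hB hz n hn M)
    (fun ζ hζ h3 h2' => Crest.Agent.R251.Coh.hvmu h2 f hA hB hz ζ hζ h3 h2')

end Crest.Agent.R251.Fin
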