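import Crest.Agent.R251.CS577C
import Crest.Agent.R251.CZ470c

/-! Row 251, LINE B, block (f2): adjacency, signs and connectedness of the two spheres
(helper613). -/

set_option autoImplicit false

namespace Crest.Agent.R251.H3B

open Crest.Agent.R251.CS

/-! ### tables -/

/-- the neighbour of side `i` of face `f`: face, side, is the end reversed? -/
def s2L : List (List (ℕ × ℕ × Bool)) :=
  [[(5, 0, false), (5, 1, false), (5, 2, false), (1, 0, true), (1, 5, true), (1, 4, true)],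
   [(0, 3, true), (2, 0, false), (2, 1, false), (2, 2, false), (0, 5, true), (0, 4, true)],
   [(1, 1, false), (1, 2, false), (1, 3, false), (3, 2, false), (3, 3, false), (3, 4, false)],
   [(4, 4, true), (4, 3, true), (2, 3, false), (2, 4, false), (2, 5, false), (4, 5, true)],
   [(5, 3, false), (5, 4, false), (5, 5, false), (3, 1, true), (3, 0, true), (3, 5, true)],
   [(0, 0, false), (0, 1, false), (0, 2, false), (4, 0, false), (4, 1, false), (4, 2, false)],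
   [(7, 5, true), (7, 4, true), (8, 5, true), (8, 4, true), (9, 5, true), (9, 4, true)],
   [(9, 3, true), (10, 4, false), (10, 5, false), (8, 0, true), (6, 1, true), (6, 0, true)],
   [(7, 3, true), (10, 0, false), (11, 5, false), (9, 0, true), (6, 3, true), (6, 2, true)],
   [(8, 3, true), (11, 0, false), (11, 1, false), (7, 0, true), (6, 5, true), (6, 4, true)],
   [(8, 1, false), (12, 0, false), (12, 1, false), (12, 2, false), (7, 1, false), (7, 2, false)],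
   [(9, 1, false), (9, 2, false), (12, 3, false), (12, 4, false), (12, 5, false), (8, 2, false)],
   [(10, 1, false), (10, 2, false), (10, 3, false), (11, 2, false), (11, 3, false), (11, 4, false)]]

/-- the edges `(start, end)` of the two spheres -/
def edT : List (ℕ × ℕ) :=
  [(0, 2), (0, 4), (0, 8), (1, 6), (1, 10), (1, 12), (2, 3), (3, 1),
   (4, 5), (5, 1), (6, 7), (7, 0), (8, 9), (9, 1), (10, 11), (11, 0),
   (12, 13), (13, 0), (14, 15), (14, 20), (15, 16), (16, 17), (16, 22), (17, 18),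
   (18, 19), (18, 24), (19, 14), (20, 21), (20, 28), (21, 22), (22, 23), (23, 24),
   (23, 26), (24, 25), (25, 20), (26, 27), (27, 20), (28, 29), (29, 23)]

/-- the two sides of faces on every edge -/
def prT : List ((ℕ × ℕ) × (ℕ × ℕ)) :=
  [((0, 0), (5, 0)), ((0, 5), (1, 4)), ((2, 3), (3, 2)), ((1, 1), (2, 0)), ((3, 5), (4, 5)),
   ((4, 0), (5, 3)), ((0, 1), (5, 1)), ((0, 2), (5, 2)), ((0, 4), (1, 5)), ((0, 3), (1, 0)),
   ((1, 2), (2, 1)), ((1, 3), (2, 2)), ((2, 4), (3, 3)), ((2, 5), (3, 4)), ((3, 0), (4, 4)),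
   ((3, 1), (4, 3)), ((4, 1), (5, 4)), ((4, 2), (5, 5)), ((6, 0), (7, 5)), ((7, 0), (9, 3)),
   ((6, 1), (7, 4)), ((6, 2), (8, 5)), ((7, 3), (8, 0)), ((6, 3), (8, 4)), ((6, 4), (9, 5)),
   ((8, 3), (9, 0)), ((6, 5), (9, 4)), ((7, 1), (10, 4)), ((11, 2), (12, 3)), ((7, 2), (10, 5)),
   ((8, 1), (10, 0)), ((8, 2), (11, 5)), ((10, 1), (12, 0)), ((9, 1), (11, 0)), ((9, 2), (11, 1)),
   ((10, 2), (12, 1)), ((10, 3), (12, 2)), ((11, 3), (12, 4)), ((11, 4), (12, 5))]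

/-- which adjacency leads to the root -/
def parL : List ℕ :=
  [3, 0, 1, 0, 1, 0, 1, 1, 0, 1, 0, 1, 2, 2, 1, 1, 0, 1, 0, 1, 2, 2, 2, 2,
   2, 2, 2, 2, 2, 2, 1, 0, 1, 0, 1, 1, 2, 2, 2, 2, 2, 2, 2, 2, 2, 2, 2, 2,
   2, 2, 2, 2, 2, 2, 1, 0, 1, 0, 1, 1, 2, 2, 2, 2, 2, 2, 1, 1, 0, 1, 0, 1,
   3, 0, 1, 0, 1, 0, 1, 1, 0, 1, 0, 1, 1, 0, 1, 0, 1, 1, 0, 1, 2, 2, 2, 2,
   1, 0, 1, 0, 1, 1, 0, 1, 2, 2, 2, 2, 1, 0, 1, 1, 0, 1, 0, 1, 2, 2, 2, 2,
   2, 2, 1, 1, 0, 1, 0, 1, 2, 2, 2, 2, 2, 2, 2, 2, 1, 0, 1, 0, 1, 1, 2, 2,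
   2, 2, 2, 2, 2, 2, 2, 2, 2, 2, 2, 2]

/-- distance to the root -/
def depL : List ℕ :=
  [0, 1, 2, 3, 4, 5, 6, 5, 4, 3, 2, 1, 6, 7, 8, 7, 6, 5, 4, 3, 2, 3, 4, 5,
   9, 8, 7, 6, 5, 4, 5, 6, 7, 8, 9, 10, 8, 7, 6, 5, 6, 7, 8, 9, 10, 11, 10, 9,
   8, 7, 6, 5, 4, 3, 4, 5, 6, 7, 8, 9, 1, 2, 3, 4, 5, 6, 7, 6, 5, 4, 3, 2,
   0, 1, 2, 3, 4, 5, 6, 5, 4, 3, 2, 1, 2, 3, 4, 5, 6, 7, 6, 5, 4, 3, 2, 1,
   6, 7, 8, 9, 10, 9, 8, 7, 6, 7, 6, 5, 6, 7, 8, 7, 6, 5, 4, 3, 2, 3, 4, 5,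
   9, 10, 11, 10, 9, 8, 7, 6, 5, 6, 7, 8, 9, 8, 7, 6, 7, 8, 9, 10, 11, 12, 11, 10,
   12, 11, 10, 9, 8, 7, 8, 9, 10, 11, 12, 13]

/-- signs of the faces -/
def sgL : List Bool :=
  [true, true, false, true, true, false, true, true, true, true, false, false, true]

/-! ### adjacencies -/

/-- change of the end -/
def s0 (C : Cham) : Cham := (C.1, C.2.1, !C.2.2)
/-- change of the side, same face, same corner -/
def s1 (C : Cham) : Cham := if C.2.2 then (C.1, C.2.1 + 1, false) else (C.1, C.2.1 - 1, true)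
/-- entry of the neighbour table -/
def s2q (C : Cham) : ℕ × ℕ × Bool := (s2L.getD C.1.1 []).getD C.2.1.1 (0, 0, false)
/-- change of the face, same edge of the sphere, same end -/
def s2 (C : Cham) : Cham :=
  (Fin.ofNat 13 (s2q C).1, Fin.ofNat 6 (s2q C).2.1, xor (s2q C).2.2 C.2.2)

/-- the three adjacencies -/
def adj (k : Fin 3) (C : Cham) : Cham := if k = 0 then s0 C else if k = 1 then s1 C else s2 C

/-- the sign of a chamber -/
def o (C : Cham) : ℤ := if xor (sgL.getD C.1.1 true) C.2.2 then 1 else -1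

/-- number of a chamber -/
def num (C : Cham) : ℕ := C.1.1 * 12 + C.2.1.1 * 2 + C.2.2.toNat
/-- distance to the root -/
def dep (C : Cham) : ℕ := depL.getD (num C) 0
/-- the adjacency leading to the root -/
def par (C : Cham) : Fin 3 := Fin.ofNat 3 (parL.getD (num C) 0)
/-- the root -/
def root (k : ℕ) : Cham := if k = 0 then (0, 0, false) else (6, 0, false)

set_option maxRecDepth 100000 in
theorem par_dep : ∀ C : Cham, C = root (c3 C.1) ∨ dep (adj (par C) C) < dep C := by decide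

set_option maxRecDepth 100000 in
theorem o_adj : ∀ C : Cham, o (s0 C) = - o C ∧ o (s1 C) = - o C ∧ o (s2 C) = - o C := by decide

set_option maxRecDepth 100000 in
theorem c3_adj : ∀ C : Cham, c3 (s0 C).1 = c3 C.1 ∧ c3 (s1 C).1 = c3 C.1 ∧
    c3 (s2 C).1 = c3 C.1 := by decide

set_option maxRecDepth 100000 in
theorem adj_invol : ∀ C : Cham, s0 (s0 C) = C ∧ s1 (s1 C) = C ∧ s2 (s2 C) = C := by decide

set_option maxRecDepth 100000 in
theorem key_s2 : ∀ C : Cham, vs (s2 C) = vs C ∧ ve (s2 C) = ve C ∧ eb (s2 C) = eb C := by decide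

set_option maxRecDepth 100000 in
theorem pair_s2 : ∀ C : Cham,
    ((C.1.1, C.2.1.1) = (prT.getD (edT.idxOf (vs C, ve C)) ((0, 0), (0, 0))).1 ∧
      ((s2 C).1.1, (s2 C).2.1.1) = (prT.getD (edT.idxOf (vs C, ve C)) ((0, 0), (0, 0))).2) ∨
    ((C.1.1, C.2.1.1) = (prT.getD (edT.idxOf (vs C, ve C)) ((0, 0), (0, 0))).2 ∧
      ((s2 C).1.1, (s2 C).2.1.1) = (prT.getD (edT.idxOf (vs C, ve C)) ((0, 0), (0, 0))).1) := by
  decide

end Crest.Agent.R251.H3B
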