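import Crest.Agent.R251.H3T613

/-! Row 251, LINE B, block (g): `H³ = 0` in typed form, all coefficients (helper613). -/

set_option autoImplicit false

namespace Crest.Agent.R251.H3B

open Crest.Agent.R251.CS Crest.Agent.R251.CZ
open Finset

/-! ### classes of chambers with the same 3-element face -/

theorem cham_ext {C C' : Cham} (h1 : C.1.1 = C'.1.1) (h2 : C.2.1.1 = C'.2.1.1)
    (h3 : C.2.2 = C'.2.2) : C = C' := by
  obtain ⟨f, i, b⟩ := C
  obtain ⟨f', i', b'⟩ := C'
  obtain rfl : f = f' := Fin.ext h1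
  obtain rfl : i = i' := Fin.ext h2
  obtain rfl : b = b' := h3
  rfl

theorem cls0 {C C' : Cham} (h : XS.fc (univ.erase 0) C = XS.fc (univ.erase 0) C') :
    C' = C ∨ C' = s0 C := by
  have h1 := fc_eq_iff.1 h {1, 2, 3} (by decide) (by decide)
  have h2 : C.1.1 = C'.1.1 := congrArg Prod.fst h1
  have h3 : C.2.1.1 = C'.2.1.1 := congrArg (fun q => q.2.1) h1
  by_cases h4 : C.2.2 = C'.2.2
  · exact Or.inl (cham_ext h2 h3 h4).symm
  · refine Or.inr (cham_ext h2.symm h3.symm ?_)
    show C'.2.2 = !C.2.2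
    revert h4
    cases C.2.2 <;> cases C'.2.2 <;> simp

theorem cls1 {C C' : Cham} (h : XS.fc (univ.erase 1) C = XS.fc (univ.erase 1) C') :
    C' = C ∨ C' = s1 C := by
  have h1 := fc_eq_iff.1 h {0, 2, 3} (by decide) (by decide)
  have h2 : C.1.1 = C'.1.1 := congrArg Prod.fst h1
  have h3 : (crn C).1 = (crn C').1 := congrArg (fun q => q.2.1) h1
  obtain ⟨f, i, b⟩ := C
  obtain ⟨f', i', b'⟩ := C'
  obtain rfl : f = f' := Fin.ext h2
  have h4 : crn (f, i, b) = crn (f, i', b') := Fin.ext h3
  have key : ∀ (i i' : Fin 6) (b b' : Bool),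
      (if b = true then i + 1 else i) = (if b' = true then i' + 1 else i') →
      (i', b') = (i, b) ∨ (i', b') = (if b = true then (i + 1, false) else (i - 1, true)) := by
    decide
  have h5 := key i i' b b' h4
  unfold s1
  rcases h5 with h5 | h5
  · left
    simp only [Prod.mk.injEq] at h5
    rw [h5.1, h5.2]
  · right
    cases b
    · simpa using h5
    · simpa using h5

/-- a chamber is determined by its face, its side and the end of its edge -/
theorem eq_of_eb {C C' : Cham} (h1 : (C.1.1, C.2.1.1) = (C'.1.1, C'.2.1.1)) (h : eb C = eb C') :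
    C = C' := by
  obtain ⟨f, i, b⟩ := C
  obtain ⟨f', i', b'⟩ := C'
  simp only [Prod.mk.injEq] at h1
  obtain rfl : f = f' := Fin.ext h1.1
  obtain rfl : i = i' := Fin.ext h1.2
  unfold eb at h
  by_cases hd : dir (c2 f) i = true
  · simp only [hd, if_true] at h
    rw [h]
  · simp only [hd] at h
    have : b = b' := by
      revert h
      cases b <;> cases b' <;> simp
    rw [this]

theorem cls2 {C C' : Cham} (h : XS.fc (univ.erase 2) C = XS.fc (univ.erase 2) C') :
    C' = C ∨ C' = s2 C := by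
  have h1 := fc_eq_iff.1 h {0, 1, 3} (by decide) (by decide)
  have h2 : vs C = vs C' := congrArg Prod.fst h1
  have h3 : ve C = ve C' := congrArg (fun q => q.2.1) h1
  have h4 : (eb C).toNat = (eb C').toNat := congrArg (fun q => q.2.2) h1
  have h5 : eb C = eb C' := by
    revert h4
    cases eb C <;> cases eb C' <;> simp
  have h6 := pair_s2 C
  have h7 := pair_s2 C'
  rw [← h2, ← h3] at h7
  have h8 := (key_s2 C).2.2
  rcases h6 with ⟨a1, a2⟩ | ⟨a1, a2⟩ <;> rcases h7 with ⟨b1, b2⟩ | ⟨b1, b2⟩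
  · exact Or.inl (eq_of_eb (b1.trans a1.symm) h5.symm)
  · exact Or.inr (eq_of_eb (b1.trans a2.symm) (h5.symm.trans h8.symm))
  · exact Or.inr (eq_of_eb (b1.trans a2.symm) (h5.symm.trans h8.symm))
  · exact Or.inl (eq_of_eb (b1.trans a1.symm) h5.symm)

/-- the type omitted by the `k`-th adjacency -/
def tp (k : Fin 3) : Fin 4 := k.castSucc

theorem cls (k : Fin 3) {C C' : Cham}
    (h : XS.fc (univ.erase (tp k)) C = XS.fc (univ.erase (tp k)) C') : C' = C ∨ C' = adj k C := by
  fin_cases k
  · exact cls0 h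
  · exact cls1 h
  · exact cls2 h

theorem adj_adj (k : Fin 3) (C : Cham) : adj k (adj k C) = C := by
  fin_cases k
  · exact (adj_invol C).1
  · exact (adj_invol C).2.1
  · exact (adj_invol C).2.2

theorem o_adj' (k : Fin 3) (C : Cham) : o (adj k C) = - o C := by
  fin_cases k
  · exact (o_adj C).1
  · exact (o_adj C).2.1
  · exact (o_adj C).2.2

theorem c3_adj' (k : Fin 3) (C : Cham) : c3 (adj k C).1 = c3 C.1 := by
  fin_cases k
  · exact (c3_adj C).1
  · exact (c3_adj C).2.1
  · exact (c3_adj C).2.2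

/-! ### functions of 3-element faces -/

variable {M : Type} [AddCommGroup M]

/-- functions of the faces of type `univ.erase i` -/
def Inv (i : Fin 4) (f : Cham → M) : Prop :=
  ∀ C C' : Cham, XS.fc (univ.erase i) C = XS.fc (univ.erase i) C' → f C = f C'

/-- sums of functions of the faces of types `univ.erase k`, `k = 0, 1, 2` -/
def NN (M : Type) [AddCommGroup M] : AddSubgroup (Cham → M) where
  carrier := {φ | ∃ f : Fin 3 → Cham → M, (∀ k, Inv (tp k) (f k)) ∧ φ = ∑ k, f k}
  zero_mem' := ⟨fun _ => 0, fun _ _ _ _ => rfl, by simp⟩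
  add_mem' := by
    rintro a b ⟨f, hf, rfl⟩ ⟨g, hg, rfl⟩
    refine ⟨f + g, fun k C C' h => ?_, ?_⟩
    · show f k C + g k C = f k C' + g k C'
      rw [hf k C C' h, hg k C C' h]
    · rw [← sum_add_distrib]; rfl
  neg_mem' := by
    rintro a ⟨f, hf, rfl⟩
    refine ⟨-f, fun k C C' h => ?_, ?_⟩
    · show -f k C = -f k C'
      rw [hf k C C' h]
    · rw [← sum_neg_distrib]; rfl

theorem adj_mem (k : Fin 3) (C : Cham) (m : M) :
    (Pi.single C m + Pi.single (adj k C) m : Cham → M) ∈ NN M := by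
  refine ⟨fun l => if l = k then Pi.single C m + Pi.single (adj k C) m else 0, ?_, ?_⟩
  · intro l
    by_cases hl : l = k
    · subst hl
      show Inv (tp l) (if l = l then (Pi.single C m + Pi.single (adj l C) m : Cham → M) else 0)
      rw [if_pos rfl]
      intro D D' h
      have h1 := cls l h
      rcases h1 with rfl | rfl
      · rfl
      · have hne : ∀ D : Cham, adj l D ≠ D := by
          intro D hD
          have := o_adj' l D
          rw [hD] at this
          have h2 : o D = 0 := by linarith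
          unfold o at h2
          split_ifs at h2; all_goals omega
        have e1 : ∀ D : Cham, (adj l D = C) = (D = adj l C) := by
          intro D
          refine propext ⟨fun h => ?_, fun h => ?_⟩
          · rw [← h, adj_adj]
          · rw [h, adj_adj]
        simp only [Pi.add_apply, Pi.single_apply]
        have e2 : (adj l D = adj l C) = (D = C) := by
          refine propext ⟨fun h => ?_, fun h => by rw [h]⟩
          have := congrArg (adj l) h
          rwa [adj_adj, adj_adj] at this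
        rw [if_congr (Iff.of_eq (e1 D)) rfl rfl, if_congr (Iff.of_eq e2) rfl rfl, add_comm]
    · show Inv (tp l) (if l = k then (Pi.single C m + Pi.single (adj k C) m : Cham → M) else 0)
      rw [if_neg hl]
      intro _ _ _
      rfl
  · rw [sum_ite_eq']
    simp

theorem single_root (n : ℕ) : ∀ (C : Cham), dep C < n → ∀ m : M,
    (Pi.single C m - Pi.single (root (c3 C.1)) ((o C * o (root (c3 C.1))) • m) : Cham → M) ∈
      NN M := by
  induction n with
  | zero => intro C h; omega
  | succ n ih =>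
    intro C hC m
    rcases par_dep C with h | h
    · rw [← h]
      have : o C * o C = 1 := by
        unfold o; split_ifs <;> norm_num
      rw [this, one_smul, sub_self]
      exact (NN M).zero_mem
    · have h1 := ih (adj (par C) C) (by omega) m
      rw [c3_adj', o_adj'] at h1
      have h2 := adj_mem (par C) C m
      have h3 := (NN M).sub_mem h2 h1
      convert h3 using 1
      rw [neg_mul, neg_smul, Pi.single_neg]
      abel

/-- the signed sum over a sphere -/
def sg2 (k : ℕ) (φ : Cham → M) : M := ∑ C : Cham, if c3 C.1 = k then o C • φ C else 0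

theorem c3_cases (f : Fin 13) : c3 f = 0 ∨ c3 f = 1 := by
  unfold c3; split_ifs <;> simp

theorem mem_NN {φ : Cham → M} (h0 : sg2 0 φ = 0) (h1 : sg2 1 φ = 0) : φ ∈ NN M := by
  have e1 : φ = ∑ C : Cham, (Pi.single C (φ C) : Cham → M) := by
    funext D
    rw [Finset.sum_apply]
    simp [Pi.single_apply]
  have e2 : ∑ C : Cham, (Pi.single (root (c3 C.1)) ((o C * o (root (c3 C.1))) • φ C) :
      Cham → M) = 0 := by
    have e3 : ∀ C : Cham, (Pi.single (root (c3 C.1)) ((o C * o (root (c3 C.1))) • φ C) :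
        Cham → M) =
        Pi.single (root 0) (if c3 C.1 = 0 then o C • φ C else 0) +
        Pi.single (root 1) (if c3 C.1 = 1 then o C • φ C else 0) := by
      intro C
      rcases c3_cases C.1 with h | h
      · have : o (root 0) = 1 := by decide
        simp [h, this]
      · have : o (root 1) = 1 := by decide
        simp [h, this]
    rw [sum_congr rfl fun C _ => e3 C, sum_add_distrib]
    have e4 : ∀ (r : Cham) (g : Cham → M), ∑ C : Cham, (Pi.single r (g C) : Cham → M) =
        Pi.single r (∑ C, g C) := by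
      intro r g
      exact (map_sum (AddMonoidHom.single (fun _ : Cham => M) r) g univ).symm
    rw [e4, e4]
    show (Pi.single (root 0) (sg2 0 φ) + Pi.single (root 1) (sg2 1 φ) : Cham → M) = 0
    rw [h0, h1]
    simp
  have e5 : φ = ∑ C : Cham, (Pi.single C (φ C) -
      Pi.single (root (c3 C.1)) ((o C * o (root (c3 C.1))) • φ C) : Cham → M) := by
    rw [sum_sub_distrib, e2, sub_zero]
    exact e1
  rw [e5]
  exact (NN M).sum_mem fun C _ => single_root (dep C + 1) C (Nat.lt_succ_self _) _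

/-! ### the algebra -/

/-- the two equations, abstractly -/
theorem solve (N P T : M →+ M) (hPP : ∀ v, P (P v) = P v + P v)
    (hNN : ∀ v, N (N v) = N v + N v + N v) (hNP : ∀ v, N (P v) = P (N v)) (a b : M) :
    ∃ m1 m2 mR mS : M, m1 - N m2 - a = P (mR - m2) ∧ -(T (P m1)) - m2 - b = N (mS - T m1) := by
  obtain ⟨a', ha'⟩ : ∃ a', a' = a - N b := ⟨_, rfl⟩
  obtain ⟨w, hw⟩ : ∃ w, w = T (P a') := ⟨_, rfl⟩
  obtain ⟨A, hA⟩ : ∃ A, A = T (P (N w)) := ⟨_, rfl⟩
  refine ⟨a' - N w - N (P w), -w + A + A + A - b - N A,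
    (-w + A + A + A - b - N A) - N w, A + T (a' - N w - N (P w)), ?_, ?_⟩
  · simp only [map_sub, map_add, map_neg, hNN]
    rw [hNP, ha']
    abel
  · have h1 : T (P (a' - N w - N (P w))) = w - A - A - A := by
      simp only [map_sub]
      rw [← hw, ← hA, hNP, hPP, map_add, ← hA]
      abel
    rw [h1]
    have h2 : A + T (a' - N w - N (P w)) - T (a' - N w - N (P w)) = A := by abel
    rw [h2]
    abel

/-! ### the operators -/

set_option linter.unusedSectionVars false

variable [DistribMulAction GB M]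

/-- `1 + x`, `x = c ^ 3` -/
def opP (M : Type) [AddCommGroup M] [DistribMulAction GB M] : M →+ M :=
  AddMonoidHom.id M + DistribSMul.toAddMonoidHom M (gen 0 ^ 3)
/-- `1 + y + y ^ 2`, `y = d ^ 2` -/
def opN (M : Type) [AddCommGroup M] [DistribMulAction GB M] : M →+ M :=
  AddMonoidHom.id M + DistribSMul.toAddMonoidHom M (gen 1 ^ 2) +
    DistribSMul.toAddMonoidHom M (gen 1 ^ 4)
/-- `t` -/
def opT (M : Type) [AddCommGroup M] [DistribMulAction GB M] : M →+ M :=
  DistribSMul.toAddMonoidHom M (gen 2)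

theorem opP_apply (v : M) : opP M v = v + gen 0 ^ 3 • v := rfl
theorem opN_apply (v : M) : opN M v = v + gen 1 ^ 2 • v + gen 1 ^ 4 • v := rfl
theorem opT_apply (v : M) : opT M v = gen 2 • v := rfl

theorem opPP (v : M) : opP M (opP M v) = opP M v + opP M v := by
  simp only [opP_apply, smul_add, smul_smul, ← pow_add]
  rw [show (3 + 3 : ℕ) = 6 from rfl, rel_c, one_smul]
  abel

theorem opNN (v : M) : opN M (opN M v) = opN M v + opN M v + opN M v := by
  simp only [opN_apply, smul_add, smul_smul, ← pow_add]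
  rw [show (2 + 2 : ℕ) = 4 from rfl, show (2 + 4 : ℕ) = 6 from rfl,
    show (4 + 4 : ℕ) = 6 + 2 from rfl, pow_add _ 6 2, rel_d, one_mul, one_smul]
  abel

theorem opNP (v : M) : opN M (opP M v) = opP M (opN M v) := by
  simp only [opN_apply, opP_apply, smul_add, smul_smul, rel_cd, ← pow_add]
  rw [show (2 + 3 : ℕ) = 3 + 2 from rfl, show (4 + 3 : ℕ) = 3 + 4 from rfl]
  abel

theorem t_z (v : M) : (gen 2 * gen 0 ^ 2 : GB) • v = gen 1 ^ 2 • gen 2 • v := by
  rw [rel_t, mul_smul]

theorem t_zz (v : M) : (gen 2 * gen 0 ^ 4 : GB) • v = gen 1 ^ 4 • gen 2 • v := by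
  have : (gen 2 * gen 0 ^ 4 : GB) = gen 1 ^ 4 * gen 2 := by
    rw [show (4 : ℕ) = 2 + 2 from rfl, pow_add, pow_add, ← mul_assoc, rel_t, mul_assoc, rel_t,
      mul_assoc]
  rw [this, mul_smul]

/-! ### the signed sums of a function supported on (side 0, end false) -/

theorem pos_0 : pos (vt 0 0) = 1 := by
  show mon (0, 0, 0) = _
  simp [mon]
theorem pos_1 : pos (vt 1 0) = gen 1 ^ 2 := by
  show mon (0, 0, 2) = _
  simp [mon]
theorem pos_2 : pos (vt 2 0) = gen 0 ^ 3 := by
  show mon (0, 3, 0) = _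
  simp [mon]
theorem pos_3 : pos (vt 3 0) = gen 0 ^ 3 * gen 1 := by
  show mon (0, 3, 1) = _
  simp [mon]
theorem pos_4 : pos (vt 4 0) = gen 0 ^ 3 := by
  show mon (0, 3, 0) = _
  simp [mon]
theorem pos_5 : pos (vt 5 0) = 1 := by
  show mon (0, 0, 0) = _
  simp [mon]
theorem pos_6 : pos (vt 6 0) = 1 := by
  show mon (0, 0, 0) = _
  simp [mon]
theorem pos_7 : pos (vt 7 0) = 1 := by
  show mon (0, 0, 0) = _
  simp [mon]
theorem pos_8 : pos (vt 8 0) = gen 1 ^ 2 := by
  show mon (0, 0, 2) = _
  simp [mon]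
theorem pos_9 : pos (vt 9 0) = gen 1 ^ 4 := by
  show mon (0, 0, 4) = _
  simp [mon]
theorem pos_10 : pos (vt 10 0) = gen 2 * gen 0 ^ 2 := by
  show mon (1, 2, 0) = _
  simp [mon]
theorem pos_11 : pos (vt 11 0) = gen 2 * gen 0 ^ 4 := by
  show mon (1, 4, 0) = _
  simp [mon]
theorem pos_12 : pos (vt 12 0) = gen 2 * gen 0 ^ 3 := by
  show mon (1, 3, 0) = _
  simp [mon]

theorem term_0_0 (m : ℕ → M) : (if c3 0 = 0 then o (0, 0, false) • (pos (vt 0 0) • m (c2 0)) else 0) =
    ((1 : GB) • m 2) := by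
  rw [if_pos (by decide), show o (0, 0, false) = 1 from by decide, pos_0]
  rw [one_smul]; rfl
theorem term_0_1 (m : ℕ → M) : (if c3 1 = 0 then o (1, 0, false) • (pos (vt 1 0) • m (c2 1)) else 0) =
    ((gen 1 ^ 2 : GB) • m 1) := by
  rw [if_pos (by decide), show o (1, 0, false) = 1 from by decide, pos_1]
  rw [one_smul]; rfl
theorem term_0_2 (m : ℕ → M) : (if c3 2 = 0 then o (2, 0, false) • (pos (vt 2 0) • m (c2 2)) else 0) =
    -((gen 0 ^ 3 : GB) • m 1) := by
  rw [if_pos (by decide), show o (2, 0, false) = -1 from by decide, pos_2]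
  rw [neg_smul, one_smul]; rfl
theorem term_0_3 (m : ℕ → M) : (if c3 3 = 0 then o (3, 0, false) • (pos (vt 3 0) • m (c2 3)) else 0) =
    ((gen 0 ^ 3 * gen 1 : GB) • m 1) := by
  rw [if_pos (by decide), show o (3, 0, false) = 1 from by decide, pos_3]
  rw [one_smul]; rfl
theorem term_0_4 (m : ℕ → M) : (if c3 4 = 0 then o (4, 0, false) • (pos (vt 4 0) • m (c2 4)) else 0) =
    ((gen 0 ^ 3 : GB) • m 2) := by
  rw [if_pos (by decide), show o (4, 0, false) = 1 from by decide, pos_4]
  rw [one_smul]; rfl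
theorem term_0_5 (m : ℕ → M) : (if c3 5 = 0 then o (5, 0, false) • (pos (vt 5 0) • m (c2 5)) else 0) =
    -((1 : GB) • m 0) := by
  rw [if_pos (by decide), show o (5, 0, false) = -1 from by decide, pos_5]
  rw [neg_smul, one_smul]; rfl
theorem term_0_6 (m : ℕ → M) : (if c3 6 = 0 then o (6, 0, false) • (pos (vt 6 0) • m (c2 6)) else 0) =
    0 := by
  rw [if_neg (by decide)]
theorem term_0_7 (m : ℕ → M) : (if c3 7 = 0 then o (7, 0, false) • (pos (vt 7 0) • m (c2 7)) else 0) =
    0 := by
  rw [if_neg (by decide)]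
theorem term_0_8 (m : ℕ → M) : (if c3 8 = 0 then o (8, 0, false) • (pos (vt 8 0) • m (c2 8)) else 0) =
    0 := by
  rw [if_neg (by decide)]
theorem term_0_9 (m : ℕ → M) : (if c3 9 = 0 then o (9, 0, false) • (pos (vt 9 0) • m (c2 9)) else 0) =
    0 := by
  rw [if_neg (by decide)]
theorem term_0_10 (m : ℕ → M) : (if c3 10 = 0 then o (10, 0, false) • (pos (vt 10 0) • m (c2 10)) else 0) =
    0 := by
  rw [if_neg (by decide)]
theorem term_0_11 (m : ℕ → M) : (if c3 11 = 0 then o (11, 0, false) • (pos (vt 11 0) • m (c2 11)) else 0) =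
    0 := by
  rw [if_neg (by decide)]
theorem term_0_12 (m : ℕ → M) : (if c3 12 = 0 then o (12, 0, false) • (pos (vt 12 0) • m (c2 12)) else 0) =
    0 := by
  rw [if_neg (by decide)]
theorem term_1_0 (m : ℕ → M) : (if c3 0 = 1 then o (0, 0, false) • (pos (vt 0 0) • m (c2 0)) else 0) =
    0 := by
  rw [if_neg (by decide)]
theorem term_1_1 (m : ℕ → M) : (if c3 1 = 1 then o (1, 0, false) • (pos (vt 1 0) • m (c2 1)) else 0) =
    0 := by
  rw [if_neg (by decide)]
theorem term_1_2 (m : ℕ → M) : (if c3 2 = 1 then o (2, 0, false) • (pos (vt 2 0) • m (c2 2)) else 0) =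
    0 := by
  rw [if_neg (by decide)]
theorem term_1_3 (m : ℕ → M) : (if c3 3 = 1 then o (3, 0, false) • (pos (vt 3 0) • m (c2 3)) else 0) =
    0 := by
  rw [if_neg (by decide)]
theorem term_1_4 (m : ℕ → M) : (if c3 4 = 1 then o (4, 0, false) • (pos (vt 4 0) • m (c2 4)) else 0) =
    0 := by
  rw [if_neg (by decide)]
theorem term_1_5 (m : ℕ → M) : (if c3 5 = 1 then o (5, 0, false) • (pos (vt 5 0) • m (c2 5)) else 0) =
    0 := by
  rw [if_neg (by decide)]
theorem term_1_6 (m : ℕ → M) : (if c3 6 = 1 then o (6, 0, false) • (pos (vt 6 0) • m (c2 6)) else 0) =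
    ((1 : GB) • m 1) := by
  rw [if_pos (by decide), show o (6, 0, false) = 1 from by decide, pos_6]
  rw [one_smul]; rfl
theorem term_1_7 (m : ℕ → M) : (if c3 7 = 1 then o (7, 0, false) • (pos (vt 7 0) • m (c2 7)) else 0) =
    ((1 : GB) • m 3) := by
  rw [if_pos (by decide), show o (7, 0, false) = 1 from by decide, pos_7]
  rw [one_smul]; rfl
theorem term_1_8 (m : ℕ → M) : (if c3 8 = 1 then o (8, 0, false) • (pos (vt 8 0) • m (c2 8)) else 0) =
    ((gen 1 ^ 2 : GB) • m 3) := by
  rw [if_pos (by decide), show o (8, 0, false) = 1 from by decide, pos_8]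
  rw [one_smul]; rfl
theorem term_1_9 (m : ℕ → M) : (if c3 9 = 1 then o (9, 0, false) • (pos (vt 9 0) • m (c2 9)) else 0) =
    ((gen 1 ^ 4 : GB) • m 3) := by
  rw [if_pos (by decide), show o (9, 0, false) = 1 from by decide, pos_9]
  rw [one_smul]; rfl
theorem term_1_10 (m : ℕ → M) : (if c3 10 = 1 then o (10, 0, false) • (pos (vt 10 0) • m (c2 10)) else 0) =
    -((gen 2 * gen 0 ^ 2 : GB) • m 0) := by
  rw [if_pos (by decide), show o (10, 0, false) = -1 from by decide, pos_10]
  rw [neg_smul, one_smul]; rfl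
theorem term_1_11 (m : ℕ → M) : (if c3 11 = 1 then o (11, 0, false) • (pos (vt 11 0) • m (c2 11)) else 0) =
    -((gen 2 * gen 0 ^ 4 : GB) • m 0) := by
  rw [if_pos (by decide), show o (11, 0, false) = -1 from by decide, pos_11]
  rw [neg_smul, one_smul]; rfl
theorem term_1_12 (m : ℕ → M) : (if c3 12 = 1 then o (12, 0, false) • (pos (vt 12 0) • m (c2 12)) else 0) =
    ((gen 2 * gen 0 ^ 3 : GB) • m 0) := by
  rw [if_pos (by decide), show o (12, 0, false) = 1 from by decide, pos_12]
  rw [one_smul]; rfl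

theorem sg2_supp (k : ℕ) (g : Cham → M) (hg : ∀ C : Cham, C.2 ≠ (0, false) → g C = 0) :
    sg2 k g = ∑ f : Fin 13, if c3 f = k then o (f, 0, false) • g (f, 0, false) else 0 := by
  unfold sg2
  rw [Fintype.sum_prod_type]
  refine sum_congr rfl fun f _ => ?_
  rw [sum_eq_single (0, false)]
  · intro q _ hq
    rw [hg (f, q) hq, smul_zero, ite_self]
  · intro h
    exact absurd (mem_univ _) h

theorem univ13 : (univ : Finset (Fin 13)) = {0, 1, 2, 3, 4, 5, 6, 7, 8, 9, 10, 11, 12} := by decide

/-- the function of the cells -/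
def hfun (m : ℕ → M) (C : Cham) : M := if C.2 = (0, false) then m (c2 C.1) else 0

theorem sg2_hfun (k : ℕ) (m : ℕ → M) : sg2 k (fun C => pos (vt C.1 0) • hfun m C) =
    ∑ f : Fin 13, if c3 f = k then o (f, 0, false) • (pos (vt f 0) • m (c2 f)) else 0 := by
  rw [sg2_supp]
  · rfl
  · intro C hC
    unfold hfun
    rw [if_neg hC, smul_zero]

theorem sum13 (F : Fin 13 → M) : ∑ f, F f = F 0 + (F 1 + (F 2 + (F 3 + (F 4 + (F 5 + (F 6 +
    (F 7 + (F 8 + (F 9 + (F 10 + (F 11 + F 12))))))))))) := by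
  rw [univ13]
  rw [sum_insert (by decide), sum_insert (by decide), sum_insert (by decide),
    sum_insert (by decide), sum_insert (by decide), sum_insert (by decide),
    sum_insert (by decide), sum_insert (by decide), sum_insert (by decide),
    sum_insert (by decide), sum_insert (by decide), sum_insert (by decide), sum_singleton]

theorem sg2_zero_hfun (m : ℕ → M) : sg2 0 (fun C => pos (vt C.1 0) • hfun m C) =
    opP M (m 2) + (gen 1 ^ 2 • m 1 + gen 1 ^ 4 • m 1 - gen 0 ^ 3 • m 1) - m 0 := by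
  rw [sg2_hfun, sum13, term_0_0, term_0_1, term_0_2, term_0_3, term_0_4, term_0_5, term_0_6,
    term_0_7, term_0_8, term_0_9, term_0_10, term_0_11, term_0_12, opP_apply]
  have h : (gen 0 ^ 3 * gen 1 : GB) = gen 1 ^ 4 := by rw [rel_cd, ← pow_succ]
  rw [h, one_smul, one_smul]
  abel

theorem sg2_one_hfun (m : ℕ → M) : sg2 1 (fun C => pos (vt C.1 0) • hfun m C) =
    m 1 + opN M (m 3) - (gen 1 ^ 2 • gen 2 • m 0 + gen 1 ^ 4 • gen 2 • m 0) +
      gen 2 • gen 0 ^ 3 • m 0 := by
  rw [sg2_hfun, sum13, term_1_0, term_1_1, term_1_2, term_1_3, term_1_4, term_1_5, term_1_6,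
    term_1_7, term_1_8, term_1_9, term_1_10, term_1_11, term_1_12, opN_apply, t_z, t_zz,
    mul_smul, one_smul, one_smul]
  abel

theorem sg2_add (k : ℕ) (f g : Cham → M) : sg2 k (fun C => f C + g C) = sg2 k f + sg2 k g := by
  unfold sg2
  rw [← sum_add_distrib]
  refine sum_congr rfl fun C _ => ?_
  split_ifs
  · rw [smul_add]
  · rw [add_zero]

/-- every function on the chambers becomes a sum of functions of faces containing type 3 after
adding a function of the chambers of the 2-cells -/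
theorem exists_h (φ : Cham → M) : ∃ m : ℕ → M,
    (fun C => φ C + pos (vt C.1 0) • hfun m C) ∈ NN M := by
  obtain ⟨m1, m2, mR, mS, h1, h2⟩ := solve (opN M) (opP M) (opT M) opPP opNN opNP
    (sg2 0 φ) (sg2 1 φ)
  refine ⟨fun j => if j = 0 then m1 else if j = 1 then m2 else if j = 2 then mR else mS,
    mem_NN ?_ ?_⟩
  · rw [sg2_add, sg2_zero_hfun]
    simp only [if_true, one_ne_zero, if_false, OfNat.ofNat_ne_zero, OfNat.ofNat_ne_one]
    have e : sg2 0 φ = m1 - opN M m2 - opP M (mR - m2) := by rw [← h1]; abel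
    rw [e, map_sub, opN_apply, opP_apply m2]
    abel
  · rw [sg2_add, sg2_one_hfun]
    have e3 : ∀ (p q r s : M), (if (3 : ℕ) = 0 then p else if (3 : ℕ) = 1 then q else
        if (3 : ℕ) = 2 then r else s) = s := fun p q r s => by
      rw [if_neg (by decide), if_neg (by decide), if_neg (by decide)]
    simp only [if_true, one_ne_zero, if_false, e3]
    have e : sg2 1 φ = -(opT M (opP M m1)) - m2 - opN M (mS - opT M m1) := by rw [← h2]; abel
    rw [e, map_sub, opP_apply, opT_apply, opT_apply, opN_apply (gen 2 • m1), smul_add]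
    abel

/-! ### the theorem -/

open Classical in
/-- a function of the faces of type `J` from an invariant function of the chambers -/
noncomputable def liftF (J : Finset (Fin 4)) (f : Cham → M) (α : XS.F J) : M :=
  if h : ∃ C : Cham, XS.fc J C = α then f h.choose else 0

theorem liftF_fc {J : Finset (Fin 4)} {f : Cham → M}
    (hf : ∀ C C' : Cham, XS.fc J C = XS.fc J C' → f C = f C') (C : Cham) :
    liftF J f (XS.fc J C) = f C := by
  have h : ∃ C' : Cham, XS.fc J C' = XS.fc J C := ⟨C, rfl⟩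
  unfold liftF
  rw [dif_pos h]
  exact hf _ _ h.choose_spec

theorem hfun_inv (m : ℕ → M) : Inv 3 (hfun m) := by
  intro C C' h
  have h1 := fc_eq_iff.1 h {0, 1, 2} (by decide) (by decide)
  have h2 : c2 C.1 = c2 C'.1 := congrArg Prod.fst h1
  have h3 : C.2.1.1 = C'.2.1.1 := congrArg (fun q => q.2.1) h1
  have h4 : (C.2.2).toNat = (C'.2.2).toNat := congrArg (fun q => q.2.2) h1
  have h5 : C.2.2 = C'.2.2 := by
    revert h4
    cases C.2.2 <;> cases C'.2.2 <;> simp
  have h6 : C.2 = C'.2 := Prod.ext (Fin.ext h3) h5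
  unfold hfun
  rw [h2, h6]

/-- **block (g)**: typed `H³ = 0` for all coefficients -/
theorem typed2 (M : Type) [AddCommGroup M] [DistribMulAction GB M] : Typed XL M 2 := by
  intro c _
  obtain ⟨m, f, hf, hsum⟩ := exists_h (M := M) (fun C => c univ (XS.fc univ C))
  refine ⟨fun J => if J = univ.erase 0 then liftF J (f 0) else
    if J = univ.erase 1 then liftF J (fun C => -(f 1 C)) else
    if J = univ.erase 2 then liftF J (f 2) else
    if J = univ.erase 3 then liftF J (hfun m) else fun _ => 0, ?_⟩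
  intro J hJ C
  obtain rfl : J = univ := by
    rw [← card_eq_iff_eq_univ, hJ]; rfl
  have n10 : (univ.erase 1 : Finset (Fin 4)) ≠ univ.erase 0 := by decide
  have n20 : (univ.erase 2 : Finset (Fin 4)) ≠ univ.erase 0 := by decide
  have n21 : (univ.erase 2 : Finset (Fin 4)) ≠ univ.erase 1 := by decide
  have n30 : (univ.erase 3 : Finset (Fin 4)) ≠ univ.erase 0 := by decide
  have n31 : (univ.erase 3 : Finset (Fin 4)) ≠ univ.erase 1 := by decide
  have n32 : (univ.erase 3 : Finset (Fin 4)) ≠ univ.erase 2 := by decide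
  rw [Fin.sum_univ_three] at hsum
  have hs : ∀ C : Cham, c univ (XS.fc univ C) + pos (vt C.1 0) • hfun m C =
      f 0 C + f 1 C + f 2 C := fun C => congrFun hsum C
  have l0 : lab (univ.erase 0) C = 1 := if_pos (by decide)
  have l1 : lab (univ.erase 1) C = 1 := if_pos (by decide)
  have l2 : lab (univ.erase 2) C = 1 := if_pos (by decide)
  have l3 : lab (univ.erase 3) C = pos (vt C.1 0) := by
    unfold lab
    rw [if_neg (by decide), if_pos (by decide)]
  have lu : lab univ C = 1 := if_pos (by decide)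
  have g0 : sg (0 : Fin 4) univ = 1 := by decide
  have g1 : sg (1 : Fin 4) univ = -1 := by decide
  have g2 : sg (2 : Fin 4) univ = 1 := by decide
  have g3 : sg (3 : Fin 4) univ = -1 := by decide
  rw [Fin.sum_univ_four]
  beta_reduce
  rw [g0, g1, g2, g3, one_smul, one_smul, neg_smul, neg_smul, one_smul, one_smul]
  rw [if_pos rfl, if_neg n10, if_pos rfl, if_neg n20, if_neg n21, if_pos rfl, if_neg n30,
    if_neg n31, if_neg n32, if_pos rfl]
  have i0 : Inv 0 (f 0) := hf 0
  have i1 : Inv 1 (f 1) := hf 1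
  have i2 : Inv 2 (f 2) := hf 2
  have q0 : liftF (univ.erase 0) (f 0) (XS.fc (univ.erase 0) C) = f 0 C :=
    liftF_fc (J := univ.erase 0) i0 C
  have q1 : liftF (univ.erase 1) (fun C => -(f 1 C)) (XS.fc (univ.erase 1) C) = -(f 1 C) :=
    liftF_fc (J := univ.erase 1) (f := fun C => -(f 1 C))
      (fun C C' h => congrArg Neg.neg (i1 C C' h)) C
  have q2 : liftF (univ.erase 2) (f 2) (XS.fc (univ.erase 2) C) = f 2 C :=
    liftF_fc (J := univ.erase 2) i2 C
  have q3 : liftF (univ.erase 3) (hfun m) (XS.fc (univ.erase 3) C) = hfun m C :=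
    liftF_fc (J := univ.erase 3) (hfun_inv m) C
  rw [q0, q1, q2, q3]
  show lab (univ.erase 0) C • f 0 C + -(lab (univ.erase 1) C • -(f 1 C)) +
    lab (univ.erase 2) C • f 2 C + -(lab (univ.erase 3) C • hfun m C) =
    lab univ C • c univ (XS.fc univ C)
  rw [l0, l1, l2, l3, lu, one_smul, one_smul, one_smul, one_smul, neg_neg, ← hs C]
  abel

end Crest.Agent.R251.H3B
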