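import Mathlib
import Crest.Agent.R123.HopfCocycle

/-!
# Row 251, HB1: an integer valued singular 2-cocycle on `S²`

From the tautological line bundle (R123/HopfLift, HopfCocycle), with normalised edge lifts.
-/

set_option autoImplicit false

noncomputable section

open Crest.Agent.R123

namespace Crest.Agent.R251.HB

/-- the chosen lift of a point -/
def plx (y : S2) : ℂ × ℂ := (exists_ne_zero_proj y).choose

theorem plx_ne (y : S2) : plx y ≠ 0 := (exists_ne_zero_proj y).choose_spec.1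
theorem plx_proj (y : S2) : proj y (plx y) = plx y := (exists_ne_zero_proj y).choose_spec.2

/-- normalised lifts of edges exist -/
theorem exists_edge (e : C(Dl 1, S2)) : ∃ η : C(Dl 1, ℂ × ℂ), IsLift e η ∧
    η (vx 0) = plx (e (vx 0)) ∧ η (vx 1) = plx (e (vx 1)) ∧
    (∀ y, e = ContinuousMap.const _ y → η = ContinuousMap.const _ (plx y)) := by
  by_cases hc : ∃ y, e = ContinuousMap.const _ y
  · obtain ⟨y, rfl⟩ := hc
    refine ⟨ContinuousMap.const _ (plx y), fun x => ⟨plx_ne y, plx_proj y⟩, rfl, rfl, ?_⟩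
    intro z hz
    have : y = z := by
      have := congrArg (fun f : C(Dl 1, S2) => f (vx 0)) hz
      simpa using this
    rw [this]
  · obtain ⟨ξ, hξ⟩ := exists_lift e
    set a : ℂ := herm (ξ (vx 0)) (plx (e (vx 0))) / herm (ξ (vx 0)) (ξ (vx 0)) with ha
    set b : ℂ := herm (ξ (vx 1)) (plx (e (vx 1))) / herm (ξ (vx 1)) (ξ (vx 1)) with hb
    have ha1 : plx (e (vx 0)) = a • ξ (vx 0) :=
      eq_smul (hξ _).1 (hξ _).2 (plx_proj _)
    have hb1 : plx (e (vx 1)) = b • ξ (vx 1) :=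
      eq_smul (hξ _).1 (hξ _).2 (plx_proj _)
    have ha0 : a ≠ 0 := by
      intro h
      apply plx_ne (e (vx 0))
      rw [ha1, h, zero_smul]
    have hb0 : b ≠ 0 := by
      intro h
      apply plx_ne (e (vx 1))
      rw [hb1, h, zero_smul]
    have hx0 : Continuous fun x : Dl 1 => x 0 :=
      (continuous_apply (0 : Fin 2)).comp continuous_subtype_val
    have hx1 : Continuous fun x : Dl 1 => x 1 :=
      (continuous_apply (1 : Fin 2)).comp continuous_subtype_val
    refine ⟨⟨fun x => Complex.exp ((x 0 : ℂ) * Complex.log a + (x 1 : ℂ) * Complex.log b) • ξ x, ?_⟩,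
      ?_, ?_, ?_, fun y hy => absurd ⟨y, hy⟩ hc⟩
    · refine Continuous.smul (Complex.continuous_exp.comp ?_) ξ.continuous
      exact ((Complex.continuous_ofReal.comp hx0).mul continuous_const).add
        ((Complex.continuous_ofReal.comp hx1).mul continuous_const)
    · intro x
      refine ⟨smul_ne_zero (Complex.exp_ne_zero _) (hξ x).1, ?_⟩
      have h := (hξ x).2
      have h1 := congrArg Prod.fst h
      have h2 := congrArg Prod.snd h
      simp only [proj] at h1 h2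
      simp only [proj, ContinuousMap.coe_mk, Prod.smul_fst, Prod.smul_snd, smul_eq_mul]
      apply Prod.ext
      · simp only [Prod.smul_fst, smul_eq_mul]
        linear_combination (Complex.exp ((x 0 : ℂ) * Complex.log a + (x 1 : ℂ) * Complex.log b)) * h1
      · simp only [Prod.smul_snd, smul_eq_mul]
        linear_combination (Complex.exp ((x 0 : ℂ) * Complex.log a + (x 1 : ℂ) * Complex.log b)) * h2
    · have e0 : (vx 0 : Dl 1) 0 = 1 := by simp [vx]
      have e1 : (vx 0 : Dl 1) 1 = 0 := by simp [vx]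
      simp only [ContinuousMap.coe_mk, e0, e1]
      rw [ha1]
      simp [Complex.exp_log ha0]
    · have e0 : (vx 1 : Dl 1) 0 = 0 := by simp [vx]
      have e1 : (vx 1 : Dl 1) 1 = 1 := by simp [vx]
      simp only [ContinuousMap.coe_mk, e0, e1]
      rw [hb1]
      simp [Complex.exp_log hb0]

/-- the normalised lift of an edge -/
def nch (e : C(Dl 1, S2)) : C(Dl 1, ℂ × ℂ) := (exists_edge e).choose

theorem nch_lift (e : C(Dl 1, S2)) : IsLift e (nch e) := (exists_edge e).choose_spec.1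
theorem nch_zero (e : C(Dl 1, S2)) : nch e (vx 0) = plx (e (vx 0)) := (exists_edge e).choose_spec.2.1
theorem nch_one (e : C(Dl 1, S2)) : nch e (vx 1) = plx (e (vx 1)) :=
  (exists_edge e).choose_spec.2.2.1
theorem nch_const (y : S2) : nch (ContinuousMap.const _ y) = ContinuousMap.const _ (plx y) :=
  (exists_edge _).choose_spec.2.2.2 y rfl

theorem nch_vx (e : C(Dl 1, S2)) (j : Fin 2) : nch e (vx j) = plx (e (vx j)) := by
  fin_cases j
  · exact nch_zero e
  · exact nch_one e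

/-- the real cochain computed with a given lift -/
def Nl (σ : C(Dl 2, S2)) (ξ : C(Dl 2, ℂ × ℂ)) : ℝ :=
  ∑ i : Fin 3, ((-1 : ℝ) ^ (i : ℕ)) * inc (rr (nch (σ.comp (face i))) (ξ.comp (face i)))

theorem Nl_eq {σ : C(Dl 2, S2)} {ξ η : C(Dl 2, ℂ × ℂ)} (hξ : IsLift σ ξ) (hη : IsLift σ η) :
    Nl σ η = Nl σ ξ := by
  obtain ⟨μ, hμ, hμη⟩ := hξ.exists_mul hη
  have h0 := inc_face_sum μ hμ
  have h1 : ∀ i : Fin 3, inc (rr (nch (σ.comp (face i))) (η.comp (face i))) =
      inc (μ.comp (face i)) + inc (rr (nch (σ.comp (face i))) (ξ.comp (face i))) := by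
    intro i
    rw [← inc_mul _ _ (fun x => hμ _) (rr_ne (nch_lift _) (hξ.comp (face i)))]
    congr 1
    ext x
    simp only [rr_apply, ContinuousMap.comp_apply, ContinuousMap.mul_apply, hμη, herm_smul]
  unfold Nl
  simp only [h1, mul_add, Finset.sum_add_distrib, h0, zero_add]

def NN (σ : C(Dl 2, S2)) : ℝ := Nl σ (exists_lift σ).choose

theorem NN_eq {σ : C(Dl 2, S2)} {ξ : C(Dl 2, ℂ × ℂ)} (hξ : IsLift σ ξ) : NN σ = Nl σ ξ :=
  Nl_eq hξ (exists_lift σ).choose_spec

theorem NN_cocycle (t : C(Dl 3, S2)) :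
    ∑ i : Fin 4, ((-1 : ℝ) ^ (i : ℕ)) * NN (t.comp (face i)) = 0 := by
  obtain ⟨ξ, hξ⟩ := exists_lift t
  set Gf : (Fin 2 → Fin 4) → ℝ := fun f =>
    inc (rr (nch (t.comp ⟨stdSimplex.map f, stdSimplex.continuous_map _⟩))
      (ξ.comp ⟨stdSimplex.map f, stdSimplex.continuous_map _⟩)) with hGf
  have hff : ∀ (i : Fin 4) (j : Fin 3), (face i).comp (face j) =
      (⟨stdSimplex.map (Fin.succAbove i ∘ Fin.succAbove j), stdSimplex.continuous_map _⟩ :
        C(Dl 1, Dl 3)) := by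
    intro i j
    ext1 x
    show stdSimplex.map _ (stdSimplex.map _ x) = _
    rw [stdSimplex.map_comp_apply]
    rfl
  have h1 : ∀ i : Fin 4, NN (t.comp (face i)) =
      ∑ j : Fin 3, ((-1 : ℝ) ^ (j : ℕ)) * Gf (Fin.succAbove i ∘ Fin.succAbove j) := by
    intro i
    rw [NN_eq (hξ.comp (face i))]
    unfold Nl
    refine Finset.sum_congr rfl (fun j _ => ?_)
    rw [ContinuousMap.comp_assoc, ContinuousMap.comp_assoc, hff i j]
  simp only [h1]
  have a1 : (Fin.succAbove (1 : Fin 4) ∘ Fin.succAbove (0 : Fin 3) : Fin 2 → Fin 4) =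
      Fin.succAbove (0 : Fin 4) ∘ Fin.succAbove (0 : Fin 3) := by decide
  have a2 : (Fin.succAbove (2 : Fin 4) ∘ Fin.succAbove (0 : Fin 3) : Fin 2 → Fin 4) =
      Fin.succAbove (0 : Fin 4) ∘ Fin.succAbove (1 : Fin 3) := by decide
  have a3 : (Fin.succAbove (3 : Fin 4) ∘ Fin.succAbove (0 : Fin 3) : Fin 2 → Fin 4) =
      Fin.succAbove (0 : Fin 4) ∘ Fin.succAbove (2 : Fin 3) := by decide
  have a4 : (Fin.succAbove (2 : Fin 4) ∘ Fin.succAbove (1 : Fin 3) : Fin 2 → Fin 4) =
      Fin.succAbove (1 : Fin 4) ∘ Fin.succAbove (1 : Fin 3) := by decide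
  have a5 : (Fin.succAbove (3 : Fin 4) ∘ Fin.succAbove (1 : Fin 3) : Fin 2 → Fin 4) =
      Fin.succAbove (1 : Fin 4) ∘ Fin.succAbove (2 : Fin 3) := by decide
  have a6 : (Fin.succAbove (3 : Fin 4) ∘ Fin.succAbove (2 : Fin 3) : Fin 2 → Fin 4) =
      Fin.succAbove (2 : Fin 4) ∘ Fin.succAbove (2 : Fin 3) := by decide
  simp only [Fin.sum_univ_four, Fin.sum_univ_three, a1, a2, a3, a4, a5, a6]
  simp only [Fin.val_zero, Fin.val_one, Fin.val_two]
  have v3 : ((3 : Fin 4) : ℕ) = 3 := rfl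
  simp only [v3]
  ring

/-! ### integrality -/

theorem inc_arg (r : C(Dl 1, ℂ)) (h : ∀ x, r x ≠ 0) :
    ∃ n : ℤ, inc r = Complex.arg (r (vx 1)) - Complex.arg (r (vx 0)) + 2 * Real.pi * n := by
  obtain ⟨l, hl⟩ := exists_log r h
  have hk : ∀ x, ∃ k : ℤ, l x = Complex.log (r x) + k * (2 * Real.pi * Complex.I) := by
    intro x
    apply Complex.exp_eq_exp_iff_exists_int.1
    rw [hl x, Complex.exp_log (h x)]
  obtain ⟨k1, h1⟩ := hk (vx 1)
  obtain ⟨k0, h0⟩ := hk (vx 0)
  refine ⟨k1 - k0, ?_⟩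
  rw [inc_eq r l hl, h1, h0]
  simp [Complex.log_im]
  ring

theorem NN_int (σ : C(Dl 2, S2)) : ∃ n : ℤ, NN σ = 2 * Real.pi * n := by
  obtain ⟨ξ, hξ⟩ := exists_lift σ
  rw [NN_eq hξ]
  have hi : ∀ i : Fin 3, ∃ n : ℤ, inc (rr (nch (σ.comp (face i))) (ξ.comp (face i))) =
      Complex.arg (herm (plx (σ (vx (i.succAbove 1)))) (ξ (vx (i.succAbove 1)))) -
      Complex.arg (herm (plx (σ (vx (i.succAbove 0)))) (ξ (vx (i.succAbove 0)))) +
        2 * Real.pi * n := by
    intro i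
    obtain ⟨n, hn⟩ := inc_arg (rr (nch (σ.comp (face i))) (ξ.comp (face i)))
      (rr_ne (nch_lift _) (hξ.comp (face i)))
    refine ⟨n, ?_⟩
    rw [hn]
    simp only [rr_apply, nch_vx, ContinuousMap.comp_apply, face_vx]
  choose n hn using hi
  refine ⟨n 0 - n 1 + n 2, ?_⟩
  unfold Nl
  simp only [hn, Fin.sum_univ_three]
  have e00 : (0 : Fin 3).succAbove (0 : Fin 2) = 1 := rfl
  have e01 : (0 : Fin 3).succAbove (1 : Fin 2) = 2 := rfl
  have e10 : (1 : Fin 3).succAbove (0 : Fin 2) = 0 := rfl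
  have e11 : (1 : Fin 3).succAbove (1 : Fin 2) = 2 := rfl
  have e20 : (2 : Fin 3).succAbove (0 : Fin 2) = 0 := rfl
  have e21 : (2 : Fin 3).succAbove (1 : Fin 2) = 1 := rfl
  simp only [e00, e01, e10, e11, e20, e21, Fin.val_zero, Fin.val_one, Fin.val_two]
  push_cast
  ring

/-- THE INTEGER COCYCLE -/
def Om (σ : C(Dl 2, S2)) : ℤ := (NN_int σ).choose

theorem Om_spec (σ : C(Dl 2, S2)) : NN σ = 2 * Real.pi * Om σ := (NN_int σ).choose_spec

theorem Om_cocycle (t : C(Dl 3, S2)) :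
    ∑ i : Fin 4, ((-1 : ℤ) ^ (i : ℕ)) * Om (t.comp (face i)) = 0 := by
  have h := NN_cocycle t
  have h2 : (2 * Real.pi) * ((∑ i : Fin 4, ((-1 : ℤ) ^ (i : ℕ)) * Om (t.comp (face i)) : ℤ) : ℝ)
      = 0 := by
    rw [← h]
    push_cast
    rw [Finset.mul_sum]
    refine Finset.sum_congr rfl fun i _ => ?_
    rw [Om_spec]
    ring
  have h3 : ((∑ i : Fin 4, ((-1 : ℤ) ^ (i : ℕ)) * Om (t.comp (face i)) : ℤ) : ℝ) = 0 := by
    rcases mul_eq_zero.1 h2 with h | h
    · exact absurd h (by positivity)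
    · exact h
  exact_mod_cast h3

theorem inc_const (c : ℂ) (hc : c ≠ 0) : inc (ContinuousMap.const (Dl 1) c) = 0 := by
  rw [inc_eq (ContinuousMap.const (Dl 1) c) (ContinuousMap.const (Dl 1) (Complex.log c))
    (fun x => by simp [Complex.exp_log hc])]
  simp

theorem NN_const (y : S2) : NN (ContinuousMap.const _ y) = 0 := by
  have hl : IsLift (ContinuousMap.const (Dl 2) y) (ContinuousMap.const (Dl 2) (plx y)) :=
    fun x => ⟨plx_ne y, plx_proj y⟩
  rw [NN_eq hl]
  unfold Nl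
  apply Finset.sum_eq_zero
  intro i _
  have h1 : (ContinuousMap.const (Dl 2) y).comp (face i) = ContinuousMap.const (Dl 1) y := rfl
  rw [h1, nch_const]
  have h2 : rr (ContinuousMap.const (Dl 1) (plx y))
      ((ContinuousMap.const (Dl 2) (plx y)).comp (face i)) =
      ContinuousMap.const (Dl 1) (herm (plx y) (plx y)) := rfl
  rw [h2, inc_const _ (herm_self_ne (plx_ne y)), mul_zero]

theorem Om_const (y : S2) : Om (ContinuousMap.const _ y) = 0 := by
  have h := Om_spec (ContinuousMap.const _ y)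
  rw [NN_const] at h
  have h2 : ((Om (ContinuousMap.const _ y) : ℤ) : ℝ) = 0 := by
    rcases mul_eq_zero.1 h.symm with h | h
    · exact absurd h (by positivity)
    · exact h
  exact_mod_cast h2

end Crest.Agent.R251.HB
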