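import Mathlib
import Crest.Agent.R251.HB830A

/-!
# Row 251, HB1 (b): the value of the integer cocycle on the square
-/

set_option autoImplicit false

noncomputable section

open Crest.Agent.R123
open scoped unitInterval

namespace Crest.Agent.R251.HB

theorem cont_coord {n : ℕ} (i : Fin (n + 1)) : Continuous fun x : Dl n => x i :=
  (continuous_apply i).comp continuous_subtype_val

theorem coord_nonneg {n : ℕ} (x : Dl n) (i : Fin (n + 1)) : 0 ≤ x i := x.2.1 i
theorem coord_sum {n : ℕ} (x : Dl n) : ∑ i, x i = 1 := x.2.2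

theorem sum_two (x : Dl 1) : x 0 + x 1 = 1 := by
  have := coord_sum x
  rwa [Fin.sum_univ_two] at this

theorem sum_three (x : Dl 2) : x 0 + x 1 + x 2 = 1 := by
  have := coord_sum x
  rwa [Fin.sum_univ_three] at this

/-- the triangle `(0,0), (1,0), (1,1)` of the square -/
def lowT : C(Dl 2, I × I) where
  toFun x := (⟨x 1 + x 2, by
    have h := sum_three x
    have h0 := coord_nonneg x 0
    have h1 := coord_nonneg x 1
    have h2 := coord_nonneg x 2
    constructor <;> linarith⟩, ⟨x 2, by
    have h := sum_three x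
    have h0 := coord_nonneg x 0
    have h1 := coord_nonneg x 1
    have h2 := coord_nonneg x 2
    constructor <;> linarith⟩)
  continuous_toFun := by
    refine Continuous.prodMk ?_ ?_
    · exact Continuous.subtype_mk ((cont_coord 1).add (cont_coord 2)) _
    · exact Continuous.subtype_mk (cont_coord 2) _

/-- the triangle `(0,0), (0,1), (1,1)` of the square -/
def upT : C(Dl 2, I × I) where
  toFun x := (⟨x 2, by
    have h := sum_three x
    have h0 := coord_nonneg x 0
    have h1 := coord_nonneg x 1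
    have h2 := coord_nonneg x 2
    constructor <;> linarith⟩, ⟨x 1 + x 2, by
    have h := sum_three x
    have h0 := coord_nonneg x 0
    have h1 := coord_nonneg x 1
    have h2 := coord_nonneg x 2
    constructor <;> linarith⟩)
  continuous_toFun := by
    refine Continuous.prodMk ?_ ?_
    · exact Continuous.subtype_mk (cont_coord 2) _
    · exact Continuous.subtype_mk ((cont_coord 1).add (cont_coord 2)) _

/-- the parameter of an edge -/
def par : C(Dl 1, I) where
  toFun x := ⟨x 1, by
    have h := sum_two x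
    have h0 := coord_nonneg x 0
    have h1 := coord_nonneg x 1
    constructor <;> linarith⟩
  continuous_toFun := by
    refine Continuous.subtype_mk (cont_coord 1) _

theorem par_coe (x : Dl 1) : ((par x : I) : ℝ) = x 1 := rfl

/-- coordinates of a face -/
theorem face_zero_coord (x : Dl 1) : (face (0 : Fin 3) x) 0 = 0 ∧ (face (0 : Fin 3) x) 1 = x 0 ∧
    (face (0 : Fin 3) x) 2 = x 1 := by
  refine ⟨?_, ?_, ?_⟩ <;>
  · simp only [face, ContinuousMap.coe_mk, stdSimplex.map_coe, FunOnFinite.linearMap_apply_apply]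
    simp [Finset.sum_filter, Fin.sum_univ_two, Fin.succAbove, Fin.lt_def]

theorem face_one_coord (x : Dl 1) : (face (1 : Fin 3) x) 0 = x 0 ∧ (face (1 : Fin 3) x) 1 = 0 ∧
    (face (1 : Fin 3) x) 2 = x 1 := by
  refine ⟨?_, ?_, ?_⟩ <;>
  · simp only [face, ContinuousMap.coe_mk, stdSimplex.map_coe, FunOnFinite.linearMap_apply_apply]
    simp [Finset.sum_filter, Fin.sum_univ_two, Fin.succAbove, Fin.lt_def]

theorem face_two_coord (x : Dl 1) : (face (2 : Fin 3) x) 0 = x 0 ∧ (face (2 : Fin 3) x) 1 = x 1 ∧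
    (face (2 : Fin 3) x) 2 = 0 := by
  refine ⟨?_, ?_, ?_⟩ <;>
  · simp only [face, ContinuousMap.coe_mk, stdSimplex.map_coe, FunOnFinite.linearMap_apply_apply]
    simp [Finset.sum_filter, Fin.sum_univ_two, Fin.succAbove, Fin.lt_def]

theorem lowT_face0 (x : Dl 1) : lowT (face 0 x) = (1, par x) := by
  obtain ⟨h0, h1, h2⟩ := face_zero_coord x
  have h := sum_two x
  refine Prod.ext (Subtype.ext ?_) (Subtype.ext ?_)
  · show (face (0 : Fin 3) x) 1 + (face (0 : Fin 3) x) 2 = 1
    rw [h1, h2, h]
  · exact h2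

theorem lowT_face1 (x : Dl 1) : lowT (face 1 x) = (par x, par x) := by
  obtain ⟨h0, h1, h2⟩ := face_one_coord x
  refine Prod.ext (Subtype.ext ?_) (Subtype.ext ?_)
  · show (face (1 : Fin 3) x) 1 + (face (1 : Fin 3) x) 2 = x 1
    rw [h1, h2, zero_add]
  · exact h2

theorem lowT_face2 (x : Dl 1) : lowT (face 2 x) = (par x, 0) := by
  obtain ⟨h0, h1, h2⟩ := face_two_coord x
  refine Prod.ext (Subtype.ext ?_) (Subtype.ext ?_)
  · show (face (2 : Fin 3) x) 1 + (face (2 : Fin 3) x) 2 = x 1
    rw [h1, h2, add_zero]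
  · exact h2

theorem upT_face0 (x : Dl 1) : upT (face 0 x) = (par x, 1) := by
  obtain ⟨h0, h1, h2⟩ := face_zero_coord x
  have h := sum_two x
  refine Prod.ext (Subtype.ext ?_) (Subtype.ext ?_)
  · exact h2
  · show (face (0 : Fin 3) x) 1 + (face (0 : Fin 3) x) 2 = 1
    rw [h1, h2, h]

theorem upT_face1 (x : Dl 1) : upT (face 1 x) = (par x, par x) := by
  obtain ⟨h0, h1, h2⟩ := face_one_coord x
  refine Prod.ext (Subtype.ext ?_) (Subtype.ext ?_)
  · exact h2
  · show (face (1 : Fin 3) x) 1 + (face (1 : Fin 3) x) 2 = x 1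
    rw [h1, h2, zero_add]

theorem upT_face2 (x : Dl 1) : upT (face 2 x) = (0, par x) := by
  obtain ⟨h0, h1, h2⟩ := face_two_coord x
  refine Prod.ext (Subtype.ext ?_) (Subtype.ext ?_)
  · exact h2
  · show (face (2 : Fin 3) x) 1 + (face (2 : Fin 3) x) 2 = x 1
    rw [h1, h2, add_zero]

/-! ### increments of the sides of the square -/

/-- `1 + i (2 x₁ - 1)` -/
def wp : C(Dl 1, ℂ) := ⟨fun x => 1 + Complex.I * ((2 * x 1 - 1 : ℝ) : ℂ),
  continuous_const.add (continuous_const.mul (Complex.continuous_ofReal.comp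
    ((continuous_const.mul (cont_coord 1)).sub continuous_const)))⟩
/-- `1 - i (2 x₁ - 1)` -/
def wm : C(Dl 1, ℂ) := ⟨fun x => 1 - Complex.I * ((2 * x 1 - 1 : ℝ) : ℂ),
  continuous_const.sub (continuous_const.mul (Complex.continuous_ofReal.comp
    ((continuous_const.mul (cont_coord 1)).sub continuous_const)))⟩

theorem wp_re (x : Dl 1) : (wp x).re = 1 := by
  simp [wp, Complex.add_re, Complex.mul_re]
theorem wm_re (x : Dl 1) : (wm x).re = 1 := by
  simp [wm, Complex.sub_re, Complex.mul_re]

theorem wp_ne (x : Dl 1) : wp x ≠ 0 := fun h => by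
  have := wp_re x
  rw [h] at this
  simp at this
theorem wm_ne (x : Dl 1) : wm x ≠ 0 := fun h => by
  have := wm_re x
  rw [h] at this
  simp at this

theorem vx_one_one : (vx 1 : Dl 1) 1 = 1 := by simp [vx]
theorem vx_zero_one : (vx 0 : Dl 1) 1 = 0 := by simp [vx]

theorem inc_of_slit (r : C(Dl 1, ℂ)) (h : ∀ x, 0 < (r x).re) :
    inc r = Complex.arg (r (vx 1)) - Complex.arg (r (vx 0)) := by
  have hs : ∀ x, r x ∈ Complex.slitPlane := fun x => Or.inl (h x)
  rw [inc_eq r ⟨fun x => Complex.log (r x), r.continuous.clog hs⟩ (fun x => by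
    have : r x ≠ 0 := fun h0 => by have := h x; rw [h0] at this; simp at this
    exact Complex.exp_log this)]
  simp [Complex.log_im]

theorem arg_one_add_I : Complex.arg (1 + Complex.I) = Real.pi / 4 := by
  have h : (1 + Complex.I : ℂ) = ((Real.sqrt 2 : ℝ) : ℂ) *
      (Complex.cos ((Real.pi / 4 : ℝ) : ℂ) + Complex.sin ((Real.pi / 4 : ℝ) : ℂ) * Complex.I) := by
    rw [← Complex.ofReal_cos, ← Complex.ofReal_sin, Real.cos_pi_div_four, Real.sin_pi_div_four]
    have h2 : Real.sqrt 2 * Real.sqrt 2 = 2 := Real.mul_self_sqrt (by norm_num)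
    apply Complex.ext
    · simp
      linarith
    · simp
      linarith
  rw [h, Complex.arg_mul_cos_add_sin_mul_I (by positivity)]
  constructor <;> linarith [Real.pi_pos]

theorem arg_one_sub_I : Complex.arg (1 - Complex.I) = -(Real.pi / 4) := by
  have h : (1 - Complex.I : ℂ) = (starRingEnd ℂ) (1 + Complex.I) := by simp [sub_eq_add_neg]
  rw [h, Complex.arg_conj, arg_one_add_I, if_neg]
  intro h
  linarith [Real.pi_pos]

theorem inc_wp : inc wp = Real.pi / 2 := by
  rw [inc_of_slit wp (fun x => by rw [wp_re]; norm_num)]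
  have h1 : wp (vx 1) = 1 + Complex.I := by
    simp only [wp, ContinuousMap.coe_mk, vx_one_one]
    norm_num
  have h0 : wp (vx 0) = 1 - Complex.I := by
    simp only [wp, ContinuousMap.coe_mk, vx_zero_one]
    push_cast
    ring
  rw [h1, h0, arg_one_add_I, arg_one_sub_I]
  ring

theorem inc_wm : inc wm = -(Real.pi / 2) := by
  rw [inc_of_slit wm (fun x => by rw [wm_re]; norm_num)]
  have h1 : wm (vx 1) = 1 - Complex.I := by
    simp only [wm, ContinuousMap.coe_mk, vx_one_one]
    norm_num
  have h0 : wm (vx 0) = 1 + Complex.I := by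
    simp only [wm, ContinuousMap.coe_mk, vx_zero_one]
    push_cast
    ring
  rw [h1, h0, arg_one_add_I, arg_one_sub_I]
  ring

theorem inc_const_mul (c : ℂ) (hc : c ≠ 0) (r : C(Dl 1, ℂ)) (h : ∀ x, r x ≠ 0) :
    inc (ContinuousMap.const (Dl 1) c * r) = inc r := by
  rw [inc_mul _ _ (fun _ => hc) h, inc_const c hc, zero_add]

/-- the complex coordinate `(2s-1) + i(2t-1)` of the square -/
def zc (p : I × I) : ℂ := ((2 * (p.1 : ℝ) - 1 : ℝ) : ℂ) + Complex.I * ((2 * (p.2 : ℝ) - 1 : ℝ) : ℂ)

theorem he_north : he north = 1 := rfl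
theorem ze_north : ze north = 0 := rfl

theorem plx_north_snd : (plx north).2 = 0 := by
  have h := congrArg Prod.snd (plx_proj north)
  simp only [proj, he_north, ze_north] at h
  simpa using h.symm

theorem plx_north_fst : (plx north).1 ≠ 0 := by
  intro h
  apply plx_ne north
  exact Prod.ext h plx_north_snd

/-- THE VALUE ON THE SQUARE: if `f : I × I → S²` is `north` on the boundary and has a lift whose first
coordinate is `(2s-1) + i(2t-1)` on the boundary, then the integer cocycle is `1` on it. -/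
theorem Om_square (f : C(I × I, S2)) (ξ : C(I × I, ℂ × ℂ)) (hξ : IsLift f ξ)
    (hf : ∀ p : I × I, (p.1 = 0 ∨ p.1 = 1 ∨ p.2 = 0 ∨ p.2 = 1) → f p = north ∧ (ξ p).1 = zc p) :
    Om (f.comp lowT) - Om (f.comp upT) = 1 := by
  have hl : IsLift (f.comp lowT) (ξ.comp lowT) := hξ.comp lowT
  have hu : IsLift (f.comp upT) (ξ.comp upT) := hξ.comp upT
  have hc0 : (starRingEnd ℂ) (plx north).1 ≠ 0 := by
    rw [Ne, map_eq_zero]
    exact plx_north_fst
  -- generic side
  have side : ∀ (a : C(Dl 1, I × I)) (c : ℂ) (r : C(Dl 1, ℂ)), c ≠ 0 → (∀ x, r x ≠ 0) →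
      (∀ x, (a x).1 = 0 ∨ (a x).1 = 1 ∨ (a x).2 = 0 ∨ (a x).2 = 1) →
      (∀ x, zc (a x) = c * r x) →
      inc (rr (nch (f.comp a)) (ξ.comp a)) = inc r := by
    intro a c r hc hr ha hz
    have hfa : f.comp a = ContinuousMap.const (Dl 1) north := by
      ext1 x
      exact (hf _ (ha x)).1
    rw [hfa, nch_const]
    have h1 : rr (ContinuousMap.const (Dl 1) (plx north)) (ξ.comp a) =
        ContinuousMap.const (Dl 1) ((starRingEnd ℂ) (plx north).1 * c) * r := by
      ext x
      simp only [rr_apply, ContinuousMap.const_apply, ContinuousMap.comp_apply,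
        ContinuousMap.mul_apply, herm, plx_north_snd, map_zero, zero_mul, add_zero]
      rw [(hf _ (ha x)).2, hz x]
      ring
    rw [h1, inc_const_mul _ (mul_ne_zero hc0 hc) r hr]
  have e0 : inc (rr (nch ((f.comp lowT).comp (face 0))) ((ξ.comp lowT).comp (face 0))) =
      Real.pi / 2 := by
    rw [ContinuousMap.comp_assoc, ContinuousMap.comp_assoc,
      side (lowT.comp (face 0)) 1 wp one_ne_zero wp_ne (fun x => ?_) (fun x => ?_), inc_wp]
    · rw [ContinuousMap.comp_apply, lowT_face0]; exact Or.inr (Or.inl rfl)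
    · rw [ContinuousMap.comp_apply, lowT_face0]
      simp only [zc, wp, ContinuousMap.coe_mk, par_coe, Set.Icc.coe_one]
      push_cast; ring
  have e2 : inc (rr (nch ((f.comp lowT).comp (face 2))) ((ξ.comp lowT).comp (face 2))) =
      Real.pi / 2 := by
    rw [ContinuousMap.comp_assoc, ContinuousMap.comp_assoc,
      side (lowT.comp (face 2)) (-Complex.I) wp (neg_ne_zero.2 Complex.I_ne_zero) wp_ne
        (fun x => ?_) (fun x => ?_), inc_wp]
    · rw [ContinuousMap.comp_apply, lowT_face2]; exact Or.inr (Or.inr (Or.inl rfl))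
    · rw [ContinuousMap.comp_apply, lowT_face2]
      simp only [zc, wp, ContinuousMap.coe_mk, par_coe, Set.Icc.coe_zero]
      push_cast
      linear_combination ((2 * (x 1 : ℂ) - 1)) * Complex.I_mul_I
  have u0 : inc (rr (nch ((f.comp upT).comp (face 0))) ((ξ.comp upT).comp (face 0))) =
      -(Real.pi / 2) := by
    rw [ContinuousMap.comp_assoc, ContinuousMap.comp_assoc,
      side (upT.comp (face 0)) Complex.I wm Complex.I_ne_zero wm_ne
        (fun x => ?_) (fun x => ?_), inc_wm]
    · rw [ContinuousMap.comp_apply, upT_face0]; exact Or.inr (Or.inr (Or.inr rfl))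
    · rw [ContinuousMap.comp_apply, upT_face0]
      simp only [zc, wm, ContinuousMap.coe_mk, par_coe, Set.Icc.coe_one]
      push_cast
      linear_combination ((2 * (x 1 : ℂ) - 1)) * Complex.I_mul_I
  have u2 : inc (rr (nch ((f.comp upT).comp (face 2))) ((ξ.comp upT).comp (face 2))) =
      -(Real.pi / 2) := by
    rw [ContinuousMap.comp_assoc, ContinuousMap.comp_assoc,
      side (upT.comp (face 2)) (-1) wm (neg_ne_zero.2 one_ne_zero) wm_ne
        (fun x => ?_) (fun x => ?_), inc_wm]
    · rw [ContinuousMap.comp_apply, upT_face2]; exact Or.inl rfl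
    · rw [ContinuousMap.comp_apply, upT_face2]
      simp only [zc, wm, ContinuousMap.coe_mk, par_coe, Set.Icc.coe_zero]
      push_cast; ring
  have hd : inc (rr (nch ((f.comp lowT).comp (face 1))) ((ξ.comp lowT).comp (face 1))) =
      inc (rr (nch ((f.comp upT).comp (face 1))) ((ξ.comp upT).comp (face 1))) := by
    have h1 : lowT.comp (face 1) = upT.comp (face 1) := by
      ext1 x
      rw [ContinuousMap.comp_apply, ContinuousMap.comp_apply, lowT_face1, upT_face1]
    rw [ContinuousMap.comp_assoc, ContinuousMap.comp_assoc, ContinuousMap.comp_assoc,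
      ContinuousMap.comp_assoc, h1]
  have hN : NN (f.comp lowT) - NN (f.comp upT) = 2 * Real.pi := by
    rw [NN_eq hl, NN_eq hu]
    unfold Nl
    simp only [Fin.sum_univ_three, e0, e2, u0, u2, hd, Fin.val_zero, Fin.val_one, Fin.val_two]
    ring
  rw [Om_spec, Om_spec] at hN
  have h3 : (2 * Real.pi) * (((Om (f.comp lowT) - Om (f.comp upT) - 1 : ℤ)) : ℝ) = 0 := by
    push_cast
    linear_combination hN
  have h4 : (((Om (f.comp lowT) - Om (f.comp upT) - 1 : ℤ)) : ℝ) = 0 := by
    rcases mul_eq_zero.1 h3 with h | h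
    · exact absurd h (by positivity)
    · exact h
  have h5 : Om (f.comp lowT) - Om (f.comp upT) - 1 = 0 := by exact_mod_cast h4
  linarith

end Crest.Agent.R251.HB
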