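import Mathlib
import Crest.Agent.R251.HB830B
import Crest.Agent.R185.Att3
import Crest.Prelude.Def_DeckCochains

/-!
# Row 251, HB2 + HB3: Lemma B from collapse maps onto `S²`

* `cu col b : SingSimplex E 2 → M`, `cu s = ∑ᶠ k, Om (col k ∘ s) • b k`, for a family of collapse maps
  `col k : E → S²`: equivariant 2-cocycle, zero on simplices on which all `col k` are `north`.
* `exists_cell_cocycle`: the case of the 2-cells of `GAtt G φ`.
-/

set_option autoImplicit false
set_option linter.unusedSectionVars false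

noncomputable section

open Crest.Agent.R123 Crest.Agent.R185.Att Crest.GeometryTopology.DeckCochains
open CategoryTheory Simplicial Opposite
open scoped unitInterval

namespace Crest.Agent.R251.HB

/-! ### the standard collapse of the square -/

theorem kap_pos (a : ℂ) (b : ℝ) (h : a ≠ 0 ∨ b ≠ 0) : 0 < ‖a‖ ^ 2 + b ^ 2 := by
  rcases h with h | h
  · have : 0 < ‖a‖ := norm_pos_iff.2 h
    positivity
  · positivity

/-- the point `[a : b]` of `S²`, `b` real -/
def kap (a : ℂ) (b : ℝ) (h : a ≠ 0 ∨ b ≠ 0) : S2 :=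
  mkS2 (2 * a * (b : ℂ) / ((‖a‖ ^ 2 + b ^ 2 : ℝ) : ℂ)) ((‖a‖ ^ 2 - b ^ 2) / (‖a‖ ^ 2 + b ^ 2)) (by
    have h0 := kap_pos a b h
    rw [norm_div, norm_mul, norm_mul, Complex.norm_real, Complex.norm_real,
      Real.norm_of_nonneg h0.le, Real.norm_eq_abs]
    simp only [Complex.norm_ofNat]
    rw [div_pow, div_pow, mul_pow, mul_pow, sq_abs]
    field_simp
    ring)

theorem kap_lift (a : ℂ) (b : ℝ) (h : a ≠ 0 ∨ b ≠ 0) :
    ((a, (b : ℂ)) : ℂ × ℂ) ≠ 0 ∧ proj (kap a b h) (a, (b : ℂ)) = (a, (b : ℂ)) := by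
  constructor
  · intro h0
    have h1 := congrArg Prod.fst h0
    have h2 := congrArg Prod.snd h0
    simp only [Prod.fst_zero, Prod.snd_zero, Complex.ofReal_eq_zero] at h1 h2
    rcases h with h | h
    · exact h h1
    · exact h h2
  · have h0 : ((‖a‖ : ℂ) ^ 2 + (b : ℂ) ^ 2) ≠ 0 := by
      have := kap_pos a b h
      exact_mod_cast this.ne'
    have ha : a * (starRingEnd ℂ) a = (‖a‖ : ℂ) ^ 2 := Complex.mul_conj' a
    simp only [proj, kap, ze_mkS2, he_mkS2]
    push_cast
    apply Prod.ext
    · simp only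
      field_simp
      ring
    · simp only [map_div₀, map_mul, map_add, map_pow, Complex.conj_ofReal, map_ofNat]
      field_simp
      linear_combination 2 * (b : ℂ) * ha

theorem kap_north (a : ℂ) (h : a ≠ 0 ∨ (0 : ℝ) ≠ 0) : kap a 0 h = north := by
  have h0 : ‖a‖ ^ 2 ≠ 0 := by
    rcases h with h | h
    · exact pow_ne_zero _ (norm_ne_zero_iff.2 h)
    · exact absurd rfl h
  apply S2_ext
  · simp [kap, north]
  · simp only [kap, north, he_mkS2]
    field_simp
    ring

/-- the complex coordinate of the closed cell -/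
def zD (x : D 2) : ℂ := ((x : Fin 2 → ℝ) 0 : ℂ) + Complex.I * ((x : Fin 2 → ℝ) 1 : ℂ)

theorem zD_re (x : D 2) : (zD x).re = (x : Fin 2 → ℝ) 0 := by simp [zD]
theorem zD_im (x : D 2) : (zD x).im = (x : Fin 2 → ℝ) 1 := by simp [zD]

theorem zD_or (x : D 2) : zD x ≠ 0 ∨ (1 - ‖(x : Fin 2 → ℝ)‖ : ℝ) ≠ 0 := by
  by_contra h
  push Not at h
  obtain ⟨h1, h2⟩ := h
  have e0 : (x : Fin 2 → ℝ) 0 = 0 := by rw [← zD_re, h1]; rfl
  have e1 : (x : Fin 2 → ℝ) 1 = 0 := by rw [← zD_im, h1]; rfl
  have : (x : Fin 2 → ℝ) = 0 := by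
    funext i
    fin_cases i
    · exact e0
    · exact e1
  rw [this, norm_zero] at h2
  norm_num at h2

theorem continuous_zD : Continuous zD := by
  have h : ∀ i : Fin 2, Continuous fun x : D 2 => (x : Fin 2 → ℝ) i := fun i =>
    (continuous_apply i).comp continuous_subtype_val
  exact (Complex.continuous_ofReal.comp (h 0)).add
    (continuous_const.mul (Complex.continuous_ofReal.comp (h 1)))

theorem continuous_hD : Continuous fun x : D 2 => (1 - ‖(x : Fin 2 → ℝ)‖ : ℝ) :=
  continuous_const.sub continuous_subtype_val.norm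

/-- the collapse `D 2 → S²`, `x ↦ [x₀ + i x₁ : 1 - ‖x‖]` -/
def kD : C(D 2, S2) := ⟨fun x => kap (zD x) (1 - ‖(x : Fin 2 → ℝ)‖) (zD_or x), by
  have h1 := continuous_zD
  have h2 := continuous_hD
  apply Cone.continuous_mkS2
  · apply Continuous.div
    · exact (continuous_const.mul h1).mul (Complex.continuous_ofReal.comp h2)
    · exact Complex.continuous_ofReal.comp ((h1.norm.pow 2).add (h2.pow 2))
    · intro x
      have := kap_pos _ _ (zD_or x)
      exact_mod_cast this.ne'
  · apply Continuous.div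
    · exact (h1.norm.pow 2).sub (h2.pow 2)
    · exact (h1.norm.pow 2).add (h2.pow 2)
    · intro x
      have := kap_pos _ _ (zD_or x)
      exact this.ne'⟩

/-- the lift of `kD` -/
def xD : C(D 2, ℂ × ℂ) := ⟨fun x => (zD x, ((1 - ‖(x : Fin 2 → ℝ)‖ : ℝ) : ℂ)),
  continuous_zD.prodMk (Complex.continuous_ofReal.comp continuous_hD)⟩

theorem xD_lift : IsLift kD xD := fun x => kap_lift _ _ (zD_or x)

theorem kD_north (x : D 2) (h : ‖(x : Fin 2 → ℝ)‖ = 1) : kD x = north := by
  have h1 : ∀ b (hb : zD x ≠ 0 ∨ b ≠ 0), b = 0 → kap (zD x) b hb = north := by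
    rintro b hb rfl
    exact kap_north _ hb
  exact h1 _ (zD_or x) (by rw [h, sub_self])

/-- the square as `D 2` -/
def sqD : C(I × I, D 2) := ⟨fun p => ⟨![2 * (p.1 : ℝ) - 1, 2 * (p.2 : ℝ) - 1], by
    rw [mem_closedBall_zero_iff, pi_norm_le_iff_of_nonneg zero_le_one]
    intro i
    have h1 := p.1.2.1
    have h2 := p.1.2.2
    have h3 := p.2.2.1
    have h4 := p.2.2.2
    fin_cases i
    · show abs (2 * (p.1 : ℝ) - 1) ≤ 1
      rw [abs_le]
      constructor <;> linarith
    · show abs (2 * (p.2 : ℝ) - 1) ≤ 1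
      rw [abs_le]
      constructor <;> linarith⟩, by
  apply Continuous.subtype_mk
  apply continuous_pi
  intro i
  fin_cases i
  · exact (continuous_const.mul (continuous_subtype_val.comp continuous_fst)).sub continuous_const
  · exact (continuous_const.mul (continuous_subtype_val.comp continuous_snd)).sub continuous_const⟩

theorem zD_sqD (p : I × I) : zD (sqD p) = zc p := rfl

theorem norm_sqD (p : I × I) (h : p.1 = 0 ∨ p.1 = 1 ∨ p.2 = 0 ∨ p.2 = 1) :
    ‖((sqD p : D 2) : Fin 2 → ℝ)‖ = 1 := by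
  refine le_antisymm (sqD p).norm_le ?_
  have h0 : ((sqD p : D 2) : Fin 2 → ℝ) 0 = 2 * (p.1 : ℝ) - 1 := rfl
  have h1 : ((sqD p : D 2) : Fin 2 → ℝ) 1 = 2 * (p.2 : ℝ) - 1 := rfl
  have n0 := norm_le_pi_norm ((sqD p : D 2) : Fin 2 → ℝ) 0
  have n1 := norm_le_pi_norm ((sqD p : D 2) : Fin 2 → ℝ) 1
  rw [h0, Real.norm_eq_abs] at n0
  rw [h1, Real.norm_eq_abs] at n1
  rcases h with h | h | h | h
  · rw [h] at n0; norm_num at n0; exact n0
  · rw [h] at n0; norm_num at n0; exact n0
  · rw [h] at n1; norm_num at n1; exact n1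
  · rw [h] at n1; norm_num at n1; exact n1

/-- the value of the integer cocycle on the collapsed square -/
theorem Om_kD : Om ((kD.comp sqD).comp lowT) - Om ((kD.comp sqD).comp upT) = 1 :=
  Om_square (kD.comp sqD) (xD.comp sqD) (xD_lift.comp sqD) fun p hp =>
    ⟨kD_north _ (norm_sqD p hp), rfl⟩

/-! ### raw simplices -/

/-- the continuous map underlying a singular simplex -/
def un {E : Type} [TopologicalSpace E] {n : ℕ} (s : SingSimplex E n) : C(Dl n, E) :=
  TopCat.toSSetObjEquiv (TopCat.of E) (op ⦋n⦌) s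

/-- the singular simplex of a continuous map -/
def mk {E : Type} [TopologicalSpace E] {n : ℕ} (s : C(Dl n, E)) : SingSimplex E n :=
  (TopCat.toSSetObjEquiv (TopCat.of E) (op ⦋n⦌)).symm s

section
variable {E : Type} [TopologicalSpace E]

@[simp] theorem un_mk {n : ℕ} (s : C(Dl n, E)) : un (mk s) = s :=
  (TopCat.toSSetObjEquiv (TopCat.of E) (op ⦋n⦌)).apply_symm_apply s
@[simp] theorem mk_un {n : ℕ} (s : SingSimplex E n) : mk (un s) = s :=
  (TopCat.toSSetObjEquiv (TopCat.of E) (op ⦋n⦌)).symm_apply_apply s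

theorem un_face {n : ℕ} (i : Fin (n + 2)) (s : SingSimplex E (n + 1)) :
    un (simplexFace i s) = (un s).comp (face i) := rfl

theorem un_translate {n : ℕ} (g : E ≃ₜ E) (s : SingSimplex E n) :
    un (simplexTranslate g s) = (g : C(E, E)).comp (un s) := rfl

end

/-! ### the cocycle of a family of collapse maps -/

section abs

variable {E K M : Type} [TopologicalSpace E] [AddCommGroup M]

/-- the cocycle -/
def cu (col : K → C(E, S2)) (b : K → M) (s : SingSimplex E 2) : M :=
  ∑ᶠ k, Om ((col k).comp (un s)) • b k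

/-- local finiteness -/
def LF (col : K → C(E, S2)) : Prop :=
  ∀ S : Set E, IsCompact S → {k | ∃ x ∈ S, col k x ≠ north}.Finite

variable {col : K → C(E, S2)} {b : K → M}

theorem Om_comp_eq_zero {n : ℕ} {f : C(E, S2)} (s : C(Dl n, E)) (t : C(Dl 2, Dl n))
    (h : ∀ x, f (s x) = north) : Om (f.comp (s.comp t)) = 0 := by
  have : f.comp (s.comp t) = ContinuousMap.const _ north := by
    ext1 x
    exact h _
  rw [this, Om_const]

theorem cu_support {n : ℕ} (hcol : LF col) (s : C(Dl n, E)) :
    ∃ T : Finset K, ∀ t : C(Dl 2, Dl n), ∀ k, k ∉ T → Om ((col k).comp (s.comp t)) = 0 := by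
  classical
  refine ⟨(hcol (Set.range s) (isCompact_range s.continuous)).toFinset, fun t k hk => ?_⟩
  apply Om_comp_eq_zero
  intro x
  by_contra hx
  apply hk
  rw [Set.Finite.mem_toFinset]
  exact ⟨s x, ⟨x, rfl⟩, hx⟩

theorem cu_eq_sum {s : SingSimplex E 2} {T : Finset K}
    (h : ∀ k, k ∉ T → Om ((col k).comp (un s)) = 0) :
    cu col b s = ∑ k ∈ T, Om ((col k).comp (un s)) • b k := by
  unfold cu
  apply finsum_eq_sum_of_support_subset
  intro k hk
  by_contra hkT
  apply hk
  show Om ((col k).comp (un s)) • b k = 0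
  rw [h k hkT, zero_smul]

theorem cu_cobdry (hcol : LF col) : cochainCobdry (cu col b) = 0 := by
  funext t
  obtain ⟨T, hT⟩ := cu_support hcol (un t)
  show (∑ i : Fin 4, ((-1 : ℤ) ^ (i : ℕ)) • cu col b (simplexFace i t)) = 0
  have h1 : ∀ i : Fin 4, cu col b (simplexFace i t) =
      ∑ k ∈ T, Om (((col k).comp (un t)).comp (face i)) • b k := by
    intro i
    rw [cu_eq_sum (T := T)]
    · rfl
    · intro k hk
      rw [un_face]
      exact hT (face i) k hk
  simp only [h1, Finset.smul_sum]
  rw [Finset.sum_comm]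
  apply Finset.sum_eq_zero
  intro k _
  have h2 := Om_cocycle ((col k).comp (un t))
  rw [← zero_smul ℤ (b k), ← h2, Finset.sum_smul]
  refine Finset.sum_congr rfl fun i _ => ?_
  rw [smul_smul]

theorem cu_zero {s : SingSimplex E 2} (h : ∀ k x, col k (un s x) = north) : cu col b s = 0 := by
  rw [cu_eq_sum (T := ∅), Finset.sum_empty]
  intro k _
  have : (col k).comp (un s) = ContinuousMap.const _ north := by
    ext1 x
    exact h k x
  rw [this, Om_const]

theorem cu_single {s : SingSimplex E 2} (k₀ : K) (h : ∀ k, k ≠ k₀ → ∀ x, col k (un s x) = north) :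
    cu col b s = Om ((col k₀).comp (un s)) • b k₀ := by
  classical
  rw [cu_eq_sum (T := {k₀}), Finset.sum_singleton]
  intro k hk
  rw [Finset.mem_singleton] at hk
  have : (col k).comp (un s) = ContinuousMap.const _ north := by
    ext1 x
    exact h k hk x
  rw [this, Om_const]

/-- value of `cu` on a closed 2-cell, given as a map `h : I × I → E` -/
theorem cu_square (h : C(I × I, E)) (k₀ : K) (h0 : (col k₀).comp h = kD.comp sqD)
    (h1 : ∀ k, k ≠ k₀ → ∀ p, col k (h p) = north) :
    cu col b (mk (h.comp lowT)) - cu col b (mk (h.comp upT)) = b k₀ := by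
  rw [cu_single k₀ (fun k hk x => by rw [un_mk]; exact h1 k hk _),
    cu_single k₀ (fun k hk x => by rw [un_mk]; exact h1 k hk _), un_mk, un_mk,
    ← ContinuousMap.comp_assoc, ← ContinuousMap.comp_assoc, h0, ← sub_smul, Om_kD, one_smul]

variable {G : Type} [Group G] [MulAction G E] [ContinuousConstSMul G E] [DistribMulAction G M]

theorem cu_smul (act : G → Equiv.Perm K) (hcol : LF col)
    (hact : ∀ g k x, col (act g k) (g • x) = col k x)
    (hb : ∀ g k, b (act g k) = g • b k) (g : G) (s : SingSimplex E 2) :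
    cu col b (simplexTranslate (Homeomorph.smul g) s) = g • cu col b s := by
  classical
  obtain ⟨T, hT⟩ := cu_support hcol (un s)
  have hT' : ∀ k, k ∉ T → Om ((col k).comp (un s)) = 0 := by
    intro k hk
    have := hT (ContinuousMap.id _) k hk
    rwa [ContinuousMap.comp_id] at this
  rw [cu_eq_sum hT', Finset.smul_sum]
  have key : ∀ k, (col (act g k)).comp (un (simplexTranslate (Homeomorph.smul g : E ≃ₜ E) s)) =
      (col k).comp (un s) := by
    intro k
    ext1 x
    exact hact g k _
  have h3 : cu col b (simplexTranslate (Homeomorph.smul g) s) =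
      ∑ k ∈ T.map (act g).toEmbedding,
        Om ((col k).comp (un (simplexTranslate (Homeomorph.smul g : E ≃ₜ E) s))) • b k := by
    apply cu_eq_sum
    intro k hk
    obtain ⟨k', rfl⟩ := (act g).surjective k
    rw [key]
    apply hT'
    intro h
    exact hk (Finset.mem_map_of_mem _ h)
  rw [h3, Finset.sum_map]
  refine Finset.sum_congr rfl fun k _ => ?_
  show Om ((col (act g k)).comp _) • b (act g k) = _
  rw [key, hb, smul_comm]

end abs

/-! ### the 2-cells of a free equivariant attachment -/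

section gatt

variable {G : Type} [Group G] {Z : Type} [TopologicalSpace Z] [MulAction G Z]
  {C : Type} {φ : C → C(S 2, Z)}

open Classical in
/-- the collapse of the complement of the open cell `k = (g, c)` -/
def gcolF (φ : C → C(S 2, Z)) (k : G × C) (p : GAtt G φ) : S2 :=
  Sum.elim (fun _ => north) (fun q : G × C × B 2 => if q.1 = k.1 ∧ q.2.1 = k.2 then kD (bd 2 q.2.2)
    else north) p

theorem gcolF_inZ (k : G × C) (z : Z) : gcolF φ k (inZ φ z) = north := rfl

theorem gcolF_chr_self (k : G × C) (x : D 2) : gcolF φ k (chr φ k.1 k.2 x) = kD x := by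
  induction x using D.cases' with
  | hB x =>
    rw [chr_bd]
    exact if_pos ⟨rfl, rfl⟩
  | hS x =>
    rw [chr_sd, gcolF_inZ, kD_north _ x.norm_eq]

theorem gcolF_chr_ne {k : G × C} {g : G} {c : C} (h : (g, c) ≠ k) (x : D 2) :
    gcolF φ k (chr φ g c x) = north := by
  induction x using D.cases' with
  | hB x =>
    rw [chr_bd]
    refine if_neg ?_
    rintro ⟨h1, h2⟩
    exact h (Prod.ext h1 h2)
  | hS x => rw [chr_sd, gcolF_inZ]

/-- the collapse map of a cell of `GAtt` -/
def gcol (φ : C → C(S 2, Z)) (k : G × C) : C(GAtt G φ, S2) := ⟨gcolF φ k, by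
  rw [Crest.Agent.R185.Att.continuous_iff]
  constructor
  · exact continuous_const
  · intro g c
    by_cases h : (g, c) = k
    · subst h
      have : gcolF φ (g, c) ∘ chr φ g c = kD := by
        funext x
        exact gcolF_chr_self (g, c) x
      rw [this]
      exact kD.continuous
    · have : gcolF φ k ∘ chr φ g c = fun _ => north := by
        funext x
        exact gcolF_chr_ne h x
      rw [this]
      exact continuous_const⟩

theorem gcol_inZ (k : G × C) (z : Z) : gcol φ k (inZ φ z) = north := rfl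
theorem gcol_chr_self (g : G) (c : C) (x : D 2) : gcol φ (g, c) (chr φ g c x) = kD x :=
  gcolF_chr_self (g, c) x
theorem gcol_chr_ne {k : G × C} {g : G} {c : C} (h : (g, c) ≠ k) (x : D 2) :
    gcol φ k (chr φ g c x) = north := gcolF_chr_ne h x

theorem gcol_LF [T1Space Z] [T2Space (GAtt G φ)] : LF (gcol φ : G × C → C(GAtt G φ, S2)) := by
  intro K hK
  refine (finite_cells hK).subset ?_
  rintro ⟨g, c⟩ ⟨p, hp, hne⟩
  induction p using GAtt.cases' with
  | hZ z => exact absurd (gcol_inZ _ z) hne
  | hB g' c' x =>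
    by_cases h : (g', c') = (g, c)
    · rw [Prod.mk.injEq] at h
      rw [h.1, h.2] at hp
      exact ⟨x, hp⟩
    · exact absurd (by rw [← chr_bd]; exact gcol_chr_ne h _) hne

/-- left translation of the index set -/
def actP (g : G) : Equiv.Perm (G × C) := (Equiv.mulLeft g).prodCongr (Equiv.refl C)

theorem gcol_act [ContinuousConstSMul G Z] (g : G) (k : G × C) (p : GAtt G φ) :
    gcol φ (actP g k) (g • p) = gcol φ k p := by
  obtain ⟨h, c⟩ := k
  show gcol φ (g * h, c) (g • p) = _
  induction p using GAtt.cases' with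
  | hZ z => rfl
  | hB g' c' x =>
    rw [smul_inB, ← chr_bd, ← chr_bd]
    by_cases hk : (g', c') = (h, c)
    · rw [Prod.mk.injEq] at hk
      rw [hk.1, hk.2, gcol_chr_self, gcol_chr_self]
    · rw [gcol_chr_ne hk, gcol_chr_ne]
      intro hk'
      apply hk
      rw [Prod.mk.injEq] at hk' ⊢
      exact ⟨mul_left_cancel hk'.1, hk'.2⟩

/-- LEMMA B for the 2-cells of `GAtt G φ` (any `G`-module `M`, any values `b c` on the cells). -/
theorem exists_cell_cocycle (φ : C → C(S 2, Z)) [ContinuousConstSMul G Z] [T1Space Z]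
    [T2Space (GAtt G φ)] {M : Type} [AddCommGroup M] [DistribMulAction G M] (b : C → M) :
    ∃ u : SingSimplex (GAtt G φ) 2 → M, cochainCobdry u = 0 ∧
      (∀ (g : G) (s : SingSimplex (GAtt G φ) 2),
        u (simplexTranslate (Homeomorph.smul g) s) = g • u s) ∧
      (∀ s : SingSimplex (GAtt G φ) 2, (∀ x, un s x ∈ Set.range (inZ φ : Z → GAtt G φ)) → u s = 0) ∧
      ∀ (g : G) (c : C) (h : C(I × I, GAtt G φ)), (∀ p, h p = chr φ g c (sqD p)) →
        u (mk (h.comp lowT)) - u (mk (h.comp upT)) = g • b c := by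
  refine ⟨cu (gcol φ) (fun k : G × C => k.1 • b k.2), cu_cobdry gcol_LF, fun g s => ?_,
    fun s hs => ?_, fun g c h hh => ?_⟩
  · refine cu_smul actP gcol_LF gcol_act (fun g k => ?_) g s
    show (g * k.1) • b k.2 = _
    rw [mul_smul]
  · apply cu_zero
    intro k x
    obtain ⟨z, hz⟩ := hs x
    rw [← hz, gcol_inZ]
  · rw [cu_square h (g, c)]
    · ext1 p
      show gcol φ (g, c) (h p) = _
      rw [hh, gcol_chr_self]
      rfl
    · intro k hk p
      rw [hh]
      exact gcol_chr_ne (Ne.symm hk) _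

/-- refined zero set: the cocycle with `b c = 0` off a set `J` of types vanishes on every simplex that
avoids the open cells of types in `J`. -/
theorem exists_cell_cocycle' (φ : C → C(S 2, Z)) [ContinuousConstSMul G Z] [T1Space Z]
    [T2Space (GAtt G φ)] {M : Type} [AddCommGroup M] [DistribMulAction G M] (b : C → M) :
    ∃ u : SingSimplex (GAtt G φ) 2 → M, cochainCobdry u = 0 ∧
      (∀ (g : G) (s : SingSimplex (GAtt G φ) 2),
        u (simplexTranslate (Homeomorph.smul g) s) = g • u s) ∧
      (∀ s : SingSimplex (GAtt G φ) 2,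
        (∀ x, ∀ g c y, b c ≠ 0 → un s x ≠ inB φ g c y) → u s = 0) ∧
      ∀ (g : G) (c : C) (h : C(I × I, GAtt G φ)), (∀ p, h p = chr φ g c (sqD p)) →
        u (mk (h.comp lowT)) - u (mk (h.comp upT)) = g • b c := by
  classical
  refine ⟨cu (gcol φ) (fun k : G × C => k.1 • b k.2), cu_cobdry gcol_LF, fun g s => ?_,
    fun s hs => ?_, fun g c h hh => ?_⟩
  · refine cu_smul actP gcol_LF gcol_act (fun g k => ?_) g s
    show (g * k.1) • b k.2 = _
    rw [mul_smul]
  · show (∑ᶠ k : G × C, Om ((gcol φ k).comp (un s)) • (k.1 • b k.2)) = 0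
    apply finsum_eq_zero_of_forall_eq_zero
    rintro ⟨g, c⟩
    by_cases hc : b c = 0
    · rw [hc, smul_zero, smul_zero]
    · have : (gcol φ (g, c)).comp (un s) = ContinuousMap.const _ north := by
        ext1 x
        show gcol φ (g, c) (un s x) = north
        have hx := hs x
        revert hx
        induction un s x using GAtt.cases' with
        | hZ z => intro _; rfl
        | hB g' c' y =>
          intro hx
          rw [← chr_bd]
          apply gcol_chr_ne
          intro h
          rw [Prod.mk.injEq] at h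
          exact hx g' c' y (by rw [h.2]; exact hc) rfl
      rw [this, Om_const, zero_smul]
  · rw [cu_square h (g, c)]
    · ext1 p
      show gcol φ (g, c) (h p) = _
      rw [hh, gcol_chr_self]
      rfl
    · intro k hk p
      rw [hh]
      exact gcol_chr_ne (Ne.symm hk) _

end gatt

end Crest.Agent.R251.HB
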