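import Crest.Agent.R251.LB972
import Crest.Agent.R185.Att1

/-!
# Row 251 (S0388): the open cells of one attachment `GAtt G φ` as an instance of helper972's `Cells`

(helper664)  `gcells φ : LB.Cells G (GAtt G φ) C (B m)`, any `m`, any `G`-space `Z`; the closed
2-cell as a map of the square `sqc φ g c : C(I × I, GAtt G φ)`.
-/

set_option autoImplicit false

open Set Metric Topology unitInterval
open Crest.Agent.R185.Att

namespace Crest.Agent.R251.LBg

section inst

variable {G : Type} [Group G] {Z : Type} [TopologicalSpace Z] [MulAction G Z] {m : ℕ} {C : Type}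
  (φ : C → C(S m, Z))

/-- the centre of the cell -/
def o (m : ℕ) : B m := ⟨0, mem_ball_self one_pos⟩

theorem o_coe (m : ℕ) : ((o m : B m) : Fin m → ℝ) = 0 := rfl

theorem eq_o_iff {x : B m} : x = o m ↔ (x : Fin m → ℝ) = 0 :=
  ⟨fun h => by rw [h]; rfl, fun h => Subtype.ext h⟩

theorem continuous_inB' (g : G) (c : C) : Continuous (inB φ g c : B m → GAtt G φ) := by
  have : (inB φ g c : B m → GAtt G φ) = chr φ g c ∘ bd m := by
    funext x
    exact (chr_bd g c x).symm
  rw [this]
  exact (continuous_chr g c).comp (bd m).continuous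

theorem isClosed_centres (x : B m) :
    IsClosed {e : GAtt G φ | ∃ g c, e = inB φ g c x} := by
  rw [isClosed_iff]
  constructor
  · convert isClosed_empty
    ext z
    simp only [mem_preimage, mem_setOf_eq, mem_empty_iff_false, iff_false]
    rintro ⟨g, c, h⟩
    exact inZ_ne_inB h
  · intro g c
    convert (isClosed_singleton (x := bd m x)) using 1
    ext y
    simp only [mem_preimage, mem_setOf_eq, mem_singleton_iff]
    induction y using D.cases' with
    | hB y =>
      rw [chr_bd]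
      constructor
      · rintro ⟨g', c', h⟩
        rw [(inB_inj.1 h).2.2]
      · intro h
        have h2 : y = x := by
          apply Subtype.ext
          have := congrArg (fun z : D m => (z : Fin m → ℝ)) h
          simpa using this
        exact ⟨g, c, by rw [h2]⟩
    | hS y =>
      rw [chr_sd]
      constructor
      · rintro ⟨g', c', h⟩
        exact absurd h inZ_ne_inB
      · intro h
        exact absurd h.symm (bd_ne_sd x y)

/-- the open cells of `GAtt G φ` -/
def gcells : LB.Cells G (GAtt G φ) C (B m) where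
  chart g c := ⟨inB φ g c, continuous_inB' φ g c⟩
  emb g c := IsOpenEmbedding.of_continuous_injective_isOpenMap (continuous_inB' φ g c)
    (fun _ _ h => (inB_inj.1 h).2.2) (fun _ hV => isOpen_inB_image hV)
  equi _ _ _ _ := rfl
  disj h := ⟨(inB_inj.1 h).1, (inB_inj.1 h).2.1⟩
  c0 := o m
  closed := isClosed_centres φ (o m)

@[simp] theorem gcells_chart_apply (g : G) (c : C) (x : B m) :
    (gcells φ).chart g c x = inB φ g c x := rfl

@[simp] theorem gcells_c0 : (gcells (G := G) φ).c0 = o m := rfl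

variable {φ}

theorem inB_mem_ctr {g : G} {c : C} {x : B m} :
    inB φ g c x ∈ (gcells (G := G) φ).ctr ↔ (x : Fin m → ℝ) = 0 := by
  rw [← eq_o_iff]
  exact (gcells φ).mem_ctr_chart (g := g) (j := c)

theorem inZ_notMem_ctr {z : Z} : (inZ φ z : GAtt G φ) ∉ (gcells (G := G) φ).ctr := by
  rintro ⟨g, c, h⟩
  exact inZ_ne_inB h

theorem inZ_mem_compl {z : Z} : (inZ φ z : GAtt G φ) ∈ (gcells (G := G) φ).ctrᶜ := inZ_notMem_ctr

theorem range_inZ_subset : range (inZ φ : Z → GAtt G φ) ⊆ (gcells (G := G) φ).ctrᶜ := by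
  rintro _ ⟨z, rfl⟩
  exact inZ_notMem_ctr

theorem chr_mem_ctr {g : G} {c : C} {x : D m} (hm : 0 < m) :
    chr φ g c x ∈ (gcells (G := G) φ).ctr ↔ (x : Fin m → ℝ) = 0 := by
  induction x using D.cases' with
  | hB x => rw [chr_bd, inB_mem_ctr]; rfl
  | hS x =>
    rw [chr_sd]
    simp only [sd_coe]
    constructor
    · intro h; exact absurd h inZ_notMem_ctr
    · intro h
      have h1 := x.norm_eq
      rw [h, norm_zero] at h1
      exact absurd h1 zero_ne_one

end inst

/-! ### the closed 2-cell as a square -/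

/-- `(s, t) ↦ (2 s - 1, 2 t - 1)` -/
noncomputable def sq : C(I × I, D 2) where
  toFun p := ⟨![2 * (p.1 : ℝ) - 1, 2 * (p.2 : ℝ) - 1], by
    rw [mem_closedBall_zero_iff, pi_norm_le_iff_of_nonneg zero_le_one]
    have h0 := p.1.2.1
    have h1 := p.1.2.2
    have h2 := p.2.2.1
    have h3 := p.2.2.2
    intro i
    fin_cases i
    · show ‖2 * (p.1 : ℝ) - 1‖ ≤ 1
      rw [Real.norm_eq_abs, abs_le]; constructor <;> linarith
    · show ‖2 * (p.2 : ℝ) - 1‖ ≤ 1
      rw [Real.norm_eq_abs, abs_le]; constructor <;> linarith⟩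
  continuous_toFun := by
    refine Continuous.subtype_mk (continuous_pi fun i => ?_) _
    fin_cases i
    · show Continuous fun p : I × I => 2 * (p.1 : ℝ) - 1
      fun_prop
    · show Continuous fun p : I × I => 2 * (p.2 : ℝ) - 1
      fun_prop

theorem sq_zero (p : I × I) : ((sq p : D 2) : Fin 2 → ℝ) 0 = 2 * (p.1 : ℝ) - 1 := rfl
theorem sq_one (p : I × I) : ((sq p : D 2) : Fin 2 → ℝ) 1 = 2 * (p.2 : ℝ) - 1 := rfl

/-- the interior of the square goes to the open cell -/
theorem norm_sq_lt_iff (p : I × I) :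
    ‖((sq p : D 2) : Fin 2 → ℝ)‖ < 1 ↔ (0 < (p.1 : ℝ) ∧ (p.1 : ℝ) < 1) ∧ (0 < (p.2 : ℝ) ∧ (p.2 : ℝ) < 1) := by
  rw [pi_norm_lt_iff one_pos]
  constructor
  · intro h
    have h0 := h 0
    have h1 := h 1
    rw [sq_zero, Real.norm_eq_abs, abs_lt] at h0
    rw [sq_one, Real.norm_eq_abs, abs_lt] at h1
    refine ⟨⟨by linarith [h0.1], by linarith [h0.2]⟩, ⟨by linarith [h1.1], by linarith [h1.2]⟩⟩
  · rintro ⟨⟨a, b⟩, c, d⟩ i
    fin_cases i
    · show ‖((sq p : D 2) : Fin 2 → ℝ) 0‖ < 1
      rw [sq_zero, Real.norm_eq_abs, abs_lt]; constructor <;> linarith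
    · show ‖((sq p : D 2) : Fin 2 → ℝ) 1‖ < 1
      rw [sq_one, Real.norm_eq_abs, abs_lt]; constructor <;> linarith

theorem sq_eq_zero_iff (p : I × I) :
    ((sq p : D 2) : Fin 2 → ℝ) = 0 ↔ (p.1 : ℝ) = 1 / 2 ∧ (p.2 : ℝ) = 1 / 2 := by
  constructor
  · intro h
    have h0 := congrFun h 0
    have h1 := congrFun h 1
    rw [sq_zero, Pi.zero_apply] at h0
    rw [sq_one, Pi.zero_apply] at h1
    constructor <;> linarith
  · rintro ⟨h0, h1⟩
    funext i
    fin_cases i
    · show ((sq p : D 2) : Fin 2 → ℝ) 0 = 0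
      rw [sq_zero]; linarith
    · show ((sq p : D 2) : Fin 2 → ℝ) 1 = 0
      rw [sq_one]; linarith

section cell

variable {G : Type} [Group G] {Z : Type} [TopologicalSpace Z] [MulAction G Z] {C : Type}
  (φ : C → C(S 2, Z))

/-- the closed 2-cell `(g, c)` as a map of the square -/
noncomputable def sqc (g : G) (c : C) : C(I × I, GAtt G φ) :=
  (⟨chr φ g c, continuous_chr g c⟩ : C(D 2, GAtt G φ)).comp sq

theorem sqc_apply (g : G) (c : C) (p : I × I) : sqc φ g c p = chr φ g c (sq p) := rfl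

theorem smul_sqc (g h : G) (c : C) (p : I × I) : g • sqc φ h c p = sqc φ (g * h) c p :=
  smul_chr g h c _

theorem sqc_mem_ctr_iff (g : G) (c : C) (p : I × I) :
    sqc φ g c p ∈ (gcells (G := G) φ).ctr ↔ (p.1 : ℝ) = 1 / 2 ∧ (p.2 : ℝ) = 1 / 2 := by
  rw [sqc_apply, chr_mem_ctr (by norm_num), sq_eq_zero_iff]

/-- on the open square the cell is the chart -/
theorem sqc_of_lt (g : G) (c : C) (p : I × I) (h : ‖((sq p : D 2) : Fin 2 → ℝ)‖ < 1) :
    sqc φ g c p = (gcells φ).chart g c ⟨(sq p : D 2), mem_ball_zero_iff.2 h⟩ := by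
  rw [sqc_apply, gcells_chart_apply]
  exact dif_pos h

/-- on the boundary of the square the cell is in `Z` -/
theorem sqc_of_not_lt (g : G) (c : C) (p : I × I) (h : ¬ ‖((sq p : D 2) : Fin 2 → ℝ)‖ < 1) :
    ∃ s : S 2, sq p = sd 2 s ∧ sqc φ g c p = inZ φ (g • φ c s) := by
  refine ⟨⟨(sq p : D 2), mem_sphere_zero_iff_norm.2 (le_antisymm (sq p).norm_le (not_lt.1 h))⟩, rfl, ?_⟩
  rw [sqc_apply]
  exact dif_neg h

end cell

end Crest.Agent.R251.LBg
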