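import Crest.Agent.R251.HB830C
import Crest.Agent.R251.PC752
import Crest.Agent.R251.Pr963b
import Crest.Agent.R251.LBg664

/-!
# Row 251: bridge of HB830C (Lemma B for `GAtt`) to the common names (Pr963, PC752, LBg664)
-/

set_option autoImplicit false
set_option linter.unusedSectionVars false

noncomputable section

open Crest.Agent.R185.Att Crest.GeometryTopology.DeckCochains
open scoped unitInterval

namespace Crest.Agent.R251.HB

theorem aff_lowT : (PC.aff ![((0 : I), (0 : I)), (1, 0), (1, 1)] : C(Pr.Dl 2, I × I)) = lowT := by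
  ext1 x
  refine Prod.ext (Subtype.ext ?_) (Subtype.ext ?_)
  · rw [PC.aff_fst, PC.affI_apply, Fin.sum_univ_three]
    show x 0 * (0 : ℝ) + x 1 * (1 : ℝ) + x 2 * (1 : ℝ) = x 1 + x 2
    ring
  · rw [PC.aff_snd, PC.affI_apply, Fin.sum_univ_three]
    show x 0 * (0 : ℝ) + x 1 * (0 : ℝ) + x 2 * (1 : ℝ) = x 2
    ring

theorem aff_upT : (PC.aff ![((0 : I), (0 : I)), (0, 1), (1, 1)] : C(Pr.Dl 2, I × I)) = upT := by
  ext1 x
  refine Prod.ext (Subtype.ext ?_) (Subtype.ext ?_)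
  · rw [PC.aff_fst, PC.affI_apply, Fin.sum_univ_three]
    show x 0 * (0 : ℝ) + x 1 * (0 : ℝ) + x 2 * (1 : ℝ) = x 2
    ring
  · rw [PC.aff_snd, PC.affI_apply, Fin.sum_univ_three]
    show x 0 * (0 : ℝ) + x 1 * (1 : ℝ) + x 2 * (1 : ℝ) = x 1 + x 2
    ring

section
variable {E : Type} [TopologicalSpace E]

theorem lin_low (f : C(I × I, E)) : PC.lin f ![((0 : I), (0 : I)), (1, 0), (1, 1)] =
    mk (f.comp lowT) := by
  unfold PC.lin
  rw [aff_lowT]
  rfl

theorem lin_up (f : C(I × I, E)) : PC.lin f ![((0 : I), (0 : I)), (0, 1), (1, 1)] =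
    mk (f.comp upT) := by
  unfold PC.lin
  rw [aff_upT]
  rfl

theorem un_eq_us {n : ℕ} (s : SingSimplex E n) : un s = Pr.us s := rfl
theorem mk_eq_sx {n : ℕ} (s : C(Pr.Dl n, E)) : mk s = Pr.sx s := rfl

end

variable {G : Type} [Group G] {Z : Type} [TopologicalSpace Z] [MulAction G Z]
  {C : Type} {φ : C → C(S 2, Z)}

/-- LEMMA B for the 2-cells of `GAtt G φ`, common names. -/
theorem lemmaB_gatt (φ : C → C(S 2, Z)) [ContinuousConstSMul G Z] [T1Space Z]
    [T2Space (GAtt G φ)] {M : Type} [AddCommGroup M] [DistribMulAction G M] (b : C → M) :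
    ∃ u : SingSimplex (GAtt G φ) 2 → M, Pr.EqC G u ∧ cochainCobdry u = 0 ∧
      (∀ s : SingSimplex (GAtt G φ) 2,
        (∀ x, ∀ g c y, b c ≠ 0 → Pr.us s x ≠ inB φ g c y) → u s = 0) ∧
      ∀ (g : G) (c : C),
        u (PC.lin (LBg.sqc φ g c) ![((0 : I), (0 : I)), (1, 0), (1, 1)]) -
          u (PC.lin (LBg.sqc φ g c) ![((0 : I), (0 : I)), (0, 1), (1, 1)]) = g • b c := by
  obtain ⟨u, h1, h2, h3, h4⟩ := exists_cell_cocycle' (G := G) φ b
  refine ⟨u, h2, h1, h3, fun g c => ?_⟩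
  rw [lin_low, lin_up]
  exact h4 g c _ fun p => rfl

end Crest.Agent.R251.HB
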