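import Crest.Agent.R251.KH34
import Crest.Agent.R251.K1a391
import Crest.Agent.R251.JB686
import Crest.Agent.R251.Ar348E
import Crest.Agent.R251.Det679
import Crest.Agent.R251.Joint19b
import Crest.Agent.R251.Coh539C
import Crest.Agent.R251.Fin711d

/-! R251 (helper341): the sphere side put together. -/

set_option autoImplicit false

open CategoryTheory Set Topology
open scoped unitInterval
open Crest.GeometryTopology.DeckCochains
open Crest.Agent.R185.Att Crest.Agent.R185.Base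
open Crest.Agent.R251.Alg (GG mu)
open Crest.Agent.R251.Mod

namespace Crest.Agent.R251.Hv

theorem det3 (M : Type) [AddCommGroup M] : KH34.Det3 M := by
  intro κ hκ βA βB hA hB h0
  refine Orb.detect3 κ hκ βA βB ?_ ?_ ?_
  · intro s hs
    refine hA s fun t => ?_
    have := hs t
    show (-1 : ℝ) / 2 < _
    have h1 : -(1/2 : ℝ) < ((Pr.us s t : S 3) : Fin 3 → ℝ) 0 := this
    linarith
  · intro s hs
    exact hB s hs
  · exact h0

theorem hv2 (h2 : C(D 2, EE2)) (f : C(S 3, EE2))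
    (hA : ∀ x : S 3, -1 < (x : Fin 3 → ℝ) 0 → f x = J19.cU (J19.tl3 x))
    (hB : ∀ x : S 3, (x : Fin 3 → ℝ) 0 < 1 → f x = h2 (J19.tl3 x))
    (hz : ∀ (M : Type) [AddCommGroup M] (u : SingSimplex EE2 2 → M), Ar.AdmS J19.inc u →
      ∀ β : SingSimplex (D 2) 1 → M, cochainCobdry β = Pr.pull h2 u → β (PC.ps Ar.cp) = 0)
    (M : Type) [AddCommGroup M] [DistribMulAction GG M] : Pr.HV GG (EE3 f) 2 M := by
  refine KH34.hv2_of f J19.cU h2 hA hB (fun b => ?_) (det3 M) (K1a.hv_EE2 2 le_rfl)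
  obtain ⟨u, hE, hc, hadm, har⟩ := JB.exists_adm M b
  refine ⟨u, hE, hc, fun α hα => ?_, fun β hβ => hz M u hadm β hβ⟩
  rw [Ar.cell_per (i := J19.inc) (c := J19.cU) (fun t => ?_) hadm hα (sq := LBg.sq) (fun x => ?_), har]
  · exact ⟨_, (J19.cU_sd t).symm⟩
  · rfl

theorem statement : Fin.Statement := by
  obtain ⟨h2, f, hA, hB, hz⟩ := J19.exists_sphere
  refine Fin.statement_of_sphere f (fun n hn M _ _ => ?_) (fun ζ hζ h3 h2' => ?_)
  · rcases Nat.lt_or_ge 2 n with h | h
    · exact K1a.hv_ge f n h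
    · obtain rfl : n = 2 := le_antisymm h hn
      exact hv2 h2 f hA hB hz M
  · exact Coh.hvmu h2 f hA hB hz ζ hζ h3 h2'

end Crest.Agent.R251.Hv
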