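import Mathlib
import Crest.Prelude.Def_DeckCochains

/-! Row 251, block C0: from equivariant singular cochains to vanishing of integral homology. -/

set_option autoImplicit false

open CategoryTheory AlgebraicTopology Simplicial Opposite
open Crest.GeometryTopology.DeckCochains

namespace Crest.Agent.R251.Hz

noncomputable section

/-- coefficients -/
abbrev ZZ : ModuleCat.{0} ℤ := ModuleCat.of ℤ ℤ

/-- the singular chain complex -/
abbrev SC (X : Type) [TopologicalSpace X] : ChainComplex (ModuleCat.{0} ℤ) ℕ :=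
  ((singularChainComplexFunctor (ModuleCat.{0} ℤ)).obj ZZ).obj (TopCat.of X)

variable {X : Type} [TopologicalSpace X]

/-- generator of the chain group -/
def gen {n : ℕ} (s : SingSimplex X n) : (SC X).X n :=
  (SSet.ιChainComplex (X := TopCat.toSSet.obj (TopCat.of X)) (R := ZZ) s).hom (1 : ℤ)

/-- boundary -/
def bd (X : Type) [TopologicalSpace X] (n : ℕ) : (SC X).X (n + 1) →ₗ[ℤ] (SC X).X n :=
  ((SC X).d (n + 1) n).hom

theorem bd_gen {n : ℕ} (s : SingSimplex X (n + 1)) :
    bd X n (gen s) = ∑ i : Fin (n + 2), (-1 : ℤ) ^ (i : ℕ) • gen (simplexFace i s) := by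
  have h := SSet.ιChainComplex_d (X := TopCat.toSSet.obj (TopCat.of X)) (R := ZZ) s
  have h2 := congrArg (fun φ => φ.hom (1 : ℤ)) h
  simp only [ModuleCat.hom_comp, LinearMap.comp_apply, ModuleCat.hom_sum, LinearMap.sum_apply,
    ModuleCat.hom_zsmul] at h2
  exact h2

/-- translation of chains -/
def push (g : X ≃ₜ X) (n : ℕ) : (SC X).X n →ₗ[ℤ] (SC X).X n :=
  ((((singularChainComplexFunctor (ModuleCat.{0} ℤ)).obj ZZ).map
    (TopCat.ofHom (g : C(X, X)))).f n).hom

theorem push_gen {n : ℕ} (g : X ≃ₜ X) (s : SingSimplex X n) :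
    push g n (gen s) = gen (simplexTranslate g s) := by
  have h := SSet.ι_chainComplexMap_f (X := TopCat.toSSet.obj (TopCat.of X))
    (Y := TopCat.toSSet.obj (TopCat.of X)) (R := ZZ)
    (TopCat.toSSet.map (TopCat.ofHom (g : C(X, X)))) s
  have h2 := congrArg (fun φ => φ.hom (1 : ℤ)) h
  exact h2

theorem push_one (n : ℕ) : push (1 : X ≃ₜ X) n = LinearMap.id := by
  have h : ((singularChainComplexFunctor (ModuleCat.{0} ℤ)).obj ZZ).map
      (TopCat.ofHom ((1 : X ≃ₜ X) : C(X, X))) = 𝟙 _ := by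
    have : TopCat.ofHom ((1 : X ≃ₜ X) : C(X, X)) = 𝟙 (TopCat.of X) := rfl
    rw [this, CategoryTheory.Functor.map_id]
  unfold push
  rw [h]
  rfl

theorem push_mul (g g' : X ≃ₜ X) (n : ℕ) : push (g * g') n = (push g n).comp (push g' n) := by
  have h : ((singularChainComplexFunctor (ModuleCat.{0} ℤ)).obj ZZ).map
      (TopCat.ofHom ((g * g' : X ≃ₜ X) : C(X, X))) =
      ((singularChainComplexFunctor (ModuleCat.{0} ℤ)).obj ZZ).map
        (TopCat.ofHom (g' : C(X, X))) ≫
      ((singularChainComplexFunctor (ModuleCat.{0} ℤ)).obj ZZ).map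
        (TopCat.ofHom (g : C(X, X))) := by
    have : TopCat.ofHom ((g * g' : X ≃ₜ X) : C(X, X)) =
      TopCat.ofHom (g' : C(X, X)) ≫ TopCat.ofHom (g : C(X, X)) := rfl
    rw [this, CategoryTheory.Functor.map_comp]
  unfold push
  rw [h]
  rfl

theorem bd_push {n : ℕ} (g : X ≃ₜ X) (x : (SC X).X (n + 1)) :
    bd X n (push g (n + 1) x) = push g n (bd X n x) := by
  have h := (((singularChainComplexFunctor (ModuleCat.{0} ℤ)).obj ZZ).map
    (TopCat.ofHom (g : C(X, X)))).comm (n + 1) n
  exact congrArg (fun φ => φ.hom x) h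

/-- additive maps out of the chain group -/
def liftC {n : ℕ} {V : Type} [AddCommGroup V] (φ : SingSimplex X n → V) :
    (SC X).X n →+ V :=
  ((TopCat.toSSet.obj (TopCat.of X)).isColimitChainComplexXCofan ZZ n |>.desc
    (Limits.Cofan.mk (ModuleCat.of ℤ V) fun x => ModuleCat.ofHom
      (LinearMap.toSpanSingleton ℤ V (φ x)))).hom.toAddMonoidHom

theorem liftC_gen {n : ℕ} {V : Type} [AddCommGroup V] (φ : SingSimplex X n → V)
    (s : SingSimplex X n) : liftC φ (gen s) = φ s := by
  have h := ((TopCat.toSSet.obj (TopCat.of X)).isColimitChainComplexXCofan ZZ n).fac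
    (Limits.Cofan.mk (ModuleCat.of ℤ V) fun x => ModuleCat.ofHom
      (LinearMap.toSpanSingleton ℤ V (φ x))) ⟨s⟩
  have h2 := congrArg (fun φ => φ.hom (1 : ℤ)) h
  refine (Eq.trans h2 ?_)
  exact one_smul ℤ (φ s)

theorem chain_ext {n : ℕ} {V : Type} [AddCommGroup V]
    (φ ψ : (SC X).X n →+ V) (h : ∀ s : SingSimplex X n, φ (gen s) = ψ (gen s)) : φ = ψ := by
  let lin : ((SC X).X n →+ V) → ((SC X).X n →ₗ[ℤ] V) := fun f =>
    { toFun := f
      map_add' := map_add f
      map_smul' := fun r x => by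
        have := map_intCast_smul f ℤ ℤ r x
        simpa using this }
  have h1 : ModuleCat.ofHom (lin φ) = ModuleCat.ofHom (lin ψ) := by
    apply SSet.chainComplex_hom_ext (X := TopCat.toSSet.obj (TopCat.of X)) (R := ZZ)
    intro x
    ext
    exact h x
  have h2 : lin φ = lin ψ := congrArg (fun φ => φ.hom) h1
  ext x
  exact LinearMap.congr_fun h2 x

/-- boundaries -/
abbrev B (X : Type) [TopologicalSpace X] (n : ℕ) : AddSubgroup ((SC X).X n) :=
  (bd X n).toAddMonoidHom.range

/-- the chains modulo boundaries -/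
abbrev Q (X : Type) [TopologicalSpace X] (n : ℕ) : Type := (SC X).X n ⧸ B X n

/-- action on the quotient -/
def pushQ (g : X ≃ₜ X) (n : ℕ) : Q X n →+ Q X n :=
  QuotientAddGroup.map _ _ (push g n).toAddMonoidHom (by
    rintro x ⟨y, rfl⟩
    exact ⟨push g (n + 1) y, bd_push g y⟩)

theorem pushQ_mk (g : X ≃ₜ X) (n : ℕ) (x : (SC X).X n) :
    pushQ g n (QuotientAddGroup.mk x) = QuotientAddGroup.mk (push g n x) := rfl

/-- the module `C_n / B_n` of a group acting through homeomorphisms -/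
@[implicit_reducible]
def actQ {G : Type*} [Group G] (ρ : G →* (X ≃ₜ X)) (n : ℕ) : DistribMulAction G (Q X n) where
  smul g x := pushQ (ρ g) n x
  one_smul x := by
    obtain ⟨x, rfl⟩ := QuotientAddGroup.mk_surjective x
    change pushQ (ρ 1) n _ = _
    rw [map_one, pushQ_mk, push_one]
    rfl
  mul_smul g g' x := by
    obtain ⟨x, rfl⟩ := QuotientAddGroup.mk_surjective x
    change pushQ (ρ (g * g')) n _ = pushQ (ρ g) n (pushQ (ρ g') n _)
    rw [map_mul, pushQ_mk, push_mul, LinearMap.comp_apply, ← pushQ_mk, ← pushQ_mk]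
  smul_zero g := map_zero (pushQ (ρ g) n)
  smul_add g x y := map_add (pushQ (ρ g) n) x y

/-- exactness of the singular chains in degree `n + 1` gives the vanishing of homology -/
theorem isZero_of_exact (n : ℕ)
    (h : ∀ x : (SC X).X (n + 1), bd X n x = 0 → ∃ y, bd X (n + 1) y = x) :
    Limits.IsZero (((singularHomologyFunctor (ModuleCat.{0} ℤ) (n + 1)).obj
      (ModuleCat.of ℤ ℤ)).obj (TopCat.of X)) := by
  have h1 : (SC X).ExactAt (n + 1) := by
    rw [(SC X).exactAt_iff' (n + 2) (n + 1) n (by simp) (by simp)]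
    rw [ShortComplex.moduleCat_exact_iff]
    intro x hx
    exact h x hx
  exact h1.isZero_homology

/-- **C0, general form.** `G` acts on `X` through `ρ`. -/
theorem isZero_of_action {G : Type*} [Group G] (ρ : G →* (X ≃ₜ X)) (n : ℕ)
    (h : ∀ (M : Type) [AddCommGroup M] [DistribMulAction G M] (φ : SingSimplex X (n + 1) → M),
      (∀ (g : G) (s : SingSimplex X (n + 1)), φ (simplexTranslate (ρ g) s) = g • φ s) →
      cochainCobdry φ = 0 → ∃ ψ : SingSimplex X n → M, cochainCobdry ψ = φ) :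
    Limits.IsZero (((singularHomologyFunctor (ModuleCat.{0} ℤ) (n + 1)).obj
      (ModuleCat.of ℤ ℤ)).obj (TopCat.of X)) := by
  apply isZero_of_exact
  let _ : DistribMulAction G (Q X (n + 1)) := actQ ρ (n + 1)
  let φ : SingSimplex X (n + 1) → Q X (n + 1) := fun s => QuotientAddGroup.mk (gen s)
  obtain ⟨ψ, hψ⟩ := h (Q X (n + 1)) φ (by
    intro g s
    change (QuotientAddGroup.mk (gen (simplexTranslate (ρ g) s)) : Q X (n + 1)) =
      pushQ (ρ g) (n + 1) (QuotientAddGroup.mk (gen s))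
    rw [pushQ_mk, push_gen]) (by
    funext s
    change ∑ i : Fin (n + 3), ((-1 : ℤ) ^ (i : ℕ)) •
      (QuotientAddGroup.mk (gen (simplexFace i s)) : Q X (n + 1)) = 0
    have h1 : (∑ i : Fin (n + 3), ((-1 : ℤ) ^ (i : ℕ)) •
      (QuotientAddGroup.mk (gen (simplexFace i s)) : Q X (n + 1))) =
      QuotientAddGroup.mk' (B X (n + 1)) (bd X (n + 1) (gen s)) := by
      rw [bd_gen, map_sum]
      refine Finset.sum_congr rfl fun i _ => ?_
      exact (map_zsmul (QuotientAddGroup.mk' (B X (n + 1))) ((-1) ^ (i : ℕ))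
        (gen (simplexFace i s))).symm
    rw [h1]
    exact (QuotientAddGroup.eq_zero_iff _).2 ⟨gen s, rfl⟩)
  intro x hx
  have h2 : QuotientAddGroup.mk' (B X (n + 1)) = (liftC ψ).comp (bd X n).toAddMonoidHom := by
    apply chain_ext
    intro s
    have h3 : cochainCobdry ψ s = φ s := congrFun hψ s
    change (φ s : Q X (n + 1)) = liftC ψ (bd X n (gen s))
    rw [← h3, bd_gen, map_sum]
    refine Finset.sum_congr rfl fun i _ => ?_
    have h5 := map_zsmul (liftC ψ) ((-1) ^ (i : ℕ)) (gen (simplexFace i s))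
    rw [liftC_gen] at h5
    exact h5.symm
  have h4 : QuotientAddGroup.mk' (B X (n + 1)) x = liftC ψ (bd X n x) :=
    DFunLike.congr_fun h2 x
  rw [hx, map_zero] at h4
  exact (QuotientAddGroup.eq_zero_iff x).1 h4

/-- **C0 without a group.** -/
theorem isZero_of_cochains (n : ℕ)
    (h : ∀ (M : Type) [AddCommGroup M] (φ : SingSimplex X (n + 1) → M),
      cochainCobdry φ = 0 → ∃ ψ : SingSimplex X n → M, cochainCobdry ψ = φ) :
    Limits.IsZero (((singularHomologyFunctor (ModuleCat.{0} ℤ) (n + 1)).obj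
      (ModuleCat.of ℤ ℤ)).obj (TopCat.of X)) :=
  isZero_of_action (G := Unit) 1 n fun M _ _ φ _ hφ => h M φ hφ

/-- **C0 in the form of S0388.** -/
theorem isZero_homology_of_deck {E X : Type} [TopologicalSpace E] [TopologicalSpace X]
    (p : E → X) (n : ℕ)
    (h : ∀ (M : Type) [AddCommGroup M] [DistribMulAction (deckGroup p) M],
      DeckCohomologyVanishes p M n) :
    Limits.IsZero (((singularHomologyFunctor (ModuleCat.{0} ℤ) (n + 1)).obj
      (ModuleCat.of ℤ ℤ)).obj (TopCat.of E)) := by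
  apply isZero_of_action (Subgroup.subtype (deckGroup p)) n
  intro M _ _ φ hφ hc
  obtain ⟨ψ, -, hψ⟩ := h M φ (fun g s => hφ g s) hc
  exact ⟨ψ, hψ⟩

/-- all degrees above two at once -/
theorem isZero_homology_all {E X : Type} [TopologicalSpace E] [TopologicalSpace X]
    (p : E → X)
    (h : ∀ (n : ℕ), 2 ≤ n → ∀ (M : Type) [AddCommGroup M] [DistribMulAction (deckGroup p) M],
      DeckCohomologyVanishes p M n) (i : ℕ) (hi : 2 < i) :
    Limits.IsZero (((singularHomologyFunctor (ModuleCat.{0} ℤ) i).obj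
      (ModuleCat.of ℤ ℤ)).obj (TopCat.of E)) := by
  obtain ⟨n, rfl⟩ : ∃ n, i = n + 1 := ⟨i - 1, by omega⟩
  exact isZero_homology_of_deck p n fun M _ _ => h n (by omega) M

end

end Crest.Agent.R251.Hz
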