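import Crest.Agent.R251.KH34
import Crest.Agent.R251.Det679
import Crest.Agent.R251.Joint19b
import Crest.Agent.R251.JB686
import Crest.Agent.R251.Ar348E
import Crest.Agent.R251.K1a391
import Crest.Agent.R251.Fin711d
import Crest.Agent.R251.Coh539C

/-!
# R251 (S0388), block K1 (helper34): `H^(n+1)_G(EE3 f; M) = 0` for all `n ≥ 2` and all `M`.
-/

set_option autoImplicit false
set_option linter.unusedSectionVars false

open Set Topology
open scoped unitInterval
open Crest.GeometryTopology.DeckCochains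
open Crest.Agent.R185.Att Crest.Agent.R185.Base
open Crest.Agent.R251.Mod
open Crest.Agent.R251.Alg (GG mu)
open Crest.Agent.R251.Pr (EqC HV pull)
open Crest.Agent.R251.Orb (SIn)

namespace Crest.Agent.R251.KH34

noncomputable section

/-- detect3, plugged in -/
theorem det3 (M : Type) [AddCommGroup M] : Det3 M := by
  intro κ hκ βA βB hA hB h0
  refine Orb.detect3 κ hκ βA βB (fun s hs => hA s (hs.mono ?_)) (fun s hs => hB s (hs.mono ?_)) h0
  · intro x hx
    show -1 / 2 < (x : Fin 3 → ℝ) 0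
    have : -(1 / 2 : ℝ) < (x : Fin 3 → ℝ) 0 := hx
    linarith
  · intro x hx
    exact hx

section sphere

variable (h2 : C(D 2, EE2)) (f : C(S 3, EE2))
  (hA : ∀ x : S 3, -1 < (x : Fin 3 → ℝ) 0 → f x = J19.cU (J19.tl3 x))
  (hB : ∀ x : S 3, (x : Fin 3 → ℝ) 0 < 1 → f x = h2 (J19.tl3 x))
  (hz : ∀ (M : Type) [AddCommGroup M] (u : SingSimplex EE2 2 → M), Ar.AdmS J19.inc u →
    ∀ β : SingSimplex (D 2) 1 → M, cochainCobdry β = pull h2 u → β (PC.ps Ar.cp) = 0)

include hA hB hz

/-- the critical degree -/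
theorem hv2 (M : Type) [AddCommGroup M] [DistribMulAction GG M] : HV GG (EE3 f) 2 M := by
  refine hv2_of f J19.cU h2 (fun x hx => hA x hx) (fun x hx => hB x hx) (fun b => ?_) (det3 M)
    (K1a.hv_EE2 2 le_rfl)
  obtain ⟨u, h1, h3, h4, h5⟩ := JB.exists_adm M b
  refine ⟨u, h1, h3, fun α hα => ?_, fun β hβ => hz M u h4 β hβ⟩
  rw [← h5]
  exact Ar.cell_per (i := J19.inc) (fun t => ⟨J19.gU t, (J19.cU_sd t).symm⟩) h4 hα (fun x => rfl)

/-- **K1** -/
theorem hv (n : ℕ) (hn : 2 ≤ n) (M : Type) [AddCommGroup M] [DistribMulAction GG M] :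
    Fin.HV GG (EE3 f) M n := by
  rcases eq_or_lt_of_le hn with rfl | hn
  · exact hv2 h2 f hA hB hz M
  · exact K1a.hv_ge f n hn

end sphere

/-- **S0388** in 711's form -/
theorem statement : Fin.Statement := by
  obtain ⟨h2, f, hA, hB, hz⟩ := J19.exists_sphere
  exact Fin.statement_of_sphere f (fun n hn M _ _ => hv h2 f hA hB hz n hn M)
    (fun ζ hζ h3 h2' => Coh.hvmu h2 f hA hB hz ζ hζ h3 h2')

end

end Crest.Agent.R251.KH34
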