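import Crest.Agent.R251.Cay337
import Crest.Agent.R251.PC752
import Crest.Agent.R251.Pr963b

/-!
# Row 251: equivariant 1-cocycles on the Cayley graph: values on edge paths

`der gen D0 l` is the value at the word `l` of the derivation with values `D0` on the generators.
-/

set_option autoImplicit false

open Set Metric Topology
open scoped unitInterval
open Crest.GeometryTopology.DeckCochains
open Crest.Agent.R185.Att
open Crest.Agent.R251.Pr (Dl sx us EqC push act)
open Crest.Agent.R251.PC
open Crest.Agent.R251.Mod

namespace Crest.Agent.R251.Kr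

noncomputable section

variable {G : Type} [Group G] {ι : Type} (gen : ι → G) {M : Type} [AddCommGroup M]
  [DistribMulAction G M]

/-- the value at a word of the derivation with values `D0` on the generators -/
def der (D0 : ι → M) : List (ι × Bool) → M
  | [] => 0
  | (i, true) :: l => D0 i + gen i • der D0 l
  | (i, false) :: l => - ((gen i)⁻¹ • D0 i) + (gen i)⁻¹ • der D0 l

@[simp] theorem der_nil (D0 : ι → M) : der gen D0 [] = 0 := rfl
@[simp] theorem der_true (D0 : ι → M) (i : ι) (l : List (ι × Bool)) :
    der gen D0 ((i, true) :: l) = D0 i + gen i • der gen D0 l := rfl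
@[simp] theorem der_false (D0 : ι → M) (i : ι) (l : List (ι × Bool)) :
    der gen D0 ((i, false) :: l) = - ((gen i)⁻¹ • D0 i) + (gen i)⁻¹ • der gen D0 l := rfl

theorem der_append (D0 : ι → M) (l l' : List (ι × Bool)) :
    der gen D0 (l ++ l') = der gen D0 l + val gen l • der gen D0 l' := by
  induction l with
  | nil => simp [val]
  | cons x l ih =>
    obtain ⟨i, b⟩ := x
    cases b
    · simp only [List.cons_append, der_false, ih, val, smul_add, mul_smul, add_assoc]
    · simp only [List.cons_append, der_true, ih, val, smul_add, mul_smul, add_assoc]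

theorem coe_cast {E : Type} [TopologicalSpace E] {x y x' y' : E} (γ : Path x y) (hx : x' = x)
    (hy : y' = y) : ((γ.cast hx hy : Path x' y') : C(I, E)) = (γ : C(I, E)) := rfl

theorem smul_edge (g h : G) (i : ι) :
    smulC g (edge gen h i : C(I, Z2 gen)) = (edge gen (g * h) i : C(I, Z2 gen)) := by
  ext t
  exact smul_chr g h i (d1 t)

/-- values of an equivariant 1-cocycle on the edge paths -/
theorem value_wpath {β : SingSimplex (Z2 gen) 1 → M} (hβ : cochainCobdry β = 0) (hE : EqC G β)
    {D0 : ι → M} (hD : ∀ i, β (ps (edge gen 1 i : C(I, Z2 gen))) = D0 i) :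
    ∀ (l : List (ι × Bool)) (g : G), β (ps (wpath gen g l : C(I, Z2 gen))) = g • der gen D0 l := by
  have hc : ClosedOn β univ := closedOn_univ hβ
  have hedge : ∀ (g : G) (i : ι), β (ps (edge gen g i : C(I, Z2 gen))) = g • D0 i := by
    intro g i
    rw [← hD i, ← hE g]
    have := smul_edge gen g 1 i
    rw [mul_one] at this
    rw [← this]
    rfl
  intro l
  induction l with
  | nil =>
    intro g
    rw [der_nil, smul_zero]
    exact hc.const (mem_univ (v gen g))
  | cons x l ih =>
    intro g
    obtain ⟨i, b⟩ := x
    cases b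
    · let p : Path (v gen g) (v gen (g * (gen i)⁻¹)) :=
        (edge gen (g * (gen i)⁻¹) i).symm.cast (by rw [inv_mul_cancel_right]) rfl
      let q := wpath gen (g * (gen i)⁻¹) l
      have e : (wpath gen g ((i, false) :: l) : C(I, Z2 gen)) = (p.trans q : C(I, Z2 gen)) := rfl
      have e2 : (p : C(I, Z2 gen)) = ((edge gen (g * (gen i)⁻¹) i).symm : C(I, Z2 gen)) := rfl
      rw [e, hc.trans p q (fun _ => mem_univ _) (fun _ => mem_univ _), e2,
        hc.symm (edge gen (g * (gen i)⁻¹) i) (fun _ => mem_univ _), hedge, ih, der_false, smul_add,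
        smul_neg, mul_smul, mul_smul]
    · let q := wpath gen (g * gen i) l
      have e : (wpath gen g ((i, true) :: l) : C(I, Z2 gen)) =
        ((edge gen g i).trans q : C(I, Z2 gen)) := rfl
      rw [e, hc.trans (edge gen g i) q (fun _ => mem_univ _) (fun _ => mem_univ _), hedge, ih,
        der_true, smul_add, mul_smul]

/-- values on the closed edge loops -/
theorem value_wloop {β : SingSimplex (Z2 gen) 1 → M} (hβ : cochainCobdry β = 0) (hE : EqC G β)
    {D0 : ι → M} (hD : ∀ i, β (ps (edge gen 1 i : C(I, Z2 gen))) = D0 i)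
    (l : List (ι × Bool)) (h : val gen l = 1) :
    β (ps (wloop gen l h : C(I, Z2 gen))) = der gen D0 l := by
  have := value_wpath gen hβ hE hD l 1
  rw [one_smul] at this
  exact this

end

end Crest.Agent.R251.Kr
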