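import Crest.Agent.R251.Kr337a
import Crest.Agent.R251.LB972
import Crest.Agent.R251.Sm82C

/-!
# Row 251: equivariant 1-cocycles on the Cayley graph with prescribed values on the edges
-/

set_option autoImplicit false

open Set Metric Topology
open scoped unitInterval
open Crest.GeometryTopology.DeckCochains
open Crest.Agent.R185.Att
open Crest.Agent.R251.Pr (Dl EqC push act)
open Crest.Agent.R251.PC
open Crest.Agent.R251.Mod

namespace Crest.Agent.R251.Kr

noncomputable section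

/-! ### small vanishing in 972's form -/

theorem smallVanish_of {G E M : Type} [Group G] [TopologicalSpace E] [MulAction G E]
    [ContinuousConstSMul G E] [AddCommGroup M] [DistribMulAction G M] (n : ℕ) (U : Set (Set E))
    (hU : ∀ V ∈ U, IsOpen V) (hc : ⋃₀ U = univ) : LB.SmallVanish G E M n U := by
  intro φ hφ heq h0
  obtain ⟨ψ, h1, -, h3, h4⟩ := Sm.small_vanish U hU
    (fun x => by have : x ∈ ⋃₀ U := hc ▸ mem_univ x
                 exact this) φ hφ h0
  refine ⟨ψ, h1, fun g s => ?_, h3⟩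
  exact h4 ((Homeomorph.smul g : E ≃ₜ E) : C(E, E)) (DistribSMul.toAddMonoidHom M g)
    (fun s => heq g s) s

/-! ### the cocycle of the model cell `B 1` -/

/-- the step function -/
def th (x : B 1) : ℤ := if 0 ≤ (x : Fin 1 → ℝ) 0 then 1 else 0

/-- its 0-cochain -/
def wz : SingSimplex (B 1) 0 → ℤ := fun s => th (LB.un s (stdSimplex.vertex 0))

/-- the coboundary -/
def w1 : SingSimplex (B 1) 1 → ℤ := cochainCobdry wz

theorem w1_cobdry : cochainCobdry w1 = 0 := LB.cobdry_cobdry _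

theorem face_vertex {n : ℕ} (i : Fin (n + 2)) (j : Fin (n + 1)) :
    LB.face i (stdSimplex.vertex j : LB.Dn n) = stdSimplex.vertex (i.succAbove j) :=
  stdSimplex.map_vertex _ _

theorem w1_sx (τ : C(LB.Dn 1, B 1)) :
    w1 (LB.sx τ) = th (τ (stdSimplex.vertex 1)) - th (τ (stdSimplex.vertex 0)) := by
  have h : w1 (LB.sx τ) = ∑ i : Fin 2, ((-1 : ℤ) ^ (i : ℕ)) • wz (LB.sx (τ.comp (LB.face i))) := rfl
  rw [h, Fin.sum_univ_two]
  have h0 : wz (LB.sx (τ.comp (LB.face 0))) = th (τ (stdSimplex.vertex 1)) := by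
    rw [wz, LB.un_sx, ContinuousMap.comp_apply, face_vertex]; rfl
  have h1 : wz (LB.sx (τ.comp (LB.face 1))) = th (τ (stdSimplex.vertex 0)) := by
    rw [wz, LB.un_sx, ContinuousMap.comp_apply, face_vertex]; rfl
  rw [h0, h1]
  simp [sub_eq_add_neg]

theorem w1_miss {c0 : B 1} (hc0 : (c0 : Fin 1 → ℝ) = 0) (τ : C(LB.Dn 1, B 1))
    (h : c0 ∉ range τ) : w1 (LB.sx τ) = 0 := by
  have hne : ∀ s, (τ s : Fin 1 → ℝ) 0 ≠ 0 := by
    intro s hs
    apply h
    refine ⟨s, Subtype.ext ?_⟩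
    rw [hc0]
    funext i
    rw [Subsingleton.elim i 0, hs]; rfl
  have hcont : Continuous fun s => (τ s : Fin 1 → ℝ) 0 :=
    (continuous_apply 0).comp (continuous_subtype_val.comp τ.continuous)
  have hpre : IsPreconnected (range fun s : LB.Dn 1 => (τ s : Fin 1 → ℝ) 0) := by
    haveI : PreconnectedSpace (LB.Dn 1) :=
      isPreconnected_iff_preconnectedSpace.1 (convex_stdSimplex ℝ (Fin 2)).isPreconnected
    exact isPreconnected_range hcont
  have key : ∀ s t : LB.Dn 1, 0 ≤ (τ s : Fin 1 → ℝ) 0 → 0 ≤ (τ t : Fin 1 → ℝ) 0 := by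
    intro s t hs
    by_contra ht
    have h2 := hpre.ordConnected.out (mem_range_self t) (mem_range_self s)
    obtain ⟨r, hr⟩ := h2 ⟨(not_le.1 ht).le, hs⟩
    exact hne r hr
  rw [w1_sx]
  have : th (τ (stdSimplex.vertex 1)) = th (τ (stdSimplex.vertex 0)) := by
    unfold th
    by_cases h0 : 0 ≤ (τ (stdSimplex.vertex 0) : Fin 1 → ℝ) 0
    · rw [if_pos h0, if_pos (key _ _ h0)]
    · rw [if_neg h0, if_neg (fun h1 => h0 (key _ _ h1))]
  rw [this, sub_self]

/-! ### the value on the edge -/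

variable {G : Type} [Group G] {ι : Type} (gen : ι → G) {M : Type} [AddCommGroup M]
  [DistribMulAction G M]

theorem chr_eq_inB {m : ℕ} {C : Type} {Z : Type} [TopologicalSpace Z] [MulAction G Z]
    {φ : C → C(S m, Z)} {g g' : G} {i i' : C} {x : D m} {y : B m}
    (h : chr φ g i x = inB φ g' i' y) : g = g' ∧ i = i' ∧ (x : Fin m → ℝ) = y := by
  induction x using D.cases' with
  | hB x =>
    rw [chr_bd, inB_inj] at h
    obtain ⟨rfl, rfl, rfl⟩ := h
    exact ⟨rfl, rfl, rfl⟩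
  | hS x =>
    rw [chr_sd] at h
    exact absurd h inZ_ne_inB

/-- `1/3`, `2/3` -/
def p1 : I := ⟨1 / 3, by norm_num, by norm_num⟩
def p2 : I := ⟨2 / 3, by norm_num, by norm_num⟩

/-- the middle segment -/
def sgm : C(LB.Dn 1, B 1) := ⟨fun s => ⟨fun _ => 2 * ((aff ![p1, p2] s : I) : ℝ) - 1, by
  rw [mem_ball_zero_iff, pi_norm_const, Real.norm_eq_abs, abs_lt, affI_apply, Fin.sum_univ_two]
  have h : s 0 + s 1 = 1 := by
    have := s.2.2
    rwa [Fin.sum_univ_two] at this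
  have h0 := s.2.1 0
  have h1 := s.2.1 1
  have e0 : ((![p1, p2] 0 : I) : ℝ) = 1 / 3 := rfl
  have e1 : ((![p1, p2] 1 : I) : ℝ) = 2 / 3 := rfl
  have h0' : 0 ≤ s 0 := h0
  have h1' : 0 ≤ s 1 := h1
  rw [e0, e1]
  constructor <;> nlinarith⟩, by
  refine Continuous.subtype_mk (continuous_pi fun _ => ?_) _
  exact (continuous_const.mul (continuous_subtype_val.comp (aff ![p1, p2]).continuous)).sub
    continuous_const⟩

theorem w1_sgm : w1 (LB.sx sgm) = 1 := by
  rw [w1_sx]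
  have h1 : th (sgm (stdSimplex.vertex 1)) = 1 := by
    unfold th
    rw [if_pos]
    show 0 ≤ 2 * ((aff ![p1, p2] (stdSimplex.vertex 1) : I) : ℝ) - 1
    rw [aff_vertex]
    show (0 : ℝ) ≤ 2 * (2 / 3) - 1
    norm_num
  have h0 : th (sgm (stdSimplex.vertex 0)) = 0 := by
    unfold th
    rw [if_neg]
    show ¬ 0 ≤ 2 * ((aff ![p1, p2] (stdSimplex.vertex 0) : I) : ℝ) - 1
    rw [aff_vertex]
    show ¬ (0 : ℝ) ≤ 2 * (1 / 3) - 1
    norm_num
  rw [h1, h0]; norm_num

theorem edge_value (K : LB.Cells G (Z2 gen) ι (B 1)) (hK : ∀ g j x, K.chart g j x = inB (φ1 gen) g j x)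
    (hc0 : (K.c0 : Fin 1 → ℝ) = 0) {β : SingSimplex (Z2 gen) 1 → M} {D0 : ι → M}
    (hβ : cochainCobdry β = 0) (h0 : ∀ s, range (LB.un s) ⊆ K.ctrᶜ → β s = 0)
    (h1 : ∀ (g : G) (j : ι) (τ : C(LB.Dn 1, B 1)),
      β (LB.sx ((K.chart g j).comp τ)) = w1 (LB.sx τ) • (g • D0 j)) (g : G) (i : ι) :
    β (ps (edge gen g i : C(I, Z2 gen))) = g • D0 i := by
  have hc : ClosedOn β univ := closedOn_univ hβ
  let f : C(I, Z2 gen) := (edge gen g i : C(I, Z2 gen))
  have hf : ∀ t : I, f t = chr (φ1 gen) g i (d1 t) := fun t => rfl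
  have e1 : β (ps f) = β (lin f ![(0 : I), p1]) + (β (lin f ![p1, p2]) + β (lin f ![p2, 1])) := by
    have h2 := hc.tri' (Z := I) f (fun _ => mem_univ _) 0 p1 1
    have h3 := hc.tri' (Z := I) f (fun _ => mem_univ _) p1 p2 1
    rw [h3] at h2
    exact h2
  have hz : ∀ a b : I, (∀ s : Dl 1, ((aff ![a, b] s : I) : ℝ) ≠ 1 / 2) → β (lin f ![a, b]) = 0 := by
    intro a b hab
    apply h0
    rintro _ ⟨s, rfl⟩ hs
    obtain ⟨g', j', h⟩ := hs
    have h2 : chr (φ1 gen) g i (d1 (aff ![a, b] s)) = inB (φ1 gen) g' j' K.c0 := by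
      rw [← hK]
      exact h
    obtain ⟨-, -, h3⟩ := chr_eq_inB h2
    rw [hc0] at h3
    have h4 := congrFun h3 0
    simp only [d1, Pi.zero_apply] at h4
    exact hab s (by linarith)
  have ha : β (lin f ![(0 : I), p1]) = 0 := by
    apply hz
    intro s
    rw [affI_apply, Fin.sum_univ_two]
    have h : s 0 + s 1 = 1 := by
      have := s.2.2
      rwa [Fin.sum_univ_two] at this
    have h0' : 0 ≤ s 0 := s.2.1 0
    have h1' : 0 ≤ s 1 := s.2.1 1
    have e0 : ((![(0 : I), p1] 0 : I) : ℝ) = 0 := rfl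
    have e1 : ((![(0 : I), p1] 1 : I) : ℝ) = 1 / 3 := rfl
    rw [e0, e1]
    intro hh
    nlinarith
  have hb : β (lin f ![p2, (1 : I)]) = 0 := by
    apply hz
    intro s
    rw [affI_apply, Fin.sum_univ_two]
    have h : s 0 + s 1 = 1 := by
      have := s.2.2
      rwa [Fin.sum_univ_two] at this
    have h0' : 0 ≤ s 0 := s.2.1 0
    have h1' : 0 ≤ s 1 := s.2.1 1
    have e0 : ((![p2, (1 : I)] 0 : I) : ℝ) = 2 / 3 := rfl
    have e1 : ((![p2, (1 : I)] 1 : I) : ℝ) = 1 := rfl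
    rw [e0, e1]
    intro hh
    nlinarith
  have hm : β (lin f ![p1, p2]) = g • D0 i := by
    have e : lin f ![p1, p2] = LB.sx ((K.chart g i).comp sgm) := by
      show LB.sx (f.comp (aff ![p1, p2])) = LB.sx ((K.chart g i).comp sgm)
      congr 1
      ext s
      rw [ContinuousMap.comp_apply, ContinuousMap.comp_apply, hK, hf, ← chr_bd]
      rfl
    rw [e, h1, w1_sgm, one_smul]
  show β (ps f) = _
  rw [e1, ha, hb, hm, zero_add, add_zero]

/-- **KR1**, from an instance of `Cells` for the Cayley graph -/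
theorem kr1_of (K : LB.Cells G (Z2 gen) ι (B 1)) (hK : ∀ g j x, K.chart g j x = inB (φ1 gen) g j x)
    (hc0 : (K.c0 : Fin 1 → ℝ) = 0) (D0 : ι → M) :
    ∃ β : SingSimplex (Z2 gen) 1 → M, cochainCobdry β = 0 ∧ EqC G β ∧
      (∀ (g : G) (l : List (ι × Bool)),
        β (ps (wpath gen g l : C(I, Z2 gen))) = g • der gen D0 l) ∧
      (∀ (l : List (ι × Bool)) (h : val gen l = 1),
        β (ps (wloop gen l h : C(I, Z2 gen))) = der gen D0 l) := by
  obtain ⟨β, h1, h2, h3, h4⟩ := LB.lemmaB K w1 D0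
    (smallVanish_of 1 K.cov K.cov_open K.cov_univ) w1_cobdry (fun τ h => w1_miss hc0 τ h)
  have hE : EqC G β := fun g s => h2 g s
  have hD : ∀ i, β (ps (edge gen 1 i : C(I, Z2 gen))) = D0 i := by
    intro i
    rw [edge_value gen K hK hc0 h1 h3 h4, one_smul]
  exact ⟨β, h1, hE, fun g l => value_wpath gen h1 hE hD l g, fun l h => value_wloop gen h1 hE hD l h⟩

end

end Crest.Agent.R251.Kr
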