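import Crest.Agent.R251.Orb679b
import Crest.Agent.R251.Coh539A
import Crest.Agent.R251.Sm82C

/-!
# R251 (S0388) (helper679): cohomology of one attachment

`sv : Coh.SV` (from 82's `small_vanish`), `glueP` (539's gluing lemma in the names of `Pr963`, no
hypothesis), `L1`, `L2`, `L3` for `GAtt G φ`.
-/

set_option autoImplicit false
set_option linter.unusedSectionVars false

open CategoryTheory Simplicial Opposite Set Metric Topology
open scoped unitInterval
open Crest.GeometryTopology.DeckCochains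
open Crest.Agent.R251.Pr

namespace Crest.Agent.R251.Orb

/-- the small-simplices theorem in 539's form -/
theorem sv : Coh.SV := by
  intro E _ U V hU hV hUV M _ n φ hφ h0
  have hin : ∀ {k : ℕ} (W : Set E) (s : SingSimplex E k), Sm.InSet W s ↔ Coh.In W s := by
    intro k W s
    unfold Sm.InSet
    rw [range_subset_iff]
    rfl
  have hsm : ∀ {k : ℕ} (s : SingSimplex E k), Sm.IsSmall {U, V} s ↔ (Coh.In U s ∨ Coh.In V s) := by
    intro k s
    constructor
    · rintro ⟨W, hW, h⟩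
      rcases hW with rfl | hW
      · exact Or.inl ((hin _ _).1 h)
      · rw [mem_singleton_iff] at hW
        subst hW
        exact Or.inr ((hin _ _).1 h)
    · rintro (h | h)
      · exact ⟨U, mem_insert _ _, (hin _ _).2 h⟩
      · exact ⟨V, mem_insert_of_mem _ rfl, (hin _ _).2 h⟩
  obtain ⟨ψ, h1, -, h3, h4⟩ := Sm.small_vanish ({U, V} : Set (Set E))
    (by
      rintro W (rfl | hW)
      · exact hU
      · rw [mem_singleton_iff] at hW
        subst hW
        exact hV)
    (fun x => by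
      have : x ∈ U ∪ V := hUV ▸ mem_univ x
      rcases this with h | h
      · exact ⟨U, mem_insert _ _, h⟩
      · exact ⟨V, mem_insert_of_mem _ rfl, h⟩)
    φ hφ (fun s hs => h0 s ((hsm s).1 hs))
  exact ⟨ψ, h1, fun s hs => h3 s ((hsm s).2 hs), fun g a _ _ hg s => h4 (g : C(E, E)) a hg s⟩

section glue
variable {G : Type} [Group G] {E : Type} [TopologicalSpace E] [MulAction G E]
  [ContinuousConstSMul G E] {M : Type} [AddCommGroup M] [DistribMulAction G M] {n : ℕ}

/-- **(C3')** in the names of `Pr963`, without hypothesis. -/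
theorem glueP {U V : Set E} (hU : IsOpen U) (hV : IsOpen V)
    (hUV : U ∪ V = Set.univ) (iU : ∀ (g : G) (x : E), g • x ∈ U ↔ x ∈ U)
    (iV : ∀ (g : G) (x : E), g • x ∈ V ↔ x ∈ V)
    {ω : SingSimplex E (n + 2) → M} (hω : EqC G ω) (hc : cochainCobdry ω = 0)
    (bU bV : SingSimplex E (n + 1) → M) (hbU : EqC G bU) (hbV : EqC G bV)
    (η : SingSimplex E n → M) (hη : EqC G η)
    (h1 : ∀ s, SIn U s → cochainCobdry bU s = ω s) (h2 : ∀ s, SIn V s → cochainCobdry bV s = ω s)
    (h3 : ∀ s, SIn U s → SIn V s → bU s - bV s = cochainCobdry η s) :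
    ∃ ψ : SingSimplex E (n + 1) → M, EqC G ψ ∧ cochainCobdry ψ = ω ∧
      (∀ s, SIn U s → ψ s = bU s) ∧ ∀ s, SIn V s → ψ s = bV s + cochainCobdry η s :=
  Coh.glue sv hU hV hUV iU iV hω hc bU bV hbU hbV η hη h1 h2 h3

end glue

section att

open Crest.Agent.R185.Att Crest.Agent.R251.DR

variable {G : Type} [Group G] {Z : Type} [TopologicalSpace Z] [MulAction G Z]
  [ContinuousConstSMul G Z] {m : ℕ} {C : Type} {φ : C → C(S m, Z)}
  {M : Type} [AddCommGroup M] [DistribMulAction G M] {n : ℕ}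

variable (G φ) in
/-- `inZ` as a continuous map -/
def inZc : C(Z, GAtt G φ) := ⟨inZ φ, continuous_inZ⟩

theorem eqM_inZc : EqM G (inZc G φ) := fun _ _ => rfl

/-- a primitive on `Z` extends to a primitive on `UU` -/
theorem exists_bU {ω : SingSimplex (GAtt G φ) (n + 1) → M} (hω : EqC G ω)
    (hc : cochainCobdry ω = 0) {ψ : SingSimplex Z n → M} (hψ : EqC G ψ)
    (h : cochainCobdry ψ = pull (inZc G φ) ω) :
    ∃ bU : SingSimplex (GAtt G φ) n → M, EqC G bU ∧
      ∀ s, SIn (UU φ) s → cochainCobdry bU s = ω s := by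
  have hi : EqM G (incl (UU φ : Set (GAtt G φ))) := fun _ _ => rfl
  have hω' : EqC G (pull (incl (UU φ : Set (GAtt G φ))) ω) := hω.pull hi
  have hc' : cochainCobdry (pull (incl (UU φ : Set (GAtt G φ))) ω) = 0 := by
    rw [cobdry_pull, hc]; rfl
  obtain ⟨χ, hχ, hχ2⟩ := exists_cobdry_of_homotopy hω' hc' (eqH_hU (G := G) (φ := φ))
  rw [end0_hU, end1_hU, pull_id, ← pull_pull, pull_pull inU (incl _)] at hχ2
  have e1 : (incl (UU φ : Set (GAtt G φ))).comp (inU (G := G) (φ := φ)) = inZc G φ := rfl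
  rw [e1, ← h] at hχ2
  refine ⟨ext0 (pull (rU G φ) ψ - χ), EqC.ext0 coe_smul_UU ((hψ.pull eqM_rU).sub hχ), ?_⟩
  rw [← pull_incl_eq_iff, ← cobdry_pull, pull_ext0, Pr.cobdry_sub, hχ2, cobdry_pull]
  abel

theorem invUU (g : G) (x : GAtt G φ) : g • x ∈ UU φ ↔ x ∈ UU φ := smul_mem_UU
theorem invVV (g : G) (x : GAtt G φ) : g • x ∈ VV φ ↔ x ∈ VV φ := smul_mem_VV

/-- **(L3)** -/
theorem L3 {ω : SingSimplex (GAtt G φ) (n + 2) → M} (hω : EqC G ω)
    (hc : cochainCobdry ω = 0) {ψ : SingSimplex Z (n + 1) → M} (hψ : EqC G ψ)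
    (h : cochainCobdry ψ = pull (inZc G φ) ω) (hS : Van0 (S m) M n) :
    ∃ ψ' : SingSimplex (GAtt G φ) (n + 1) → M, EqC G ψ' ∧ cochainCobdry ψ' = ω := by
  obtain ⟨bU, hbU, h1⟩ := exists_bU hω hc hψ h
  obtain ⟨bV, hbV, h2⟩ := hvi_VV (G := G) (φ := φ) (M := M) (n + 1) ω hω
    (fun s _ => congrFun hc s)
  obtain ⟨η, hη, h3⟩ := hvi_UV (G := G) (φ := φ) hS (bU - bV) (hbU.sub hbV) (fun s hs => by
    rw [Pr.cobdry_sub, Pi.sub_apply, h1 s fun t => (hs t).1, h2 s fun t => (hs t).2, sub_self])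
  obtain ⟨ψ', h4, h5, -⟩ := glueP isOpen_UU isOpen_VV UU_union_VV invUU invVV hω hc bU bV hbU hbV
    η hη h1 h2 (fun s hU hV => (h3 s (hU.inter hV)).symm)
  exact ⟨ψ', h4, h5⟩

/-- **(L1)** -/
theorem L1 (hZ : HV G Z (n + 1) M) (hS : Van0 (S m) M n) : HV G (GAtt G φ) (n + 1) M := by
  intro ω hω hc
  obtain ⟨ψ, hψ, h⟩ := hZ (pull (inZc G φ) ω) (hω.pull eqM_inZc) (by rw [cobdry_pull, hc]; rfl)
  exact L3 hω hc hψ h hS

/-- an equivariant cochain, closed on the collars, is determined up to a coboundary by its restriction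
to the spheres of radius `3/4` -/
theorem exists_eta_UV {κ : SingSimplex (GAtt G φ) (n + 1) → M} (hκ : EqC G κ)
    (hc : ∀ s, SIn (UV G φ) s → cochainCobdry κ s = 0)
    (h : ∀ c, ∃ θ : SingSimplex (S m) n → M, cochainCobdry θ =
      pull ((incl (UV G φ)).comp (((orbUV G φ).inc 1 c).comp (colS m))) κ) :
    ∃ η : SingSimplex (GAtt G φ) n → M, EqC G η ∧ ∀ s, SIn (UV G φ) s → cochainCobdry η s = κ s := by
  have hi : EqM G (incl (UV G φ)) := fun _ _ => rfl
  set κ' : SingSimplex (UV G φ) (n + 1) → M := pull (incl (UV G φ)) κ with hκ'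
  have he : EqC G κ' := hκ.pull hi
  have hc' : cochainCobdry κ' = 0 := by
    rw [hκ', cobdry_pull]
    funext s
    exact hc _ (sin_push_incl s)
  -- on each collar
  have h1 : ∀ c, ∃ χ : SingSimplex (Col m) n → M, cochainCobdry χ = (orbUV G φ).res κ' c := by
    intro c
    obtain ⟨θ, hθ⟩ := h c
    -- homotopy id ~ colS ∘ colR
    have hz : cochainCobdry ((orbUV G φ).res κ' c) = 0 := by
      show cochainCobdry (pull ((orbUV G φ).inc 1 c) κ') = 0
      rw [cobdry_pull, hc']; rfl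
    have h2 := cobdry_prism (colH m) ((orbUV G φ).res κ' c)
    rw [hz, prism_zero, add_zero] at h2
    have e0 : end0 (colH m) = ContinuousMap.id _ := by ext1 x; exact colH_zero x
    have e1 : end1 (colH m) = (colS m).comp (colR m) := by ext1 x; exact colH_one x
    rw [e0, e1, pull_id, ← pull_pull] at h2
    have e2 : pull (colS m) ((orbUV G φ).res κ' c) = cochainCobdry θ := by
      rw [hθ]; rfl
    rw [e2, ← cobdry_pull] at h2
    refine ⟨pull (colR m) θ - prism (colH m) ((orbUV G φ).res κ' c), ?_⟩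
    rw [Pr.cobdry_sub, h2]
    abel
  choose χ hχ using h1
  refine ⟨ext0 ((orbUV G φ).ext χ), EqC.ext0 coe_smul_UV ((orbUV G φ).eqv_ext χ), ?_⟩
  rw [← pull_incl_eq_iff, ← cobdry_pull, pull_ext0, (orbUV G φ).cobdry_ext]
  simp only [hχ]
  exact (orbUV G φ).ext_res he

/-- **(L2)** -/
theorem L2 (hZ : HV G Z (n + 1) M)
    (hS : ∀ κ : C → SingSimplex (S m) (n + 1) → M, (∀ c, cochainCobdry (κ c) = 0) →
      ∃ u : SingSimplex Z (n + 1) → M, EqC G u ∧ cochainCobdry u = 0 ∧
        ∀ c, ∃ θ : SingSimplex (S m) n → M, cochainCobdry θ = κ c - pull (φ c) u) :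
    HV G (GAtt G φ) (n + 1) M := by
  intro ω hω hc
  obtain ⟨ψ, hψ, h⟩ := hZ (pull (inZc G φ) ω) (hω.pull eqM_inZc) (by rw [cobdry_pull, hc]; rfl)
  obtain ⟨bU, hbU, h1⟩ := exists_bU hω hc hψ h
  obtain ⟨bV, hbV, h2⟩ := hvi_VV (G := G) (φ := φ) (M := M) (n + 1) ω hω
    (fun s _ => congrFun hc s)
  -- the difference, restricted to the spheres
  have hd : ∀ s, SIn (UV G φ) s → cochainCobdry (bU - bV) s = 0 := fun s hs => by
    rw [Pr.cobdry_sub, Pi.sub_apply, h1 s fun t => (hs t).1, h2 s fun t => (hs t).2, sub_self]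
  let ι : C → C(S m, GAtt G φ) := fun c =>
    (incl (UV G φ)).comp (((orbUV G φ).inc 1 c).comp (colS m))
  obtain ⟨u, hu, huc, hθ⟩ := hS (fun c => pull (ι c) (bU - bV)) (fun c => by
    rw [cobdry_pull]
    funext s
    refine hd _ fun t => ?_
    rw [us_push]
    exact (((orbUV G φ).inc 1 c) (colS m (us s t))).2)
  -- correct `bU` by the pull back of `u`
  let u' : SingSimplex (GAtt G φ) (n + 1) → M := ext0 (pull (rU G φ) u)
  have hu' : EqC G u' := EqC.ext0 coe_smul_UU (hu.pull eqM_rU)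
  have hu'c : ∀ s, SIn (UU φ) s → cochainCobdry u' s = 0 := by
    have : pull (incl (UU φ : Set (GAtt G φ))) (cochainCobdry u') =
        pull (incl (UU φ : Set (GAtt G φ))) (0 : SingSimplex (GAtt G φ) (n + 2) → M) := by
      rw [← cobdry_pull, pull_ext0, cobdry_pull, huc]; rfl
    exact pull_incl_eq_iff.1 this
  have h1' : ∀ s, SIn (UU φ) s → cochainCobdry (bU - u') s = ω s := fun s hs => by
    rw [Pr.cobdry_sub, Pi.sub_apply, h1 s hs, hu'c s hs, sub_zero]
  obtain ⟨η, hη, h3⟩ := exists_eta_UV (G := G) (φ := φ) (κ := bU - u' - bV)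
    ((hbU.sub hu').sub hbV)
    (fun s hs => by
      rw [Pr.cobdry_sub, Pi.sub_apply, h1' s fun t => (hs t).1, h2 s fun t => (hs t).2, sub_self])
    (fun c => by
      obtain ⟨θ, hθ⟩ := hθ c
      refine ⟨θ, hθ.trans ?_⟩
      funext s
      have e1 : pull (ι c) (bU - u' - bV) s = pull (ι c) (bU - bV) s - u' (Pr.push (ι c) s) := by
        simp only [pull_apply, Pi.sub_apply]
        abel
      have e2 : u' (Pr.push (ι c) s) = pull (φ c) u s := by
        have e3 : ι c = (incl (UU φ : Set (GAtt G φ))).comp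
            ⟨fun x => ⟨ι c x, ((((orbUV G φ).inc 1 c) (colS m x)).2).1⟩,
              (ι c).continuous.subtype_mk _⟩ := rfl
        rw [e3, ← Pr.push_push]
        show ext0 _ (Pr.push (incl _) _) = _
        rw [ext0_push, pull_apply, pull_apply, Pr.push_push]
        congr 2
        ext1 x
        have := rr_uhom (φ := φ) (G := G) ⟨(1, c), colS m x⟩
        rw [colR_colS, one_smul] at this
        exact this
      show (pull (ι c) (bU - bV) - pull (φ c) u) s = _
      rw [Pi.sub_apply, ← e2]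
      exact e1.symm)
  obtain ⟨ψ', h4, h5, -⟩ := glueP isOpen_UU isOpen_VV UU_union_VV invUU invVV hω hc (bU - u') bV
    (hbU.sub hu') hbV η hη h1' h2 (fun s hU hV => (h3 s (hU.inter hV)).symm)
  exact ⟨ψ', h4, h5⟩

end att

end Crest.Agent.R251.Orb
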