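import Crest.Agent.R251.Pr963b

/-! # R251: Mayer-Vietoris for equivariant singular cochains, raw form (helper963)

All cochains live on the big space `E`; "on `U`" means "on the singular simplices with image in `U`". -/

set_option autoImplicit false
set_option linter.unusedSectionVars false

open CategoryTheory Simplicial Opposite Set Topology
open Crest.GeometryTopology.DeckCochains

namespace Crest.Agent.R251.Pr

noncomputable section

section

variable {E E' E'' : Type} [TopologicalSpace E] [TopologicalSpace E'] [TopologicalSpace E'']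
  {M : Type*} [AddCommGroup M]

theorem face_face {n : ℕ} (s : SingSimplex E (n + 2)) (i j : Fin (n + 2)) (h : j ≤ i) :
    simplexFace j (simplexFace i.succ s) = simplexFace i (simplexFace j.castSucc s) := by
  have h1 := SimplicialObject.δ_comp_δ (TopCat.toSSet.obj (TopCat.of E)) h
  exact congrArg (fun f => (ConcreteCategory.hom f) s) h1

theorem cobdry_cobdry {n : ℕ} (φ : SingSimplex E n → M) :
    cochainCobdry (cochainCobdry φ) = 0 := by
  funext s
  let A : Fin (n + 3) → Fin (n + 2) → M := fun i j =>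
    ((-1 : ℤ) ^ (i : ℕ)) • ((-1 : ℤ) ^ (j : ℕ)) • φ (simplexFace j (simplexFace i s))
  have e0 : cochainCobdry (cochainCobdry φ) s = ∑ i, ∑ j, A i j := by
    simp only [cobdry_apply, Finset.smul_sum, A]
  rw [e0, Finset.sum_comm]
  have h1 : ∀ j : Fin (n + 2), ∑ i : Fin (n + 3), A i j =
      (∑ i : Fin (n + 2), if j ≤ i then A i.succ j else 0) +
      ∑ i : Fin (n + 2), if i ≤ j then A i.castSucc j else 0 := by
    intro j
    have e1 : ∑ i : Fin (n + 3), A i j = (∑ i : Fin (n + 3), if j.castSucc < i then A i j else 0) +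
        ∑ i : Fin (n + 3), if i ≤ j.castSucc then A i j else 0 := by
      rw [← Finset.sum_add_distrib]
      refine Finset.sum_congr rfl fun i _ => ?_
      by_cases h : j.castSucc < i
      · rw [if_pos h, if_neg (not_le.2 h), add_zero]
      · rw [if_neg h, if_pos (not_lt.1 h), zero_add]
    rw [e1]
    congr 1
    · rw [Fin.sum_univ_succ, if_neg (by simp), zero_add]
      refine Finset.sum_congr rfl fun i _ => ?_
      by_cases h : j ≤ i
      · rw [if_pos h, if_pos (Fin.castSucc_lt_succ_iff.2 h)]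
      · rw [if_neg h, if_neg (fun h' => h (Fin.castSucc_lt_succ_iff.1 h'))]
    · rw [Fin.sum_univ_castSucc, if_neg (not_le.2 (Fin.castSucc_lt_last j)), add_zero]
      refine Finset.sum_congr rfl fun i _ => ?_
      by_cases h : i ≤ j
      · rw [if_pos h, if_pos (Fin.castSucc_le_castSucc_iff.2 h)]
      · rw [if_neg h, if_neg (fun h' => h (Fin.castSucc_le_castSucc_iff.1 h'))]
  rw [Finset.sum_congr rfl fun j _ => h1 j, Finset.sum_add_distrib]
  have h2 : (∑ j : Fin (n + 2), ∑ i : Fin (n + 2), if i ≤ j then A i.castSucc j else 0) =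
      ∑ j : Fin (n + 2), ∑ i : Fin (n + 2), if j ≤ i then A j.castSucc i else 0 := by
    rw [Finset.sum_comm]
  rw [h2, ← Finset.sum_add_distrib]
  refine Finset.sum_eq_zero fun j _ => ?_
  rw [← Finset.sum_add_distrib]
  refine Finset.sum_eq_zero fun i _ => ?_
  by_cases h : j ≤ i
  · rw [if_pos h, if_pos h]
    simp only [A, Fin.val_succ, Fin.val_castSucc, face_face s i j h, smul_smul]
    rw [← add_smul]
    have : ((-1 : ℤ) ^ ((i : ℕ) + 1) * (-1) ^ (j : ℕ) + (-1) ^ (j : ℕ) * (-1) ^ (i : ℕ)) = 0 := by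
      ring
    rw [this, zero_smul]
  · rw [if_neg h, if_neg h, add_zero]

/-! ### simplices in a subset -/

/-- the simplex lies in `U` -/
def InS (U : Set E) {n : ℕ} (s : SingSimplex E n) : Prop := ∀ x, us s x ∈ U

theorem inS_iff_range {U : Set E} {n : ℕ} {s : SingSimplex E n} :
    InS U s ↔ range (us s) ⊆ U := by
  rw [range_subset_iff]; rfl

theorem InS.face {U : Set E} {n : ℕ} {s : SingSimplex E (n + 1)} (h : InS U s)
    (i : Fin (n + 2)) : InS U (simplexFace i s) := fun x => by
  rw [us_face]; exact h _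

theorem InS.mono {U V : Set E} (hUV : U ⊆ V) {n : ℕ} {s : SingSimplex E n} (h : InS U s) :
    InS V s := fun x => hUV (h x)

theorem InS.inter {U V : Set E} {n : ℕ} {s : SingSimplex E n} (h : InS U s) (h' : InS V s) :
    InS (U ∩ V) s := fun x => ⟨h x, h' x⟩

theorem inS_univ {n : ℕ} (s : SingSimplex E n) : InS univ s := fun _ => trivial

theorem InS.push {U : Set E} {V : Set E'} {n : ℕ} {s : SingSimplex E n} (h : InS U s)
    {f : C(E, E')} (hf : ∀ x ∈ U, f x ∈ V) : InS V (push f s) := fun x => by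
  rw [us_push]; exact hf _ (h x)

/-- cochains agreeing on the simplices in `U` have coboundaries agreeing there -/
theorem cobdry_congr_on {U : Set E} {n : ℕ} {φ ψ : SingSimplex E n → M}
    (h : ∀ s, InS U s → φ s = ψ s) {s : SingSimplex E (n + 1)} (hs : InS U s) :
    cochainCobdry φ s = cochainCobdry ψ s := by
  simp only [cobdry_apply]
  exact Finset.sum_congr rfl fun i _ => by rw [h _ (hs.face i)]

/-- the prism operator on simplices in `U` only sees the simplices in `V`, if the homotopy maps
`U × I` into `V` -/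
theorem prism_congr_on {U : Set E} {V : Set E'} (H : C(E × unitInterval, E'))
    (hH : ∀ x ∈ U, ∀ t, H (x, t) ∈ V) {n : ℕ} {φ χ : SingSimplex E' (n + 1) → M}
    (h : ∀ s, InS V s → φ s = χ s) {s : SingSimplex E n} (hs : InS U s) :
    prism H φ s = prism H χ s := by
  refine prism_congr H φ χ s fun τ hτ => h _ fun x => ?_
  rw [us_sx]
  obtain ⟨⟨y, t⟩, ⟨⟨z, hz⟩, -⟩, e⟩ := hτ ⟨x, rfl⟩
  rw [← e]
  refine hH _ ?_ _
  have : us s z = y := hz
  rw [← this]
  exact hs z

theorem prism_eq_zero_on {U : Set E} {V : Set E'} (H : C(E × unitInterval, E'))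
    (hH : ∀ x ∈ U, ∀ t, H (x, t) ∈ V) {n : ℕ} {φ : SingSimplex E' (n + 1) → M}
    (h : ∀ s, InS V s → φ s = 0) {s : SingSimplex E n} (hs : InS U s) :
    prism H φ s = 0 := by
  rw [prism_congr_on H hH (χ := 0) h hs, prism_zero]
  rfl

/-! ### pull back along a map defined on a subset only -/

/-- compose a simplex in `U` with a map defined on `U` -/
def cor {U : Set E} {n : ℕ} (s : SingSimplex E n) (h : InS U s) : SingSimplex U n :=
  sx ⟨fun x => ⟨us s x, h x⟩, (us s).continuous.subtype_mk h⟩

/-- the inclusion -/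
def incl (U : Set E) : C(U, E) := ⟨Subtype.val, continuous_subtype_val⟩

theorem push_incl_cor {U : Set E} {n : ℕ} (s : SingSimplex E n) (h : InS U s) :
    push (incl U) (cor s h) = s := by
  conv_rhs => rw [← sx_us s]
  rfl

theorem inS_push_incl {U : Set E} {n : ℕ} (s : SingSimplex U n) : InS U (push (incl U) s) := by
  intro x
  rw [us_push]
  exact (us s x).2

theorem cor_push_incl {U : Set E} {n : ℕ} (s : SingSimplex U n) :
    cor (push (incl U) s) (inS_push_incl s) = s := by
  obtain ⟨σ, rfl⟩ := sx_surj s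
  rfl

theorem cor_face {U : Set E} {n : ℕ} (s : SingSimplex E (n + 1)) (h : InS U s)
    (i : Fin (n + 2)) : simplexFace i (cor s h) = cor (simplexFace i s) (h.face i) := by
  unfold cor
  rw [face_sx]
  congr 1

open Classical in
/-- extension by zero of a cochain of a subspace -/
def ext0 {U : Set E} {n : ℕ} (ψ : SingSimplex U n → M) : SingSimplex E n → M :=
  fun s => if h : InS U s then ψ (cor s h) else 0

theorem ext0_of_in {U : Set E} {n : ℕ} (ψ : SingSimplex U n → M) {s : SingSimplex E n}
    (h : InS U s) : ext0 ψ s = ψ (cor s h) := dif_pos h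

theorem ext0_of_not {U : Set E} {n : ℕ} (ψ : SingSimplex U n → M) {s : SingSimplex E n}
    (h : ¬ InS U s) : ext0 ψ s = 0 := dif_neg h

theorem pull_ext0 {U : Set E} {n : ℕ} (ψ : SingSimplex U n → M) :
    pull (incl U) (ext0 ψ) = ψ := by
  funext s
  rw [pull_apply, ext0_of_in ψ (inS_push_incl s), cor_push_incl]

theorem cobdry_ext0 {U : Set E} {n : ℕ} (ψ : SingSimplex U n → M) {s : SingSimplex E (n + 1)}
    (h : InS U s) : cochainCobdry (ext0 ψ) s = cochainCobdry ψ (cor s h) := by
  simp only [cobdry_apply]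
  exact Finset.sum_congr rfl fun i _ => by rw [ext0_of_in ψ (h.face i), cor_face]

end

/-! ### group actions -/

section

variable {G : Type} [Group G] {E E' E'' : Type} [TopologicalSpace E] [TopologicalSpace E']
  [TopologicalSpace E''] [MulAction G E] [MulAction G E'] [MulAction G E'']
  [ContinuousConstSMul G E] [ContinuousConstSMul G E'] [ContinuousConstSMul G E'']
  {M : Type*} [AddCommGroup M] [DistribMulAction G M]

/-- invariant subsets -/
def Inv (G : Type) [Group G] {E : Type} [MulAction G E] (U : Set E) : Prop :=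
  ∀ (g : G) (x : E), x ∈ U → g • x ∈ U

theorem Inv.inter {U V : Set E} (hU : Inv G U) (hV : Inv G V) : Inv G (U ∩ V) :=
  fun g x hx => ⟨hU g x hx.1, hV g x hx.2⟩

theorem inv_univ : Inv G (univ : Set E) := fun _ _ _ => trivial

theorem push_act_act {n : ℕ} (g h : G) (s : SingSimplex E n) :
    push (act g) (push (act h) s) = push (act (g * h)) s := by
  rw [push_push]
  congr 1
  ext x
  exact (mul_smul g h x).symm

theorem push_act_one {n : ℕ} (s : SingSimplex E n) : push (act (1 : G)) s = s := by
  have : act (1 : G) = ContinuousMap.id E := by ext x; exact one_smul G x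
  rw [this, push_id]

theorem Inv.inS {U : Set E} (hU : Inv G U) (g : G) {n : ℕ} (s : SingSimplex E n) :
    InS U (push (act g) s) ↔ InS U s := by
  constructor
  · intro h
    have := InS.push h (f := act g⁻¹) (V := U) fun x hx => hU g⁻¹ x hx
    rwa [push_act_act, inv_mul_cancel, push_act_one] at this
  · intro h
    exact h.push fun x hx => hU g x hx

open Classical in
/-- cut off to simplices in `U` -/
theorem EqC.ite {U : Set E} (hU : Inv G U) {n : ℕ} {φ ψ : SingSimplex E n → M} (hφ : EqC G φ)
    (hψ : EqC G ψ) : EqC G (fun s => if InS U s then φ s else ψ s) := fun g s => by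
  by_cases h : InS U s
  · have h' := (hU.inS g s).2 h
    simp only [if_pos h, if_pos h', hφ g s]
  · have h' : ¬ InS U (push (act g) s) := fun h' => h ((hU.inS g s).1 h')
    simp only [if_neg h, if_neg h', hψ g s]

/-- vanishing in degree `n + 1` on the invariant subset `U` of `E` -/
def HVon (G : Type) [Group G] {E : Type} [TopologicalSpace E] [MulAction G E]
    [ContinuousConstSMul G E] (U : Set E) (n : ℕ) (M : Type*) [AddCommGroup M]
    [DistribMulAction G M] : Prop :=
  ∀ φ : SingSimplex E (n + 1) → M, EqC G φ → (∀ s, InS U s → cochainCobdry φ s = 0) →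
    ∃ ψ : SingSimplex E n → M, EqC G ψ ∧ ∀ s, InS U s → cochainCobdry ψ s = φ s

theorem hVon_univ {n : ℕ} : HVon G (univ : Set E) n M ↔ HV G E n M := by
  constructor
  · intro h φ hφ hc
    obtain ⟨ψ, hψ, e⟩ := h φ hφ fun s _ => congrFun hc s
    exact ⟨ψ, hψ, funext fun s => e s (inS_univ s)⟩
  · intro h φ hφ hc
    obtain ⟨ψ, hψ, e⟩ := h φ hφ (funext fun s => hc s (inS_univ s))
    exact ⟨ψ, hψ, fun s _ => congrFun e s⟩

/-- general transfer: a `G`-space `Z` with an equivariant map `i : Z → E`, a map `r` on `U` to `Z`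
and an equivariant homotopy of `E`, preserving `U`, from the identity to `i ∘ r` on `U` -/
theorem HVon.of_deform {Z : Type} [TopologicalSpace Z] [MulAction G Z] [ContinuousConstSMul G Z]
    {U : Set E} (hU : Inv G U) {n : ℕ} (hZ : HV G Z n M) (i : C(Z, E)) (hi : EqM G i)
    (hiU : ∀ z, i z ∈ U)
    (r : U → Z) (hr : Continuous r)
    (hrG : ∀ (g : G) (x : U) (y : U), (y : E) = g • (x : E) → r y = g • r x)
    (H : C(E × unitInterval, E)) (hH : EqH G H) (H0 : ∀ x ∈ U, H (x, 0) = x)
    (HU : ∀ x ∈ U, ∀ t, H (x, t) ∈ U) (H1 : ∀ x : U, H (x, 1) = i (r x)) : HVon G U n M := by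
  intro φ hφ hc
  obtain ⟨χ, hχ, hχ'⟩ := hZ (Pr.pull i φ) (hφ.pull hi) (by
    rw [cobdry_pull]
    funext s
    refine hc _ fun x => ?_
    rw [us_push]
    exact hiU _)
  -- pull back of χ along r, extended by zero
  let rC : C(U, Z) := ⟨r, hr⟩
  let ψ0 : SingSimplex E n → M := ext0 (Pr.pull rC χ)
  have hψ0 : EqC G ψ0 := by
    intro g s
    by_cases h : InS U s
    · have h' := (hU.inS g s).2 h
      simp only [ψ0, ext0_of_in _ h, ext0_of_in _ h', pull_apply]
      rw [← hχ g]
      congr 1
      rw [push_push]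
      unfold cor
      rw [push_sx, push_sx]
      congr 1
      ext x
      simp only [ContinuousMap.comp_apply, ContinuousMap.coe_mk, act_apply, rC]
      apply hrG
      simp only [us_push]
      rfl
    · have h' : ¬ InS U (push (act g) s) := fun h' => h ((hU.inS g s).1 h')
      simp only [ψ0, ext0_of_not _ h, ext0_of_not _ h', smul_zero]
  refine ⟨ψ0 - Pr.prism H φ, hψ0.sub (hφ.prism hH), fun s hs => ?_⟩
  have e1 : cochainCobdry ψ0 s = φ (push (end1 H) s) := by
    rw [show ψ0 = ext0 (Pr.pull rC χ) from rfl, cobdry_ext0 _ hs, cobdry_pull, hχ', pull_pull,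
      pull_apply]
    congr 1
    conv_rhs => rw [← sx_us s]
    unfold cor
    rw [push_sx, push_sx]
    congr 1
    ext x
    exact (H1 ⟨us s x, hs x⟩).symm
  have e2 : push (end0 H) s = s := by
    conv_rhs => rw [← sx_us s]
    rw [← sx_us s, push_sx, us_sx]
    congr 1
    ext x
    exact H0 _ (hs x)
  have e3 := congrFun (cobdry_prism H φ) s
  rw [Pi.add_apply, Pi.sub_apply, pull_apply, pull_apply, e2,
    prism_eq_zero_on H HU hc hs, add_zero] at e3
  rw [cobdry_sub, Pi.sub_apply, e1, e3]
  abel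

/-- a subset which is the image of an equivariant embedding -/
theorem HVon.of_embedding {Z : Type} [TopologicalSpace Z] [MulAction G Z] [ContinuousConstSMul G Z]
    {U : Set E} (hU : Inv G U) {n : ℕ} (hZ : HV G Z n M) (i : C(Z, E)) (hi : EqM G i)
    (hemb : IsEmbedding i) (hrange : range i = U) : HVon G U n M := by
  have hex : ∀ x : U, ∃ z, i z = x := fun x => by
    have : (x : E) ∈ range i := by rw [hrange]; exact x.2
    exact this
  choose r hr using hex
  refine HVon.of_deform hU hZ i hi (fun z => hrange ▸ ⟨z, rfl⟩) r ?_ ?_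
    ⟨fun p => p.1, continuous_fst⟩ (fun g x t => rfl) (fun x _ => rfl) (fun x hx _ => hx)
    (fun x => (hr x).symm)
  · rw [hemb.continuous_iff]
    have : (i ∘ r : U → E) = Subtype.val := by funext x; exact hr x
    rw [this]
    exact continuous_subtype_val
  · intro g x y hxy
    apply hemb.injective
    rw [hr, hi, hr, hxy]

/-- the converse transfer: from a subset to a space embedded onto it -/
theorem HVon.to_embedding {Z : Type} [TopologicalSpace Z] [MulAction G Z] [ContinuousConstSMul G Z]
    {U : Set E} (hU : Inv G U) {n : ℕ} (h : HVon G U n M) (i : C(Z, E)) (hi : EqM G i)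
    (hemb : IsEmbedding i) (hrange : range i = U) : HV G Z n M := by
  intro φ hφ hc
  have hex : ∀ x : U, ∃ z, i z = x := fun x => by
    have : (x : E) ∈ range i := by rw [hrange]; exact x.2
    exact this
  choose r hr using hex
  have hrc : Continuous r := by
    rw [hemb.continuous_iff]
    have : (i ∘ r : U → E) = Subtype.val := by funext x; exact hr x
    rw [this]
    exact continuous_subtype_val
  let rC : C(U, Z) := ⟨r, hrc⟩
  have hiU : ∀ z, i z ∈ U := fun z => hrange ▸ ⟨z, rfl⟩
  have hri : ∀ z, r ⟨i z, hiU z⟩ = z := fun z => hemb.injective (hr _)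
  let φ0 : SingSimplex E (n + 1) → M := ext0 (Pr.pull rC φ)
  have hφ0 : EqC G φ0 := by
    intro g s
    by_cases h : InS U s
    · have h' := (hU.inS g s).2 h
      simp only [φ0, ext0_of_in _ h, ext0_of_in _ h', pull_apply]
      rw [← hφ g]
      congr 1
      rw [push_push]
      unfold cor
      rw [push_sx, push_sx]
      congr 1
      ext x
      simp only [ContinuousMap.comp_apply, ContinuousMap.coe_mk, act_apply, rC]
      apply hemb.injective
      rw [hr, hi, hr]
      simp only [us_push]
      rfl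
    · have h' : ¬ InS U (push (act g) s) := fun h' => h ((hU.inS g s).1 h')
      simp only [φ0, ext0_of_not _ h, ext0_of_not _ h', smul_zero]
  obtain ⟨ψ, hψ, e⟩ := h φ0 hφ0 fun s hs => by
    rw [cobdry_ext0 _ hs, cobdry_pull, hc]; rfl
  refine ⟨Pr.pull i ψ, hψ.pull hi, ?_⟩
  rw [cobdry_pull]
  funext s
  have hs : InS U (push i s) := fun x => by rw [us_push]; exact hiU _
  rw [pull_apply, e _ hs, show φ0 = ext0 (Pr.pull rC φ) from rfl, ext0_of_in _ hs, pull_apply]
  congr 1
  obtain ⟨σ, rfl⟩ := sx_surj s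
  unfold cor
  rw [push_sx]
  congr 1
  ext x
  exact hri _

/-! ### Mayer-Vietoris -/

/-- the small simplices theorem for the cover `{U, V}`, equivariant form, as a hypothesis
(proved by helper82 / helper500) -/
def SmallV (G : Type) [Group G] {E : Type} [TopologicalSpace E] [MulAction G E]
    [ContinuousConstSMul G E] (U V : Set E) (M : Type*) [AddCommGroup M]
    [DistribMulAction G M] : Prop :=
  ∀ (n : ℕ) (φ : SingSimplex E (n + 1) → M), EqC G φ → cochainCobdry φ = 0 →
    (∀ s, InS U s → φ s = 0) → (∀ s, InS V s → φ s = 0) →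
    ∃ ψ : SingSimplex E n → M, EqC G ψ ∧ cochainCobdry ψ = φ ∧ (∀ s, InS U s → ψ s = 0) ∧
      ∀ s, InS V s → ψ s = 0

/-- (C3') gluing of primitives; moreover the glued primitive agrees with `bU` on `U` and with
`bV + δη` on `V` -/
theorem mv_glue {U V : Set E} (hS : SmallV G U V M) (hU : Inv G U) {n : ℕ}
    (ω : SingSimplex E (n + 2) → M) (hω : EqC G ω) (hωc : cochainCobdry ω = 0)
    (bU bV : SingSimplex E (n + 1) → M) (hbU : EqC G bU) (hbV : EqC G bV)
    (η : SingSimplex E n → M) (hη : EqC G η)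
    (eU : ∀ s, InS U s → cochainCobdry bU s = ω s) (eV : ∀ s, InS V s → cochainCobdry bV s = ω s)
    (e : ∀ s, InS (U ∩ V) s → bU s - bV s = cochainCobdry η s) :
    ∃ ψ : SingSimplex E (n + 1) → M, EqC G ψ ∧ cochainCobdry ψ = ω ∧
      (∀ s, InS U s → ψ s = bU s) ∧ ∀ s, InS V s → ψ s = bV s + cochainCobdry η s := by
  classical
  let β : SingSimplex E (n + 1) → M := fun s => if InS U s then bU s else bV s + cochainCobdry η s
  have hβ : EqC G β := EqC.ite hU hbU (hbV.add hη.cobdry)
  have βU : ∀ s, InS U s → β s = bU s := fun s hs => if_pos hs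
  have βV : ∀ s, InS V s → β s = (bV + cochainCobdry η) s := fun s hs => by
    by_cases h : InS U s
    · rw [βU s h, Pi.add_apply, ← e s (h.inter hs)]
      abel
    · exact if_neg h
  have dU : ∀ s, InS U s → cochainCobdry β s = ω s := fun s hs => by
    rw [cobdry_congr_on βU hs, eU s hs]
  have dV : ∀ s, InS V s → cochainCobdry β s = ω s := fun s hs => by
    rw [cobdry_congr_on βV hs, cobdry_add, cobdry_cobdry, add_zero, eV s hs]
  obtain ⟨ψ, hψ, hψ', ψU, ψV⟩ := hS (n + 1) (ω - cochainCobdry β) (hω.sub hβ.cobdry)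
    (by rw [cobdry_sub, hωc, cobdry_cobdry, sub_zero])
    (fun s hs => by rw [Pi.sub_apply, dU s hs, sub_self])
    (fun s hs => by rw [Pi.sub_apply, dV s hs, sub_self])
  refine ⟨β + ψ, hβ.add hψ, ?_, fun s hs => ?_, fun s hs => ?_⟩
  · rw [cobdry_add, hψ']
    abel
  · rw [Pi.add_apply, βU s hs, ψU s hs, add_zero]
  · rw [Pi.add_apply, βV s hs, ψV s hs, add_zero]
    rfl

/-- Mayer-Vietoris: vanishing in degree `n + 2` of the union -/
theorem HV.mv {U V : Set E} (hS : SmallV G U V M) (hU : Inv G U) {n : ℕ}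
    (hVU : HVon G U (n + 1) M) (hVV : HVon G V (n + 1) M)
    (hUV : ∀ κ : SingSimplex E (n + 1) → M, EqC G κ →
      (∀ s, InS (U ∩ V) s → cochainCobdry κ s = 0) →
      ∃ a b : SingSimplex E (n + 1) → M, ∃ η : SingSimplex E n → M, EqC G a ∧ EqC G b ∧ EqC G η ∧
        (∀ s, InS U s → cochainCobdry a s = 0) ∧ (∀ s, InS V s → cochainCobdry b s = 0) ∧
        ∀ s, InS (U ∩ V) s → κ s = a s - b s + cochainCobdry η s) : HV G E (n + 1) M := by
  intro ω hω hωc
  obtain ⟨bU, hbU, eU⟩ := hVU ω hω fun s _ => congrFun hωc s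
  obtain ⟨bV, hbV, eV⟩ := hVV ω hω fun s _ => congrFun hωc s
  obtain ⟨a, b, η, ha, hb, hη, ea, eb, e⟩ := hUV (bU - bV) (hbU.sub hbV) fun s hs => by
    rw [cobdry_sub, Pi.sub_apply, eU s (hs.mono inter_subset_left),
      eV s (hs.mono inter_subset_right), sub_self]
  obtain ⟨ψ, hψ, hψ', -, -⟩ := mv_glue hS hU ω hω hωc (bU - a) (bV - b) (hbU.sub ha) (hbV.sub hb)
    η hη (fun s hs => by rw [cobdry_sub, Pi.sub_apply, eU s hs, ea s hs, sub_zero])
    (fun s hs => by rw [cobdry_sub, Pi.sub_apply, eV s hs, eb s hs, sub_zero])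
    (fun s hs => by
      have h1 := e s hs
      simp only [Pi.sub_apply] at h1 ⊢
      rw [show bU s - a s - (bV s - b s) = (bU s - bV s) - (a s - b s) by abel, h1]
      abel)
  exact ⟨ψ, hψ, hψ'⟩

/-- Mayer-Vietoris, the case where the intersection has no cohomology one degree below -/
theorem HV.mv_of_inter {U V : Set E} (hS : SmallV G U V M) (hU : Inv G U) {n : ℕ}
    (hVU : HVon G U (n + 1) M) (hVV : HVon G V (n + 1) M) (hUV : HVon G (U ∩ V) n M) :
    HV G E (n + 1) M :=
  HV.mv hS hU hVU hVV fun κ hκ hc => by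
    obtain ⟨η, hη, e⟩ := hUV κ hκ hc
    refine ⟨0, 0, η, EqC.zero, EqC.zero, hη, fun s _ => ?_, fun s _ => ?_, fun s hs => ?_⟩
    · rw [cobdry_zero]; rfl
    · rw [cobdry_zero]; rfl
    · rw [e s hs]; simp

end

end

end Crest.Agent.R251.Pr
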