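import Crest.Agent.R251.Kr337b
import Crest.Agent.R251.L679
import Crest.Agent.R251.LBg664
import Crest.Agent.R251.MV963

/-!
# Row 251: `H^2_G` of the Cayley complex (KR4) and of its subcomplexes (KR5)
-/

set_option autoImplicit false

open Set Metric Topology
open scoped unitInterval
open Crest.GeometryTopology.DeckCochains
open Crest.Agent.R185.Att Crest.Agent.R185.Base
open Crest.Agent.R251.Pr (Dl EqC EqM push pull act HV InS)
open Crest.Agent.R251.PC
open Crest.Agent.R251.Mod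
open Crest.Agent.R251.Orb (Van0 van0_of_const)

namespace Crest.Agent.R251.Kr

noncomputable section

variable {G : Type} [Group G] {ι : Type} (gen : ι → G) {M : Type} [AddCommGroup M]
  [DistribMulAction G M]

/-- singular simplices of a discrete space are constant -/
theorem const_of_discrete {F : Type} [TopologicalSpace F] [DiscreteTopology F] (m : ℕ)
    (τ : C(Dl m, F)) : ∃ x, τ = ContinuousMap.const _ x := by
  haveI : PreconnectedSpace (Dl m) :=
    isPreconnected_iff_preconnectedSpace.1 (convex_stdSimplex ℝ (Fin (m + 1))).isPreconnected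
  refine ⟨τ (stdSimplex.vertex 0), ?_⟩
  ext s
  exact PreconnectedSpace.constant inferInstance τ.continuous

theorem hv_Z1 (n : ℕ) : HV G (Z1 G) n M := Pr.HV.of_const const_of_discrete

theorem van0_S1 (n : ℕ) : Van0 (S 1) M n := van0_of_const const_of_discrete

theorem hv_Z2 (n : ℕ) : HV G (Z2 gen) (n + 1) M := Orb.L1 (hv_Z1 (n + 1)) (van0_S1 n)

/-- **KR1** -/
theorem kr1 (D0 : ι → M) :
    ∃ β : SingSimplex (Z2 gen) 1 → M, cochainCobdry β = 0 ∧ EqC G β ∧
      (∀ (g : G) (l : List (ι × Bool)),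
        β (ps (wpath gen g l : C(I, Z2 gen))) = g • der gen D0 l) ∧
      (∀ (l : List (ι × Bool)) (h : val gen l = 1),
        β (ps (wloop gen l h : C(I, Z2 gen))) = der gen D0 l) :=
  kr1_of gen (LBg.gcells (φ1 gen)) (fun _ _ _ => rfl) rfl D0

/-- detection of 1-cocycles on the circle by their period -/
def Det2 (M : Type) [AddCommGroup M] : Prop :=
  ∀ φ : SingSimplex (S 2) 1 → M, cochainCobdry φ = 0 → φ (ps crI) = 0 →
    ∃ θ : SingSimplex (S 2) 0 → M, cochainCobdry θ = φ

variable {κ : Type} (wd : κ → List (ι × Bool)) (hwd : ∀ j, val gen (wd j) = 1)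

/-- **KR4** -/
theorem kr4 (hdet : Det2 M) (hD : ∀ b : κ → M, ∃ D0 : ι → M, ∀ j, der gen D0 (wd j) = b j) :
    HV G (Z3 gen wd hwd) 1 M := by
  refine Orb.L2 (hv_Z2 gen 0) fun k hk => ?_
  obtain ⟨D0, hD0⟩ := hD fun j => k j (ps crI)
  obtain ⟨β, h1, h2, -, h3⟩ := kr1 gen D0
  refine ⟨β, h2, h1, fun j => hdet _ ?_ ?_⟩
  · rw [Pr.cobdry_sub, hk, Pr.cobdry_pull, h1]
    funext s
    exact sub_zero _
  · rw [Pi.sub_apply, Pr.pull_apply, push_ps]
    have e : (φ2 gen wd hwd j).comp crI = (wloop gen (wd j) (hwd j) : C(I, Z2 gen)) := by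
      ext t
      exact circ_cr (wloop gen (wd j) (hwd j)) t
    rw [e, h3, hD0, sub_self]

/-! ### subcomplexes -/

variable (J : Set κ)

/-- the subcomplex with the 2-cells in `J` -/
abbrev ZJ : Type := Z3 gen (fun j : J => wd j) (fun j => hwd j)

/-- the inclusion on points -/
def eJ0 : ZJ gen wd hwd J → Z3 gen wd hwd :=
  Sum.elim (fun z => inZ (φ2 gen wd hwd) z) (fun p => inB (φ2 gen wd hwd) p.1 p.2.1 p.2.2)

@[simp] theorem eJ0_inZ (z : Z2 gen) :
    eJ0 gen wd hwd J (inZ (φ2 gen (fun j : J => wd j) (fun j => hwd j)) z) =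
      inZ (φ2 gen wd hwd) z := rfl

@[simp] theorem eJ0_inB (g : G) (j : J) (x : B 2) :
    eJ0 gen wd hwd J (inB (φ2 gen (fun j : J => wd j) (fun j => hwd j)) g j x) =
      inB (φ2 gen wd hwd) g j x := rfl

theorem eJ0_chr (g : G) (j : J) (x : D 2) :
    eJ0 gen wd hwd J (chr (φ2 gen (fun j : J => wd j) (fun j => hwd j)) g j x) =
      chr (φ2 gen wd hwd) g j x := by
  induction x using D.cases' with
  | hB x => rw [chr_bd, chr_bd, eJ0_inB]
  | hS x => rw [chr_sd, chr_sd, eJ0_inZ]; rfl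

/-- the inclusion -/
def eJ : C(ZJ gen wd hwd J, Z3 gen wd hwd) := ⟨eJ0 gen wd hwd J, by
  rw [R185.Att.continuous_iff]
  refine ⟨continuous_inZ, fun g c => ?_⟩
  have : eJ0 gen wd hwd J ∘ chr (φ2 gen (fun j : J => wd j) (fun j => hwd j)) g c =
      chr (φ2 gen wd hwd) g c := by
    funext x; exact eJ0_chr gen wd hwd J g c x
  rw [this]
  exact continuous_chr g (c : κ)⟩

theorem eJ_smul : EqM G (eJ gen wd hwd J) := by
  intro g p
  induction p using GAtt.cases' with
  | hZ z => rfl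
  | hB h c x => rfl

theorem eJ_injective : Function.Injective (eJ gen wd hwd J) := by
  intro p q h
  induction p using GAtt.cases' with
  | hZ z =>
    induction q using GAtt.cases' with
    | hZ w => exact congrArg _ (inZ_inj.1 h)
    | hB g c x => exact absurd h inZ_ne_inB
  | hB g c x =>
    induction q using GAtt.cases' with
    | hZ w => exact absurd h inB_ne_inZ
    | hB g' c' x' =>
      obtain ⟨rfl, h2, rfl⟩ := inB_inj.1 h
      have h3 : c = c' := Subtype.ext h2
      subst h3; rfl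

theorem range_eJ : range (eJ gen wd hwd J) = Sk gen wd hwd J := by
  ext p
  constructor
  · rintro ⟨p, rfl⟩
    induction p using GAtt.cases' with
    | hZ z => exact Or.inl ⟨z, rfl⟩
    | hB g c x =>
      refine Or.inr ?_
      simp only [mem_iUnion]
      exact ⟨g, c, c.2, bd 2 x, chr_bd _ _ _⟩
  · rintro (⟨z, rfl⟩ | h)
    · exact ⟨inZ _ z, rfl⟩
    · simp only [mem_iUnion] at h
      obtain ⟨g, j, hj, x, rfl⟩ := h
      exact ⟨chr _ g ⟨j, hj⟩ x, eJ0_chr gen wd hwd J g ⟨j, hj⟩ x⟩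

theorem isClosedEmbedding_eJ : IsClosedEmbedding (eJ gen wd hwd J) := by
  refine .of_continuous_injective_isClosedMap (eJ gen wd hwd J).continuous
    (eJ_injective gen wd hwd J) ?_
  intro A hA
  rw [R185.Att.isClosed_iff] at hA ⊢
  obtain ⟨hA1, hA2⟩ := hA
  have e1 : (inZ (φ2 gen wd hwd)) ⁻¹' (eJ gen wd hwd J '' A) =
      (inZ (φ2 gen (fun j : J => wd j) (fun j => hwd j))) ⁻¹' A := by
    ext z
    constructor
    · rintro ⟨p, hp, h⟩
      have : p = inZ _ z := eJ_injective gen wd hwd J h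
      rw [this] at hp; exact hp
    · intro hz
      exact ⟨_, hz, rfl⟩
  refine ⟨by rw [e1]; exact hA1, fun g c => ?_⟩
  by_cases hc : c ∈ J
  · have e2 : chr (φ2 gen wd hwd) g c ⁻¹' (eJ gen wd hwd J '' A) =
        chr (φ2 gen (fun j : J => wd j) (fun j => hwd j)) g ⟨c, hc⟩ ⁻¹' A := by
      ext x
      constructor
      · rintro ⟨p, hp, h⟩
        have : p = chr _ g ⟨c, hc⟩ x :=
          eJ_injective gen wd hwd J (h.trans (eJ0_chr gen wd hwd J g ⟨c, hc⟩ x).symm)
        rw [this] at hp; exact hp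
      · intro hx
        exact ⟨_, hx, eJ0_chr gen wd hwd J g ⟨c, hc⟩ x⟩
    rw [e2]
    exact hA2 g ⟨c, hc⟩
  · have e3 : chr (φ2 gen wd hwd) g c ⁻¹' (eJ gen wd hwd J '' A) =
        sd 2 '' ((fun x : S 2 => g • φ2 gen wd hwd c x) ⁻¹'
          (inZ (φ2 gen (fun j : J => wd j) (fun j => hwd j)) ⁻¹' A)) := by
      ext x
      constructor
      · rintro ⟨p, hp, h⟩
        induction x using D.cases' with
        | hB x =>
          rw [chr_bd] at h
          induction p using GAtt.cases' with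
          | hZ z => exact absurd h inZ_ne_inB
          | hB g' c' x' =>
            obtain ⟨-, h2, -⟩ := inB_inj.1 h
            exact absurd (h2 ▸ c'.2) hc
        | hS x =>
          rw [chr_sd] at h
          refine ⟨x, ?_, rfl⟩
          have : p = inZ _ (g • φ2 gen wd hwd c x) := eJ_injective gen wd hwd J h
          rw [this] at hp; exact hp
      · rintro ⟨x, hx, rfl⟩
        rw [mem_preimage, chr_sd]
        exact ⟨_, hx, rfl⟩
    rw [e3]
    have hcont : Continuous fun x : S 2 => g • φ2 gen wd hwd c x :=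
      (φ2 gen wd hwd c).continuous.const_smul g
    exact ((hA1.preimage hcont).isCompact.image (sd 2).continuous).isClosed

theorem inv_Sk : Pr.Inv G (Sk gen wd hwd J) := by
  intro g x hx
  rw [← range_eJ] at hx ⊢
  obtain ⟨p, rfl⟩ := hx
  exact ⟨g • p, eJ_smul gen wd hwd J g p⟩

/-- **KR5**: `H^2_G` of the subcomplex `Sk J` -/
theorem kr5_hVon (hdet : Det2 M)
    (hD : ∀ b : J → M, ∃ D0 : ι → M, ∀ j : J, der gen D0 (wd j) = b j) :
    Pr.HVon G (Sk gen wd hwd J) 1 M :=
  Pr.HVon.of_embedding (inv_Sk gen wd hwd J) (kr4 gen (fun j : J => wd j) (fun j => hwd j) hdet hD)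
    (eJ gen wd hwd J) (eJ_smul gen wd hwd J) (isClosedEmbedding_eJ gen wd hwd J).isEmbedding
    (range_eJ gen wd hwd J)

/-- **KR5**, the form for K2 -/
theorem kr5 (hdet : Det2 M)
    (hD : ∀ b : J → M, ∃ D0 : ι → M, ∀ j : J, der gen D0 (wd j) = b j)
    (ω : SingSimplex (Z3 gen wd hwd) 2 → M) (hω : EqC G ω) (hc : cochainCobdry ω = 0) :
    ∃ ψ : SingSimplex (Z3 gen wd hwd) 1 → M, EqC G ψ ∧
      cochainCobdry (ω - cochainCobdry ψ) = 0 ∧ EqC G (ω - cochainCobdry ψ) ∧
      ∀ s, InS (Sk gen wd hwd J) s → (ω - cochainCobdry ψ) s = 0 := by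
  obtain ⟨ψ, h1, h2⟩ := kr5_hVon gen wd hwd J hdet hD ω hω (fun s _ => congrFun hc s)
  refine ⟨ψ, h1, ?_, hω.sub h1.cobdry, fun s hs => ?_⟩
  · rw [Pr.cobdry_sub, hc, Pr.cobdry_cobdry, sub_zero]
  · rw [Pi.sub_apply, h2 s hs, sub_self]

end

end Crest.Agent.R251.Kr
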