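import Crest.Agent.R251.Orb679b
import Crest.Agent.R251.Sm82C
import Crest.Agent.R251.Coh539A

/-!
# R251: (L3) restriction to the old space is injective on cohomology below the cell dimension

* `sv : Coh.SV` : 82's small simplices theorem in 539's form.
* `exists_bU` : a cocycle of `GAtt G φ` whose restriction to `Z` is an equivariant coboundary is one on `UU`.
* `exists_cobdry_of_restrict` (L3).
-/

set_option autoImplicit false
set_option linter.unusedSectionVars false

open CategoryTheory Simplicial Opposite Set Metric Topology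
open scoped unitInterval
open Crest.GeometryTopology.DeckCochains
open Crest.Agent.R251.Pr Crest.Agent.R251.Orb

namespace Crest.Agent.R251.L3

/-- 82's theorem in 539's form -/
theorem sv : Coh.SV := by
  intro E _ U V hU hV hUV M _ n φ hφ h0
  have hin : ∀ {k : ℕ} {A : Set E} (s : SingSimplex E k), Sm.InSet A s ↔ Coh.In A s := fun s => by
    unfold Sm.InSet Coh.In
    rw [range_subset_iff]
    exact Iff.rfl
  have hsm : ∀ {k : ℕ} (s : SingSimplex E k), Sm.IsSmall {U, V} s ↔ Coh.In U s ∨ Coh.In V s :=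
    fun s => by
      unfold Sm.IsSmall
      constructor
      · rintro ⟨W, hW, hs⟩
        rcases hW with rfl | hW
        · exact Or.inl ((hin s).1 hs)
        · rw [mem_singleton_iff] at hW; subst hW; exact Or.inr ((hin s).1 hs)
      · rintro (h | h)
        · exact ⟨U, by simp, (hin s).2 h⟩
        · exact ⟨V, by simp, (hin s).2 h⟩
  obtain ⟨ψ, h1, -, h3, h4⟩ := Sm.small_vanish {U, V}
    (by rintro W (rfl | hW)
        · exact hU
        · rw [mem_singleton_iff] at hW; subst hW; exact hV)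
    (fun x => by
      have hx : x ∈ U ∪ V := hUV ▸ mem_univ x
      rcases hx with hx | hx
      · exact ⟨U, by simp, hx⟩
      · exact ⟨V, by simp, hx⟩) φ hφ (fun s hs => h0 s ((hsm s).1 hs))
  refine ⟨ψ, h1, fun s hs => h3 s ((hsm s).2 hs), fun g a _ _ hg s => ?_⟩
  exact h4 (g : C(E, E)) a (fun s => hg s) s

section att

open Crest.Agent.R185.Att Crest.Agent.R251.DR

variable {G : Type} [Group G] {Z : Type} [TopologicalSpace Z] [MulAction G Z]
  [ContinuousConstSMul G Z] {m : ℕ} {C : Type} {φ : C → C(S m, Z)}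
  {M : Type} [AddCommGroup M] [DistribMulAction G M] {n : ℕ}

variable (G φ) in
/-- the inclusion of the old space -/
def inZc : C(Z, GAtt G φ) := ⟨fun z => inZ φ z, continuous_inZ⟩

theorem exists_bU {ω : SingSimplex (GAtt G φ) (n + 1) → M} (hω : EqC G ω)
    (hc : cochainCobdry ω = 0) {ψ : SingSimplex Z n → M} (hψ : EqC G ψ)
    (h : cochainCobdry ψ = pull (inZc G φ) ω) :
    ∃ b : SingSimplex (GAtt G φ) n → M, EqC G b ∧
      ∀ s, SIn (UU φ) s → cochainCobdry b s = ω s := by
  have hi : EqM G (incl (UU φ : Set (GAtt G φ))) := fun _ _ => rfl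
  have hωU : EqC G (pull (incl (UU φ : Set (GAtt G φ))) ω) := hω.pull hi
  have hcU : cochainCobdry (pull (incl (UU φ : Set (GAtt G φ))) ω) = 0 := by
    rw [cobdry_pull, hc]; rfl
  obtain ⟨χ, hχ, hχ2⟩ := exists_cobdry_of_homotopy (H := hU G φ) hωU hcU eqH_hU
  rw [end0_hU, end1_hU, pull_id] at hχ2
  have e1 : pull (inU.comp (rU G φ)) (pull (incl (UU φ : Set (GAtt G φ))) ω) =
      cochainCobdry (pull (rU G φ) ψ) := by
    rw [cobdry_pull, h, pull_pull, pull_pull]
    rfl
  refine ⟨ext0 (pull (rU G φ) ψ - χ), EqC.ext0 coe_smul_UU ((hψ.pull eqM_rU).sub hχ), ?_⟩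
  rw [← pull_incl_eq_iff, ← cobdry_pull, pull_ext0, Pr.cobdry_sub, hχ2, e1]
  abel

/-- **(L3)**: an equivariant cocycle in degree `n + 2` whose restriction to the old space is an
equivariant coboundary, is an equivariant coboundary if `H^(n+1)(S m; M) = 0`. -/
theorem exists_cobdry_of_restrict (hS : Van0 (S m) M n)
    {ω : SingSimplex (GAtt G φ) (n + 2) → M} (hω : EqC G ω) (hc : cochainCobdry ω = 0)
    {ψ : SingSimplex Z (n + 1) → M} (hψ : EqC G ψ) (h : cochainCobdry ψ = pull (inZc G φ) ω) :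
    ∃ χ : SingSimplex (GAtt G φ) (n + 1) → M, EqC G χ ∧ cochainCobdry χ = ω := by
  obtain ⟨bU, hbU, hbU2⟩ := exists_bU hω hc hψ h
  obtain ⟨bV, hbV, hbV2⟩ := hvi_VV (φ := φ) (n + 1) ω hω (fun s _ => by rw [hc]; rfl)
  obtain ⟨η, hη, hη2⟩ := hvi_UV (φ := φ) hS (bU - bV) (hbU.sub hbV) (fun s hs => by
    have h1 : SIn (UU φ) s := hs.mono inter_subset_left
    have h2 : SIn (VV φ) s := hs.mono inter_subset_right
    have h3 : cochainCobdry (bU - bV) s = cochainCobdry bU s - cochainCobdry bV s :=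
      congrFun (Pr.cobdry_sub bU bV) s
    rw [h3, hbU2 s h1, hbV2 s h2, sub_self])
  obtain ⟨χ, hχ, hχ2, -, -⟩ := Coh.glue (G := G) sv (isOpen_UU (φ := φ) (G := G))
    (isOpen_VV (φ := φ) (G := G)) UU_union_VV (fun g x => smul_mem_UU) (fun g x => smul_mem_VV)
    hω hc bU bV hbU hbV η hη hbU2 hbV2 (fun s h1 h2 => (hη2 s (SIn.inter h1 h2)).symm)
  exact ⟨χ, hχ, hχ2⟩

end att

end Crest.Agent.R251.L3
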