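import Crest.Agent.R251.LB972
import Crest.Agent.R251.PC752
import Crest.Agent.R185.Att1

/-!
# R251 (S0388), block LB2 (helper972): the value of a singular 2-cocycle on a closed 2-cell

A 2-cocycle `u` on the affine triangles of a convex space `Z` is a coboundary on triples of points;
the value on an outer quadrilateral equals the value on an inner one if the four trapezoids between
them contribute zero.  With `lemmaB`: the value of `u_b` on the closed cell `(g, j)` is `g • b j`.
-/

set_option autoImplicit false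
set_option linter.unusedSimpArgs false

noncomputable section

open CategoryTheory Simplicial Opposite Set
open Crest.GeometryTopology.DeckCochains
open Crest.Agent.R251.PC
open scoped unitInterval

namespace Crest.Agent.R251.LB

section quad

variable {Z : Type} [TopologicalSpace Z] [Cvx Z]
variable {E : Type} [TopologicalSpace E] {M : Type} [AddCommGroup M]
  (u : SingSimplex E 2 → M) (f : C(Z, E))

/-- lower triangle minus upper triangle of the quadrilateral with corners
`a = 00, b = 10, c = 01, d = 11` -/
def quad (a b c d : Z) : M := u (lin f ![a, b, d]) - u (lin f ![a, c, d])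

/-- **the outer quadrilateral equals the inner one**, if the four trapezoids contribute `0` -/
theorem quad_eq_inner (hu : cochainCobdry u = 0) (P Q : Bool → Bool → Z)
    (h1 : u (lin f ![P false false, P true false, Q true false]) = 0)
    (h2 : u (lin f ![P false false, Q false false, Q true false]) = 0)
    (h3 : u (lin f ![P true false, P true true, Q true true]) = 0)
    (h4 : u (lin f ![P true false, Q true false, Q true true]) = 0)
    (h5 : u (lin f ![P false true, P true true, Q true true]) = 0)
    (h6 : u (lin f ![P false true, Q false true, Q true true]) = 0)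
    (h7 : u (lin f ![P false false, P false true, Q false true]) = 0)
    (h8 : u (lin f ![P false false, Q false false, Q false true]) = 0) :
    quad u f (P false false) (P true false) (P false true) (P true true) =
      quad u f (Q false false) (Q true false) (Q false true) (Q true true) := by
  set o := P false false
  set β : Z → Z → M := fun p q => u (lin f ![o, p, q]) with hβ
  have key : ∀ p q r : Z, u (lin f ![p, q, r]) = β q r - β p r + β p q := by
    intro p q r
    have := cocycle_tet hu f o p q r
    simp only [hβ]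
    rw [← sub_eq_zero, ← this]
    abel
  simp only [quad]
  simp only [key] at h1 h2 h3 h4 h5 h6 h7 h8 ⊢
  linear_combination (norm := abel) h1 - h2 + (h3 - h4) - (h5 - h6) - (h7 - h8)

end quad

/-- lower minus upper triangle of a singular square -/
def ar {E : Type} [TopologicalSpace E] {M : Type} [AddCommGroup M]
    (u : SingSimplex E 2 → M) (f : C(I × I, E)) : M :=
  u (lin f ![((0 : I), (0 : I)), (1, 0), (1, 1)]) - u (lin f ![((0 : I), (0 : I)), (0, 1), (1, 1)])

/-! ### the inner square of the model cell -/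

/-- the closed disc model: the open sup-norm unit square -/
abbrev B2 : Type := Crest.Agent.R185.Att.B 2

/-- the centre of the open square -/
def b0 : B2 := ⟨0, Metric.mem_ball_self one_pos⟩

/-- the affine triangle of `B 2` with vertices `(-1/2,-1/2), (1/2,-1/2), (1/2,1/2)` -/
def lowB : C(Dn 2, B2) where
  toFun s := ⟨![(-s 0 + s 1 + s 2) / 2, (-s 0 - s 1 + s 2) / 2], by
    have h0 : 0 ≤ s 0 := s.2.1 0
    have h1 : 0 ≤ s 1 := s.2.1 1
    have h2 : 0 ≤ s 2 := s.2.1 2
    have hs : s 0 + s 1 + s 2 = 1 := by
      have := s.2.2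
      rwa [Fin.sum_univ_three] at this
    rw [mem_ball_zero_iff, pi_norm_lt_iff one_pos]
    intro i
    fin_cases i
    · show ‖(-s 0 + s 1 + s 2) / 2‖ < 1
      rw [Real.norm_eq_abs, abs_lt]
      constructor <;> linarith
    · show ‖(-s 0 - s 1 + s 2) / 2‖ < 1
      rw [Real.norm_eq_abs, abs_lt]
      constructor <;> linarith⟩
  continuous_toFun := by
    have hc : ∀ i : Fin 3, Continuous fun s : Dn 2 => s i :=
      fun i => (continuous_apply i).comp continuous_subtype_val
    have h0 := hc 0
    have h1 := hc 1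
    have h2 := hc 2
    refine Continuous.subtype_mk (continuous_pi fun i => ?_) _
    fin_cases i
    · exact ((h0.neg.add h1).add h2).div_const 2
    · exact ((h0.neg.sub h1).add h2).div_const 2

/-- the affine triangle of `B 2` with vertices `(-1/2,-1/2), (-1/2,1/2), (1/2,1/2)` -/
def upB : C(Dn 2, B2) where
  toFun s := ⟨![(-s 0 - s 1 + s 2) / 2, (-s 0 + s 1 + s 2) / 2], by
    have h0 : 0 ≤ s 0 := s.2.1 0
    have h1 : 0 ≤ s 1 := s.2.1 1
    have h2 : 0 ≤ s 2 := s.2.1 2
    have hs : s 0 + s 1 + s 2 = 1 := by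
      have := s.2.2
      rwa [Fin.sum_univ_three] at this
    rw [mem_ball_zero_iff, pi_norm_lt_iff one_pos]
    intro i
    fin_cases i
    · show ‖(-s 0 - s 1 + s 2) / 2‖ < 1
      rw [Real.norm_eq_abs, abs_lt]
      constructor <;> linarith
    · show ‖(-s 0 + s 1 + s 2) / 2‖ < 1
      rw [Real.norm_eq_abs, abs_lt]
      constructor <;> linarith⟩
  continuous_toFun := by
    have hc : ∀ i : Fin 3, Continuous fun s : Dn 2 => s i :=
      fun i => (continuous_apply i).comp continuous_subtype_val
    have h0 := hc 0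
    have h1 := hc 1
    have h2 := hc 2
    refine Continuous.subtype_mk (continuous_pi fun i => ?_) _
    fin_cases i
    · exact ((h0.neg.sub h1).add h2).div_const 2
    · exact ((h0.neg.add h1).add h2).div_const 2

theorem lowB_apply (s : Dn 2) :
    (lowB s : Fin 2 → ℝ) = ![(-s 0 + s 1 + s 2) / 2, (-s 0 - s 1 + s 2) / 2] := rfl

theorem upB_apply (s : Dn 2) :
    (upB s : Fin 2 → ℝ) = ![(-s 0 - s 1 + s 2) / 2, (-s 0 + s 1 + s 2) / 2] := rfl

/-! ### value on the closed cell -/

/-- the point `1/4` of the unit interval -/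
def qu : I := ⟨1 / 4, by norm_num, by norm_num⟩

/-- the point `3/4` of the unit interval -/
def tq : I := ⟨3 / 4, by norm_num, by norm_num⟩

/-- the open square inside `I × I` -/
def inSq (s : I × I) : Prop := (0 : ℝ) < s.1 ∧ (s.1 : ℝ) < 1 ∧ (0 : ℝ) < s.2 ∧ (s.2 : ℝ) < 1

theorem aff3_fst (a b c : I × I) (s : Dn 2) :
    (((aff ![a, b, c] : C(Dn 2, I × I)) s).1 : ℝ) = s 0 * a.1 + s 1 * b.1 + s 2 * c.1 := by
  rw [aff_fst]
  refine (affI_apply _ s).trans ?_
  rw [Fin.sum_univ_three]
  rfl

theorem aff3_snd (a b c : I × I) (s : Dn 2) :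
    (((aff ![a, b, c] : C(Dn 2, I × I)) s).2 : ℝ) = s 0 * a.2 + s 1 * b.2 + s 2 * c.2 := by
  rw [aff_snd]
  refine (affI_apply _ s).trans ?_
  rw [Fin.sum_univ_three]
  rfl

section value

variable {G E J : Type} [Group G] [TopologicalSpace E] [MulAction G E] (K : Cells G E J B2)
variable {M : Type} [AddCommGroup M] [DistribMulAction G M]

/-- **LB2: the value of `u` on the closed cell.** -/
theorem ar_value (hc0 : K.c0 = b0) (w0 : SingSimplex B2 2 → ℤ)
    (hw1 : w0 (sx lowB) - w0 (sx upB) = 1) (b : J → M) (u : SingSimplex E 2 → M)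
    (hu : cochainCobdry u = 0)
    (hmiss : ∀ s : SingSimplex E 2, range (un s) ⊆ K.ctrᶜ → u s = 0)
    (hchart : ∀ (g : G) (j : J) (τ : C(Dn 2, B2)),
      u (sx ((K.chart g j).comp τ)) = w0 (sx τ) • (g • b j))
    (g : G) (j : J) (f : C(I × I, E))
    (hf : ∀ (s : I × I) (x : B2), (x : Fin 2 → ℝ) = ![2 * (s.1 : ℝ) - 1, 2 * (s.2 : ℝ) - 1] →
      f s = K.chart g j x)
    (hb : ∀ s : I × I, ¬ inSq s → f s ∉ K.ctr) :
    ar u f = g • b j := by
  have hne : ∀ s : I × I, ¬ ((s.1 : ℝ) = 1 / 2 ∧ (s.2 : ℝ) = 1 / 2) → f s ∉ K.ctr := by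
    intro s hs
    by_cases hin : inSq s
    · obtain ⟨a1, a2, a3, a4⟩ := hin
      have hx : (![2 * (s.1 : ℝ) - 1, 2 * (s.2 : ℝ) - 1] : Fin 2 → ℝ) ∈
          Metric.ball (0 : Fin 2 → ℝ) 1 := by
        rw [mem_ball_zero_iff, pi_norm_lt_iff one_pos]
        intro i
        fin_cases i
        · show ‖2 * (s.1 : ℝ) - 1‖ < 1
          rw [Real.norm_eq_abs, abs_lt]
          constructor <;> linarith
        · show ‖2 * (s.2 : ℝ) - 1‖ < 1
          rw [Real.norm_eq_abs, abs_lt]
          constructor <;> linarith
      rw [hf s ⟨_, hx⟩ rfl, K.mem_ctr_chart, hc0]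
      intro h
      apply hs
      have h1 := congrArg (fun y : B2 => (y : Fin 2 → ℝ) 0) h
      have h2 := congrArg (fun y : B2 => (y : Fin 2 → ℝ) 1) h
      have h1' : 2 * (s.1 : ℝ) - 1 = 0 := h1
      have h2' : 2 * (s.2 : ℝ) - 1 = 0 := h2
      constructor <;> linarith
    · exact hb s hin
  -- triangles missing the centre
  have hz : ∀ a b' c : I × I, (∀ s : Dn 2, ¬ ((((aff ![a, b', c] : C(Dn 2, I × I)) s).1 : ℝ) = 1 / 2 ∧
      (((aff ![a, b', c] : C(Dn 2, I × I)) s).2 : ℝ) = 1 / 2)) → u (lin f ![a, b', c]) = 0 := by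
    intro a b' c h
    apply hmiss
    rintro _ ⟨s, rfl⟩
    exact hne _ (h s)
  have hsum : ∀ s : Dn 2, 0 ≤ s 0 ∧ 0 ≤ s 1 ∧ 0 ≤ s 2 ∧ s 0 + s 1 + s 2 = 1 := fun s =>
    ⟨s.2.1 0, s.2.1 1, s.2.1 2, by
      have := s.2.2
      rwa [Fin.sum_univ_three] at this⟩
  let P : Bool → Bool → I × I := fun x y => (cond x 1 0, cond y 1 0)
  let Q : Bool → Bool → I × I := fun x y => (cond x tq qu, cond y tq qu)
  have hq := quad_eq_inner u f hu P Q
    (hz _ _ _ fun s h => by
      have h2 := h.2
      rw [aff3_snd] at h2
      obtain ⟨p0, p1, p2, p3⟩ := hsum s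
      simp only [P, Q, cond, qu, tq, Icc.coe_zero, Icc.coe_one] at h2
      linarith)
    (hz _ _ _ fun s h => by
      have h2 := h.2
      rw [aff3_snd] at h2
      obtain ⟨p0, p1, p2, p3⟩ := hsum s
      simp only [P, Q, cond, qu, tq, Icc.coe_zero, Icc.coe_one] at h2
      linarith)
    (hz _ _ _ fun s h => by
      have h2 := h.1
      rw [aff3_fst] at h2
      obtain ⟨p0, p1, p2, p3⟩ := hsum s
      simp only [P, Q, cond, qu, tq, Icc.coe_zero, Icc.coe_one] at h2
      linarith)
    (hz _ _ _ fun s h => by
      have h2 := h.1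
      rw [aff3_fst] at h2
      obtain ⟨p0, p1, p2, p3⟩ := hsum s
      simp only [P, Q, cond, qu, tq, Icc.coe_zero, Icc.coe_one] at h2
      linarith)
    (hz _ _ _ fun s h => by
      have h2 := h.2
      rw [aff3_snd] at h2
      obtain ⟨p0, p1, p2, p3⟩ := hsum s
      simp only [P, Q, cond, qu, tq, Icc.coe_zero, Icc.coe_one] at h2
      linarith)
    (hz _ _ _ fun s h => by
      have h2 := h.2
      rw [aff3_snd] at h2
      obtain ⟨p0, p1, p2, p3⟩ := hsum s
      simp only [P, Q, cond, qu, tq, Icc.coe_zero, Icc.coe_one] at h2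
      linarith)
    (hz _ _ _ fun s h => by
      have h2 := h.1
      rw [aff3_fst] at h2
      obtain ⟨p0, p1, p2, p3⟩ := hsum s
      simp only [P, Q, cond, qu, tq, Icc.coe_zero, Icc.coe_one] at h2
      linarith)
    (hz _ _ _ fun s h => by
      have h2 := h.1
      rw [aff3_fst] at h2
      obtain ⟨p0, p1, p2, p3⟩ := hsum s
      simp only [P, Q, cond, qu, tq, Icc.coe_zero, Icc.coe_one] at h2
      linarith)
  have e1 : ar u f = quad u f (P false false) (P true false) (P false true) (P true true) := rfl
  rw [e1, hq]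
  have l1 : u (lin f ![Q false false, Q true false, Q true true]) = w0 (sx lowB) • (g • b j) := by
    rw [← hchart]
    have e : f.comp (aff ![Q false false, Q true false, Q true true]) =
        (K.chart g j).comp lowB := by
      ext1 s
      refine hf _ (lowB s) ?_
      rw [lowB_apply, aff3_fst, aff3_snd]
      obtain ⟨p0, p1, p2, p3⟩ := hsum s
      simp only [Q, cond, qu, tq]
      congr 1
      · linarith
      · congr 1
        linarith
    exact congrArg (fun τ => u (sx τ)) e
  have l2 : u (lin f ![Q false false, Q false true, Q true true]) = w0 (sx upB) • (g • b j) := by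
    rw [← hchart]
    have e : f.comp (aff ![Q false false, Q false true, Q true true]) =
        (K.chart g j).comp upB := by
      ext1 s
      refine hf _ (upB s) ?_
      rw [upB_apply, aff3_fst, aff3_snd]
      obtain ⟨p0, p1, p2, p3⟩ := hsum s
      simp only [Q, cond, qu, tq]
      congr 1
      · linarith
      · congr 1
        linarith
    exact congrArg (fun τ => u (sx τ)) e
  rw [quad, l1, l2, ← sub_smul, hw1, one_smul]

end value

end Crest.Agent.R251.LB
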