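import Crest.Agent.R251.LB972c
import Crest.Agent.R251.Om239

/-!
# R251 (S0388), block LB (helper972): Lemma B for 2-cells, unconditional (helper239's `w2`)
-/

set_option autoImplicit false

noncomputable section

open CategoryTheory Simplicial Opposite Set
open Crest.GeometryTopology.DeckCochains
open Crest.Agent.R251.PC
open scoped unitInterval

namespace Crest.Agent.R251.LB

theorem half_mem (v : Fin 2 → ℝ) (h0 : |v 0| < 1) (h1 : |v 1| < 1) :
    v ∈ Metric.ball (0 : Fin 2 → ℝ) 1 := by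
  rw [mem_ball_zero_iff, pi_norm_lt_iff one_pos]
  intro i
  fin_cases i
  · exact h0
  · exact h1

/-- corners of the inner square -/
def cn (x y : ℝ) (hx : |x| < 1) (hy : |y| < 1) : B2 := ⟨![x, y], half_mem _ hx hy⟩

theorem w2_low_up : Om.w2 (sx lowB) - Om.w2 (sx upB) = 1 := by
  have hh : |(1 / 2 : ℝ)| < 1 := by rw [abs_lt]; constructor <;> norm_num
  have hn : |(-(1 / 2) : ℝ)| < 1 := by rw [abs_lt]; constructor <;> norm_num
  have h := Om.w2_sq (cn (-(1 / 2)) (-(1 / 2)) hn hn) (cn (1 / 2) (-(1 / 2)) hh hn)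
    (cn (-(1 / 2)) (1 / 2) hn hh) (cn (1 / 2) (1 / 2) hh hh) (1 / 2) (by norm_num) rfl rfl rfl rfl
  have e1 : lowB = Om.triB (cn (-(1 / 2)) (-(1 / 2)) hn hn) (cn (1 / 2) (-(1 / 2)) hh hn)
      (cn (1 / 2) (1 / 2) hh hh) := by
    ext s i
    fin_cases i
    · show (-s 0 + s 1 + s 2) / 2 = s 0 * (-(1 / 2)) + s 1 * (1 / 2) + s 2 * (1 / 2)
      ring
    · show (-s 0 - s 1 + s 2) / 2 = s 0 * (-(1 / 2)) + s 1 * (-(1 / 2)) + s 2 * (1 / 2)
      ring
  have e2 : upB = Om.triB (cn (-(1 / 2)) (-(1 / 2)) hn hn) (cn (-(1 / 2)) (1 / 2) hn hh)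
      (cn (1 / 2) (1 / 2) hh hh) := by
    ext s i
    fin_cases i
    · show (-s 0 - s 1 + s 2) / 2 = s 0 * (-(1 / 2)) + s 1 * (-(1 / 2)) + s 2 * (1 / 2)
      ring
    · show (-s 0 + s 1 + s 2) / 2 = s 0 * (-(1 / 2)) + s 1 * (1 / 2) + s 2 * (1 / 2)
      ring
  rw [e1, e2]
  exact h

section

variable {G E : Type} [Group G] [TopologicalSpace E] [MulAction G E] [ContinuousConstSMul G E]
variable {M : Type} [AddCommGroup M] [DistribMulAction G M] {J : Type}

/-- **Lemma B for 2-cells, unconditional.** -/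
theorem exists_u2 (K : Cells G E J B2) (hc0 : K.c0 = b0) (b : J → M) :
    ∃ u : SingSimplex E 2 → M, cochainCobdry u = 0 ∧
      (∀ (g : G) (s : SingSimplex E 2), u (tr g s) = g • u s) ∧
      (∀ s : SingSimplex E 2, range (un s) ⊆ K.ctrᶜ → u s = 0) ∧
      (∀ (g : G) (j : J) (f : C(I × I, E)),
        (∀ (s : I × I) (x : B2), (x : Fin 2 → ℝ) = ![2 * (s.1 : ℝ) - 1, 2 * (s.2 : ℝ) - 1] →
          f s = K.chart g j x) →
        (∀ s : I × I, ¬ inSq s → f s ∉ K.ctr) → ar u f = g • b j) := by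
  refine exists_uB K hc0 Om.w2 Om.w2_cocycle (fun τ hτ => ?_) w2_low_up b
  refine Om.w2_zero' _ fun h => hτ ?_
  exact h

end

end Crest.Agent.R251.LB
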