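import Crest.Agent.R123.HopfCocycle
import Crest.Agent.R197.Glue

/-! Row 251 (helper267): a singular 1-cocycle is a path label; all results are for singular cochains
written as functions on `C(Dl n, W)`. -/

set_option autoImplicit false

open unitInterval
open Crest.Agent.R123 (Dl face vx face_vx)
open Crest.Agent.R197 (PathLabel)

noncomputable section

namespace Crest.Agent.R251.Sur

variable {W : Type} [TopologicalSpace W]

/-- alternating sum over the faces -/
def cob {n : ℕ} (u : C(Dl n, W) → ℝ) (sg : C(Dl (n + 1), W)) : ℝ :=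
  ∑ i : Fin (n + 2), ((-1 : ℝ) ^ (i : ℕ)) * u (sg.comp (face i))

/-- every singular 2-cocycle is a coboundary -/
def H2R (W : Type) [TopologicalSpace W] : Prop :=
  ∀ φ : C(Dl 2, W) → ℝ, (∀ t : C(Dl 3, W), cob φ t = 0) →
    ∃ ψ : C(Dl 1, W) → ℝ, ∀ sg : C(Dl 2, W), φ sg = cob ψ sg

lemma cob_two (u : C(Dl 1, W) → ℝ) (sg : C(Dl 2, W)) :
    cob u sg = u (sg.comp (face 0)) - u (sg.comp (face 1)) + u (sg.comp (face 2)) := by
  have h : cob u sg = ∑ i : Fin 3, ((-1 : ℝ) ^ (i : ℕ)) * u (sg.comp (face i)) := rfl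
  rw [h]
  simp only [Fin.sum_univ_three, Fin.val_zero, Fin.val_one, Fin.val_two]
  ring

/-- coordinate of a simplex as a point of the unit interval -/
def co {n : ℕ} (i : Fin (n + 1)) : C(Dl n, I) :=
  ⟨fun x => ⟨x i, x.2.1 i, by
    have h := x.2.2
    calc (x : Fin (n + 1) → ℝ) i ≤ ∑ j, (x : Fin (n + 1) → ℝ) j :=
          Finset.single_le_sum (fun j _ => x.2.1 j) (Finset.mem_univ i)
      _ = 1 := h⟩,
   Continuous.subtype_mk ((continuous_apply i).comp continuous_subtype_val) _⟩

@[simp] lemma co_coe {n : ℕ} (i : Fin (n + 1)) (x : Dl n) : ((co i x : I) : ℝ) = x i := rfl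

/-- the 1-simplex given by a continuous map of the interval -/
def ps (f : C(I, W)) : C(Dl 1, W) := f.comp (co 1)

lemma sum3 (x : Dl 2) : (x 0 : ℝ) + x 1 + x 2 = 1 := by
  have h : ∑ j, (x : Fin 3 → ℝ) j = 1 := x.2.2
  rw [Fin.sum_univ_three] at h
  exact h

lemma sum2 (x : Dl 1) : (x 0 : ℝ) + x 1 = 1 := by
  have h : ∑ j, (x : Fin 2 → ℝ) j = 1 := x.2.2
  rw [Fin.sum_univ_two] at h
  exact h

lemma nonneg {n : ℕ} (x : Dl n) (i : Fin (n + 1)) : (0 : ℝ) ≤ x i := x.2.1 i

/-- a map to `ℝ` as a map of the triangle to the interval -/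
def tri (f : C(Dl 2, ℝ)) (h : ∀ x, 0 ≤ f x ∧ f x ≤ 1) : C(Dl 2, I) :=
  ⟨fun x => ⟨f x, (h x).1, (h x).2⟩, Continuous.subtype_mk f.continuous _⟩

lemma face_ap {n : ℕ} (i : Fin (n + 2)) (x : Dl n) (y : Fin (n + 2)) :
    (face i x : Dl (n + 1)) y = ∑ j : Fin (n + 1), if Fin.succAbove i j = y then x j else 0 :=
  Crest.Agent.R123.Cone.face_apply i x y

lemma face0 (x : Dl 1) : (face 0 x : Dl 2) 0 = 0 ∧ (face 0 x : Dl 2) 1 = x 0 ∧
    (face 0 x : Dl 2) 2 = x 1 := by
  refine ⟨?_, ?_, ?_⟩ <;> rw [face_ap, Fin.sum_univ_two]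
  · simp [show Fin.succAbove (0 : Fin 3) (0 : Fin 2) = 1 from rfl,
      show Fin.succAbove (0 : Fin 3) (1 : Fin 2) = 2 from rfl]
  · simp [show Fin.succAbove (0 : Fin 3) (0 : Fin 2) = 1 from rfl,
      show Fin.succAbove (0 : Fin 3) (1 : Fin 2) = 2 from rfl]
  · simp [show Fin.succAbove (0 : Fin 3) (0 : Fin 2) = 1 from rfl,
      show Fin.succAbove (0 : Fin 3) (1 : Fin 2) = 2 from rfl]

lemma face1 (x : Dl 1) : (face 1 x : Dl 2) 0 = x 0 ∧ (face 1 x : Dl 2) 1 = 0 ∧
    (face 1 x : Dl 2) 2 = x 1 := by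
  refine ⟨?_, ?_, ?_⟩ <;> rw [face_ap, Fin.sum_univ_two]
  · simp [show Fin.succAbove (1 : Fin 3) (0 : Fin 2) = 0 from rfl,
      show Fin.succAbove (1 : Fin 3) (1 : Fin 2) = 2 from rfl]
  · simp [show Fin.succAbove (1 : Fin 3) (0 : Fin 2) = 0 from rfl,
      show Fin.succAbove (1 : Fin 3) (1 : Fin 2) = 2 from rfl]
  · simp [show Fin.succAbove (1 : Fin 3) (0 : Fin 2) = 0 from rfl,
      show Fin.succAbove (1 : Fin 3) (1 : Fin 2) = 2 from rfl]

lemma face2 (x : Dl 1) : (face 2 x : Dl 2) 0 = x 0 ∧ (face 2 x : Dl 2) 1 = x 1 ∧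
    (face 2 x : Dl 2) 2 = 0 := by
  refine ⟨?_, ?_, ?_⟩ <;> rw [face_ap, Fin.sum_univ_two]
  · simp [show Fin.succAbove (2 : Fin 3) (0 : Fin 2) = 0 from rfl,
      show Fin.succAbove (2 : Fin 3) (1 : Fin 2) = 1 from rfl]
  · simp [show Fin.succAbove (2 : Fin 3) (0 : Fin 2) = 0 from rfl,
      show Fin.succAbove (2 : Fin 3) (1 : Fin 2) = 1 from rfl]
  · simp [show Fin.succAbove (2 : Fin 3) (0 : Fin 2) = 0 from rfl,
      show Fin.succAbove (2 : Fin 3) (1 : Fin 2) = 1 from rfl]

/-- the value on a constant path -/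
lemma val_const {u : C(Dl 1, W) → ℝ} (hu : ∀ sg : C(Dl 2, W), cob u sg = 0) (w : W)
    (c : C(Dl 1, W)) (hc : ∀ x, c x = w) : u c = 0 := by
  have hc' : c = ContinuousMap.const _ w := by ext1 x; exact hc x
  subst hc'
  have h := hu (ContinuousMap.const _ w)
  rw [cob_two] at h
  have e : ∀ i : Fin 3, (ContinuousMap.const (Dl 2) w).comp (face i) =
      (ContinuousMap.const (Dl 1) w) := by
    intro i; ext1 x; rfl
  simp only [e] at h
  linarith

/-- coordinate function `x₁ + x₂` with values in the interval -/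
def co12 : C(Dl 2, I) :=
  ⟨fun x => ⟨x 1 + x 2, add_nonneg (nonneg x 1) (nonneg x 2), by
      have := sum3 x; have := nonneg x 0; linarith⟩, by
    refine Continuous.subtype_mk ?_ _
    exact ((continuous_apply (1 : Fin 3)).comp continuous_subtype_val).add
      ((continuous_apply (2 : Fin 3)).comp continuous_subtype_val)⟩

/-- `x₁ / 2 + x₂` -/
def coh : C(Dl 2, I) :=
  ⟨fun x => ⟨x 1 / 2 + x 2, by have := nonneg x 1; have := nonneg x 2; positivity, by
      have := sum3 x; have := nonneg x 0; have := nonneg x 1; linarith⟩, by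
    refine Continuous.subtype_mk ?_ _
    exact (((continuous_apply (1 : Fin 3)).comp continuous_subtype_val).div_const 2).add
      ((continuous_apply (2 : Fin 3)).comp continuous_subtype_val)⟩

lemma val_trans {u : C(Dl 1, W) → ℝ} (hu : ∀ sg : C(Dl 2, W), cob u sg = 0) {x y z : W}
    (p : Path x y) (q : Path y z) :
    u (ps (p.trans q).toContinuousMap) = u (ps p.toContinuousMap) + u (ps q.toContinuousMap) := by
  have h := hu ((p.trans q).toContinuousMap.comp coh)
  rw [cob_two] at h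
  have e0 : ((p.trans q).toContinuousMap.comp coh).comp (face 0) = ps q.toContinuousMap := by
    ext1 t
    obtain ⟨h0, h1, h2⟩ := face0 t
    have hs := sum2 t
    have hc : coh (face 0 t) = ⟨(t 1 + 1) / 2, by have := nonneg t 1; positivity, by
        have := nonneg t 0; linarith⟩ := by
      apply Subtype.ext
      show (face 0 t : Dl 2) 1 / 2 + (face 0 t : Dl 2) 2 = (t 1 + 1) / 2
      rw [h1, h2]; linarith
    show (p.trans q) (coh (face 0 t)) = q (co 1 t)
    rw [hc, Path.trans_apply]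
    split_ifs with hh
    · have h10 : (t 1 : ℝ) = 0 := by
        have h3 : ((t 1 : ℝ) + 1) / 2 ≤ 1 / 2 := hh
        have := nonneg t 1; linarith
      have e1 : (⟨2 * (((t 1 : ℝ) + 1) / 2), (unitInterval.mul_pos_mem_iff zero_lt_two).2
          ⟨by have := nonneg t 1; positivity, hh⟩⟩ : I) = 1 := by
        apply Subtype.ext
        show 2 * (((t 1 : ℝ) + 1) / 2) = 1
        rw [h10]; norm_num
      have e2 : co 1 t = 0 := Subtype.ext h10
      rw [e2, q.source]
      exact (congrArg p e1).trans p.target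
    · congr 1
      apply Subtype.ext
      show 2 * (((t 1 : ℝ) + 1) / 2) - 1 = t 1
      ring
  have e2 : ((p.trans q).toContinuousMap.comp coh).comp (face 2) = ps p.toContinuousMap := by
    ext1 t
    obtain ⟨h0, h1, h2⟩ := face2 t
    have hs := sum2 t
    have hc : coh (face 2 t) = ⟨t 1 / 2, by have := nonneg t 1; positivity, by
        have := nonneg t 0; linarith⟩ := by
      apply Subtype.ext
      show (face 2 t : Dl 2) 1 / 2 + (face 2 t : Dl 2) 2 = t 1 / 2
      rw [h1, h2]; ring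
    show (p.trans q) (coh (face 2 t)) = p (co 1 t)
    rw [hc, Path.trans_apply]
    split_ifs with hh
    · congr 1
      apply Subtype.ext
      show 2 * ((t 1 : ℝ) / 2) = t 1
      ring
    · exfalso
      apply hh
      show (t 1 : ℝ) / 2 ≤ 1 / 2
      have := nonneg t 0; linarith
  have e1 : ((p.trans q).toContinuousMap.comp coh).comp (face 1) =
      ps (p.trans q).toContinuousMap := by
    ext1 t
    obtain ⟨h0, h1, h2⟩ := face1 t
    have hc : coh (face 1 t) = co 1 t := by
      apply Subtype.ext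
      show (face 1 t : Dl 2) 1 / 2 + (face 1 t : Dl 2) 2 = t 1
      rw [h1, h2]; ring
    show (p.trans q) (coh (face 1 t)) = (p.trans q) (co 1 t)
    rw [hc]
  rw [e0, e1, e2] at h
  linarith

lemma val_hom {u : C(Dl 1, W) → ℝ} (hu : ∀ sg : C(Dl 2, W), cob u sg = 0) {x y : W}
    {p q : Path x y} (h : p.Homotopic q) :
    u (ps p.toContinuousMap) = u (ps q.toContinuousMap) := by
  obtain ⟨H⟩ := h
  have h1 := hu (H.toContinuousMap.comp ((co 2).prodMk co12))
  have h2 := hu (H.toContinuousMap.comp (co12.prodMk (co 2)))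
  rw [cob_two] at h1 h2
  have a0 : u ((H.toContinuousMap.comp ((co 2).prodMk co12)).comp (face 0)) = 0 := by
    apply val_const hu y
    intro t
    obtain ⟨f0, f1, f2⟩ := face0 t
    show H (co 2 (face 0 t), co12 (face 0 t)) = y
    have e : co12 (face 0 t) = 1 := by
      apply Subtype.ext
      show (face 0 t : Dl 2) 1 + (face 0 t : Dl 2) 2 = 1
      rw [f1, f2]; exact sum2 t
    rw [e]
    exact H.target _
  have b2 : u ((H.toContinuousMap.comp (co12.prodMk (co 2))).comp (face 2)) = 0 := by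
    apply val_const hu x
    intro t
    obtain ⟨f0, f1, f2⟩ := face2 t
    show H (co12 (face 2 t), co 2 (face 2 t)) = x
    have e : co 2 (face 2 t) = 0 := by
      apply Subtype.ext
      show (face 2 t : Dl 2) 2 = 0
      exact f2
    rw [e]
    exact H.source _
  have a2 : (H.toContinuousMap.comp ((co 2).prodMk co12)).comp (face 2) =
      ps p.toContinuousMap := by
    ext1 t
    obtain ⟨f0, f1, f2⟩ := face2 t
    show H (co 2 (face 2 t), co12 (face 2 t)) = p (co 1 t)
    have e : co 2 (face 2 t) = 0 := by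
      apply Subtype.ext
      show (face 2 t : Dl 2) 2 = 0
      exact f2
    have e' : co12 (face 2 t) = co 1 t := by
      apply Subtype.ext
      show (face 2 t : Dl 2) 1 + (face 2 t : Dl 2) 2 = t 1
      rw [f1, f2]; ring
    rw [e, e', H.apply_zero]
    rfl
  have b0 : (H.toContinuousMap.comp (co12.prodMk (co 2))).comp (face 0) =
      ps q.toContinuousMap := by
    ext1 t
    obtain ⟨f0, f1, f2⟩ := face0 t
    show H (co12 (face 0 t), co 2 (face 0 t)) = q (co 1 t)
    have e : co12 (face 0 t) = 1 := by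
      apply Subtype.ext
      show (face 0 t : Dl 2) 1 + (face 0 t : Dl 2) 2 = 1
      rw [f1, f2]; exact sum2 t
    have e' : co 2 (face 0 t) = co 1 t := by
      apply Subtype.ext
      show (face 0 t : Dl 2) 2 = t 1
      rw [f2]
    rw [e, e', H.apply_one]
    rfl
  have ab1 : (H.toContinuousMap.comp ((co 2).prodMk co12)).comp (face 1) =
      (H.toContinuousMap.comp (co12.prodMk (co 2))).comp (face 1) := by
    ext1 t
    obtain ⟨f0, f1, f2⟩ := face1 t
    show H (co 2 (face 1 t), co12 (face 1 t)) = H (co12 (face 1 t), co 2 (face 1 t))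
    have e : co12 (face 1 t) = co 2 (face 1 t) := by
      apply Subtype.ext
      show (face 1 t : Dl 2) 1 + (face 1 t : Dl 2) 2 = (face 1 t : Dl 2) 2
      rw [f1]; ring
    rw [e]
  rw [a0, a2, ab1] at h1
  rw [b0, b2] at h2
  linarith

/-- a singular 1-cocycle gives a path label -/
def ofCocycle (u : C(Dl 1, W) → ℝ) (hu : ∀ sg : C(Dl 2, W), cob u sg = 0) :
    PathLabel W (Multiplicative ℝ) where
  lab p := Multiplicative.ofAdd (u (ps p.toContinuousMap))
  lab_trans p q := by
    rw [← ofAdd_add, val_trans hu p q]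
  lab_hom h := by rw [val_hom hu h]

@[simp] lemma ofCocycle_lab (u : C(Dl 1, W) → ℝ) (hu : ∀ sg : C(Dl 2, W), cob u sg = 0)
    {x y : W} (p : Path x y) :
    (ofCocycle u hu).lab p = Multiplicative.ofAdd (u (ps p.toContinuousMap)) := rfl

end Crest.Agent.R251.Sur
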