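import Mathlib
import Crest.Prelude.Def_DeckCochains

/-!
# R251 (S0388), block C4 (helper679): equivariant singular cochains on a free orbit space

`T = Σ _ : G × C, F` (or any `G`-space `T'` equivariantly homeomorphic to it): equivariant cochains on
`T'` are families (indexed by `C`) of ordinary cochains on `F`.
-/

set_option autoImplicit false
set_option linter.unusedSectionVars false

open CategoryTheory Simplicial Opposite
open Crest.GeometryTopology.DeckCochains

namespace Crest.Agent.R251.Orb

/-! ### elementary interface of `SingSimplex` -/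

section api

/-- the standard simplex -/
abbrev Dn (n : ℕ) : Type := stdSimplex ℝ (Fin (n + 1))

variable {X Y Z : Type} [TopologicalSpace X] [TopologicalSpace Y] [TopologicalSpace Z] {n : ℕ}

/-- simplex of a continuous map -/
noncomputable def mk (σ : C(Dn n, X)) : SingSimplex X n :=
  (TopCat.toSSetObjEquiv (TopCat.of X) (op ⦋n⦌)).symm σ

/-- continuous map of a simplex -/
noncomputable def un (s : SingSimplex X n) : C(Dn n, X) :=
  TopCat.toSSetObjEquiv (TopCat.of X) (op ⦋n⦌) s

@[simp] theorem mk_un (s : SingSimplex X n) : mk (un s) = s := Equiv.symm_apply_apply _ _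
@[simp] theorem un_mk (σ : C(Dn n, X)) : un (mk σ) = σ := Equiv.apply_symm_apply _ _

theorem un_injective : Function.Injective (un : SingSimplex X n → C(Dn n, X)) :=
  (TopCat.toSSetObjEquiv (TopCat.of X) (op ⦋n⦌)).injective

/-- push forward of simplices -/
noncomputable def push (f : C(X, Y)) (s : SingSimplex X n) : SingSimplex Y n :=
  (TopCat.toSSet.map (TopCat.ofHom f)).app (op ⦋n⦌) s

/-- face inclusions -/
noncomputable def face (n : ℕ) (i : Fin (n + 2)) : C(Dn n, Dn (n + 1)) :=
  ⟨stdSimplex.map i.succAbove, stdSimplex.continuous_map _⟩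

theorem push_mk (f : C(X, Y)) (σ : C(Dn n, X)) : push f (mk σ) = mk (f.comp σ) := rfl

theorem un_push (f : C(X, Y)) (s : SingSimplex X n) : un (push f s) = f.comp (un s) := by
  conv_lhs => rw [← mk_un s, push_mk, un_mk]

theorem push_push (f : C(X, Y)) (g : C(Y, Z)) (s : SingSimplex X n) :
    push g (push f s) = push (g.comp f) s := by
  conv_lhs => rw [← mk_un s]
  conv_rhs => rw [← mk_un s]
  rfl

theorem face_mk (i : Fin (n + 2)) (σ : C(Dn (n + 1), X)) :
    simplexFace i (mk σ) = mk (σ.comp (face n i)) := rfl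

theorem face_push (f : C(X, Y)) (i : Fin (n + 2)) (s : SingSimplex X (n + 1)) :
    simplexFace i (push f s) = push f (simplexFace i s) := by
  conv_lhs => rw [← mk_un s]
  conv_rhs => rw [← mk_un s]
  rfl

theorem translate_eq (g : X ≃ₜ X) (s : SingSimplex X n) :
    simplexTranslate g s = push (g : C(X, X)) s := rfl

theorem push_injective {f : C(X, Y)} (hf : Function.Injective f) :
    Function.Injective (push f : SingSimplex X n → SingSimplex Y n) := by
  intro s t h
  apply un_injective
  have h2 := congrArg un h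
  rw [un_push, un_push] at h2
  ext1 x
  exact hf (DFunLike.congr_fun h2 x)

variable {M : Type*} [AddCommGroup M]

/-- pull back of cochains -/
noncomputable def pb (f : C(X, Y)) (φ : SingSimplex Y n → M) : SingSimplex X n → M := fun s => φ (push f s)

theorem cobdry_pb (f : C(X, Y)) (φ : SingSimplex Y n → M) :
    cochainCobdry (pb f φ) = pb f (cochainCobdry φ) := by
  funext s
  unfold cochainCobdry pb
  exact Finset.sum_congr rfl fun i _ => by rw [face_push]

theorem cobdry_zero : cochainCobdry (0 : SingSimplex X n → M) = 0 := by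
  funext s
  simp [cochainCobdry]

theorem pb_zero (f : C(X, Y)) : pb f (0 : SingSimplex Y n → M) = 0 := rfl

theorem cobdry_add (φ ψ : SingSimplex X n → M) :
    cochainCobdry (φ + ψ) = cochainCobdry φ + cochainCobdry ψ := by
  funext s
  simp [cochainCobdry, smul_add, Finset.sum_add_distrib]

theorem cobdry_sub (φ ψ : SingSimplex X n → M) :
    cochainCobdry (φ - ψ) = cochainCobdry φ - cochainCobdry ψ := by
  funext s
  simp [cochainCobdry, smul_sub, Finset.sum_sub_distrib]

end api

/-! ### group actions -/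

section action
variable {G : Type} [Group G] {X Y : Type} [TopologicalSpace X] [TopologicalSpace Y]
  [MulAction G X] [MulAction G Y] [ContinuousConstSMul G X] [ContinuousConstSMul G Y]
  {n : ℕ} {M : Type*} [AddCommGroup M] [DistribMulAction G M]

/-- translation by a group element -/
def sm (X : Type) [TopologicalSpace X] [MulAction G X] [ContinuousConstSMul G X] (g : G) : C(X, X) :=
  ⟨fun x => g • x, continuous_const_smul g⟩

@[simp] theorem sm_apply (g : G) (x : X) : sm X g x = g • x := rfl

/-- equivariant cochains -/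
def Eqv (G : Type) [Group G] {X : Type} [TopologicalSpace X] [MulAction G X]
    [ContinuousConstSMul G X] {n : ℕ} {M : Type*} [AddCommGroup M] [DistribMulAction G M]
    (φ : SingSimplex X n → M) : Prop :=
  ∀ (g : G) (s : SingSimplex X n), φ (push (sm X g) s) = g • φ s

/-- vanishing of `H^(n+1)_G(X; M)` -/
def Van (G : Type) [Group G] (X : Type) [TopologicalSpace X] [MulAction G X]
    [ContinuousConstSMul G X] (M : Type*) [AddCommGroup M] [DistribMulAction G M] (n : ℕ) : Prop :=
  ∀ φ : SingSimplex X (n + 1) → M, Eqv G φ → cochainCobdry φ = 0 →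
    ∃ ψ : SingSimplex X n → M, Eqv G ψ ∧ cochainCobdry ψ = φ

/-- vanishing of `H^(n+1)(F; M)` -/
def Van0 (F : Type) [TopologicalSpace F] (M : Type*) [AddCommGroup M] (n : ℕ) : Prop :=
  ∀ φ : SingSimplex F (n + 1) → M, cochainCobdry φ = 0 →
    ∃ ψ : SingSimplex F n → M, cochainCobdry ψ = φ

theorem Eqv.pb {f : C(X, Y)} (hf : ∀ (g : G) x, f (g • x) = g • f x) {φ : SingSimplex Y n → M}
    (h : Eqv G φ) : Eqv G (pb f φ) := by
  intro g s
  unfold Orb.pb
  rw [push_push, ← h g, push_push]
  congr 2
  ext1 x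
  exact hf g x

theorem Eqv.zero : Eqv G (0 : SingSimplex X n → M) := fun g _ => (smul_zero g).symm

theorem Eqv.add {φ ψ : SingSimplex X n → M} (h : Eqv G φ) (h' : Eqv G ψ) : Eqv G (φ + ψ) := by
  intro g s
  simp only [Pi.add_apply, h g s, h' g s, smul_add]

theorem Eqv.sub {φ ψ : SingSimplex X n → M} (h : Eqv G φ) (h' : Eqv G ψ) : Eqv G (φ - ψ) := by
  intro g s
  simp only [Pi.sub_apply, h g s, h' g s, smul_sub]

theorem Eqv.cobdry {φ : SingSimplex X n → M} (h : Eqv G φ) : Eqv G (cochainCobdry φ) := by
  intro g s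
  unfold cochainCobdry
  rw [Finset.smul_sum]
  refine Finset.sum_congr rfl fun i _ => ?_
  rw [face_push, h g, smul_comm]

end action

/-! ### free orbits -/

section orb
variable (G : Type) [Group G] (F : Type) [TopologicalSpace F]

/-- A `G`-space which is a disjoint union of copies of `F`, permuted freely by `G`, with orbits
indexed by `C`. -/
structure Orbs (C : Type) (T : Type) [TopologicalSpace T] [MulAction G T] where
  e : (Σ _ : G × C, F) ≃ₜ T
  equi : ∀ (g h : G) (c : C) (x : F), e ⟨(g * h, c), x⟩ = g • e ⟨(h, c), x⟩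

variable {G F}
variable {C : Type}
variable {T : Type} [TopologicalSpace T] [MulAction G T] (O : Orbs G F C T)

/-- the copy `(g, c)` of `F` -/
def Orbs.inc (g : G) (c : C) : C(F, T) :=
  ⟨fun x => O.e ⟨(g, c), x⟩, O.e.continuous.comp continuous_sigmaMk⟩

theorem Orbs.inc_apply (g : G) (c : C) (x : F) : O.inc g c x = O.e ⟨(g, c), x⟩ := rfl

theorem Orbs.inc_injective (g : G) (c : C) : Function.Injective (O.inc g c) := by
  intro x y h
  have := O.e.injective h
  simpa using this

instance (n : ℕ) : ConnectedSpace (Dn n) :=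
  Subtype.connectedSpace ((convex_stdSimplex ℝ (Fin (n + 1))).isConnected
    ⟨_, (stdSimplex.vertex (S := ℝ) (0 : Fin (n + 1))).2⟩)

theorem Orbs.exists_inc {n : ℕ} (s : SingSimplex T n) :
    ∃ (g : G) (c : C) (t : SingSimplex F n), s = push (O.inc g c) t := by
  have h1 : Continuous fun x => O.e.symm (un s x) := O.e.symm.continuous.comp (un s).continuous
  obtain ⟨⟨g, c⟩, f, hf, hfe⟩ := h1.exists_lift_sigma
  refine ⟨g, c, Orb.mk ⟨f, hf⟩, ?_⟩
  apply un_injective
  rw [un_push, un_mk]
  ext1 x
  have := congrFun hfe x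
  simp only [Function.comp_apply] at this
  rw [ContinuousMap.comp_apply, Orbs.inc_apply]
  show un s x = O.e ⟨(g, c), f x⟩
  rw [← this]
  exact (O.e.apply_symm_apply _).symm

theorem Orbs.inc_unique {n : ℕ} {g g' : G} {c c' : C} {t t' : SingSimplex F n}
    (h : push (O.inc g c) t = push (O.inc g' c') t') : g = g' ∧ c = c' ∧ t = t' := by
  have h2 := congrArg un h
  rw [un_push, un_push] at h2
  have h3 : ∀ x, (⟨(g, c), un t x⟩ : Σ _ : G × C, F) = ⟨(g', c'), un t' x⟩ :=
    fun x => O.e.injective (DFunLike.congr_fun h2 x)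
  have h4 := h3 (stdSimplex.vertex (0 : Fin (n + 1)))
  have h5 : (g, c) = (g', c') := congrArg Sigma.fst h4
  obtain ⟨rfl, rfl⟩ := Prod.mk.inj h5
  refine ⟨rfl, rfl, un_injective ?_⟩
  ext1 x
  have := h3 x
  simpa using this

/-- the orbit coordinates of a simplex -/
noncomputable def Orbs.cg {n : ℕ} (s : SingSimplex T n) : G := (O.exists_inc s).choose
noncomputable def Orbs.cc {n : ℕ} (s : SingSimplex T n) : C := (O.exists_inc s).choose_spec.choose
noncomputable def Orbs.ct {n : ℕ} (s : SingSimplex T n) : SingSimplex F n :=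
  (O.exists_inc s).choose_spec.choose_spec.choose

theorem Orbs.spec {n : ℕ} (s : SingSimplex T n) : s = push (O.inc (O.cg s) (O.cc s)) (O.ct s) :=
  (O.exists_inc s).choose_spec.choose_spec.choose_spec

theorem Orbs.coord {n : ℕ} (g : G) (c : C) (t : SingSimplex F n) :
    O.cg (push (O.inc g c) t) = g ∧ O.cc (push (O.inc g c) t) = c ∧
      O.ct (push (O.inc g c) t) = t := by
  have h := O.inc_unique (O.spec (push (O.inc g c) t))
  exact ⟨h.1.symm, h.2.1.symm, h.2.2.symm⟩

variable {n : ℕ} {M : Type*} [AddCommGroup M] [DistribMulAction G M]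

/-- extension of a family of cochains on `F` to an equivariant cochain -/
noncomputable def Orbs.ext (ψ : C → SingSimplex F n → M) : SingSimplex T n → M :=
  fun s => O.cg s • ψ (O.cc s) (O.ct s)

/-- restriction of a cochain to the copies `(1, c)` of `F` -/
noncomputable def Orbs.res (φ : SingSimplex T n → M) : C → SingSimplex F n → M :=
  fun c => pb (O.inc 1 c) φ

theorem Orbs.ext_inc (ψ : C → SingSimplex F n → M) (g : G) (c : C) (t : SingSimplex F n) :
    O.ext ψ (push (O.inc g c) t) = g • ψ c t := by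
  obtain ⟨h1, h2, h3⟩ := O.coord g c t
  unfold Orbs.ext
  rw [h1, h2, h3]

theorem Orbs.res_ext (ψ : C → SingSimplex F n → M) : O.res (O.ext ψ) = ψ := by
  funext c t
  show O.ext ψ (push (O.inc 1 c) t) = ψ c t
  rw [O.ext_inc, one_smul]

variable [ContinuousConstSMul G T]

theorem Orbs.push_sm (h g : G) (c : C) (t : SingSimplex F n) :
    push (sm T h) (push (O.inc g c) t) = push (O.inc (h * g) c) t := by
  rw [push_push]
  congr 1
  ext1 x
  exact (O.equi h g c x).symm

theorem Orbs.eqv_ext (ψ : C → SingSimplex F n → M) : Eqv G (O.ext ψ) := by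
  intro h s
  rw [O.spec s, O.push_sm, O.ext_inc, O.ext_inc, mul_smul]

theorem Orbs.ext_res {φ : SingSimplex T n → M} (hφ : Eqv G φ) : O.ext (O.res φ) = φ := by
  funext s
  rw [O.spec s, O.ext_inc]
  show O.cg s • φ (push (O.inc 1 (O.cc s)) (O.ct s)) = _
  rw [← hφ, O.push_sm, mul_one]

theorem Orbs.cobdry_ext (ψ : C → SingSimplex F n → M) :
    cochainCobdry (O.ext ψ) = O.ext fun c => cochainCobdry (ψ c) := by
  funext s
  rw [O.spec s, O.ext_inc]
  unfold cochainCobdry
  rw [Finset.smul_sum]
  refine Finset.sum_congr rfl fun i _ => ?_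
  rw [face_push, O.ext_inc, smul_comm]

theorem Orbs.cobdry_res (φ : SingSimplex T n → M) :
    (fun c => cochainCobdry (O.res φ c)) = O.res (cochainCobdry φ) := by
  funext c
  exact cobdry_pb _ _

include O in
/-- **C4**: if `H^(n+1)(F; M) = 0` then `H^(n+1)_G(T; M) = 0`. -/
theorem Orbs.van (hF : Van0 F M n) : Van G T M n := by
  intro φ hφ h0
  have h1 : ∀ c, ∃ ψ : SingSimplex F n → M, cochainCobdry ψ = O.res φ c := fun c => by
    refine hF _ ?_
    show cochainCobdry (pb (O.inc 1 c) φ) = 0
    rw [cobdry_pb, h0, pb_zero]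
  choose ψ hψ using h1
  refine ⟨O.ext ψ, O.eqv_ext ψ, ?_⟩
  rw [O.cobdry_ext]
  simp only [hψ]
  exact O.ext_res hφ

include O in
/-- two equivariant cochains agree when their restrictions agree -/
theorem Orbs.eqv_ext_iff {φ φ' : SingSimplex T n → M} (hφ : Eqv G φ) (hφ' : Eqv G φ')
    (h : ∀ c t, φ (push (O.inc 1 c) t) = φ' (push (O.inc 1 c) t)) : φ = φ' := by
  rw [← O.ext_res hφ, ← O.ext_res hφ']
  congr 1
  funext c t
  exact h c t

end orb

end Crest.Agent.R251.Orb
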