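import Crest.Agent.R251.PB509
import Crest.Agent.R251.Pr963b
import Crest.Agent.R251.Fin711

/-!
# R251, block PB, part P3 (helper509): vanishing of equivariant cohomology passes to the
pull-back cover

Uses the homotopy invariance `HV.of_retract` of helper963 (Pr963b).
-/

set_option autoImplicit false

namespace Crest.Agent.R251.PBC

open Crest.GeometryTopology.DeckCochains Function Crest.Agent.R251.PB

open unitInterval in
/-- (P3) vanishing in degree `n + 1` passes from `E` to the pull-back cover. -/
theorem HV_pbk {G : Type} [Group G] {E X Y : Type} [TopologicalSpace E]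
    [TopologicalSpace X] [TopologicalSpace Y] [MulAction G E] [ContinuousConstSMul G E]
    {p : E → X} (hp : IsQuotientCoveringMap p G) (h : C(Y, X)) (k : C(X, Y))
    (R : ContinuousMap.Homotopy (ContinuousMap.id X) (h.comp k))
    (L : ContinuousMap.Homotopy (k.comp h) (ContinuousMap.id Y))
    {M : Type*} [AddCommGroup M] [DistribMulAction G M] {n : ℕ}
    (hE : Pr.HV G E n M) : Pr.HV G (PBk hp h) n M := by
  let Ti : C(PBk hp h, PBk hp h) := ((PBk.Th hp h k R L).symm : C(PBk hp h, PBk hp h))
  let H : C(PBk hp h × I, PBk hp h) :=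
    Ti.comp ((PBk.HT hp h k R L).comp ⟨Prod.swap, continuous_swap⟩)
  refine Pr.HV.of_retract hE (PBk.F hp h) (Ti.comp (PBk.K hp h k R))
    (fun g z => PBk.F_smul g z) ?_ H ?_ (Or.inr ⟨?_, ?_⟩)
  · intro g e
    change (PBk.Th hp h k R L).symm (PBk.K hp h k R (g • e)) =
      g • (PBk.Th hp h k R L).symm (PBk.K hp h k R e)
    rw [PBk.K_smul, PBk.Th_symm_smul]
  · intro g z t
    change (PBk.Th hp h k R L).symm (PBk.HT hp h k R L (t, g • z)) =
      g • (PBk.Th hp h k R L).symm (PBk.HT hp h k R L (t, z))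
    rw [PBk.HT_smul, PBk.Th_symm_smul]
  · ext1 z
    exact (PBk.Th hp h k R L).symm_apply_apply z
  · ext1 z
    change (PBk.Th hp h k R L).symm (PBk.HT hp h k R L (0, z)) =
      (PBk.Th hp h k R L).symm (PBk.K hp h k R (PBk.F hp h z))
    rw [PBk.HT_zero]

/-- 711's `Cov` gives Mathlib's `IsQuotientCoveringMap`. -/
theorem isQuotientCoveringMap_of_cov {G E X : Type} [Group G] [TopologicalSpace E]
    [TopologicalSpace X] [MulAction G E] [ContinuousConstSMul G E] {p : E → X}
    (hc : Fin.Cov G E p) : IsQuotientCoveringMap p G := by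
  rw [isQuotientCoveringMap_iff_isCoveringMap_and]
  refine ⟨hc.cov, hc.surj, inferInstance, ?_, ?_⟩
  · refine ⟨fun g g' e he => ?_⟩
    have h1 : (g'⁻¹ * g) • e = e := by rw [mul_smul, he, inv_smul_smul]
    have h2 := hc.free _ _ h1
    exact (inv_mul_eq_one.mp h2).symm
  · intro e e'
    constructor
    · intro h
      obtain ⟨g, hg⟩ := hc.fib e' e h.symm
      exact ⟨g, hg⟩
    · rintro ⟨g, rfl⟩
      exact hc.inv g e'

/-- The pull-back cover in 711's `Cov` form. -/
theorem cov_pbk {G E X Y : Type} [Group G] [TopologicalSpace E] [TopologicalSpace X]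
    [TopologicalSpace Y] [MulAction G E] [ContinuousConstSMul G E] {p : E → X}
    (hp : IsQuotientCoveringMap p G) [SimplyConnectedSpace E] (h : C(Y, X)) (k : C(X, Y))
    (R : ContinuousMap.Homotopy (ContinuousMap.id X) (h.comp k))
    (L : ContinuousMap.Homotopy (k.comp h) (ContinuousMap.id Y)) :
    Fin.Cov G (PBk hp h) (PBk.q hp h) where
  cov := PBk.isCoveringMap_q
  surj := PBk.q_surjective
  sc := PBk.simplyConnectedSpace hp h k R L
  inv g z := rfl
  fib z z' hzz := by
    obtain ⟨g, hg⟩ := (PBk.isQuotientCoveringMap_q (hp := hp) (h := h)).apply_eq_iff_mem_orbit.mp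
      hzz.symm
    exact ⟨g, hg⟩
  free g z hg := by
    have hc := (PBk.isQuotientCoveringMap_q (hp := hp) (h := h)).isCancelSMul
    exact IsCancelSMul.right_cancel g 1 z (by rw [hg, one_smul])

/-- Everything the `Y`-side needs, from a homotopy equivalence `X ≃ₕ Y`: a `G`-cover of `Y`,
simply connected, with the same vanishing. -/
theorem exists_cover {G E X Y : Type} [Group G] [TopologicalSpace E] [TopologicalSpace X]
    [TopologicalSpace Y] [MulAction G E] [ContinuousConstSMul G E] {p : E → X}
    (hc : Fin.Cov G E p) (e : ContinuousMap.HomotopyEquiv X Y) :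
    ∃ (Z : Type) (_ : TopologicalSpace Z) (_ : MulAction G Z) (_ : ContinuousConstSMul G Z)
      (q : Z → Y), Fin.Cov G Z q ∧
      ∀ (M : Type) [AddCommGroup M] [DistribMulAction G M] (n : ℕ),
        Pr.HV G E n M → Pr.HV G Z n M := by
  have hp := isQuotientCoveringMap_of_cov hc
  have := hc.sc
  obtain ⟨R'⟩ := e.left_inv
  obtain ⟨L⟩ := e.right_inv
  have R := R'.symm
  -- `h = e.invFun : Y → X`, `k = e.toFun : X → Y`
  refine ⟨PBk hp e.invFun, inferInstance, inferInstance, inferInstance, PBk.q hp e.invFun,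
    cov_pbk hp e.invFun e.toFun R L, ?_⟩
  intro M _ _ n hE
  exact HV_pbk hp e.invFun e.toFun R L hE

/-- 711's `Fin.HV` and 963's `Pr.HV` are the same thing. -/
theorem fin_HV_iff {G E M : Type} [Group G] [TopologicalSpace E] [MulAction G E]
    [ContinuousConstSMul G E] [AddCommGroup M] [DistribMulAction G M] {n : ℕ} :
    Fin.HV G E M n ↔ Pr.HV G E n M := Iff.rfl

end Crest.Agent.R251.PBC
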