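import Crest.Agent.R251.PC752

/-!
Row 251, block PC, part 2: the value of a 2-cocycle on a square whose interior contains one
singular point (the centre) is the value on a small inner square.
-/

set_option autoImplicit false

open CategoryTheory Simplicial Opposite
open Crest.GeometryTopology.DeckCochains
open Crest.Agent.R251.Pr (Dl sx us face sx_surj face_sx us_sx sx_us push pull)
open scoped unitInterval

namespace Crest.Agent.R251.PC

noncomputable section

/-- combinatorial form: `β` additive on the eight trapezoid triangles -/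
theorem trapezoids {Z M : Type*} [AddCommGroup M] (β : Z → Z → M) (P0 P1 P2 P3 p0 p1 p2 p3 : Z)
    (b1 : β P0 p1 = β P0 P1 + β P1 p1) (b2 : β P0 p1 = β P0 p0 + β p0 p1)
    (r1 : β P1 p2 = β P1 P2 + β P2 p2) (r2 : β P1 p2 = β P1 p1 + β p1 p2)
    (t1 : β P3 p2 = β P3 P2 + β P2 p2) (t2 : β P3 p2 = β P3 p3 + β p3 p2)
    (l1 : β P0 p3 = β P0 P3 + β P3 p3) (l2 : β P0 p3 = β P0 p0 + β p0 p3) :
    β P0 P1 + β P1 P2 - β P3 P2 - β P0 P3 = β p0 p1 + β p1 p2 - β p3 p2 - β p0 p3 := by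
  have e1 : β P0 P1 = β P0 p0 + β p0 p1 - β P1 p1 := by rw [← b2, b1]; abel
  have e2 : β P1 P2 = β P1 p1 + β p1 p2 - β P2 p2 := by rw [← r2, r1]; abel
  have e3 : β P3 P2 = β P3 p3 + β p3 p2 - β P2 p2 := by rw [← t2, t1]; abel
  have e4 : β P0 P3 = β P0 p0 + β p0 p3 - β P3 p3 := by rw [← l2, l1]; abel
  rw [e1, e2, e3, e4]
  abel

theorem aff_lt {n : ℕ} (a : Fin (n + 1) → I) (r : ℝ) (h : ∀ i, (a i : ℝ) < r) (s : Dl n) :
    (aff a s : ℝ) < r := by
  rw [affI_apply]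
  have h1 : ∑ i, s i = 1 := s.2.2
  have h2 : ∃ i, s i ≠ 0 := by
    by_contra hc
    push Not at hc
    rw [Finset.sum_eq_zero fun i _ => hc i] at h1
    exact zero_ne_one h1
  obtain ⟨i₀, hi₀⟩ := h2
  calc ∑ i, s i * (a i : ℝ) < ∑ i, s i * r := by
        refine Finset.sum_lt_sum (fun i _ => mul_le_mul_of_nonneg_left (h i).le (s.2.1 i))
          ⟨i₀, Finset.mem_univ _, mul_lt_mul_of_pos_left (h i₀) (lt_of_le_of_ne (s.2.1 i₀) hi₀.symm)⟩
    _ = r := by rw [← Finset.sum_mul, h1, one_mul]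

theorem lt_aff {n : ℕ} (a : Fin (n + 1) → I) (r : ℝ) (h : ∀ i, r < (a i : ℝ)) (s : Dl n) :
    r < (aff a s : ℝ) := by
  rw [affI_apply]
  have h1 : ∑ i, s i = 1 := s.2.2
  have h2 : ∃ i, s i ≠ 0 := by
    by_contra hc
    push Not at hc
    rw [Finset.sum_eq_zero fun i _ => hc i] at h1
    exact zero_ne_one h1
  obtain ⟨i₀, hi₀⟩ := h2
  calc r = ∑ i, s i * r := by rw [← Finset.sum_mul, h1, one_mul]
    _ < ∑ i, s i * (a i : ℝ) := by
        refine Finset.sum_lt_sum (fun i _ => mul_le_mul_of_nonneg_left (h i).le (s.2.1 i))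
          ⟨i₀, Finset.mem_univ _, mul_lt_mul_of_pos_left (h i₀) (lt_of_le_of_ne (s.2.1 i₀) hi₀.symm)⟩

/-- an affine triangle misses the centre if one coordinate is on one side -/
theorem aff_ne_mid (a : Fin 3 → I × I)
    (h : (∀ i, ((a i).1 : ℝ) < 1 / 2) ∨ (∀ i, 1 / 2 < ((a i).1 : ℝ)) ∨
      (∀ i, ((a i).2 : ℝ) < 1 / 2) ∨ (∀ i, 1 / 2 < ((a i).2 : ℝ))) (s : Dl 2) :
    aff a s ≠ ((half, half) : I × I) := by
  intro he
  have h1 : ((aff (fun i => (a i).1) s : I) : ℝ) = 1 / 2 := congrArg (fun z : I × I => (z.1 : ℝ)) he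
  have h2 : ((aff (fun i => (a i).2) s : I) : ℝ) = 1 / 2 := congrArg (fun z : I × I => (z.2 : ℝ)) he
  rcases h with h | h | h | h
  · exact (aff_lt _ _ h s).ne h1
  · exact (lt_aff _ _ h s).ne' h1
  · exact (aff_lt _ _ h s).ne h2
  · exact (lt_aff _ _ h s).ne' h2

variable {E : Type} [TopologicalSpace E] {M : Type*} [AddCommGroup M]

/-- **THE VALUE ON A SQUARE = THE VALUE ON AN INNER SQUARE** -/
theorem ar_inner {u : SingSimplex E 2 → M} (hu : cochainCobdry u = 0) (f : C(I × I, E))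
    {U : Set E} (hU : ∀ τ : C(Dl 2, E), (∀ s, τ s ∈ U) → u (sx τ) = 0)
    (hf : ∀ z : I × I, z ≠ (half, half) → f z ∈ U) (c d : I) (hc : (c : ℝ) < 1 / 2)
    (hd : 1 / 2 < (d : ℝ)) :
    u (lin f ![((0 : I), (0 : I)), (1, 0), (1, 1)]) - u (lin f ![((0 : I), (0 : I)), (0, 1), (1, 1)]) =
      u (lin f ![(c, c), (d, c), (d, d)]) - u (lin f ![(c, c), (c, d), (d, d)]) := by
  set o : I × I := (half, half) with ho
  let β : I × I → I × I → M := fun p q => u (lin f ![o, p, q])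
  have hβ : ∀ a b c : I × I, u (lin f ![a, b, c]) = β b c - β a c + β a b := by
    intro a b c
    have h := cocycle_tet hu f o a b c
    have h2 : u (lin f ![a, b, c]) = (u (lin f ![a, b, c]) - u (lin f ![o, b, c]) +
      u (lin f ![o, a, c]) - u (lin f ![o, a, b])) + (β b c - β a c + β a b) := by
      simp only [β]
      abel
    rw [h2, h, zero_add]
  have hz : ∀ a b c : I × I, ((∀ i, ((![a, b, c] i).1 : ℝ) < 1 / 2) ∨
      (∀ i, 1 / 2 < ((![a, b, c] i).1 : ℝ)) ∨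
      (∀ i, ((![a, b, c] i).2 : ℝ) < 1 / 2) ∨ (∀ i, 1 / 2 < ((![a, b, c] i).2 : ℝ))) →
      β a c = β a b + β b c := by
    intro a b c h
    have h1 : u (lin f ![a, b, c]) = 0 := hU _ fun s => hf _ (aff_ne_mid _ h s)
    rw [hβ] at h1
    have h2 : β a c = β a b + β b c - (β b c - β a c + β a b) := by abel
    rw [h2, h1, sub_zero]
  have h0 : ((0 : I) : ℝ) < 1 / 2 := by norm_num
  have h1 : 1 / 2 < ((1 : I) : ℝ) := by norm_num
  have key := trapezoids β (0, 0) (1, 0) (1, 1) (0, 1) (c, c) (d, c) (d, d) (c, d)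
    (hz _ _ _ (Or.inr (Or.inr (Or.inl fun i => by fin_cases i <;> assumption))))
    (hz _ _ _ (Or.inr (Or.inr (Or.inl fun i => by fin_cases i <;> assumption))))
    (hz _ _ _ (Or.inr (Or.inl fun i => by fin_cases i <;> assumption)))
    (hz _ _ _ (Or.inr (Or.inl fun i => by fin_cases i <;> assumption)))
    (hz _ _ _ (Or.inr (Or.inr (Or.inr fun i => by fin_cases i <;> assumption))))
    (hz _ _ _ (Or.inr (Or.inr (Or.inr fun i => by fin_cases i <;> assumption))))
    (hz _ _ _ (Or.inl fun i => by fin_cases i <;> assumption))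
    (hz _ _ _ (Or.inl fun i => by fin_cases i <;> assumption))
  rw [hβ (0, 0), hβ (0, 0), hβ (c, c), hβ (c, c)]
  calc β (1, 0) (1, 1) - β (0, 0) (1, 1) + β (0, 0) (1, 0) -
        (β (0, 1) (1, 1) - β (0, 0) (1, 1) + β (0, 0) (0, 1)) =
      β (0, 0) (1, 0) + β (1, 0) (1, 1) - β (0, 1) (1, 1) - β (0, 0) (0, 1) := by abel
    _ = _ := by
      rw [key]
      abel

end

end Crest.Agent.R251.PC
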