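import Crest.Agent.R251.PC752b
import Crest.Agent.R197.CW2Defs

/-!
Row 251, block PC, part 3: the value of a closed 1-cochain on the boundary curve `bdSq` of the
square.
-/

set_option autoImplicit false

open CategoryTheory Simplicial Opposite
open Crest.GeometryTopology.DeckCochains
open Crest.Agent.R251.Pr (Dl sx us face sx_surj face_sx us_sx sx_us push pull)
open Crest.Agent.R197
open scoped unitInterval

namespace Crest.Agent.R251.PC

noncomputable section

variable {E : Type} [TopologicalSpace E] {M : Type*} [AddCommGroup M]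

/-- the vertical sides as paths -/
def vertP (f : C(I × I, E)) (s : I) : Path (f (s, 0)) (f (s, 1)) :=
  ⟨vert f s, rfl, rfl⟩

/-- the horizontal sides as paths -/
def horzP (f : C(I × I, E)) (t : I) : Path (f (0, t)) (f (1, t)) :=
  ⟨horz f t, rfl, rfl⟩

/-- **value on the boundary curve** -/
theorem bd_value {ψ : SingSimplex E 1 → M} {U : Set E} (hψ : ClosedOn ψ U) (f : C(I × I, E))
    (hf : ∀ z : I × I, z ∉ Sint → f z ∈ U) :
    ψ (ps (TwoCx.bdSq.map f.continuous : C(I, E))) =
      cochainCobdry ψ (lin f ![((0 : I), (0 : I)), (1, 0), (1, 1)]) -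
      cochainCobdry ψ (lin f ![((0 : I), (0 : I)), (0, 1), (1, 1)]) := by
  have hv : ∀ s : I, s = 0 ∨ s = 1 → ∀ t : I, f (s, t) ∈ U := by
    intro s hs t
    apply hf
    intro h
    have h1 := h.1
    rcases hs with rfl | rfl
    · exact lt_irrefl _ h1.1
    · exact lt_irrefl _ h1.2
  have hh : ∀ t : I, t = 0 ∨ t = 1 → ∀ s : I, f (s, t) ∈ U := by
    intro t ht s
    apply hf
    intro h
    have h1 := h.2
    rcases ht with rfl | rfl
    · exact lt_irrefl _ h1.1
    · exact lt_irrefl _ h1.2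
  have e : TwoCx.bdSq.map f.continuous =
      (((horzP f 0).trans (vertP f 1)).trans (horzP f 1).symm).trans (vertP f 0).symm := by
    unfold TwoCx.bdSq
    rw [Path.map_trans, Path.map_trans, Path.map_trans]
    rfl
  have h1 : ∀ t, horzP f 0 t ∈ U := fun t => hh 0 (Or.inl rfl) t
  have h2 : ∀ t, vertP f 1 t ∈ U := fun t => hv 1 (Or.inr rfl) t
  have h3 : ∀ t, horzP f 1 t ∈ U := fun t => hh 1 (Or.inr rfl) t
  have h4 : ∀ t, vertP f 0 t ∈ U := fun t => hv 0 (Or.inl rfl) t
  have h12 : ∀ t, ((horzP f 0).trans (vertP f 1)) t ∈ U := by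
    intro t
    rw [Path.trans_apply]
    split_ifs
    · exact h1 _
    · exact h2 _
  have h123 : ∀ t, (((horzP f 0).trans (vertP f 1)).trans (horzP f 1).symm) t ∈ U := by
    intro t
    rw [Path.trans_apply]
    split_ifs
    · exact h12 _
    · exact h3 _
  rw [e, hψ.trans _ _ h123 (fun t => h4 _), hψ.trans _ _ h12 (fun t => h3 _), hψ.trans _ _ h1 h2,
    hψ.symm _ h3, hψ.symm _ h4]
  have h5 := stokes ψ f
  have h6 : cochainCobdry ψ (lin f ![((0 : I), (0 : I)), (1, 0), (1, 1)]) -
      cochainCobdry ψ (lin f ![((0 : I), (0 : I)), (0, 1), (1, 1)]) =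
      -(cochainCobdry ψ (lin f ![((0 : I), (0 : I)), (0, 1), (1, 1)]) -
        cochainCobdry ψ (lin f ![((0 : I), (0 : I)), (1, 0), (1, 1)])) := by abel
  rw [h6, h5]
  have e1 : ((horzP f 0 : Path _ _) : C(I, E)) = horz f 0 := rfl
  have e2 : ((vertP f 1 : Path _ _) : C(I, E)) = vert f 1 := rfl
  have e3 : ((horzP f 1 : Path _ _) : C(I, E)) = horz f 1 := rfl
  have e4 : ((vertP f 0 : Path _ _) : C(I, E)) = vert f 0 := rfl
  rw [e1, e2, e3, e4]
  abel

end

end Crest.Agent.R251.PC
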