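import Mathlib
import Crest.Prelude.Def_DeckCochains

/-! # R251: the prism operator on singular cochains with arbitrary coefficients (helper963)

Raw functions on `SingSimplex` (of `Def_DeckCochains`), any abelian group of coefficients.
The geometry of the prism simplices is taken from `R224/T/Prism.lean` (helper543). -/

set_option autoImplicit false
set_option linter.unusedSectionVars false
set_option linter.unusedSimpArgs false

open CategoryTheory Simplicial Opposite Set Topology
open Crest.GeometryTopology.DeckCochains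

namespace Crest.Agent.R251.Pr

noncomputable section

/-- standard simplex -/
abbrev Dl (n : ℕ) : Type := stdSimplex ℝ (Fin (n + 1))

/-- the i-th face inclusion -/
def face (n : ℕ) (i : Fin (n + 2)) : C(Dl n, Dl (n + 1)) :=
  ⟨stdSimplex.map i.succAbove, stdSimplex.continuous_map _⟩

variable {E E' E'' : Type} [TopologicalSpace E] [TopologicalSpace E'] [TopologicalSpace E'']

/-- the singular simplex of a continuous map -/
def sx {n : ℕ} (σ : C(Dl n, E)) : SingSimplex E n :=
  (TopCat.toSSetObjEquiv (TopCat.of E) (op ⦋n⦌)).symm σ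

/-- the continuous map of a singular simplex -/
def us {n : ℕ} (s : SingSimplex E n) : C(Dl n, E) :=
  TopCat.toSSetObjEquiv (TopCat.of E) (op ⦋n⦌) s

@[simp] theorem us_sx {n : ℕ} (σ : C(Dl n, E)) : us (sx σ) = σ := Equiv.apply_symm_apply _ _
@[simp] theorem sx_us {n : ℕ} (s : SingSimplex E n) : sx (us s) = s := Equiv.symm_apply_apply _ _

theorem sx_surj {n : ℕ} (s : SingSimplex E n) : ∃ σ : C(Dl n, E), sx σ = s := ⟨us s, sx_us s⟩

theorem face_sx {n : ℕ} (σ : C(Dl (n + 1), E)) (i : Fin (n + 2)) :
    simplexFace i (sx σ) = sx (σ.comp (face n i)) := rfl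

theorem us_face {n : ℕ} (s : SingSimplex E (n + 1)) (i : Fin (n + 2)) :
    us (simplexFace i s) = (us s).comp (face n i) := by
  conv_lhs => rw [← sx_us s]
  rw [face_sx, us_sx]

/-- push forward of singular simplices -/
def push (f : C(E, E')) {n : ℕ} (s : SingSimplex E n) : SingSimplex E' n :=
  (TopCat.toSSet.map (TopCat.ofHom f)).app (op ⦋n⦌) s

theorem push_sx (f : C(E, E')) {n : ℕ} (σ : C(Dl n, E)) : push f (sx σ) = sx (f.comp σ) := rfl

theorem us_push (f : C(E, E')) {n : ℕ} (s : SingSimplex E n) : us (push f s) = f.comp (us s) := by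
  conv_lhs => rw [← sx_us s]
  rw [push_sx, us_sx]

theorem simplexTranslate_eq (g : E ≃ₜ E) {n : ℕ} (s : SingSimplex E n) :
    simplexTranslate g s = push (g : C(E, E)) s := rfl

theorem push_face (f : C(E, E')) {n : ℕ} (s : SingSimplex E (n + 1)) (i : Fin (n + 2)) :
    push f (simplexFace i s) = simplexFace i (push f s) := by
  rw [← sx_us s]; rfl

theorem push_push (f : C(E, E')) (g : C(E', E'')) {n : ℕ} (s : SingSimplex E n) :
    push g (push f s) = push (g.comp f) s := by
  rw [← sx_us s]; rfl

theorem push_id {n : ℕ} (s : SingSimplex E n) : push (ContinuousMap.id E) s = s := by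
  rw [← sx_us s]; rfl

variable {M : Type*} [AddCommGroup M]

/-- pull back of cochains -/
def pull (f : C(E, E')) {n : ℕ} (φ : SingSimplex E' n → M) : SingSimplex E n → M :=
  fun s => φ (push f s)

theorem pull_apply (f : C(E, E')) {n : ℕ} (φ : SingSimplex E' n → M) (s : SingSimplex E n) :
    pull f φ s = φ (push f s) := rfl

theorem pull_pull (f : C(E, E')) (g : C(E', E'')) {n : ℕ} (φ : SingSimplex E'' n → M) :
    pull f (pull g φ) = pull (g.comp f) φ := by
  funext s; simp only [pull, push_push]

theorem pull_id {n : ℕ} (φ : SingSimplex E n → M) : pull (ContinuousMap.id E) φ = φ := by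
  funext s; simp only [pull, push_id]

theorem cobdry_apply {n : ℕ} (φ : SingSimplex E n → M) (s : SingSimplex E (n + 1)) :
    cochainCobdry φ s = ∑ i : Fin (n + 2), ((-1 : ℤ) ^ (i : ℕ)) • φ (simplexFace i s) := rfl

theorem cobdry_pull (f : C(E, E')) {n : ℕ} (φ : SingSimplex E' n → M) :
    cochainCobdry (pull f φ) = pull f (cochainCobdry φ) := by
  funext s
  simp only [cobdry_apply, pull, push_face]

theorem cobdry_add {n : ℕ} (φ ψ : SingSimplex E n → M) :
    cochainCobdry (φ + ψ) = cochainCobdry φ + cochainCobdry ψ := by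
  funext s
  simp only [cobdry_apply, Pi.add_apply, smul_add, Finset.sum_add_distrib]

theorem cobdry_neg {n : ℕ} (φ : SingSimplex E n → M) :
    cochainCobdry (-φ) = - cochainCobdry φ := by
  funext s
  simp only [cobdry_apply, Pi.neg_apply, smul_neg, Finset.sum_neg_distrib]

theorem cobdry_sub {n : ℕ} (φ ψ : SingSimplex E n → M) :
    cochainCobdry (φ - ψ) = cochainCobdry φ - cochainCobdry ψ := by
  rw [sub_eq_add_neg, cobdry_add, cobdry_neg, sub_eq_add_neg]

theorem cobdry_zero {n : ℕ} : cochainCobdry (0 : SingSimplex E n → M) = 0 := by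
  funext s
  simp [cobdry_apply]

/-! ### combinatorics of the prism -/

/-- abstract prism identity, signs absorbed in `a`, `b` -/
theorem prism_sum {M : Type*} [AddCommGroup M] (n : ℕ)
    (a : Fin (n + 2) → Fin (n + 3) → M) (b : Fin (n + 1) → Fin (n + 2) → M) (e : Fin (n + 3) → M)
    (h1 : ∀ i j, j ≤ Fin.castSucc i → a i.succ j.castSucc = - b i j)
    (h2 : ∀ i j, Fin.castSucc i < j → a i.castSucc j.succ = - b i j)
    (h3 : ∀ i, a i i.castSucc = e i.castSucc) (h4 : ∀ i, a i i.succ = - e i.succ) :
    ∑ i, ∑ j, a i j = e 0 - e (Fin.last _) - ∑ i, ∑ j, b i j := by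
  classical
  have hsplit : ∀ i : Fin (n + 2), ∑ j, a i j = (∑ j, if j < i.castSucc then a i j else 0) +
      (e i.castSucc - e i.succ) + ∑ j, if i.succ < j then a i j else 0 := by
    intro i
    have h5 : e i.castSucc = ∑ j, if j = i.castSucc then a i j else 0 := by
      rw [Finset.sum_ite_eq' Finset.univ i.castSucc]; simp [h3]
    have h6 : - e i.succ = ∑ j, if j = i.succ then a i j else 0 := by
      rw [Finset.sum_ite_eq' Finset.univ i.succ]; simp [h4]
    rw [sub_eq_add_neg, h5, h6, ← Finset.sum_add_distrib, ← Finset.sum_add_distrib,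
      ← Finset.sum_add_distrib]
    refine Finset.sum_congr rfl fun j _ => ?_
    rcases lt_trichotomy j i.castSucc with h | h | h
    · have h7 : j ≠ i.castSucc := h.ne
      have h8 : j ≠ i.succ := (h.trans (Fin.castSucc_lt_succ)).ne
      have h9 : ¬ i.succ < j := not_lt.2 (h.trans (Fin.castSucc_lt_succ)).le
      simp [h, h7, h8, h9]
    · have h7 : ¬ j < i.castSucc := h.not_lt
      have h8 : j ≠ i.succ := by rw [h]; exact (Fin.castSucc_lt_succ).ne
      have h9 : ¬ i.succ < j := by rw [h]; exact not_lt.2 (Fin.castSucc_lt_succ).le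
      rw [if_neg h7, if_pos h, if_neg h8, if_neg h9]
      simp
    · have h7 : ¬ j < i.castSucc := not_lt.2 h.le
      have h8 : j ≠ i.castSucc := h.ne'
      rcases eq_or_lt_of_le (Fin.castSucc_lt_iff_succ_le.1 h) with h9 | h9
      · rw [if_neg h7, if_neg h8, if_pos h9.symm, if_neg (by rw [h9]; exact lt_irrefl _)]
        simp
      · rw [if_neg h7, if_neg h8, if_neg h9.ne', if_pos h9]
        simp
  rw [Finset.sum_congr rfl fun i _ => hsplit i, Finset.sum_add_distrib, Finset.sum_add_distrib]
  have hA : (∑ i : Fin (n + 2), ∑ j : Fin (n + 3), if j < i.castSucc then a i j else 0) =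
      - ∑ i : Fin (n + 1), ∑ j : Fin (n + 2), if j ≤ i.castSucc then b i j else 0 := by
    rw [Fin.sum_univ_succ]
    have h0 : (∑ j : Fin (n + 3), if j < (0 : Fin (n + 2)).castSucc then a 0 j else 0) = 0 := by
      refine Finset.sum_eq_zero fun j _ => ?_
      rw [if_neg]
      simp
    rw [h0, zero_add, ← Finset.sum_neg_distrib]
    refine Finset.sum_congr rfl fun i _ => ?_
    rw [Fin.sum_univ_castSucc]
    have h0 : ¬ (Fin.last (n + 2) < i.succ.castSucc) := not_lt.2 (Fin.le_last _)
    rw [if_neg h0, add_zero, ← Finset.sum_neg_distrib]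
    refine Finset.sum_congr rfl fun j _ => ?_
    by_cases h : j ≤ i.castSucc
    · have h' : j.castSucc < i.succ.castSucc := by
        rw [Fin.le_def] at h; rw [Fin.lt_def]; simp at *; omega
      rw [if_pos h, if_pos h', h1 i j h]
    · have h' : ¬ j.castSucc < i.succ.castSucc := by
        rw [Fin.le_def] at h; rw [Fin.lt_def]; simp at *; omega
      rw [if_neg h, if_neg h', neg_zero]
  have hB : (∑ i : Fin (n + 2), ∑ j : Fin (n + 3), if i.succ < j then a i j else 0) =
      - ∑ i : Fin (n + 1), ∑ j : Fin (n + 2), if i.castSucc < j then b i j else 0 := by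
    rw [Fin.sum_univ_castSucc]
    have h0 : (∑ j : Fin (n + 3), if (Fin.last (n + 1)).succ < j then a (Fin.last _) j else 0) =
        0 := by
      refine Finset.sum_eq_zero fun j _ => ?_
      rw [if_neg]
      exact not_lt.2 (Fin.le_last _)
    rw [h0, add_zero, ← Finset.sum_neg_distrib]
    refine Finset.sum_congr rfl fun i _ => ?_
    rw [Fin.sum_univ_succ]
    have h0 : ¬ ((i.castSucc).succ < (0 : Fin (n + 3))) := not_lt.2 (Fin.zero_le _)
    rw [if_neg h0, zero_add, ← Finset.sum_neg_distrib]
    refine Finset.sum_congr rfl fun j _ => ?_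
    by_cases h : i.castSucc < j
    · have h' : (i.castSucc).succ < j.succ := Fin.succ_lt_succ_iff.2 h
      rw [if_pos h, if_pos h', h2 i j h]
    · have h' : ¬ (i.castSucc).succ < j.succ := fun h'' => h (Fin.succ_lt_succ_iff.1 h'')
      rw [if_neg h, if_neg h', neg_zero]
  rw [hA, hB]
  have hC : (∑ i : Fin (n + 1), ∑ j : Fin (n + 2), if j ≤ i.castSucc then b i j else 0) +
      (∑ i : Fin (n + 1), ∑ j : Fin (n + 2), if i.castSucc < j then b i j else 0) =
      ∑ i, ∑ j, b i j := by
    rw [← Finset.sum_add_distrib]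
    refine Finset.sum_congr rfl fun i _ => ?_
    rw [← Finset.sum_add_distrib]
    refine Finset.sum_congr rfl fun j _ => ?_
    by_cases h : j ≤ i.castSucc
    · simp [h, not_lt.2 h]
    · simp [h, not_le.1 h]
  have hE : (∑ i : Fin (n + 2), (e i.castSucc - e i.succ)) = e 0 - e (Fin.last _) := by
    rw [Finset.sum_sub_distrib]
    have e1 := Fin.sum_univ_castSucc e
    have e2 := Fin.sum_univ_succ e
    rw [e1] at e2
    rw [sub_eq_sub_iff_add_eq_add]
    rw [← e2]
  rw [hE, ← hC]
  abel

/-! ### the prism simplices -/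

/-- mass of a point of the simplex on the set `T` of vertices -/
def mass {m : ℕ} (T : Fin (m + 1) → Prop) [DecidablePred T] (x : Dl m) : unitInterval :=
  ⟨∑ k, if T k then x k else 0, Finset.sum_nonneg fun k _ => by
      split_ifs
      · exact stdSimplex.zero_le x k
      · exact le_rfl, by
    calc (∑ k, if T k then x k else 0) ≤ ∑ k, x k := Finset.sum_le_sum fun k _ => by
          split_ifs
          · exact le_rfl
          · exact stdSimplex.zero_le x k
      _ = 1 := stdSimplex.sum_eq_one x⟩

theorem continuous_coord {m : ℕ} (k : Fin (m + 1)) : Continuous fun x : Dl m => x k :=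
  (continuous_apply k).comp continuous_subtype_val

theorem continuous_mass {m : ℕ} (T : Fin (m + 1) → Prop) [DecidablePred T] :
    Continuous (mass T) := by
  refine Continuous.subtype_mk (continuous_finsetSum _ fun k _ => ?_) _
  split_ifs
  · exact continuous_coord k
  · exact continuous_const

theorem map_apply {m k : ℕ} (f : Fin (m + 1) → Fin (k + 1)) (x : Dl m) (j : Fin (k + 1)) :
    stdSimplex.map f x j = ∑ l, if f l = j then x l else 0 := by
  rw [stdSimplex.map_coe, FunOnFinite.linearMap_apply_apply, Finset.sum_filter]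

theorem mass_map {m k : ℕ} (f : Fin (m + 1) → Fin (k + 1)) (T : Fin (k + 1) → Prop)
    [DecidablePred T] (x : Dl m) :
    mass T (stdSimplex.map f x) = mass (fun l => T (f l)) x := by
  apply Subtype.ext
  simp only [mass]
  have h : ∀ j : Fin (k + 1), (if T j then (stdSimplex.map f x) j else 0) =
      ∑ l, if f l = j then (if T (f l) then x l else 0) else 0 := by
    intro j
    rw [map_apply]
    split_ifs with hT
    · refine Finset.sum_congr rfl fun l _ => ?_
      split_ifs with h1 h2
      · rfl
      · exact absurd (h1 ▸ hT) h2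
      · rfl
    · symm
      refine Finset.sum_eq_zero fun l _ => ?_
      split_ifs with h1 h2
      · exact absurd (h1 ▸ h2) hT
      · rfl
      · rfl
  rw [Finset.sum_congr rfl fun j _ => h j, Finset.sum_comm]
  refine Finset.sum_congr rfl fun l _ => ?_
  simp

theorem mass_congr {m : ℕ} {T T' : Fin (m + 1) → Prop} [DecidablePred T] [DecidablePred T']
    (h : ∀ k, T k ↔ T' k) (x : Dl m) : mass T x = mass T' x := by
  apply Subtype.ext
  simp only [mass]
  exact Finset.sum_congr rfl fun k _ => by simp [h k]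

/-- general simplex of the prism -/
def gs (H : C(E × unitInterval, E')) {n m : ℕ} (σ : C(Dl n, E)) (f : Fin (m + 1) → Fin (n + 1))
    (T : Fin (m + 1) → Prop) [DecidablePred T] : C(Dl m, E') :=
  ⟨fun x => H (σ (stdSimplex.map f x), mass T x),
    H.continuous.comp ((σ.continuous.comp (stdSimplex.continuous_map f)).prodMk
      (continuous_mass T))⟩

theorem gs_face (H : C(E × unitInterval, E')) {n m : ℕ} (σ : C(Dl n, E))
    (f : Fin (m + 2) → Fin (n + 1)) (T : Fin (m + 2) → Prop) [DecidablePred T] (j : Fin (m + 2)) :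
    (gs H σ f T).comp (face m j) = gs H σ (f ∘ j.succAbove) (fun l => T (j.succAbove l)) := by
  ext x
  simp only [gs, face, ContinuousMap.comp_apply, ContinuousMap.coe_mk]
  rw [stdSimplex.map_comp_apply, mass_map]

theorem gs_comp_face (H : C(E × unitInterval, E')) {n m : ℕ} (σ : C(Dl (n + 1), E))
    (f : Fin (m + 1) → Fin (n + 1)) (T : Fin (m + 1) → Prop) [DecidablePred T] (j : Fin (n + 2)) :
    gs H (σ.comp (face n j)) f T = gs H σ (j.succAbove ∘ f) T := by
  ext x
  simp only [gs, face, ContinuousMap.comp_apply, ContinuousMap.coe_mk]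
  rw [stdSimplex.map_comp_apply]

theorem gs_congr (H : C(E × unitInterval, E')) {n m : ℕ} (σ : C(Dl n, E))
    {f f' : Fin (m + 1) → Fin (n + 1)} {T T' : Fin (m + 1) → Prop} [DecidablePred T]
    [DecidablePred T'] (hf : ∀ k, f k = f' k) (hT : ∀ k, T k ↔ T' k) :
    gs H σ f T = gs H σ f' T' := by
  obtain rfl : f = f' := funext hf
  ext x
  simp only [gs, ContinuousMap.coe_mk]
  rw [mass_congr hT]

theorem gs_range (H : C(E × unitInterval, E')) {n m : ℕ} (σ : C(Dl n, E))
    (f : Fin (m + 1) → Fin (n + 1)) (T : Fin (m + 1) → Prop) [DecidablePred T] :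
    range (gs H σ f T) ⊆ H '' (range σ ×ˢ univ) := by
  rintro _ ⟨x, rfl⟩
  exact ⟨_, ⟨⟨_, rfl⟩, trivial⟩, rfl⟩

/-- the `i`-th prism simplex `[v_0 .. v_i, w_i .. w_n]` -/
def ps (H : C(E × unitInterval, E')) {n : ℕ} (σ : C(Dl n, E)) (i : Fin (n + 1)) :
    C(Dl (n + 1), E') :=
  gs H σ i.predAbove fun k => i.castSucc < k

theorem ps_range (H : C(E × unitInterval, E')) {n : ℕ} (σ : C(Dl n, E)) (i : Fin (n + 1)) :
    range (ps H σ i) ⊆ H '' (range σ ×ˢ univ) := gs_range H σ _ _

theorem val_succAbove {n : ℕ} (j : Fin (n + 1)) (k : Fin n) :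
    (j.succAbove k).val = if k.val < j.val then k.val else k.val + 1 := by
  simp only [Fin.succAbove, Fin.lt_def, Fin.val_castSucc]
  split_ifs <;> simp

theorem val_predAbove {n : ℕ} (i : Fin n) (k : Fin (n + 1)) :
    (i.predAbove k).val = if i.val < k.val then k.val - 1 else k.val := by
  simp only [Fin.predAbove, Fin.lt_def, Fin.val_castSucc]
  split_ifs <;> simp

theorem predAbove_succ_succAbove_castSucc {n : ℕ} (i : Fin (n + 1)) (j : Fin (n + 2))
    (h : j ≤ i.castSucc) (k : Fin (n + 2)) :
    i.succ.predAbove (j.castSucc.succAbove k) = j.succAbove (i.predAbove k) := by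
  ext
  simp only [val_predAbove, val_succAbove, Fin.val_succ, Fin.val_castSucc, Fin.le_def] at *
  split_ifs <;> omega

theorem predAbove_castSucc_succAbove_succ {n : ℕ} (i : Fin (n + 1)) (j : Fin (n + 2))
    (h : i.castSucc < j) (k : Fin (n + 2)) :
    i.castSucc.predAbove (j.succ.succAbove k) = j.succAbove (i.predAbove k) := by
  ext
  simp only [val_predAbove, val_succAbove, Fin.val_succ, Fin.val_castSucc, Fin.lt_def] at *
  split_ifs <;> omega

/-- the edge simplices `[v_0..v_{m-1}, w_m..w_n]` of the prism -/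
def es (H : C(E × unitInterval, E')) {n : ℕ} (σ : C(Dl n, E)) (m : Fin (n + 2)) : C(Dl n, E') :=
  gs H σ id fun k => m ≤ k.castSucc

theorem ps_face_one (H : C(E × unitInterval, E')) {n : ℕ} (σ : C(Dl (n + 1), E))
    (i : Fin (n + 1)) (j : Fin (n + 2)) (h : j ≤ i.castSucc) :
    (ps H σ i.succ).comp (face (n + 1) j.castSucc) = ps H (σ.comp (face n j)) i := by
  rw [ps, ps, gs_face, gs_comp_face]
  refine gs_congr H σ (fun k => predAbove_succ_succAbove_castSucc i j h k) fun k => ?_
  simp only [val_succAbove, Fin.val_succ, Fin.val_castSucc, Fin.lt_def, Fin.le_def] at *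
  split_ifs <;> omega

theorem ps_face_two (H : C(E × unitInterval, E')) {n : ℕ} (σ : C(Dl (n + 1), E))
    (i : Fin (n + 1)) (j : Fin (n + 2)) (h : i.castSucc < j) :
    (ps H σ i.castSucc).comp (face (n + 1) j.succ) = ps H (σ.comp (face n j)) i := by
  rw [ps, ps, gs_face, gs_comp_face]
  refine gs_congr H σ (fun k => predAbove_castSucc_succAbove_succ i j h k) fun k => ?_
  simp only [val_succAbove, Fin.val_succ, Fin.val_castSucc, Fin.lt_def, Fin.le_def] at *
  split_ifs <;> omega

theorem ps_face_three (H : C(E × unitInterval, E')) {n : ℕ} (σ : C(Dl n, E)) (i : Fin (n + 1)) :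
    (ps H σ i).comp (face n i.castSucc) = es H σ i.castSucc := by
  rw [ps, es, gs_face]
  refine gs_congr H σ (fun k => ?_) fun k => ?_
  · simp
  · simp only [val_succAbove, Fin.val_succ, Fin.val_castSucc, Fin.lt_def, Fin.le_def] at *
    split_ifs <;> omega

theorem ps_face_four (H : C(E × unitInterval, E')) {n : ℕ} (σ : C(Dl n, E)) (i : Fin (n + 1)) :
    (ps H σ i).comp (face n i.succ) = es H σ i.succ := by
  rw [ps, es, gs_face]
  refine gs_congr H σ (fun k => ?_) fun k => ?_
  · ext
    simp only [Function.comp_apply, val_predAbove, val_succAbove, Fin.val_succ, id]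
    split_ifs <;> omega
  · simp only [val_succAbove, Fin.val_succ, Fin.val_castSucc, Fin.lt_def, Fin.le_def] at *
    split_ifs <;> omega

/-- the bottom end of a homotopy -/
def end0 (H : C(E × unitInterval, E')) : C(E, E') := H.comp ⟨fun x => (x, 0), by fun_prop⟩
/-- the top end of a homotopy -/
def end1 (H : C(E × unitInterval, E')) : C(E, E') := H.comp ⟨fun x => (x, 1), by fun_prop⟩

@[simp] theorem end0_apply (H : C(E × unitInterval, E')) (x : E) : end0 H x = H (x, 0) := rfl
@[simp] theorem end1_apply (H : C(E × unitInterval, E')) (x : E) : end1 H x = H (x, 1) := rfl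

theorem es_zero (H : C(E × unitInterval, E')) {n : ℕ} (σ : C(Dl n, E)) :
    es H σ 0 = (end1 H).comp σ := by
  ext x
  simp only [es, gs, end1, ContinuousMap.comp_apply, ContinuousMap.coe_mk,
    stdSimplex.map_id_apply]
  congr 2
  apply Subtype.ext
  simp [mass]

theorem es_last (H : C(E × unitInterval, E')) {n : ℕ} (σ : C(Dl n, E)) :
    es H σ (Fin.last _) = (end0 H).comp σ := by
  ext x
  simp only [es, gs, end0, ContinuousMap.comp_apply, ContinuousMap.coe_mk,
    stdSimplex.map_id_apply]
  congr 2
  apply Subtype.ext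
  simp [mass]

/-! ### the prism operator -/

/-- the prism operator on cochains -/
def prism (H : C(E × unitInterval, E')) {n : ℕ} (φ : SingSimplex E' (n + 1) → M) :
    SingSimplex E n → M :=
  fun s => ∑ i : Fin (n + 1), ((-1 : ℤ) ^ (i : ℕ)) • φ (sx (ps H (us s) i))

theorem prism_add (H : C(E × unitInterval, E')) {n : ℕ} (φ ψ : SingSimplex E' (n + 1) → M) :
    prism H (φ + ψ) = prism H φ + prism H ψ := by
  funext s
  simp only [prism, Pi.add_apply, smul_add, Finset.sum_add_distrib]

theorem prism_zero (H : C(E × unitInterval, E')) {n : ℕ} :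
    prism H (0 : SingSimplex E' (n + 1) → M) = 0 := by
  funext s
  simp [prism]

/-- the prism formula in positive degrees -/
theorem cobdry_prism (H : C(E × unitInterval, E')) {n : ℕ} (φ : SingSimplex E' (n + 1) → M) :
    cochainCobdry (prism H φ) + prism H (cochainCobdry φ) = pull (end1 H) φ - pull (end0 H) φ := by
  funext s
  obtain ⟨σ, rfl⟩ := sx_surj s
  simp only [Pi.add_apply, Pi.sub_apply, pull, push_sx]
  have key := prism_sum n
    (fun i j => ((-1 : ℤ) ^ (i : ℕ)) • ((-1 : ℤ) ^ (j : ℕ)) •
      φ (sx ((ps H σ i).comp (face (n + 1) j))))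
    (fun i j => ((-1 : ℤ) ^ (i : ℕ)) • ((-1 : ℤ) ^ (j : ℕ)) • φ (sx (ps H (σ.comp (face n j)) i)))
    (fun m => φ (sx (es H σ m)))
    (fun i j h => by
      simp only [Fin.val_succ, Fin.val_castSucc, ps_face_one H σ i j h, pow_succ, mul_neg, mul_one,
        neg_smul])
    (fun i j h => by
      simp only [Fin.val_succ, Fin.val_castSucc, ps_face_two H σ i j h, pow_succ, mul_neg, mul_one,
        neg_smul, smul_neg])
    (fun i => by
      simp only [Fin.val_castSucc, ps_face_three, smul_smul, ← pow_add]
      rw [← two_mul, pow_mul]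
      simp)
    (fun i => by
      simp only [Fin.val_succ, ps_face_four, smul_smul, ← pow_add]
      rw [show (i : ℕ) + (i + 1) = 2 * i + 1 by ring, pow_succ, pow_mul]
      simp)
  rw [es_zero, es_last] at key
  have e1 : prism H (cochainCobdry φ) (sx σ) = ∑ i : Fin (n + 2), ∑ j : Fin (n + 3),
      ((-1 : ℤ) ^ (i : ℕ)) • ((-1 : ℤ) ^ (j : ℕ)) •
        φ (sx ((ps H σ i).comp (face (n + 1) j))) := by
    simp only [prism, us_sx, cobdry_apply, Finset.smul_sum, face_sx]
  have e2 : cochainCobdry (prism H φ) (sx σ) = ∑ i : Fin (n + 1), ∑ j : Fin (n + 2),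
      ((-1 : ℤ) ^ (i : ℕ)) • ((-1 : ℤ) ^ (j : ℕ)) • φ (sx (ps H (σ.comp (face n j)) i)) := by
    simp only [cobdry_apply, prism, face_sx, us_sx, Finset.smul_sum]
    rw [Finset.sum_comm]
    refine Finset.sum_congr rfl fun i _ => Finset.sum_congr rfl fun j _ => ?_
    rw [smul_smul, smul_smul, mul_comm]
  rw [e1, e2, key]
  abel

/-- the prism formula in degree zero -/
theorem prism_cobdry_zero (H : C(E × unitInterval, E')) (φ : SingSimplex E' 0 → M) :
    prism H (cochainCobdry φ) = pull (end1 H) φ - pull (end0 H) φ := by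
  funext s
  obtain ⟨σ, rfl⟩ := sx_surj s
  simp only [Pi.sub_apply, pull, push_sx]
  rw [← es_zero, ← es_last]
  have h0' : (ps H σ 0).comp (face 0 0) = es H σ 0 := ps_face_three H σ 0
  have h1' : (ps H σ 0).comp (face 0 1) = es H σ (Fin.last 1) := ps_face_four H σ 0
  simp only [prism, us_sx, cobdry_apply, face_sx]
  rw [Fin.sum_univ_one, Fin.sum_univ_two, h0', h1']
  simp [sub_eq_add_neg]

/-- naturality of the prism operator -/
theorem prism_push (H : C(E × unitInterval, E')) {n : ℕ} (φ : SingSimplex E' (n + 1) → M)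
    {N : Type*} [AddCommGroup N] {F F' : Type} [TopologicalSpace F] [TopologicalSpace F']
    (K : C(F × unitInterval, F')) (χ : SingSimplex F' (n + 1) → N) (ρ : M →+ N)
    (g : C(E, F)) (g' : C(E', F')) (hg : ∀ x t, K (g x, t) = g' (H (x, t)))
    (hφ : ∀ s, χ (push g' s) = ρ (φ s)) (s : SingSimplex E n) :
    prism K χ (push g s) = ρ (prism H φ s) := by
  obtain ⟨σ, rfl⟩ := sx_surj s
  simp only [prism, push_sx, us_sx, map_sum, map_zsmul]
  refine Finset.sum_congr rfl fun i _ => ?_
  rw [← hφ, push_sx]
  congr 3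
  ext x
  exact hg _ _

/-- the prism operator only sees the simplices in the track of the homotopy -/
theorem prism_congr (H : C(E × unitInterval, E')) {n : ℕ} (φ χ : SingSimplex E' (n + 1) → M)
    (s : SingSimplex E n)
    (h : ∀ τ : C(Dl (n + 1), E'), range τ ⊆ H '' (range (us s) ×ˢ univ) → φ (sx τ) = χ (sx τ)) :
    prism H φ s = prism H χ s := by
  simp only [prism]
  refine Finset.sum_congr rfl fun i _ => ?_
  rw [h _ (ps_range H _ i)]

theorem prism_eq_zero (H : C(E × unitInterval, E')) {n : ℕ} (φ : SingSimplex E' (n + 1) → M)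
    (s : SingSimplex E n)
    (h : ∀ τ : C(Dl (n + 1), E'), range τ ⊆ H '' (range (us s) ×ˢ univ) → φ (sx τ) = 0) :
    prism H φ s = 0 := by
  rw [prism_congr H φ 0 s h, prism_zero]
  rfl

end

end Crest.Agent.R251.Pr
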