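import Mathlib.AlgebraicTopology.FundamentalGroupoid.SimplyConnected
import Mathlib.Topology.Subpath
import Mathlib.Topology.UnitInterval
import Mathlib.Topology.LocallyConstant.Basic
import Mathlib.Topology.Algebra.Algebra

/-! Row 251, line B, block (i) (helper613): a generic criterion for simple connectivity.

A space `E` is simply connected if there is a choice `Φ y` of a class of paths from `y₀` to every
point `y` which is compatible with the paths contained in one member of an open cover. -/

set_option autoImplicit false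

open Set unitInterval

noncomputable section

namespace Crest.Agent.R251.SCB

variable {E : Type*} [TopologicalSpace E] {y₀ : E}

/-- classes of paths -/
abbrev PC (x y : E) : Type _ := Path.Homotopic.Quotient x y

/-- the class of a path -/
abbrev cl {x y : E} (γ : Path x y) : PC x y := Path.Homotopic.Quotient.mk γ

local infixl:70 " ⬝ " => Path.Homotopic.Quotient.trans

/-- `Φ` is compatible with every path contained in one member of the cover. -/
def Compat {κ : Type*} (V : κ → Set E) (Φ : ∀ y : E, PC y₀ y) : Prop :=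
  ∀ i (y y' : E) (γ : Path y y'), (∀ t, γ t ∈ V i) → Φ y' = Φ y ⬝ cl γ

theorem cl_subpath_trans {a b : E} (γ : Path a b) (t₀ t₁ t₂ : I) :
    cl (γ.subpath t₀ t₁) ⬝ cl (γ.subpath t₁ t₂) = cl (γ.subpath t₀ t₂) :=
  Quotient.sound ⟨Path.Homotopy.subpathTransSubpath γ t₀ t₁ t₂⟩

theorem cl_refl_trans {a b : E} (p : PC a b) : cl (Path.refl a) ⬝ p = p := by
  induction p using Quotient.inductionOn with
  | h p => exact Quotient.sound ⟨Path.Homotopy.reflTrans p⟩

theorem trans_cl_refl {a b : E} (p : PC a b) : p ⬝ cl (Path.refl b) = p := by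
  induction p using Quotient.inductionOn with
  | h p => exact Quotient.sound ⟨Path.Homotopy.transRefl p⟩

theorem left_cancel {a b c : E} {p : PC a b} {q r : PC b c} (h : p ⬝ q = p ⬝ r) : q = r := by
  have h1 := congrArg (fun u => p.symm ⬝ u) h
  simpa only [← Path.Homotopic.Quotient.trans_assoc, Path.Homotopic.Quotient.symm_trans,
    Path.Homotopic.Quotient.refl_trans] using h1

theorem right_cancel {a b c : E} {p q : PC a b} {r : PC b c} (h : p ⬝ r = q ⬝ r) : p = q := by
  have h1 := congrArg (fun u => u ⬝ r.symm) h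
  simpa only [Path.Homotopic.Quotient.trans_assoc, Path.Homotopic.Quotient.trans_symm,
    Path.Homotopic.Quotient.trans_refl] using h1

/-- compatibility along every path -/
theorem Compat.path {κ : Type*} {V : κ → Set E} {Φ : ∀ y : E, PC y₀ y} (h : Compat V Φ)
    (hV : ∀ i, IsOpen (V i)) (hc : ∀ y, ∃ i, y ∈ V i) {a b : E} (γ : Path a b) :
    Φ b = Φ a ⬝ cl γ := by
  obtain ⟨t, h0, hmono, ⟨n, hn⟩, hsub⟩ :=
    exists_monotone_Icc_subset_open_cover_unitInterval (c := fun i => γ ⁻¹' V i)
      (fun i => (hV i).preimage γ.continuous) (fun s _ => by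
        obtain ⟨i, hi⟩ := hc (γ s)
        exact mem_iUnion.2 ⟨i, hi⟩)
  have key : ∀ m : ℕ, Φ (γ (t m)) = Φ (γ (t 0)) ⬝ cl (γ.subpath (t 0) (t m)) := by
    intro m
    induction m with
    | zero => rw [Path.subpath_self, trans_cl_refl]
    | succ m ih =>
      obtain ⟨i, hi⟩ := hsub m
      have h1 := h i _ _ (γ.subpath (t m) (t (m + 1))) (fun s => by
        have h2 : γ.subpath (t m) (t (m + 1)) s ∈ range (γ.subpath (t m) (t (m + 1))) :=
          mem_range_self s
        rw [Path.range_subpath_of_le _ _ _ (hmono (Nat.le_succ m))] at h2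
        obtain ⟨u, hu, hu'⟩ := h2
        rw [← hu']
        exact hi hu)
      rw [h1, ih, Path.Homotopic.Quotient.trans_assoc, cl_subpath_trans]
  have h1 := key n
  rw [hn n le_rfl, h0] at h1
  have h2 : ∀ (a' b' : E) (ha : a' = a) (hb : b' = b) (p : Path a' b') (q : Path a b),
      (∀ s, p s = q s) → Φ b' = Φ a' ⬝ cl p → Φ b = Φ a ⬝ cl q := by
    rintro a' b' rfl rfl p q hpq hp
    have : p = q := Path.ext (funext hpq)
    rw [← this]; exact hp
  refine h2 _ _ γ.source γ.target _ γ (fun s => ?_) h1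
  rw [Path.subpath_zero_one]
  rfl

/-- **simple connectivity from a compatible choice of path classes** -/
theorem simplyConnected_of {κ : Type*} {V : κ → Set E} {Φ : ∀ y : E, PC y₀ y}
    (h : Compat V Φ) (hV : ∀ i, IsOpen (V i)) (hc : ∀ y, ∃ i, y ∈ V i) :
    SimplyConnectedSpace E := by
  rw [simply_connected_iff_paths_homotopic]
  have hpc : PathConnectedSpace E :=
    { nonempty := ⟨y₀⟩
      joined := fun x y => by
        obtain ⟨p⟩ : Nonempty (Path y₀ x) := ⟨(Φ x).out⟩
        obtain ⟨q⟩ : Nonempty (Path y₀ y) := ⟨(Φ y).out⟩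
        exact ⟨p.symm.trans q⟩ }
  refine ⟨hpc, fun x y => ⟨fun p q => ?_⟩⟩
  induction p using Quotient.inductionOn with
  | h p =>
    induction q using Quotient.inductionOn with
    | h q =>
      have h1 := h.path hV hc p
      have h2 := h.path hV hc q
      have h3 : Φ x ⬝ cl p = Φ x ⬝ cl q := h1.symm.trans h2
      exact left_cancel h3

/-! ### squares -/

instance contractibleII : ContractibleSpace (I × I) := by
  rw [contractible_iff_id_nullhomotopic]
  refine ⟨(0, 0), ⟨?_⟩⟩
  exact
    { toFun := fun z => (σ z.1 * z.2.1, σ z.1 * z.2.2)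
      continuous_toFun := by
        have h1 : Continuous fun z : I × I × I => σ z.1 := continuous_symm.comp continuous_fst
        exact (h1.mul (continuous_fst.comp continuous_snd)).prodMk
          (h1.mul (continuous_snd.comp continuous_snd))
      map_zero_left := fun z => by simp
      map_one_left := fun z => by simp }

/-- the two boundary paths of a square are homotopic -/
theorem square (F : C(I × I, E)) {a b c d : E} (top : Path a b) (right : Path b d) (left : Path a c)
    (bot : Path c d) (h1 : ∀ s, top s = F (s, 0)) (h2 : ∀ t, right t = F (1, t))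
    (h3 : ∀ t, left t = F (0, t)) (h4 : ∀ s, bot s = F (s, 1)) :
    cl top ⬝ cl right = cl left ⬝ cl bot := by
  have ha : F (0, 0) = a := by rw [← h1 0]; exact top.source
  have hb : F (1, 0) = b := by rw [← h1 1]; exact top.target
  have hc : F (0, 1) = c := by rw [← h3 1]; exact left.target
  have hd : F (1, 1) = d := by rw [← h2 1]; exact right.target
  subst ha hb hc hd
  let p1 : Path ((0, 0) : I × I) (1, 0) := ⟨⟨fun s => (s, 0), by fun_prop⟩, rfl, rfl⟩
  let p2 : Path ((1, 0) : I × I) (1, 1) := ⟨⟨fun s => (1, s), by fun_prop⟩, rfl, rfl⟩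
  let p3 : Path ((0, 0) : I × I) (0, 1) := ⟨⟨fun s => (0, s), by fun_prop⟩, rfl, rfl⟩
  let p4 : Path ((0, 1) : I × I) (1, 1) := ⟨⟨fun s => (s, 1), by fun_prop⟩, rfl, rfl⟩
  have e1 : top = p1.map F.continuous := Path.ext (funext h1)
  have e2 : right = p2.map F.continuous := Path.ext (funext h2)
  have e3 : left = p3.map F.continuous := Path.ext (funext h3)
  have e4 : bot = p4.map F.continuous := Path.ext (funext h4)
  have hI : (p1.trans p2).Homotopic (p3.trans p4) := SimplyConnectedSpace.paths_homotopic _ _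
  have := hI.map F
  rw [Path.map_trans, Path.map_trans] at this
  rw [e1, e2, e3, e4]
  exact Quotient.sound this

/-! ### second form: contractible pieces -/

/-- An open cover of `E` such that every `V i` is the disjoint union of open pieces (labelled by
`lab i`), together with a contraction in `E` of every piece to its centre. -/
structure Pieces (E : Type*) [TopologicalSpace E] (κ : Type*) where
  V : κ → Set E
  isOpen_V : ∀ i, IsOpen (V i)
  cover : ∀ y, ∃ i, y ∈ V i
  L : κ → Type*
  lab : ∀ i, V i → L i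
  loc : ∀ i, IsLocallyConstant (lab i)
  ctr : ∀ i, L i → E
  H : ∀ i, C(V i × I, E)
  H_zero : ∀ i y, H i (y, 0) = y
  H_one : ∀ i y, H i (y, 1) = ctr i (lab i y)

namespace Pieces

variable {κ : Type*} (P : Pieces E κ)

/-- the path from a point of a piece to the centre of the piece -/
def track (i : κ) (y : P.V i) : Path (y : E) (P.ctr i (P.lab i y)) where
  toFun := fun t => P.H i (y, t)
  continuous_toFun := by fun_prop
  source' := P.H_zero i y
  target' := P.H_one i y

/-- the labels of the two ends of a path inside `V i` agree, and the tracks of the ends differ by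
the path -/
theorem cl_track (i : κ) {y y' : E} (γ : Path y y') (hγ : ∀ t, γ t ∈ P.V i)
    (hy : y ∈ P.V i) (hy' : y' ∈ P.V i) :
    ∃ h : P.lab i ⟨y, hy⟩ = P.lab i ⟨y', hy'⟩,
      cl γ ⬝ cl (P.track i ⟨y', hy'⟩) = cl ((P.track i ⟨y, hy⟩).cast rfl (by rw [h])) := by
  have hc : Continuous fun s : I => (⟨γ s, hγ s⟩ : P.V i) := γ.continuous.subtype_mk _
  have hl : ∀ s : I, P.lab i ⟨γ s, hγ s⟩ = P.lab i ⟨y', hy'⟩ := by
    intro s
    have h1 := ((P.loc i).comp_continuous hc).apply_eq_of_preconnectedSpace s 1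
    have h2 : (⟨γ 1, hγ 1⟩ : P.V i) = ⟨y', hy'⟩ := Subtype.ext γ.target
    simpa only [Function.comp, h2] using h1
  have h0 : P.lab i ⟨y, hy⟩ = P.lab i ⟨y', hy'⟩ := by
    have h2 : (⟨γ 0, hγ 0⟩ : P.V i) = ⟨y, hy⟩ := Subtype.ext γ.source
    rw [← h2]; exact hl 0
  refine ⟨h0, ?_⟩
  have hF : Continuous fun z : I × I => P.H i (⟨γ z.1, hγ z.1⟩, z.2) :=
    (P.H i).continuous.comp ((hc.comp continuous_fst).prodMk continuous_snd)
  have key := square ⟨_, hF⟩ γ (P.track i ⟨y', hy'⟩)
    ((P.track i ⟨y, hy⟩).cast rfl (by rw [h0])) (Path.refl _)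
    (fun s => (P.H_zero i ⟨γ s, hγ s⟩).symm)
    (fun t => by simp [track])
    (fun t => by simp [track])
    (fun s => by simp [P.H_one, hl])
  rw [key, trans_cl_refl]

/-- **simple connectivity from compatible classes of paths to the centres of the pieces** -/
theorem simplyConnected (y₀ : E) (Ψ : ∀ i (l : P.L i), PC y₀ (P.ctr i l))
    (h : ∀ i j (y : E) (hi : y ∈ P.V i) (hj : y ∈ P.V j),
      Ψ i (P.lab i ⟨y, hi⟩) ⬝ (cl (P.track i ⟨y, hi⟩)).symm =
        Ψ j (P.lab j ⟨y, hj⟩) ⬝ (cl (P.track j ⟨y, hj⟩)).symm) :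
    SimplyConnectedSpace E := by
  choose c hc using P.cover
  let Φ : ∀ y : E, PC y₀ y := fun y =>
    Ψ (c y) (P.lab (c y) ⟨y, hc y⟩) ⬝ (cl (P.track (c y) ⟨y, hc y⟩)).symm
  have hΦ : ∀ i y (hy : y ∈ P.V i),
      Φ y = Ψ i (P.lab i ⟨y, hy⟩) ⬝ (cl (P.track i ⟨y, hy⟩)).symm :=
    fun i y hy => h _ _ _ _ _
  refine simplyConnected_of (V := P.V) (Φ := Φ) ?_ P.isOpen_V P.cover
  intro i y y' γ hγ
  have hy : y ∈ P.V i := by simpa using hγ 0
  have hy' : y' ∈ P.V i := by simpa using hγ 1
  obtain ⟨hl, hk⟩ := P.cl_track i γ hγ hy hy'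
  rw [hΦ i y hy, hΦ i y' hy']
  apply right_cancel (r := cl (P.track i ⟨y', hy'⟩))
  rw [Path.Homotopic.Quotient.trans_assoc, Path.Homotopic.Quotient.symm_trans,
    Path.Homotopic.Quotient.trans_refl, Path.Homotopic.Quotient.trans_assoc,
    Path.Homotopic.Quotient.trans_assoc, hk]
  have gen : ∀ (l l' : P.L i) (e : l = l') (q : Path y (P.ctr i l)),
      Ψ i l' = Ψ i l ⬝ ((cl q).symm ⬝ cl (q.cast rfl (by rw [e]))) := by
    rintro l _ rfl q
    have : q.cast rfl rfl = q := by ext; rfl
    rw [this, Path.Homotopic.Quotient.symm_trans, Path.Homotopic.Quotient.trans_refl]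
  exact gen _ _ hl _

end Pieces

end Crest.Agent.R251.SCB
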