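import Mathlib

/-!
# Simple connectivity from a chamber structure (generic part)

`E` is covered by open "stars" `st i v` (`i : K` a type, `v : V1 i` a vertex of type `i`); the
chambers `C : Cc` have vertices `fc1 i C` and edges `fc2 i j C`.  If the chamber system is connected
and simply connected in the combinatorial sense, `E` is simply connected.
-/

set_option autoImplicit false

namespace Crest.Agent.R251.SC735

open scoped unitInterval

/-! ### holonomy -/

section hol

variable {E : Type} [TopologicalSpace E] {y0 : E} (b : ∀ y : E, Path y0 y)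

/-- The holonomy group. -/
abbrev Gam (y0 : E) : Type := (FundamentalGroup E y0)ᵐᵒᵖ

/-- holonomy of a path class -/
noncomputable def holq {x y : E} (p : Path.Homotopic.Quotient x y) : Gam y0 :=
  MulOpposite.op (FundamentalGroup.fromPath
    (((Path.Homotopic.Quotient.mk (b x)).trans p).trans (Path.Homotopic.Quotient.mk (b y)).symm))

/-- holonomy of a path -/
noncomputable def hol {x y : E} (p : Path x y) : Gam y0 := holq b (Path.Homotopic.Quotient.mk p)

theorem holq_trans {x y z : E} (p : Path.Homotopic.Quotient x y)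
    (q : Path.Homotopic.Quotient y z) : holq b (p.trans q) = holq b p * holq b q := by
  apply MulOpposite.unop_injective
  change ((Path.Homotopic.Quotient.mk (b x)).trans (p.trans q)).trans
    (Path.Homotopic.Quotient.mk (b z)).symm =
    (((Path.Homotopic.Quotient.mk (b x)).trans p).trans
      (Path.Homotopic.Quotient.mk (b y)).symm).trans
    (((Path.Homotopic.Quotient.mk (b y)).trans q).trans
      (Path.Homotopic.Quotient.mk (b z)).symm)
  simp only [Path.Homotopic.Quotient.trans_assoc]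
  congr 2
  rw [← Path.Homotopic.Quotient.trans_assoc (Path.Homotopic.Quotient.mk (b y)).symm,
    Path.Homotopic.Quotient.symm_trans, Path.Homotopic.Quotient.refl_trans]

theorem hol_trans {x y z : E} (p : Path x y) (q : Path y z) :
    hol b (p.trans q) = hol b p * hol b q := by
  unfold hol
  rw [Path.Homotopic.Quotient.mk_trans, holq_trans]

theorem hol_congr {x y : E} {p q : Path x y} (h : p.Homotopic q) : hol b p = hol b q := by
  unfold hol
  rw [Path.Homotopic.Quotient.eq.2 h]

theorem hol_refl (x : E) : hol b (Path.refl x) = 1 := by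
  have h : hol b (Path.refl x) * hol b (Path.refl x) = hol b (Path.refl x) := by
    rw [← hol_trans]
    exact hol_congr b ⟨Path.Homotopy.transRefl _⟩
  exact mul_eq_left.1 h

theorem hol_cast {x y x' y' : E} (p : Path x y) (hx : x' = x) (hy : y' = y) :
    hol b (p.cast hx hy) = hol b p := by
  subst hx; subst hy; rfl

theorem hol_loop (p : Path y0 y0) (h : hol b p = 1) : p.Homotopic (Path.refl y0) := by
  rw [← Path.Homotopic.Quotient.eq]
  have h1 := congrArg MulOpposite.unop h
  change ((Path.Homotopic.Quotient.mk (b y0)).trans (Path.Homotopic.Quotient.mk p)).trans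
    (Path.Homotopic.Quotient.mk (b y0)).symm = Path.Homotopic.Quotient.refl y0 at h1
  set β := Path.Homotopic.Quotient.mk (b y0)
  set π := Path.Homotopic.Quotient.mk p
  have h2 : π = β.symm.trans (((β.trans π).trans β.symm).trans β) := by
    simp only [Path.Homotopic.Quotient.trans_assoc]
    rw [← Path.Homotopic.Quotient.trans_assoc β.symm, Path.Homotopic.Quotient.symm_trans,
      Path.Homotopic.Quotient.refl_trans, Path.Homotopic.Quotient.trans_refl]
  rw [h2, h1, Path.Homotopic.Quotient.refl_trans, Path.Homotopic.Quotient.symm_trans]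
  rfl

/-- local to global -/
theorem dev_eq {ι : Type*} (U : ι → Set E) (hU : ∀ i, IsOpen (U i)) (hc : ∀ y, ∃ i, y ∈ U i)
    (Φ : E → Gam y0)
    (hΦ : ∀ i (x y : E) (p : Path x y), (∀ t, p t ∈ U i) → Φ y = Φ x * hol b p)
    {x y : E} (p : Path x y) : Φ y = Φ x * hol b p := by
  obtain ⟨t, ht0, htm, ⟨N, hN⟩, ht⟩ := exists_monotone_Icc_subset_open_cover_unitInterval
    (c := fun i => p ⁻¹' U i) (fun i => (hU i).preimage p.continuous) (fun s _ => by
      obtain ⟨i, hi⟩ := hc (p s)
      exact Set.mem_iUnion.2 ⟨i, hi⟩)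
  have key : ∀ n, Φ (p (t n)) = Φ (p 0) * hol b (p.subpath 0 (t n)) := by
    intro n
    induction n with
    | zero =>
      rw [ht0, Path.subpath_self, hol_refl, mul_one]
    | succ n ih =>
      obtain ⟨i, hi⟩ := ht n
      have h1 := hΦ i _ _ (p.subpath (t n) (t (n + 1))) (by
        intro s
        have h2 : p.subpath (t n) (t (n + 1)) s ∈ Set.range (p.subpath (t n) (t (n + 1))) :=
          ⟨s, rfl⟩
        rw [Path.range_subpath_of_le _ _ _ (htm (Nat.le_succ n))] at h2
        obtain ⟨u, hu, hu'⟩ := h2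
        rw [← hu']
        exact hi hu)
      rw [h1, ih, mul_assoc, ← hol_trans]
      congr 1
      exact hol_congr b ⟨Path.Homotopy.subpathTransSubpath p 0 (t n) (t (n + 1))⟩
  have h3 := key N
  rw [hN N le_rfl, Path.subpath_zero_one, hol_cast] at h3
  simpa using h3

end hol

/-! ### thin sets -/

section thin

variable {E : Type} [TopologicalSpace E] {y0 : E} (b : ∀ y : E, Path y0 y)

/-- any two paths inside `S` with the same end points are homotopic in `E` -/
def Thin (S : Set E) : Prop :=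
  ∀ ⦃x y : E⦄ (p q : Path x y), (∀ t, p t ∈ S) → (∀ t, q t ∈ S) → p.Homotopic q

theorem Thin.mono {S S' : Set E} (h : Thin S) (hS : S' ⊆ S) : Thin S' :=
  fun _ _ p q hp hq => h p q (fun t => hS (hp t)) (fun t => hS (hq t))

open Classical in
/-- holonomy between two points of `S` -/
noncomputable def hS (S : Set E) (x y : E) : Gam y0 :=
  if h : JoinedIn S x y then hol b h.somePath else 1

theorem hS_eq {S : Set E} (hT : Thin S) {x y : E} (p : Path x y) (hp : ∀ t, p t ∈ S) :
    hS b S x y = hol b p := by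
  have h : JoinedIn S x y := ⟨p, hp⟩
  unfold hS
  rw [dif_pos h]
  exact hol_congr b (hT _ _ (fun t => h.somePath_mem t) hp)

theorem hS_self {S : Set E} (hT : Thin S) {x : E} (hx : x ∈ S) : hS b S x x = 1 := by
  rw [hS_eq b hT (Path.refl x) (fun _ => hx), hol_refl]

theorem hS_trans {S : Set E} (hT : Thin S) (hS' : IsPathConnected S) {x y z : E} (hx : x ∈ S)
    (hy : y ∈ S) (hz : z ∈ S) : hS b S x y * hS b S y z = hS b S x z := by
  obtain ⟨p, hp⟩ := hS'.joinedIn x hx y hy
  obtain ⟨q, hq⟩ := hS'.joinedIn y hy z hz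
  rw [hS_eq b hT p hp, hS_eq b hT q hq, ← hol_trans, hS_eq b hT (p.trans q)]
  intro t
  have h : p.trans q t ∈ Set.range (p.trans q) := ⟨t, rfl⟩
  rw [Path.trans_range] at h
  rcases h with ⟨u, hu⟩ | ⟨u, hu⟩
  · rw [← hu]; exact hp u
  · rw [← hu]; exact hq u

theorem hS_sub {S S' : Set E} (hT : Thin S) (hS' : IsPathConnected S') (hle : S' ⊆ S) {x y : E}
    (hx : x ∈ S') (hy : y ∈ S') : hS b S x y = hS b S' x y := by
  obtain ⟨p, hp⟩ := hS'.joinedIn x hx y hy
  rw [hS_eq b hT p (fun t => hle (hp t)), hS_eq b (hT.mono hle) p hp]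

end thin

/-! ### chamber data -/

/-- the data -/
structure CData (E : Type) [TopologicalSpace E] (K Cc : Type) (V1 : K → Type)
    (V2 : K → K → Type) where
  /-- vertices of a chamber -/
  fc1 : ∀ i, Cc → V1 i
  /-- edges of a chamber -/
  fc2 : ∀ i j, Cc → V2 i j
  /-- stars of vertices -/
  st : ∀ i, V1 i → Set E
  /-- stars of edges -/
  se : ∀ i j, V2 i j → Set E
  /-- base points of the chambers -/
  bc : Cc → E
  st_open : ∀ i v, IsOpen (st i v)
  thin : ∀ i v, Thin (st i v)
  st_pc : ∀ i C, IsPathConnected (st i (fc1 i C))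
  se_pc : ∀ i j C, IsPathConnected (se i j (fc2 i j C))
  se_le : ∀ i j C, se i j (fc2 i j C) ⊆ st i (fc1 i C) ∩ st j (fc1 j C)
  bc_mem : ∀ i j C, bc C ∈ se i j (fc2 i j C)
  ex : ∀ i j C C' y, y ∈ st i (fc1 i C) → y ∈ st j (fc1 j C') →
    ∃ D, fc1 i D = fc1 i C ∧ fc1 j D = fc1 j C' ∧ y ∈ se i j (fc2 i j D)
  cover : ∀ y, ∃ i C, y ∈ st i (fc1 i C)

/-- the chamber system is connected -/
def Conn {K Cc : Type} {V1 : K → Type} (fc1 : ∀ i, Cc → V1 i) : Prop :=
  ∀ P : Cc → Prop, (∀ i C C', fc1 i C = fc1 i C' → P C → P C') → (∃ C, P C) → ∀ C, P C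

/-- the chamber system is simply connected -/
def SConn {K Cc : Type} {V1 : K → Type} {V2 : K → K → Type} (fc1 : ∀ i, Cc → V1 i)
    (fc2 : ∀ i j, Cc → V2 i j) : Prop :=
  ∀ (Γ : Type) [Group Γ] (h : K → Cc → Cc → Γ),
    (∀ i C C' C'', fc1 i C = fc1 i C' → fc1 i C' = fc1 i C'' →
      h i C C' * h i C' C'' = h i C C'') →
    (∀ i j C C', fc1 i C = fc1 i C' → fc1 j C = fc1 j C' → fc2 i j C = fc2 i j C' →
      h i C C' = h j C C') →
    ∃ κ : Cc → Γ, ∀ i C C', fc1 i C = fc1 i C' → κ C * h i C C' = κ C'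

namespace CData

variable {E : Type} [TopologicalSpace E] {K Cc : Type} {V1 : K → Type} {V2 : K → K → Type}
  (D : CData E K Cc V1 V2)

theorem bc_mem_st (i : K) (C : Cc) : D.bc C ∈ D.st i (D.fc1 i C) :=
  (D.se_le i i C (D.bc_mem i i C)).1

theorem bc_mem_st' {i : K} {C C' : Cc} (h : D.fc1 i C = D.fc1 i C') :
    D.bc C' ∈ D.st i (D.fc1 i C) := by
  rw [h]; exact D.bc_mem_st i C'

theorem joined (hconn : Conn D.fc1) (C C' : Cc) : Joined (D.bc C) (D.bc C') := by
  refine hconn (fun C' => Joined (D.bc C) (D.bc C')) ?_ ⟨C, Joined.refl _⟩ C'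
  intro i C₁ C₂ h h1
  exact h1.trans ((D.st_pc i C₁).joinedIn _ (D.bc_mem_st i C₁) _ (D.bc_mem_st' h)).joined

theorem pathConnected (hne : Nonempty Cc) (hconn : Conn D.fc1) : PathConnectedSpace E where
  nonempty := ⟨D.bc hne.some⟩
  joined x y := by
    obtain ⟨i, C, hC⟩ := D.cover x
    obtain ⟨j, C', hC'⟩ := D.cover y
    exact (((D.st_pc i C).joinedIn _ hC _ (D.bc_mem_st i C)).joined.trans
      (D.joined hconn C C')).trans ((D.st_pc j C').joinedIn _ (D.bc_mem_st j C') _ hC').joined

/-- **the generic theorem** -/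
theorem simplyConnected (hne : Nonempty Cc) (hconn : Conn D.fc1) (hs : SConn D.fc1 D.fc2) :
    SimplyConnectedSpace E := by
  have := D.pathConnected hne hconn
  rw [simply_connected_iff_loops_nullhomotopic]
  refine ⟨inferInstance, fun y0 γ => ?_⟩
  let b : ∀ y : E, Path y0 y := fun y => PathConnectedSpace.somePath y0 y
  obtain ⟨κ, hκ⟩ := hs (Gam y0) (fun i C C' => hS b (D.st i (D.fc1 i C)) (D.bc C) (D.bc C'))
    (by
      intro i C C' C'' h h'
      change hS b (D.st i (D.fc1 i C)) _ _ * hS b (D.st i (D.fc1 i C')) _ _ = _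
      rw [← h]
      exact hS_trans b (D.thin i _) (D.st_pc i C) (D.bc_mem_st i C) (D.bc_mem_st' h)
        (D.bc_mem_st' (h.trans h')))
    (by
      intro i j C C' hi hj h2
      have hm : D.bc C' ∈ D.se i j (D.fc2 i j C) := by rw [h2]; exact D.bc_mem i j C'
      change hS b (D.st i (D.fc1 i C)) _ _ = hS b (D.st j (D.fc1 j C)) _ _
      rw [hS_sub b (D.thin i _) (D.se_pc i j C) (fun y hy => (D.se_le i j C hy).1)
        (D.bc_mem i j C) hm, hS_sub b (D.thin j _) (D.se_pc i j C)
        (fun y hy => (D.se_le i j C hy).2) (D.bc_mem i j C) hm])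
  choose ti tC tm using D.cover
  -- the developing map
  let Φ : E → Gam y0 := fun y => κ (tC y) * hS b (D.st (ti y) (D.fc1 (ti y) (tC y))) (D.bc (tC y)) y
  -- change of the chamber, same star
  have hch : ∀ i C C' y, D.fc1 i C = D.fc1 i C' → y ∈ D.st i (D.fc1 i C) →
      κ C * hS b (D.st i (D.fc1 i C)) (D.bc C) y =
      κ C' * hS b (D.st i (D.fc1 i C')) (D.bc C') y := by
    intro i C C' y h hy
    rw [← hκ i C C' h, mul_assoc]
    congr 1
    rw [← h]
    exact (hS_trans b (D.thin i _) (D.st_pc i C) (D.bc_mem_st i C) (D.bc_mem_st' h) hy).symm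
  have hΦ : ∀ i C y, y ∈ D.st i (D.fc1 i C) →
      Φ y = κ C * hS b (D.st i (D.fc1 i C)) (D.bc C) y := by
    intro i C y hy
    obtain ⟨D', h1, h2, h3⟩ := D.ex (ti y) i (tC y) C y (tm y) hy
    change κ (tC y) * hS b (D.st (ti y) (D.fc1 (ti y) (tC y))) (D.bc (tC y)) y = _
    rw [hch (ti y) (tC y) D' y h1.symm (tm y), hch i C D' y h2.symm hy]
    congr 1
    rw [hS_sub b (D.thin (ti y) _) (D.se_pc (ti y) i D')
      (fun z hz => (D.se_le (ti y) i D' hz).1) (D.bc_mem (ti y) i D') h3,
      hS_sub b (D.thin i _) (D.se_pc (ti y) i D') (fun z hz => (D.se_le (ti y) i D' hz).2)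
      (D.bc_mem (ti y) i D') h3]
  have hdev := dev_eq b (ι := Σ _ : K, Cc) (fun x => D.st x.1 (D.fc1 x.1 x.2))
    (fun x => D.st_open _ _) (fun y => ⟨⟨ti y, tC y⟩, tm y⟩) Φ (by
      rintro ⟨i, C⟩ x y p hp
      have hx : x ∈ D.st i (D.fc1 i C) := by simpa using hp 0
      have hy : y ∈ D.st i (D.fc1 i C) := by simpa using hp 1
      rw [hΦ i C x hx, hΦ i C y hy, mul_assoc, ← hS_eq b (D.thin i _) p hp]
      congr 1
      exact (hS_trans b (D.thin i _) (D.st_pc i C) (D.bc_mem_st i C) hx hy).symm) γ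
  exact hol_loop b γ (mul_eq_left.1 hdev.symm)

end CData

end Crest.Agent.R251.SC735
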