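import Crest.Agent.R251.SC735a
import Crest.Agent.R251.CS577B

/-!
# Line B (j2): the chamber system of a labelled polygonal complex is simply connected

`PData L` : the combinatorial data (edges with ends, polygons, connectedness of the links), with the
universal property of `G`.  Output: `Conn` and `SConn` for `L.cov`.
-/

set_option autoImplicit false

namespace Crest.Agent.R251.SC735

open Crest.Agent.R251.CS

variable {S : Sys} {G : Type} [Group G] (L : Lab S G)

/-- same vertex of type `i` -/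
def E1 (i : Fin 4) (x x' : S.Ch × G) : Prop := L.cov.fc {i} x = L.cov.fc {i} x'

/-- same edge of type `{i, j}` -/
def E2 (i j : Fin 4) (x x' : S.Ch × G) : Prop := L.cov.fc {i, j} x = L.cov.fc {i, j} x'

variable {L}

theorem E1.symm {i : Fin 4} {x x' : S.Ch × G} (h : E1 L i x x') : E1 L i x' x := Eq.symm h

theorem E1.trans {i : Fin 4} {x x' x'' : S.Ch × G} (h : E1 L i x x') (h' : E1 L i x' x'') :
    E1 L i x x'' := Eq.trans h h'

theorem E1.refl (i : Fin 4) (x : S.Ch × G) : E1 L i x x := Eq.refl _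

theorem E2.symm {i j : Fin 4} {x x' : S.Ch × G} (h : E2 L i j x x') : E2 L i j x' x := Eq.symm h

theorem E2.left {i j : Fin 4} {x x' : S.Ch × G} (h : E2 L i j x x') : E1 L i x x' :=
  L.cov.mono {i} {i, j} (by simp) (by simp) _ _ h

theorem E2.right {i j : Fin 4} {x x' : S.Ch × G} (h : E2 L i j x x') : E1 L j x x' :=
  L.cov.mono {j} {i, j} (by simp) (by simp) _ _ h

theorem E1_iff {i : Fin 4} {x x' : S.Ch × G} :
    E1 L i x x' ↔ S.fc {i} x.1 = S.fc {i} x'.1 ∧ x.2 * L.a {i} x.1 = x'.2 * L.a {i} x'.1 := by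
  unfold E1
  exact Prod.ext_iff

theorem E2_iff {i j : Fin 4} {x x' : S.Ch × G} :
    E2 L i j x x' ↔ S.fc {i, j} x.1 = S.fc {i, j} x'.1 ∧
      x.2 * L.a {i, j} x.1 = x'.2 * L.a {i, j} x'.1 := by
  unfold E2
  exact Prod.ext_iff

/-- lifting of an equality of faces -/
theorem lift {K J : Finset (Fin 4)} (hKJ : K ⊆ J) (hK : K.Nonempty) {x x' : S.Ch × G}
    (h : S.fc J x.1 = S.fc J x'.1) (hx : x.2 * L.a K x.1 = x'.2 * L.a K x'.1) :
    x.2 * L.a J x.1 = x'.2 * L.a J x'.1 := by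
  have h1 := congrArg (·⁻¹) (L.compat K J hKJ hK x.1 x'.1 h)
  simp only [mul_inv_rev, inv_inv] at h1
  calc x.2 * L.a J x.1 = x.2 * L.a K x.1 * ((L.a K x.1)⁻¹ * L.a J x.1) := by group
    _ = x'.2 * L.a K x'.1 * ((L.a K x'.1)⁻¹ * L.a J x'.1) := by rw [hx, h1]
    _ = x'.2 * L.a J x'.1 := by group

theorem E2_of_left {i j : Fin 4} {x x' : S.Ch × G} (h : S.fc {i, j} x.1 = S.fc {i, j} x'.1)
    (hx : x.2 * L.a {i} x.1 = x'.2 * L.a {i} x'.1) : E2 L i j x x' :=
  E2_iff.2 ⟨h, lift (K := {i}) (by simp) (by simp) h hx⟩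

theorem E2_of_right {i j : Fin 4} {x x' : S.Ch × G} (h : S.fc {i, j} x.1 = S.fc {i, j} x'.1)
    (hx : x.2 * L.a {j} x.1 = x'.2 * L.a {j} x'.1) : E2 L i j x x' :=
  E2_iff.2 ⟨h, lift (K := {j}) (by simp) (by simp) h hx⟩

variable (L)

/-- the combinatorial data -/
structure PData (ε Φ : Type) where
  /-- generators -/
  s : ε → G
  /-- edge type of a chamber -/
  ty : S.Ch → ε
  /-- is the corner the head of the edge? -/
  b : S.Ch → Bool
  /-- representatives at the tails -/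
  Pm : ε → S.Ch
  /-- representatives at the heads -/
  Pp : ε → S.Ch
  /-- number of sides of the polygons -/
  len : Φ → ℕ
  /-- chambers around a polygon -/
  X : Φ → ℕ → Bool → S.Ch
  /-- a base chamber -/
  C0 : S.Ch
  p0 : ∀ C C', S.fc {0} C = S.fc {0} C'
  p1 : ∀ C, L.a {0} C = L.a {1} C * (if b C then s (ty C) else 1)
  p2 : ∀ C C', S.fc {1} C = S.fc {1} C' ↔ ty C = ty C'
  p3 : ∀ C C', S.fc {1} C = S.fc {1} C' → b C = b C' → S.fc {0, 1} C = S.fc {0, 1} C'
  p4 : ∀ e, ty (Pm e) = e ∧ ty (Pp e) = e ∧ b (Pm e) = false ∧ b (Pp e) = true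
  h1 : ∀ φ, X φ (len φ) false = X φ 0 false
  h2 : ∀ φ k, k < len φ → S.fc {1, 2} (X φ k false) = S.fc {1, 2} (X φ k true) ∧
    L.a {2} (X φ k false) = L.a {2} (X φ k true)
  h3 : ∀ φ k, k < len φ → S.fc {0, 2} (X φ k true) = S.fc {0, 2} (X φ (k + 1) false) ∧
    L.a {2} (X φ k true) = L.a {2} (X φ (k + 1) false)
  h4 : ∀ φ k, k < len φ → b (X φ k true) = !b (X φ k false)
  gen : Subgroup.closure (Set.range s) = ⊤
  univ : ∀ (W : Type) [Group W] (f : ε → W),
    (∀ φ, ((List.range (len φ)).map fun k => if b (X φ k true) then f (ty (X φ k false)) else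
      (f (ty (X φ k false)))⁻¹).prod = 1) → ∃ F : G →* W, ∀ e, F (s e) = f e
  c2 : ∀ C C', S.fc {2} C = S.fc {2} C' → Relation.ReflTransGen
    (fun C C' => ∃ j : Fin 4, (j = 0 ∨ j = 1) ∧ S.fc {j, 2} C = S.fc {j, 2} C') C C'
  c3 : ∀ C C', S.fc {3} C = S.fc {3} C' → Relation.ReflTransGen
    (fun C C' => ∃ j : Fin 4, (j = 0 ∨ j = 1 ∨ j = 2) ∧ S.fc {j, 3} C = S.fc {j, 3} C') C C'

namespace PData

variable {L} {ε Φ : Type} (D : PData L ε Φ)

/-- the position of the `0`-vertex -/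
def pos (x : S.Ch × G) : G := x.2 * L.a {0} x.1

include D in
theorem E1_zero {x x' : S.Ch × G} : E1 L 0 x x' ↔ pos (L := L) x = pos (L := L) x' := by
  rw [E1_iff]
  exact ⟨fun h => h.2, fun h => ⟨D.p0 _ _, h⟩⟩

theorem pos_eq (x : S.Ch × G) : pos (L := L) x =
    x.2 * L.a {1} x.1 * (if D.b x.1 then D.s (D.ty x.1) else 1) := by
  unfold pos
  rw [D.p1, mul_assoc]

theorem E2_of_b {x x' : S.Ch × G} (h : E1 L 1 x x') (hb : D.b x.1 = D.b x'.1) :
    E2 L 0 1 x x' := by
  obtain ⟨h1, h2⟩ := E1_iff.1 h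
  exact E2_of_right (D.p3 _ _ h1 hb) h2

theorem pos_cross {x x' : S.Ch × G} (h : E1 L 1 x x') (hb : D.b x.1 = false)
    (hb' : D.b x'.1 = true) : pos (L := L) x * D.s (D.ty x.1) = pos (L := L) x' := by
  obtain ⟨h1, h2⟩ := E1_iff.1 h
  rw [D.pos_eq, D.pos_eq, hb, hb', h2, (D.p2 _ _).1 h1]
  simp

/-- the base chamber at the vertex `v` -/
def B (v : G) : S.Ch × G := (D.C0, v * (L.a {0} D.C0)⁻¹)

theorem pos_B (v : G) : pos (L := L) (D.B v) = v := by
  unfold pos B
  simp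

theorem E1_B {x : S.Ch × G} {v : G} (h : pos (L := L) x = v) : E1 L 0 (D.B v) x := by
  rw [D.E1_zero, pos_B, h]

/-- chamber at the tail of the edge `(v, e)` -/
def m (e : ε) (v : G) : S.Ch × G := (D.Pm e, v * (L.a {1} (D.Pm e))⁻¹)

/-- chamber at the head of the edge `(v, e)` -/
def q (e : ε) (v : G) : S.Ch × G := (D.Pp e, v * (L.a {1} (D.Pp e))⁻¹)

theorem E1_m_q (e : ε) (v : G) : E1 L 1 (D.m e v) (D.q e v) := by
  rw [E1_iff]
  refine ⟨(D.p2 _ _).2 ?_, ?_⟩
  · change D.ty (D.Pm e) = D.ty (D.Pp e)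
    rw [(D.p4 e).1, (D.p4 e).2.1]
  · change v * (L.a {1} (D.Pm e))⁻¹ * L.a {1} (D.Pm e) = v * (L.a {1} (D.Pp e))⁻¹ * L.a {1} (D.Pp e)
    simp

theorem pos_m (e : ε) (v : G) : pos (L := L) (D.m e v) = v := by
  rw [D.pos_eq]
  change v * (L.a {1} (D.Pm e))⁻¹ * L.a {1} (D.Pm e) * (if D.b (D.Pm e) then _ else 1) = v
  rw [(D.p4 e).2.2.1]
  simp

theorem pos_q (e : ε) (v : G) : pos (L := L) (D.q e v) = v * D.s e := by
  rw [D.pos_eq]
  change v * (L.a {1} (D.Pp e))⁻¹ * L.a {1} (D.Pp e) *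
    (if D.b (D.Pp e) then D.s (D.ty (D.Pp e)) else 1) = v * D.s e
  rw [(D.p4 e).2.2.2, (D.p4 e).2.1]
  simp

/-- a chamber at the tail of an edge is equivalent to `m` -/
theorem E1_m {x : S.Ch × G} (hb : D.b x.1 = false) :
    E1 L 1 (D.m (D.ty x.1) (pos (L := L) x)) x := by
  rw [E1_iff]
  refine ⟨(D.p2 _ _).2 (D.p4 _).1, ?_⟩
  rw [D.pos_eq x, hb]
  change x.2 * L.a {1} x.1 * (if false = true then _ else 1) * (L.a {1} (D.Pm _))⁻¹ *
    L.a {1} (D.Pm _) = _
  simp

/-! ### connectedness -/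

include D in
theorem conn : Conn (fun i (x : S.Ch × G) => L.cov.fc {i} x) := by
  intro P hP ⟨x, hx⟩ y
  have hB : ∀ z : S.Ch × G, P (D.B (pos (L := L) z)) ↔ P z := fun z =>
    ⟨fun h => hP 0 _ _ (D.E1_B rfl) h, fun h => hP 0 _ _ (D.E1_B rfl).symm h⟩
  have hs : ∀ e v, P (D.B v) ↔ P (D.B (v * D.s e)) := by
    intro e v
    have h1 := hB (D.m e v)
    have h2 := hB (D.q e v)
    rw [pos_m] at h1
    rw [pos_q] at h2
    rw [h1, h2]
    exact ⟨fun h => hP 1 _ _ (D.E1_m_q e v) h, fun h => hP 1 _ _ (D.E1_m_q e v).symm h⟩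
  have hall : ∀ w v, P (D.B v) ↔ P (D.B (v * w)) := by
    intro w
    have hw : w ∈ Subgroup.closure (Set.range D.s) := by rw [D.gen]; trivial
    refine Subgroup.closure_induction (p := fun w _ => ∀ v, P (D.B v) ↔ P (D.B (v * w)))
      ?_ ?_ ?_ ?_ hw
    · rintro _ ⟨e, rfl⟩ v
      exact hs e v
    · intro v; rw [mul_one]
    · intro a b _ _ ha hb v
      rw [ha v, hb (v * a), mul_assoc]
    · intro a _ ha v
      rw [ha (v * a⁻¹), inv_mul_cancel_right]
  have h1 := (hall ((pos (L := L) x)⁻¹ * pos (L := L) y) (pos (L := L) x)).1 ((hB x).2 hx)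
  rw [mul_inv_cancel_left] at h1
  exact (hB y).1 h1

/-! ### simple connectedness -/

section sconn

variable {Γ : Type} [Group Γ] (h : Fin 4 → S.Ch × G → S.Ch × G → Γ)

/-- the transition -/
def th (e : ε) (v : G) : Γ :=
  h 0 (D.B v) (D.m e v) * h 1 (D.m e v) (D.q e v) * h 0 (D.q e v) (D.B (v * D.s e))

/-- crossing an edge -/
def sg (e : ε) : Equiv.Perm (G × Γ) where
  toFun z := (z.1 * D.s e, z.2 * D.th h e z.1)
  invFun z := (z.1 * (D.s e)⁻¹, z.2 * (D.th h e (z.1 * (D.s e)⁻¹))⁻¹)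
  left_inv z := by
    obtain ⟨v, γ⟩ := z
    simp only [mul_inv_cancel_right]
  right_inv z := by
    obtain ⟨v, γ⟩ := z
    simp only [inv_mul_cancel_right]

theorem sg_apply (e : ε) (v : G) (γ : Γ) : D.sg h e (v, γ) = (v * D.s e, γ * D.th h e v) := rfl

variable (hcoc : ∀ i x x' x'', E1 L i x x' → E1 L i x' x'' → h i x x' * h i x' x'' = h i x x'')
  (hcom : ∀ i j x x', E2 L i j x x' → h i x x' = h j x x')

include hcoc in
theorem h_self (i : Fin 4) (x : S.Ch × G) : h i x x = 1 :=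
  mul_eq_left.1 (hcoc i x x x (E1.refl _ _) (E1.refl _ _))

include hcoc hcom in
/-- crossing with arbitrary chambers -/
theorem cross {x x' : S.Ch × G} (h1 : E1 L 1 x x') (hb : D.b x.1 = false) (hb' : D.b x'.1 = true) :
    D.th h (D.ty x.1) (pos (L := L) x) * h 0 (D.B (pos (L := L) x')) x' =
      h 0 (D.B (pos (L := L) x)) x * h 1 x x' := by
  have hm := D.E1_m hb
  have hmq := D.E1_m_q (D.ty x.1) (pos (L := L) x)
  have hbm : D.b (D.m (D.ty x.1) (pos (L := L) x)).1 = D.b x.1 := by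
    rw [hb]; exact (D.p4 _).2.2.1
  have hbq : D.b (D.q (D.ty x.1) (pos (L := L) x)).1 = D.b x'.1 := by
    rw [hb']; exact (D.p4 _).2.2.2
  have hqx : E1 L 1 (D.q (D.ty x.1) (pos (L := L) x)) x' := (hmq.symm.trans hm).trans h1
  have e1 := D.E2_of_b hm hbm
  have e2 := D.E2_of_b hqx hbq
  have hv : pos (L := L) x * D.s (D.ty x.1) = pos (L := L) x' := D.pos_cross h1 hb hb'
  unfold th
  rw [hv]
  set v := pos (L := L) x
  set v' := pos (L := L) x'
  set μ := D.m (D.ty x.1) v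
  set ν := D.q (D.ty x.1) v
  have hνB : E1 L 0 ν (D.B v') := (D.E1_B (by rw [D.pos_q, hv])).symm
  have a1 : h 0 ν (D.B v') * h 0 (D.B v') x' = h 1 ν x' := by
    rw [hcoc 0 ν (D.B v') x' hνB (D.E1_B rfl), hcom 0 1 ν x' e2]
  have a2 : h 0 (D.B v) x = h 0 (D.B v) μ * h 1 μ x := by
    rw [← hcom 0 1 μ x e1, hcoc 0 (D.B v) μ x (D.E1_B (D.pos_m _ _)) e1.left]
  rw [mul_assoc, a1, a2, mul_assoc, mul_assoc, hcoc 1 μ ν x' hmq hqx, hcoc 1 μ x x' hm h1]

theorem fold {W : Type} [Group W] {Z : Type} (T : W →* (Equiv.Perm Z)ᵐᵒᵖ) (g : ℕ → W) (z : ℕ → Z)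
    (n : ℕ) (hz : ∀ k < n, (T (g k)).unop (z k) = z (k + 1)) :
    (T ((List.range n).map g).prod).unop (z 0) = z n := by
  induction n with
  | zero => simp
  | succ n ih =>
    rw [List.range_succ, List.map_append, List.prod_append, map_mul, MulOpposite.unop_mul,
      Equiv.Perm.mul_apply, ih (fun k hk => hz k (by omega))]
    simpa using hz n (by omega)

include hcoc hcom in
/-- the polygons act trivially -/
theorem relator (φ : Φ) : ((List.range (D.len φ)).map fun k =>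
    if D.b (D.X φ k true) then MulOpposite.op (D.sg h (D.ty (D.X φ k false))) else
      (MulOpposite.op (D.sg h (D.ty (D.X φ k false))))⁻¹).prod = 1 := by
  apply MulOpposite.unop_injective
  ext1 ⟨v, γ⟩
  let g : G := v * (L.a {0} (D.X φ 0 false))⁻¹
  let x : ℕ → S.Ch × G := fun k => (D.X φ k false, g)
  let y : ℕ → S.Ch × G := fun k => (D.X φ k true, g)
  have hxy : ∀ k < D.len φ, E2 L 1 2 (x k) (y k) := by
    intro k hk
    obtain ⟨h1, h2⟩ := D.h2 φ k hk
    refine E2_of_right h1 ?_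
    change g * _ = g * _
    rw [h2]
  have hyx : ∀ k < D.len φ, E2 L 0 2 (y k) (x (k + 1)) := by
    intro k hk
    obtain ⟨h1, h2⟩ := D.h3 φ k hk
    refine E2_of_right h1 ?_
    change g * _ = g * _
    rw [h2]
  have hx0 : ∀ k ≤ D.len φ, E1 L 2 (x 0) (x k) := by
    intro k
    induction k with
    | zero => intro _; exact E1.refl _ _
    | succ k ih =>
      intro hk
      exact ((ih (by omega)).trans (hxy k (by omega)).right).trans (hyx k (by omega)).right
  let c : Γ := γ * h 0 (D.B v) (x 0)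
  let z : ℕ → G × Γ := fun k => (pos (L := L) (x k),
    c * h 2 (x 0) (x k) * (h 0 (D.B (pos (L := L) (x k))) (x k))⁻¹)
  have hpos0 : pos (L := L) (x 0) = v := by
    change v * (L.a {0} (D.X φ 0 false))⁻¹ * L.a {0} (D.X φ 0 false) = v
    simp
  have hz0 : z 0 = (v, γ) := by
    simp only [z]
    rw [hpos0, h_self h hcoc]
    simp [c]
  have hzn : z (D.len φ) = (v, γ) := by
    have hx : x (D.len φ) = x 0 := by
      simp only [x]
      rw [D.h1]
    rw [← hz0]
    simp only [z]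
    rw [hx]
  have hstep : ∀ k < D.len φ, (MonoidHom.id _ (if D.b (D.X φ k true) then
      MulOpposite.op (D.sg h (D.ty (D.X φ k false))) else
      (MulOpposite.op (D.sg h (D.ty (D.X φ k false))))⁻¹)).unop (z k) = z (k + 1) := by
    intro k hk
    have hyp : pos (L := L) (y k) = pos (L := L) (x (k + 1)) := D.E1_zero.1 (hyx k hk).left
    -- values at `y k`
    have hval : c * h 2 (x 0) (x (k + 1)) *
        (h 0 (D.B (pos (L := L) (x (k + 1)))) (x (k + 1)))⁻¹ *
        h 0 (D.B (pos (L := L) (y k))) (y k) = c * h 2 (x 0) (y k) := by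
      have e1 : h 0 (D.B (pos (L := L) (x (k + 1)))) (x (k + 1)) =
          h 0 (D.B (pos (L := L) (y k))) (y k) * h 2 (y k) (x (k + 1)) := by
        rw [← hcom 0 2 _ _ (hyx k hk), ← hyp, hcoc 0 _ _ _ (D.E1_B rfl) (hyx k hk).left]
      have e2 : h 2 (x 0) (x (k + 1)) = h 2 (x 0) (y k) * h 2 (y k) (x (k + 1)) :=
        (hcoc 2 _ _ _ ((hx0 k hk.le).trans (hxy k hk).right) (hyx k hk).right).symm
      rw [e1, e2]
      group
    by_cases hb : D.b (D.X φ k true) = true
    · rw [MonoidHom.id_apply, if_pos hb, MulOpposite.unop_op]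
      have hb' : D.b (x k).1 = false := by
        have := D.h4 φ k hk
        rw [hb] at this
        change D.b (D.X φ k false) = false
        cases h0 : D.b (D.X φ k false) with
        | false => rfl
        | true => rw [h0] at this; simp at this
      have hcr := D.cross h hcoc hcom (hxy k hk).left hb' hb
      have hps := D.pos_cross (hxy k hk).left hb' hb
      change D.sg h (D.ty (x k).1) (z k) = _
      rw [show z k = (pos (L := L) (x k),
        c * h 2 (x 0) (x k) * (h 0 (D.B (pos (L := L) (x k))) (x k))⁻¹) from rfl, sg_apply]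
      refine Prod.ext ?_ ?_
      · change pos (L := L) (x k) * D.s (D.ty (x k).1) = pos (L := L) (x (k + 1))
        rw [hps, hyp]
      · change c * h 2 (x 0) (x k) * (h 0 (D.B (pos (L := L) (x k))) (x k))⁻¹ *
          D.th h (D.ty (x k).1) (pos (L := L) (x k)) =
          c * h 2 (x 0) (x (k + 1)) * (h 0 (D.B (pos (L := L) (x (k + 1)))) (x (k + 1)))⁻¹
        rw [← mul_left_inj (h 0 (D.B (pos (L := L) (y k))) (y k)), hval, mul_assoc, hcr,
          ← hcoc 2 _ _ _ (hx0 k hk.le) (hxy k hk).right, hcom 1 2 _ _ (hxy k hk)]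
        group
    · rw [MonoidHom.id_apply, if_neg hb]
      have hb1 : D.b (y k).1 = false := by simpa using hb
      have hb2 : D.b (x k).1 = true := by
        have := D.h4 φ k hk
        change D.b (D.X φ k false) = true
        cases h0 : D.b (D.X φ k false) with
        | true => rfl
        | false => rw [h0] at this; exact absurd this hb
      have hcr := D.cross h hcoc hcom (hxy k hk).left.symm hb1 hb2
      have hps := D.pos_cross (hxy k hk).left.symm hb1 hb2
      have hty : D.ty (y k).1 = D.ty (x k).1 :=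
        ((D.p2 _ _).1 (E1_iff.1 (hxy k hk).left).1).symm
      change (D.sg h (D.ty (x k).1))⁻¹ (z k) = z (k + 1)
      rw [Equiv.Perm.inv_eq_iff_eq]
      rw [show z (k + 1) = (pos (L := L) (x (k + 1)), c * h 2 (x 0) (x (k + 1)) *
        (h 0 (D.B (pos (L := L) (x (k + 1)))) (x (k + 1)))⁻¹) from rfl, sg_apply]
      symm
      refine Prod.ext ?_ ?_
      · change pos (L := L) (x (k + 1)) * D.s (D.ty (x k).1) = pos (L := L) (x k)
        rw [← hyp, ← hty, hps]
      · change c * h 2 (x 0) (x (k + 1)) * (h 0 (D.B (pos (L := L) (x (k + 1)))) (x (k + 1)))⁻¹ *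
          D.th h (D.ty (x k).1) (pos (L := L) (x (k + 1))) =
          c * h 2 (x 0) (x k) * (h 0 (D.B (pos (L := L) (x k))) (x k))⁻¹
        rw [hty, hyp] at hcr
        rw [hyp] at hval
        rw [← mul_left_inj (h 0 (D.B (pos (L := L) (x k))) (x k)), mul_assoc _ (D.th h _ _), hcr,
          ← mul_assoc, hval, inv_mul_cancel_right,
          hcom 1 2 _ _ (E2.symm (hxy k hk)), mul_assoc,
          hcoc 2 _ _ _ ((hx0 k hk.le).trans (hxy k hk).right) (hxy k hk).right.symm]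
  have := fold (MonoidHom.id _) _ z (D.len φ) hstep
  rw [hz0, hzn, MonoidHom.id_apply] at this
  rw [this]
  rfl

/-- extension of the relation along chains -/
theorem ext_chain {κ : S.Ch × G → Γ} (J0 : Fin 4 → Prop) (i : Fin 4)
    (hJ : ∀ j, J0 j → ∀ x x', E1 L j x x' → κ x * h j x x' = κ x')
    (hcoc : ∀ i x x' x'', E1 L i x x' → E1 L i x' x'' → h i x x' * h i x' x'' = h i x x'')
    (hcom : ∀ i j x x', E2 L i j x x' → h i x x' = h j x x')
    (hc : ∀ C C', S.fc {i} C = S.fc {i} C' → Relation.ReflTransGen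
      (fun C C' => ∃ j : Fin 4, J0 j ∧ S.fc {j, i} C = S.fc {j, i} C') C C')
    (x x' : S.Ch × G) (hx : E1 L i x x') : κ x * h i x x' = κ x' := by
  obtain ⟨h1, h2⟩ := E1_iff.1 hx
  have key : ∀ C', Relation.ReflTransGen
      (fun C C' => ∃ j : Fin 4, J0 j ∧ S.fc {j, i} C = S.fc {j, i} C') x.1 C' →
      ∀ g', x.2 * L.a {i} x.1 = g' * L.a {i} C' →
      E1 L i x (C', g') ∧ κ x * h i x (C', g') = κ (C', g') := by
    intro C' hC'
    induction hC' with
    | refl =>
      intro g' hg'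
      have : g' = x.2 := (mul_right_cancel hg').symm
      subst this
      exact ⟨E1.refl _ _, by
        change κ x * h i x x = κ x
        rw [h_self h hcoc, mul_one]⟩
    | @tail D1 D2 _ hstep ih =>
      intro g' hg'
      obtain ⟨j, hj, hf⟩ := hstep
      obtain ⟨e1, e2⟩ := ih (x.2 * L.a {i} x.1 * (L.a {i} D1)⁻¹) (by simp)
      have e3 : E2 L j i (D1, x.2 * L.a {i} x.1 * (L.a {i} D1)⁻¹) (D2, g') := by
        refine E2_of_right hf ?_
        change x.2 * L.a {i} x.1 * (L.a {i} D1)⁻¹ * L.a {i} D1 = g' * L.a {i} D2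
        rw [inv_mul_cancel_right, hg']
      refine ⟨e1.trans e3.right, ?_⟩
      rw [← hcoc i _ _ _ e1 e3.right, ← mul_assoc, e2, ← hcom j i _ _ e3]
      exact hJ j hj _ _ e3.left
  exact (key x'.1 (hc _ _ h1) x'.2 h2).2

end sconn

include D in
/-- **simple connectedness of the chamber system** -/
theorem sconn : SConn (fun i (x : S.Ch × G) => L.cov.fc {i} x)
    (fun i j (x : S.Ch × G) => L.cov.fc {i, j} x) := by
  intro Γ _ h hcoc hcom'
  have hcom : ∀ i j x x', E2 L i j x x' → h i x x' = h j x x' :=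
    fun i j x x' hx => hcom' i j x x' hx.left hx.right hx
  obtain ⟨F, hF⟩ := D.univ (Equiv.Perm (G × Γ))ᵐᵒᵖ (fun e => MulOpposite.op (D.sg h e))
    (fun φ => D.relator h hcoc hcom φ)
  have hfst : ∀ v u γ, ((F v).unop (u, γ)).1 = u * v := by
    intro v
    have hv : v ∈ Subgroup.closure (Set.range D.s) := by rw [D.gen]; trivial
    refine Subgroup.closure_induction (p := fun v _ => ∀ u γ, ((F v).unop (u, γ)).1 = u * v)
      ?_ ?_ ?_ ?_ hv
    · rintro _ ⟨e, rfl⟩ u γ
      rw [hF, MulOpposite.unop_op, sg_apply]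
    · intro u γ; simp
    · intro a b _ _ ha hb u γ
      rw [map_mul, MulOpposite.unop_mul, Equiv.Perm.mul_apply]
      have h1 := ha u γ
      have h2 := hb ((F a).unop (u, γ)).1 ((F a).unop (u, γ)).2
      rw [Prod.mk.eta] at h2
      rw [h2, h1, mul_assoc]
    · intro a _ ha u γ
      have h1 := ha ((F a⁻¹).unop (u, γ)).1 ((F a⁻¹).unop (u, γ)).2
      rw [Prod.mk.eta, ← Equiv.Perm.mul_apply, ← MulOpposite.unop_mul, ← map_mul,
        inv_mul_cancel, map_one] at h1
      simp only [MulOpposite.unop_one, Equiv.Perm.one_apply] at h1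
      exact eq_mul_inv_of_mul_eq h1.symm
  let Ψ : G → Γ := fun v => ((F v).unop (1, 1)).2
  have hpt : ∀ v, (F v).unop (1, 1) = (v, Ψ v) := fun v =>
    Prod.ext (by rw [hfst, one_mul]) rfl
  have hΨ : ∀ v e, Ψ (v * D.s e) = Ψ v * D.th h e v := by
    intro v e
    change ((F (v * D.s e)).unop (1, 1)).2 = _
    rw [map_mul, MulOpposite.unop_mul, Equiv.Perm.mul_apply, hpt, hF, MulOpposite.unop_op,
      sg_apply]
  let κ : S.Ch × G → Γ := fun x => Ψ (pos (L := L) x) * h 0 (D.B (pos (L := L) x)) x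
  have k0 : ∀ x x', E1 L 0 x x' → κ x * h 0 x x' = κ x' := by
    intro x x' hx
    have hp := D.E1_zero.1 hx
    change Ψ (pos (L := L) x) * h 0 (D.B (pos (L := L) x)) x * h 0 x x' =
      Ψ (pos (L := L) x') * h 0 (D.B (pos (L := L) x')) x'
    rw [mul_assoc, hcoc 0 _ _ _ (D.E1_B rfl) hx, hp]
  have kc : ∀ x x', E1 L 1 x x' → D.b x.1 = false → D.b x'.1 = true →
      κ x * h 1 x x' = κ x' := by
    intro x x' hx hb hb'
    have h1 := D.cross h hcoc hcom hx hb hb'
    have h2 := D.pos_cross hx hb hb'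
    change Ψ (pos (L := L) x) * h 0 (D.B (pos (L := L) x)) x * h 1 x x' =
      Ψ (pos (L := L) x') * h 0 (D.B (pos (L := L) x')) x'
    rw [mul_assoc, ← h1, ← mul_assoc, ← hΨ, h2]
  have k1 : ∀ x x', E1 L 1 x x' → κ x * h 1 x x' = κ x' := by
    intro x x' hx
    cases hb : D.b x.1 <;> cases hb' : D.b x'.1
    · have e := D.E2_of_b hx (hb.trans hb'.symm)
      rw [← hcom 0 1 _ _ e]
      exact k0 _ _ e.left
    · exact kc x x' hx hb hb'
    · rw [← kc x' x hx.symm hb' hb, mul_assoc, hcoc 1 _ _ _ hx.symm hx, h_self h hcoc, mul_one]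
    · have e := D.E2_of_b hx (hb.trans hb'.symm)
      rw [← hcom 0 1 _ _ e]
      exact k0 _ _ e.left
  have k2 : ∀ x x', E1 L 2 x x' → κ x * h 2 x x' = κ x' := by
    refine ext_chain h (fun j => j = 0 ∨ j = 1) 2 ?_ hcoc hcom D.c2
    rintro j (rfl | rfl)
    · exact k0
    · exact k1
  have k3 : ∀ x x', E1 L 3 x x' → κ x * h 3 x x' = κ x' := by
    refine ext_chain h (fun j => j = 0 ∨ j = 1 ∨ j = 2) 3 ?_ hcoc hcom D.c3
    rintro j (rfl | rfl | rfl)
    · exact k0
    · exact k1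
    · exact k2
  refine ⟨κ, fun i x x' hx => ?_⟩
  have hx' : E1 L i x x' := hx
  fin_cases i
  · exact k0 x x' hx'
  · exact k1 x x' hx'
  · exact k2 x x' hx'
  · exact k3 x x' hx'

end PData

end Crest.Agent.R251.SC735
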