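import Crest.Agent.R251.CS577B
import Crest.Agent.R251.SC735a

/-! Row 251, LINE B, block (j1') (helper613): 735's generic criterion for 577's chamber systems.

`sc_of_chambers`: the realization of a (combinatorially) connected and simply connected chamber
system is simply connected. -/

set_option autoImplicit false

open Set Topology
open scoped unitInterval

namespace Crest.Agent.R251.SCL

open CS SC735

variable {S : Sys}

/-- the contraction of an open star -/
theorem contractible_W (J : Finset (Fin 4)) (hJ : J.Nonempty) (C : S.Ch) :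
    ContractibleSpace (Sys.W J (S.fc J C) : Set S.R) := by
  have hU : ∀ y : (Sys.W J (S.fc J C) : Set S.R), (y : S.R) ∈ (Sys.U J : Set S.R) :=
    fun y => Sys.mem_U_iff.2 ⟨_, y.2⟩
  have hm : ∀ (y : (Sys.W J (S.fc J C) : Set S.R)) (t : I),
      Sys.ctr J hJ (y : S.R) t ∈ (Sys.W J (S.fc J C) : Set S.R) :=
    fun y t => Sys.ctr_mem_W J hJ (Finset.Subset.refl J) hJ (hU y) y.2 t
  have hc : Continuous fun p : I × (Sys.W J (S.fc J C) : Set S.R) =>
      Sys.ctr J hJ (p.2 : S.R) p.1 := by
    have h1 := Sys.continuousOn_ctr' (S := S) J hJ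
    have h2 : Continuous fun p : I × (Sys.W J (S.fc J C) : Set S.R) =>
        ((p.2 : S.R), p.1) := by fun_prop
    exact h1.comp_continuous h2 fun p => ⟨hU p.2, mem_univ _⟩
  have hpt : (Sys.pt C (bar J hJ) : S.R) ∈ (Sys.W J (S.fc J C) : Set S.R) := by
    rw [Sys.pt_mem_W hJ, supp_bar]
    exact ⟨Finset.Subset.refl _, rfl⟩
  rw [contractible_iff_id_nullhomotopic]
  refine ⟨⟨Sys.pt C (bar J hJ), hpt⟩, ⟨?_⟩⟩
  exact
    { toFun := fun p => ⟨Sys.ctr J hJ (p.2 : S.R) p.1, hm p.2 p.1⟩
      continuous_toFun := hc.subtype_mk _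
      map_zero_left := fun y => Subtype.ext (Sys.ctr_zero J hJ (hU y))
      map_one_left := fun y => Subtype.ext (Sys.ctr_one J hJ rfl y.2) }

theorem isPathConnected_W (J : Finset (Fin 4)) (hJ : J.Nonempty) (C : S.Ch) :
    IsPathConnected (Sys.W J (S.fc J C) : Set S.R) := by
  have := contractible_W J hJ C
  exact isPathConnected_iff_pathConnectedSpace.2 inferInstance

/-- a path in a set as a path in the subtype -/
def liftPath {X : Type*} [TopologicalSpace X] {A : Set X} {x y : X} (p : Path x y)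
    (h : ∀ t, p t ∈ A) (hx : x ∈ A) (hy : y ∈ A) : Path (⟨x, hx⟩ : A) ⟨y, hy⟩ where
  toFun := fun t => ⟨p t, h t⟩
  continuous_toFun := p.continuous.subtype_mk _
  source' := Subtype.ext p.source
  target' := Subtype.ext p.target

/-- open stars are thin -/
theorem thin_W (J : Finset (Fin 4)) (hJ : J.Nonempty) (α : S.F J) :
    Thin (Sys.W J α : Set S.R) := by
  intro x y p q hp hq
  have hx : x ∈ (Sys.W J α : Set S.R) := by simpa using hp 0
  have hy : y ∈ (Sys.W J α : Set S.R) := by simpa using hp 1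
  obtain ⟨C, rfl⟩ : ∃ C, S.fc J C = α := by
    obtain ⟨C, z, -, -, h⟩ := hx
    exact ⟨C, h⟩
  have := contractible_W J hJ C
  have h1 : (liftPath p hp hx hy).Homotopic (liftPath q hq hx hy) :=
    SimplyConnectedSpace.paths_homotopic _ _
  have h2 := h1.map ⟨Subtype.val, continuous_subtype_val⟩
  exact h2

theorem W_mono {K J : Finset (Fin 4)} (hK : K ⊆ J) (hK' : K.Nonempty) (C : S.Ch) :
    (Sys.W J (S.fc J C) : Set S.R) ⊆ Sys.W K (S.fc K C) := by
  intro y hy
  obtain ⟨C', x, rfl⟩ := Sys.exists_pt y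
  rw [Sys.pt_mem_W (hK'.mono hK)] at hy
  rw [Sys.pt_mem_W hK']
  exact ⟨hK.trans hy.1, S.mono _ _ hK hK' _ _ hy.2⟩

/-- 735's chamber data of a chamber system -/
noncomputable def cdata (S : Sys) :
    CData S.R (Fin 4) S.Ch (fun i => S.F {i}) (fun i j => S.F {i, j}) where
  fc1 i := S.fc {i}
  fc2 i j := S.fc {i, j}
  st i α := Sys.W {i} α
  se i j e := Sys.W {i, j} e
  bc C := Sys.pt C (bar Finset.univ Finset.univ_nonempty)
  st_open i v := Sys.isOpen_W (Finset.singleton_nonempty i) v
  thin i v := thin_W _ (Finset.singleton_nonempty i) v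
  st_pc i C := isPathConnected_W _ (Finset.singleton_nonempty i) C
  se_pc i j C := isPathConnected_W _ (Finset.insert_nonempty i {j}) C
  se_le i j C := fun y hy =>
    ⟨W_mono (by simp) (Finset.singleton_nonempty i) C hy,
      W_mono (by simp) (Finset.singleton_nonempty j) C hy⟩
  bc_mem i j C := by
    rw [Sys.pt_mem_W (Finset.insert_nonempty i {j}), supp_bar]
    exact ⟨Finset.subset_univ _, rfl⟩
  ex i j C C' y hi hj := by
    obtain ⟨D, x, rfl⟩ := Sys.exists_pt y
    rw [Sys.pt_mem_W (Finset.singleton_nonempty i)] at hi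
    rw [Sys.pt_mem_W (Finset.singleton_nonempty j)] at hj
    refine ⟨D, hi.2, hj.2, ?_⟩
    rw [Sys.pt_mem_W (Finset.insert_nonempty i {j})]
    refine ⟨?_, rfl⟩
    rw [Finset.insert_subset_iff]
    exact ⟨hi.1 (Finset.mem_singleton_self i), hj.1⟩
  cover y := by
    obtain ⟨D, x, rfl⟩ := Sys.exists_pt y
    obtain ⟨i, hi⟩ := supp_nonempty x
    refine ⟨i, D, ?_⟩
    rw [Sys.pt_mem_W (Finset.singleton_nonempty i)]
    exact ⟨Finset.singleton_subset_iff.2 hi, rfl⟩

/-- **the realization of a connected and simply connected chamber system is simply connected** -/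
theorem sc_of_sys (S : Sys) [hne : Nonempty S.Ch]
    (hconn : Conn (K := Fin 4) (V1 := fun i => S.F {i}) fun i => S.fc {i})
    (hs : SConn (K := Fin 4) (V1 := fun i => S.F {i}) (V2 := fun i j => S.F {i, j})
      (fun i => S.fc {i}) (fun i j => S.fc {i, j})) : SimplyConnectedSpace S.R :=
  (cdata S).simplyConnected hne hconn hs

variable {G : Type} [Group G]

/-- **(j1')** the same for the covering chamber system of a labelled chamber system -/
theorem sc_of_chambers (L : Lab S G) [hne : Nonempty S.Ch]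
    (hconn : Conn (K := Fin 4) (Cc := S.Ch × G) (V1 := fun i => S.F {i} × G)
      fun i C => (S.fc {i} C.1, C.2 * L.a {i} C.1))
    (hs : SConn (K := Fin 4) (Cc := S.Ch × G) (V1 := fun i => S.F {i} × G)
      (V2 := fun i j => S.F {i, j} × G)
      (fun i C => (S.fc {i} C.1, C.2 * L.a {i} C.1))
      (fun i j C => (S.fc {i, j} C.1, C.2 * L.a {i, j} C.1))) : SimplyConnectedSpace L.E :=
  (cdata L.cov).simplyConnected ⟨(hne.some, (1 : G))⟩ hconn hs

end Crest.Agent.R251.SCL
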