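import Crest.Agent.R251.SC735b
import Crest.Agent.R251.CS577C
import Crest.Agent.R251.SCL613

/-!
# Line B (j2): the universal cover `EB` is simply connected

The instance of `PData` for the labelled chamber system `XL` of helper577.
-/

set_option autoImplicit false

namespace Crest.Agent.R251.SC735

open Crest.Agent.R251.CS

/-! ### faces -/

theorem code_single {i : Fin 4} {C C' : Cham} :
    XS.fc {i} C = XS.fc {i} C' ↔ code {i} C = code {i} C' := by
  rw [fc_eq_iff]
  constructor
  · intro h
    exact h {i} (Finset.Subset.refl _) (Finset.singleton_nonempty i)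
  · intro h K hK hK'
    rcases Finset.subset_singleton_iff.1 hK with rfl | rfl
    · exact absurd hK' (by simp)
    · exact h

theorem sub_pair {i j : Fin 4} {K : Finset (Fin 4)} (hK : K ⊆ {i, j}) (hK' : K.Nonempty) :
    K = {i} ∨ K = {j} ∨ K = {i, j} := by
  revert i j K
  decide

theorem code_pair {i j : Fin 4} {C C' : Cham} :
    XS.fc {i, j} C = XS.fc {i, j} C' ↔
      code {i} C = code {i} C' ∧ code {j} C = code {j} C' ∧ code {i, j} C = code {i, j} C' := by
  rw [fc_eq_iff]
  constructor
  · intro h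
    exact ⟨h {i} (by simp) (by simp), h {j} (by simp) (by simp), h {i, j} (by simp) (by simp)⟩
  · rintro ⟨h1, h2, h3⟩ K hK hK'
    rcases sub_pair hK hK' with rfl | rfl | rfl
    · exact h1
    · exact h2
    · exact h3

/-! ### the types of edges -/

set_option maxRecDepth 100000 in
theorem ed_lt : ∀ C : Cham, ed (c2 C.1) C.2.1 < 3 := by decide

/-- edge type of a chamber -/
def tyB (C : Cham) : Fin 3 := ⟨ed (c2 C.1) C.2.1, ed_lt C⟩

/-- generators -/
def sB (e : Fin 3) : GB := genN e.1

theorem sB_eq (e : Fin 3) : sB e = gen e := by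
  fin_cases e <;> rfl

/-- representative faces -/
def repF : Fin 4 → Fin 13 := ![5, 1, 0, 7]

/-- chambers around a 2-cell -/
def XF (φ : Fin 4) (k : ℕ) (z : Bool) : Cham := (repF φ, Fin.ofNat 6 k, z)

/-- the root of a chamber for the relation `{2}` -/
def root2 (C : Cham) : Cham := (repF (Fin.ofNat 4 (c2 C.1)), 0, false)

/-- parents for the relation `{2}` -/
def par2 (C : Cham) : Cham :=
  if C.2.2 then (C.1, C.2.1, false) else
    if C.2.1 = 0 then (repF (Fin.ofNat 4 (c2 C.1)), 0, false) else (C.1, C.2.1 - 1, true)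

/-- the root of a chamber for the relation `{3}` -/
def root3 (C : Cham) : Cham := if C.1.1 < 6 then (0, 0, false) else (6, 0, false)

/-- for each face, the side of exit -/
def exS : List ℕ := [0, 4, 3, 2, 3, 0, 0, 0, 0, 4, 4, 2, 3]

/-- for each face, the chamber on the next face -/
def exC : List Cham :=
  [(0, 0, false), (0, 0, false), (0, 0, false), (0, 0, false), (0, 0, false), (0, 0, false),
   (6, 0, false), (6, 0, false), (6, 2, false), (6, 0, false), (9, 3, false), (9, 3, false),
   (9, 3, false)]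

/-- parents for the relation `{3}` -/
def par3 (C : Cham) : Cham :=
  if C.2.1.1 = exS.getD C.1.1 0 ∧ C.2.2 = false then exC.getD C.1.1 (0, 0, false)
  else (C.1, Fin.ofNat 6 (exS.getD C.1.1 0), false)

set_option maxRecDepth 100000 in
theorem par2_step : ∀ C : Cham, (code {0} C = code {0} (par2 C) ∧ code {2} C = code {2} (par2 C) ∧
      code {0, 2} C = code {0, 2} (par2 C)) ∨
    (code {1} C = code {1} (par2 C) ∧ code {2} C = code {2} (par2 C) ∧
      code {1, 2} C = code {1, 2} (par2 C)) := by decide +kernel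

set_option maxRecDepth 100000 in
theorem par2_root : ∀ C : Cham, par2^[13] C = root2 C := by decide +kernel

set_option maxRecDepth 100000 in
theorem par3_step : ∀ C : Cham, (code {0} C = code {0} (par3 C) ∧ code {3} C = code {3} (par3 C) ∧
      code {0, 3} C = code {0, 3} (par3 C)) ∨
    (code {1} C = code {1} (par3 C) ∧ code {3} C = code {3} (par3 C) ∧
      code {1, 3} C = code {1, 3} (par3 C)) ∨
    (code {2} C = code {2} (par3 C) ∧ code {3} C = code {3} (par3 C) ∧
      code {2, 3} C = code {2, 3} (par3 C)) := by decide +kernel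

set_option maxRecDepth 100000 in
theorem par3_root : ∀ C : Cham, par3^[8] C = root3 C := by decide +kernel

/-- following the parents -/
theorem chain_iter (R : Cham → Cham → Prop) (par : Cham → Cham) (h : ∀ C, R C (par C)) (n : ℕ)
    (C : Cham) : Relation.ReflTransGen R C (par^[n] C) := by
  induction n with
  | zero => exact Relation.ReflTransGen.refl
  | succ n ih =>
    rw [Function.iterate_succ_apply']
    exact ih.tail (h _)

theorem chain_root (R : Cham → Cham → Prop) (hR : ∀ C C', R C C' → R C' C) (par : Cham → Cham)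
    (h : ∀ C, R C (par C)) (n : ℕ) (C C' : Cham) (he : par^[n] C = par^[n] C') :
    Relation.ReflTransGen R C C' := by
  refine (chain_iter R par h n C).trans ?_
  rw [he]
  have hsym : ∀ D D', Relation.ReflTransGen R D D' → Relation.ReflTransGen R D' D := by
    intro D D' hD
    induction hD with
    | refl => exact Relation.ReflTransGen.refl
    | tail _ h ih => exact Relation.ReflTransGen.head (hR _ _ h) ih
  exact hsym _ _ (chain_iter R par h n C')

theorem conn2 (C C' : Cham) (h : XS.fc {2} C = XS.fc {2} C') : Relation.ReflTransGen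
    (fun C C' => ∃ j : Fin 4, (j = 0 ∨ j = 1) ∧ XS.fc {j, 2} C = XS.fc {j, 2} C') C C' := by
  refine chain_root _ ?_ par2 ?_ 13 C C' ?_
  · rintro C C' ⟨j, hj, h⟩
    exact ⟨j, hj, h.symm⟩
  · intro C
    rcases par2_step C with h | h
    · exact ⟨0, Or.inl rfl, code_pair.2 h⟩
    · exact ⟨1, Or.inr rfl, code_pair.2 h⟩
  · rw [par2_root, par2_root]
    have h1 : c2 C.1 = c2 C'.1 := congrArg Prod.fst (code_single.1 h)
    unfold root2
    rw [h1]

theorem conn3 (C C' : Cham) (h : XS.fc {3} C = XS.fc {3} C') : Relation.ReflTransGen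
    (fun C C' => ∃ j : Fin 4, (j = 0 ∨ j = 1 ∨ j = 2) ∧ XS.fc {j, 3} C = XS.fc {j, 3} C')
    C C' := by
  refine chain_root _ ?_ par3 ?_ 8 C C' ?_
  · rintro C C' ⟨j, hj, h⟩
    exact ⟨j, hj, h.symm⟩
  · intro C
    rcases par3_step C with h | h | h
    · exact ⟨0, Or.inl rfl, code_pair.2 h⟩
    · exact ⟨1, Or.inr (Or.inl rfl), code_pair.2 h⟩
    · exact ⟨2, Or.inr (Or.inr rfl), code_pair.2 h⟩
  · rw [par3_root, par3_root]
    have h1 : c3 C.1 = c3 C'.1 := congrArg Prod.fst (code_single.1 h)
    unfold c3 at h1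
    unfold root3
    by_cases h2 : C.1.1 < 6 <;> by_cases h3 : C'.1.1 < 6
    · rw [if_pos h2, if_pos h3]
    · rw [if_pos h2, if_neg h3] at h1
      exact absurd h1 (by decide)
    · rw [if_neg h2, if_pos h3] at h1
      exact absurd h1 (by decide)
    · rw [if_neg h2, if_neg h3]

/-! ### the polygons -/

theorem poly2 : ∀ (φ : Fin 4) (k : Fin 6),
    code {1} (XF φ k false) = code {1} (XF φ k true) ∧
    code {2} (XF φ k false) = code {2} (XF φ k true) ∧
    code {1, 2} (XF φ k false) = code {1, 2} (XF φ k true) := by decide +kernel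

theorem poly3 : ∀ (φ : Fin 4) (k : Fin 6),
    code {0} (XF φ k true) = code {0} (XF φ (k.1 + 1) false) ∧
    code {2} (XF φ k true) = code {2} (XF φ (k.1 + 1) false) ∧
    code {0, 2} (XF φ k true) = code {0, 2} (XF φ (k.1 + 1) false) := by decide +kernel

theorem poly4 : ∀ (φ : Fin 4) (k : Fin 6), eb (XF φ k true) = !eb (XF φ k false) := by
  decide +kernel

/-! ### the group -/

theorem gen_closure : Subgroup.closure (Set.range sB) = ⊤ := by
  have h : Set.range sB = Set.range (PresentedGroup.of (rels := rels)) := by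
    ext x
    constructor
    · rintro ⟨e, rfl⟩
      exact ⟨e, (sB_eq e).symm⟩
    · rintro ⟨e, rfl⟩
      exact ⟨e, sB_eq e⟩
  rw [h]
  exact PresentedGroup.closure_range_of rels

theorem ty0 : ∀ k : Fin 6, tyB (XF 0 k false) = 0 ∧ eb (XF 0 k true) = true := by decide +kernel

theorem univB (W : Type) [Group W] (f : Fin 3 → W)
    (h : ∀ φ : Fin 4, ((List.range 6).map fun k => if eb (XF φ k true) then f (tyB (XF φ k false)) else
      (f (tyB (XF φ k false)))⁻¹).prod = 1) : ∃ F : GB →* W, ∀ e, F (sB e) = f e := by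
  have h0 : f 0 ^ 6 = 1 := by
    have := h 0
    have e : ((List.range 6).map fun k => if eb (XF 0 k true) then f (tyB (XF 0 k false)) else
      (f (tyB (XF 0 k false)))⁻¹) = [f 0, f 0, f 0, f 0, f 0, f 0] := rfl
    rw [e] at this
    rw [← this]
    simp [pow_succ, mul_assoc]
  have h1 : f 1 ^ 6 = 1 := by
    have := h 1
    have e : ((List.range 6).map fun k => if eb (XF 1 k true) then f (tyB (XF 1 k false)) else
      (f (tyB (XF 1 k false)))⁻¹) = [f 1, f 1, f 1, f 1, f 1, f 1] := rfl
    rw [e] at this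
    rw [← this]
    simp [pow_succ, mul_assoc]
  have h2 : f 0 ^ 3 * (f 1 ^ 3)⁻¹ = 1 := by
    have := h 2
    have e : ((List.range 6).map fun k => if eb (XF 2 k true) then f (tyB (XF 2 k false)) else
      (f (tyB (XF 2 k false)))⁻¹) = [f 0, f 0, f 0, (f 1)⁻¹, (f 1)⁻¹, (f 1)⁻¹] := rfl
    rw [e] at this
    rw [← this]
    simp [pow_succ, mul_assoc]
  have h3 : f 2 * f 0 ^ 2 * (f 2)⁻¹ * (f 1 ^ 2)⁻¹ = 1 := by
    have := h 3
    have e : ((List.range 6).map fun k => if eb (XF 3 k true) then f (tyB (XF 3 k false)) else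
      (f (tyB (XF 3 k false)))⁻¹) = [f 2, f 0, f 0, (f 2)⁻¹, (f 1)⁻¹, (f 1)⁻¹] := rfl
    rw [e] at this
    rw [← this]
    simp [pow_succ, mul_assoc]
  have hr : ∀ r ∈ rels, FreeGroup.lift f r = 1 := by
    intro r hr
    simp only [rels, Set.mem_insert_iff, Set.mem_singleton_iff] at hr
    rcases hr with rfl | rfl | rfl | rfl
    · rw [map_pow, FreeGroup.lift_apply_of, h0]
    · rw [map_pow, FreeGroup.lift_apply_of, h1]
    · rw [map_mul, map_inv, map_pow, map_pow, FreeGroup.lift_apply_of, FreeGroup.lift_apply_of, h2]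
    · rw [map_mul, map_mul, map_mul, map_inv, map_inv, map_pow, map_pow, FreeGroup.lift_apply_of,
        FreeGroup.lift_apply_of, FreeGroup.lift_apply_of, h3]
  refine ⟨PresentedGroup.toGroup hr, fun e => ?_⟩
  rw [sB_eq]
  exact PresentedGroup.toGroup.of hr

/-! ### the instance -/

theorem p4B : ∀ e : Fin 3, tyB (![(5, 0, false), (1, 0, false), (7, 0, false)] e) = e ∧
    tyB (![(5, 0, true), (1, 0, true), (7, 0, true)] e) = e ∧
    eb (![(5, 0, false), (1, 0, false), (7, 0, false)] e) = false ∧
    eb (![(5, 0, true), (1, 0, true), (7, 0, true)] e) = true := by decide +kernel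

theorem code_one_iff (C C' : Cham) : code {1} C = code {1} C' ↔ tyB C = tyB C' := by
  constructor
  · intro h
    exact Fin.ext (congrArg Prod.fst h)
  · intro h
    have h1 : ed (c2 C.1) C.2.1 = ed (c2 C'.1) C'.2.1 := congrArg Fin.val h
    change (ed (c2 C.1) C.2.1, 0, 0) = (ed (c2 C'.1) C'.2.1, 0, 0)
    rw [h1]

theorem code_zero (C C' : Cham) : code {0} C = code {0} C' := rfl

/-- the data for `XL` -/
def dataB : PData XL (Fin 3) (Fin 4) where
  s := sB
  ty := tyB
  b := eb
  Pm := ![(5, 0, false), (1, 0, false), (7, 0, false)]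
  Pp := ![(5, 0, true), (1, 0, true), (7, 0, true)]
  len := fun _ => 6
  X := XF
  C0 := (0, 0, false)
  p0 := fun C C' => code_single.2 (code_zero C C')
  p1 := fun C => pos_sv_eb C
  p2 := fun C C' => code_single.trans (code_one_iff C C')
  p3 := by
    intro C C' h hb
    have h1 := code_single.1 h
    refine code_pair.2 ⟨code_zero C C', h1, ?_⟩
    have h2 : ed (c2 C.1) C.2.1 = ed (c2 C'.1) C'.2.1 := congrArg Prod.fst h1
    change (ed (c2 C.1) C.2.1, (eb C).toNat, 0) = (ed (c2 C'.1) C'.2.1, (eb C').toNat, 0)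
    rw [h2, hb]
  p4 := p4B
  h1 := fun φ => rfl
  h2 := fun φ k hk => ⟨code_pair.2 (poly2 φ ⟨k, hk⟩), rfl⟩
  h3 := fun φ k hk => ⟨code_pair.2 (poly3 φ ⟨k, hk⟩), rfl⟩
  h4 := fun φ k hk => poly4 φ ⟨k, hk⟩
  gen := gen_closure
  univ := fun W _ f h => univB W f h
  c2 := conn2
  c3 := conn3

instance : Nonempty XS.Ch := ⟨((0, 0, false) : Cham)⟩

/-- **(j)** the universal cover is simply connected -/
theorem simplyConnectedSpace_EB : SimplyConnectedSpace EB :=
  SCL.sc_of_chambers XL dataB.conn dataB.sconn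

end Crest.Agent.R251.SC735
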