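import Mathlib

/-!
# Row 251, block B2(b) (helper796): homotopy classes of paths from an open cover

`gen`: a class of homotopy classes of paths which contains the (corrected) pieces of an open cover
contains everything.
-/

set_option autoImplicit false

open Set unitInterval Topology

namespace Crest.Agent.R251.SC

open Path.Homotopic.Quotient

/-- homotopy classes of paths -/
abbrev PQ {X : Type*} [TopologicalSpace X] (x y : X) : Type _ := Path.Homotopic.Quotient x y

section gen

variable {W : Type*} [TopologicalSpace W]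

/-- auxiliary: `γ` with free endpoints -/
theorem gen_aux {ι : Sort*} (c : ι → Set W) (hc : ∀ i, IsOpen (c i)) (hcov : ∀ p, ∃ i, p ∈ c i)
    (A : ∀ p q : W, PQ p q → Prop) (hA : ∀ p, ∃ q, ∃ δ : PQ p q, A p q δ)
    (S : ∀ x y : W, PQ x y → Prop)
    (hS : ∀ x y z (a : PQ x y) (b : PQ y z), S x y a → S y z b → S x z (a.trans b))
    (h : ∀ i x y (γ : Path x y), (∀ s, γ s ∈ c i) → ∀ x' y' (δ : PQ x x') (ε : PQ y y'),
      A x x' δ → A y y' ε → S x' y' ((symm δ).trans ((mk γ).trans ε)))
    (f : C(I, W)) {x' y' : W} (δ : PQ (f 0) x') (ε : PQ (f 1) y') (hδ : A _ _ δ) (hε : A _ _ ε) :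
    S x' y' ((symm δ).trans ((mk (⟨f, rfl, rfl⟩ : Path (f 0) (f 1))).trans ε)) := by
  obtain ⟨t, t0, tm, ⟨n, hn⟩, ht⟩ := exists_monotone_Icc_subset_open_cover_unitInterval
    (c := fun i => f ⁻¹' c i) (fun i => (hc i).preimage f.continuous)
    (fun s _ => by
      obtain ⟨i, hi⟩ := hcov (f s)
      exact mem_iUnion.2 ⟨i, hi⟩)
  set γ : Path (f 0) (f 1) := ⟨f, rfl, rfl⟩ with hγ
  have key : ∀ k : ℕ, ∀ (z : W) (ζ : PQ (γ (t k)) z), A _ _ ζ → ∀ (w : W) (ω : PQ (γ (t 0)) w),
      A _ _ ω → S w z ((symm ω).trans ((mk (γ.subpath (t 0) (t k))).trans ζ)) := by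
    intro k
    induction k with
    | zero =>
      intro z ζ hζ w ω hω
      obtain ⟨i, hi⟩ := hcov (γ (t 0))
      have := h i (γ (t 0)) (γ (t 0)) (γ.subpath (t 0) (t 0)) (fun s => by
        rw [Path.subpath_self]; exact hi) w z ω ζ hω hζ
      exact this
    | succ k ih =>
      intro z ζ hζ w ω hω
      obtain ⟨m, μ, hμ⟩ := hA (γ (t k))
      have h1 := ih m μ hμ w ω hω
      obtain ⟨i, hi⟩ := ht k
      have h2 := h i (γ (t k)) (γ (t (k + 1))) (γ.subpath (t k) (t (k + 1))) (fun s => by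
        have : γ.subpath (t k) (t (k + 1)) s ∈ range (γ.subpath (t k) (t (k + 1))) := ⟨s, rfl⟩
        rw [Path.range_subpath_of_le _ _ _ (tm (Nat.le_succ k))] at this
        obtain ⟨u, hu, hu2⟩ := this
        rw [← hu2]
        exact hi hu) m z μ ζ hμ hζ
      have h3 := hS _ _ _ _ _ h1 h2
      have e : mk (γ.subpath (t 0) (t (k + 1))) =
          (mk (γ.subpath (t 0) (t k))).trans (mk (γ.subpath (t k) (t (k + 1)))) := by
        rw [← mk_trans, Path.Homotopic.Quotient.eq]
        exact ⟨(Path.Homotopy.subpathTransSubpath γ _ _ _).symm⟩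
      rw [e]
      have e2 : (symm ω).trans (((mk (γ.subpath (t 0) (t k))).trans
          (mk (γ.subpath (t k) (t (k + 1))))).trans ζ) =
        ((symm ω).trans ((mk (γ.subpath (t 0) (t k))).trans μ)).trans
          ((symm μ).trans ((mk (γ.subpath (t k) (t (k + 1)))).trans ζ)) := by
        simp only [trans_assoc]
        congr 2
        rw [← trans_assoc μ, trans_symm, refl_trans]
      rw [e2]
      exact h3
  have k1 := key n
  rw [hn n le_rfl, t0] at k1
  have k2 := k1 y' ε hε x' δ hδ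
  rw [Path.subpath_zero_one] at k2
  exact k2

/-- a class of homotopy classes of paths which contains the (corrected) pieces of an open cover
contains all (corrected) paths -/
theorem gen {ι : Sort*} (c : ι → Set W) (hc : ∀ i, IsOpen (c i)) (hcov : ∀ p, ∃ i, p ∈ c i)
    (A : ∀ p q : W, PQ p q → Prop) (hA : ∀ p, ∃ q, ∃ δ : PQ p q, A p q δ)
    (S : ∀ x y : W, PQ x y → Prop)
    (hS : ∀ x y z (a : PQ x y) (b : PQ y z), S x y a → S y z b → S x z (a.trans b))
    (h : ∀ i x y (γ : Path x y), (∀ s, γ s ∈ c i) → ∀ x' y' (δ : PQ x x') (ε : PQ y y'),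
      A x x' δ → A y y' ε → S x' y' ((symm δ).trans ((mk γ).trans ε)))
    {x y : W} (γ : Path x y) {x' y' : W} (δ : PQ x x') (ε : PQ y y') (hδ : A _ _ δ) (hε : A _ _ ε) :
    S x' y' ((symm δ).trans ((mk γ).trans ε)) := by
  obtain ⟨f, rfl, rfl⟩ := γ
  exact gen_aux c hc hcov A hA S hS h f δ ε hδ hε

end gen

end Crest.Agent.R251.SC
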