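import Crest.Agent.R251.SC796R

/-!
# Row 251, block B2(b) (helper796): the Cayley complex is simply connected

`sc_Z3`: if the relators `wd j` normally generate the kernel of `FreeGroup ι → G`, then
`Z3 gen wd hwd` is simply connected.  `sc_Z4`: so is `Z4 f`.
-/

set_option autoImplicit false
set_option linter.unusedSectionVars false

open Set unitInterval Topology Metric

namespace Crest.Agent.R251.SC

open Path.Homotopic.Quotient
open Crest.Agent.R185.Att Crest.Agent.R185.Base Crest.Agent.R251.Mod

section final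

variable {G : Type} [Group G] {ι : Type} (gen : ι → G)

/-- translation of word paths, pointwise -/
theorem wpath_smul (l : List (ι × Bool)) : ∀ (g h : G) (t : I),
    wpath gen (g * h) l t = g • wpath gen h l t := by
  induction l with
  | nil =>
    intro g h t
    rfl
  | cons a l ih =>
    intro g h t
    obtain ⟨i, b⟩ := a
    cases b
    · show ((((edge gen (g * h * (gen i)⁻¹) i).symm.cast _ rfl).trans
        (wpath gen (g * h * (gen i)⁻¹) l)).cast rfl _) t =
        g • ((((edge gen (h * (gen i)⁻¹) i).symm.cast _ rfl).trans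
        (wpath gen (h * (gen i)⁻¹) l)).cast rfl _) t
      rw [Path.cast_coe, Path.cast_coe, Path.trans_apply, Path.trans_apply]
      split_ifs with ht
      · rw [Path.cast_coe, Path.cast_coe, Path.symm_apply, Path.symm_apply]
        show chr (φ1 gen) (g * h * (gen i)⁻¹) i _ = g • chr (φ1 gen) (h * (gen i)⁻¹) i _
        rw [smul_chr, mul_assoc]
      · have := ih g (h * (gen i)⁻¹)
        rw [← mul_assoc] at this
        exact this _
    · show (((edge gen (g * h) i).trans (wpath gen (g * h * gen i) l)).cast rfl _) t =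
        g • (((edge gen h i).trans (wpath gen (h * gen i) l)).cast rfl _) t
      rw [Path.cast_coe, Path.cast_coe, Path.trans_apply, Path.trans_apply]
      split_ifs with ht
      · show chr (φ1 gen) (g * h) i _ = g • chr (φ1 gen) h i _
        rw [smul_chr]
      · have := ih g (h * gen i)
        rw [← mul_assoc] at this
        exact this _

variable {κ : Type} (wd : κ → List (ι × Bool)) (hwd : ∀ j, val gen (wd j) = 1)

/-- the class of a word path in the Cayley complex -/
noncomputable def w3 (g h : G) (l : List (ι × Bool)) (e : g * val gen l = h) :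
    PQ (i2 gen wd hwd (v gen g)) (i2 gen wd hwd (v gen h)) := (wc gen g h l e).map (i2 gen wd hwd)

theorem w3_rel (g : G) (j : κ) (e : g * val gen (wd j) = g) :
    w3 gen wd hwd g g (wd j) e = Path.Homotopic.Quotient.refl _ := by
  -- the boundary loop of the cell
  let β : Path (sd 2 (cr 0)) (sd 2 (cr 0)) :=
    ⟨⟨fun t : I => sd 2 (cr t), (sd 2).continuous.comp (continuous_cr.comp continuous_subtype_val)⟩,
      rfl, by
        show sd 2 (cr ((1 : I) : ℝ)) = sd 2 (cr 0)
        congr 1
        have := cpath.target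
        rw [cpath_apply] at this
        exact this⟩
  have h1 : mk β = Path.Homotopic.Quotient.refl _ := Subsingleton.elim _ _
  have hval : ∀ t : I, cell2 gen wd hwd g j (β t) =
      i2 gen wd hwd (wpath gen g (wd j) t) := by
    intro t
    show cell2 gen wd hwd g j (sd 2 (cr t)) = _
    rw [cell2_sd, circ_cr]
    show i2 gen wd hwd (g • wpath gen 1 (wd j) t) = _
    rw [← wpath_smul, mul_one]
  have e0 : i2 gen wd hwd (v gen g) = cell2 gen wd hwd g j (sd 2 (cr 0)) := by
    have := hval 0
    rw [β.source, (wpath gen g (wd j)).source] at this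
    exact this.symm
  have e1 : i2 gen wd hwd (v gen g) = cell2 gen wd hwd g j (sd 2 (cr 0)) := e0
  have e2 : w3 gen wd hwd g g (wd j) e = ((mk β).map (cell2 gen wd hwd g j)).cast e0 e1 := by
    have hp : w3 gen wd hwd g g (wd j) e =
        mk ((((wpath gen g (wd j)).cast rfl (by rw [e])).map (i2 gen wd hwd).continuous :
          Path (i2 gen wd hwd (v gen g)) (i2 gen wd hwd (v gen g)))) := rfl
    rw [hp]
    exact mk_eq_cast e0 e1 _ (β.map (cell2 gen wd hwd g j).continuous) fun s => (hval s).symm
  rw [e2, h1, map_refl', cast_refl]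

theorem w3_append (l l' : List (ι × Bool)) (g h k : G) (e1 : g * val gen l = h)
    (e2 : h * val gen l' = k) (e : g * val gen (l ++ l') = k) :
    w3 gen wd hwd g k (l ++ l') e = (w3 gen wd hwd g h l e1).trans (w3 gen wd hwd h k l' e2) := by
  unfold w3
  rw [wc_append gen l l' g h k e1 e2 e, map_trans']

theorem w3_eq_of_mk {l l' : List (ι × Bool)} (hl : FreeGroup.mk l = FreeGroup.mk l') (g h : G)
    (e : g * val gen l = h) (e' : g * val gen l' = h) :
    w3 gen wd hwd g h l e = w3 gen wd hwd g h l' e' := by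
  unfold w3
  rw [wc_eq_of_mk gen hl g h e e']

theorem w3_nil (g : G) (e : g * val gen [] = g) :
    w3 gen wd hwd g g [] e = Path.Homotopic.Quotient.refl _ := by
  unfold w3
  rw [wc_nil, map_refl']

/-- the elements of the free group with null-homotopic path -/
def NK : Subgroup (FreeGroup ι) where
  carrier := {w | FreeGroup.lift gen w = 1 ∧ ∀ (l : List (ι × Bool)), FreeGroup.mk l = w →
    ∀ (g : G) (e : g * val gen l = g), w3 gen wd hwd g g l e = Path.Homotopic.Quotient.refl _}
  mul_mem' := by
    rintro a b ⟨ha, ha'⟩ ⟨hb, hb'⟩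
    refine ⟨by rw [map_mul, ha, hb, one_mul], ?_⟩
    intro l hl g e
    obtain ⟨la, rfl⟩ := Quot.exists_rep a
    obtain ⟨lb, rfl⟩ := Quot.exists_rep b
    have hla : val gen la = 1 := by rw [val_eq]; exact ha
    have hlb : val gen lb = 1 := by rw [val_eq]; exact hb
    have e1 : g * val gen la = g := by rw [hla, mul_one]
    have e2 : g * val gen lb = g := by rw [hlb, mul_one]
    have e3 : g * val gen (la ++ lb) = g := by rw [val_append, hla, hlb, mul_one, mul_one]
    have hl' : FreeGroup.mk l = FreeGroup.mk (la ++ lb) := by rw [hl, ← FreeGroup.mul_mk]; rfl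
    rw [w3_eq_of_mk gen wd hwd hl' g g e e3, w3_append gen wd hwd la lb g g g e1 e2 e3,
      ha' la rfl g e1, hb' lb rfl g e2, refl_trans]
  one_mem' := by
    refine ⟨map_one _, ?_⟩
    intro l hl g e
    have e1 : g * val gen [] = g := by rw [val, mul_one]
    have hl' : FreeGroup.mk l = FreeGroup.mk [] := hl
    rw [w3_eq_of_mk gen wd hwd hl' g g e e1, w3_nil]
  inv_mem' := by
    rintro a ⟨ha, ha'⟩
    refine ⟨by rw [map_inv, ha, inv_one], ?_⟩
    intro l hl g e
    obtain ⟨la, rfl⟩ := Quot.exists_rep a
    have hla : val gen la = 1 := by rw [val_eq]; exact ha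
    have hll : val gen l = 1 := by rw [val_eq, hl, map_inv, ha, inv_one]
    have e1 : g * val gen la = g := by rw [hla, mul_one]
    have e3 : g * val gen (la ++ l) = g := by rw [val_append, hla, hll, mul_one, mul_one]
    have e4 : g * val gen [] = g := by rw [val, mul_one]
    have hl' : FreeGroup.mk (la ++ l) = FreeGroup.mk [] := by
      rw [← FreeGroup.mul_mk, hl]
      exact mul_inv_cancel _
    have h1 := w3_append gen wd hwd la l g g g e1 e e3
    rw [w3_eq_of_mk gen wd hwd hl' g g e3 e4, w3_nil, ha' la rfl g e1, refl_trans] at h1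
    exact h1.symm

theorem NK_normal : (NK gen wd hwd).Normal := by
  refine ⟨?_⟩
  rintro a ⟨ha, ha'⟩ b
  refine ⟨by rw [map_mul, map_mul, ha, mul_one, ← map_mul, mul_inv_cancel, map_one], ?_⟩
  intro l hl g e
  obtain ⟨la, rfl⟩ := Quot.exists_rep a
  obtain ⟨lb, rfl⟩ := Quot.exists_rep b
  obtain ⟨lc, hlc⟩ := Quot.exists_rep ((FreeGroup.mk lb)⁻¹ : FreeGroup ι)
  have hla : val gen la = 1 := by rw [val_eq]; exact ha
  have hlc' : FreeGroup.mk lc = (FreeGroup.mk lb)⁻¹ := hlc
  have hbc : val gen lb * val gen lc = 1 := by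
    rw [val_eq, val_eq, ← map_mul, hlc', mul_inv_cancel, map_one]
  set k := g * val gen lb with hk
  have e1 : g * val gen lb = k := rfl
  have e2 : k * val gen la = k := by rw [hla, mul_one]
  have e3 : k * val gen lc = g := by rw [hk, mul_assoc, hbc, mul_one]
  have e4 : g * val gen (lb ++ la) = k := by rw [val_append, hla, mul_one]
  have e5 : g * val gen ((lb ++ la) ++ lc) = g := by rw [val_append, ← mul_assoc, e4, e3]
  have e6 : g * val gen (lb ++ lc) = g := by rw [val_append, hbc, mul_one]
  have e7 : g * val gen [] = g := by rw [val, mul_one]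
  have h1 : FreeGroup.mk l = FreeGroup.mk ((lb ++ la) ++ lc) := by
    rw [hl, ← FreeGroup.mul_mk, ← FreeGroup.mul_mk, hlc']
    rfl
  have h2 : FreeGroup.mk (lb ++ lc) = FreeGroup.mk [] := by
    rw [← FreeGroup.mul_mk, hlc']
    exact mul_inv_cancel _
  rw [w3_eq_of_mk gen wd hwd h1 g g e e5, w3_append gen wd hwd (lb ++ la) lc g k g e4 e3 e5,
    w3_append gen wd hwd lb la g k k e1 e2 e4, ha' la rfl k e2, trans_refl,
    ← w3_append gen wd hwd lb lc g k g e1 e3 e6, w3_eq_of_mk gen wd hwd h2 g g e6 e7, w3_nil]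

theorem rel_mem_NK (j : κ) : FreeGroup.mk (wd j) ∈ NK gen wd hwd := by
  refine ⟨by rw [← val_eq, hwd], ?_⟩
  intro l hl g e
  have e1 : g * val gen (wd j) = g := by rw [hwd, mul_one]
  rw [w3_eq_of_mk gen wd hwd hl g g e e1, w3_rel]

/-- **(R)** the Cayley complex is simply connected -/
theorem sc_Z3 (hgen : Function.Surjective (FreeGroup.lift gen))
    (hker : ∀ w : FreeGroup ι, FreeGroup.lift gen w = 1 →
      w ∈ Subgroup.normalClosure (Set.range fun j => FreeGroup.mk (wd j))) :
    SimplyConnectedSpace (Z3 gen wd hwd) := by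
  haveI := pathConnected_Z2 gen hgen
  haveI := NK_normal gen wd hwd
  have hN : Subgroup.normalClosure (Set.range fun j => FreeGroup.mk (wd j)) ≤ NK gen wd hwd := by
    apply Subgroup.normalClosure_le_normal
    rintro _ ⟨j, rfl⟩
    exact rel_mem_NK gen wd hwd j
  refine sc_att (φ := φ2 gen wd hwd) (G := G) le_rfl (v gen 1) fun γ => ?_
  obtain ⟨l, e, hl⟩ := wcl_of_path gen γ
  have hv : FreeGroup.lift gen (FreeGroup.mk l) = 1 := by rw [← val_eq]; simpa using e
  have h1 := (hN (hker _ hv)).2 l rfl 1 e
  rw [← Path.Homotopic.Quotient.eq]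
  have h2 : mk (γ.map (continuous_inZ (φ := φ2 gen wd hwd) (G := G))) =
      (mk γ).map (i2 gen wd hwd) := rfl
  rw [h2, hl]
  exact h1

/-- the 3-complex is simply connected -/
theorem sc_Z4 {gen : ι → G} {wd : κ → List (ι × Bool)} {hwd : ∀ j, val gen (wd j) = 1}
    (hgen : Function.Surjective (FreeGroup.lift gen))
    (hker : ∀ w : FreeGroup ι, FreeGroup.lift gen w = 1 →
      w ∈ Subgroup.normalClosure (Set.range fun j => FreeGroup.mk (wd j)))
    (f : C(S 3, Z3 gen wd hwd)) : SimplyConnectedSpace (Z4 f) := by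
  haveI := sc_Z3 gen wd hwd hgen hker
  exact sc_of_sc (φ := φ3 f) (G := G) (by norm_num)

end final

end Crest.Agent.R251.SC
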