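import Crest.Agent.R251.SC796P
import Crest.Agent.R251.Mod19

/-!
# Row 251, block B2(b) (helper796): words and paths in the Cayley graph

`wc`: the class of the edge path of a word between two vertices.
-/

set_option autoImplicit false
set_option linter.unusedSectionVars false

open Set unitInterval Topology Metric

namespace Crest.Agent.R251.SC

open Path.Homotopic.Quotient
open Crest.Agent.R185.Att Crest.Agent.R185.Base Crest.Agent.R251.Mod

theorem cast_trans_cast {X : Type*} [TopologicalSpace X] {x y z x' y' z' : X} (a : PQ x y)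
    (b : PQ y z) (hx : x' = x) (hy : y' = y) (hz : z' = z) :
    (a.cast hx hy).trans (b.cast hy hz) = (a.trans b).cast hx hz := by
  subst hx hy hz
  simp

theorem cast_symm {X : Type*} [TopologicalSpace X] {x y x' y' : X} (a : PQ x y)
    (hx : x' = x) (hy : y' = y) : (a.cast hx hy).symm = a.symm.cast hy hx := by
  subst hx hy
  simp

theorem refl_symm' {X : Type*} [TopologicalSpace X] (x : X) :
    (Path.Homotopic.Quotient.refl x).symm = Path.Homotopic.Quotient.refl x := by
  rw [← mk_refl, ← mk_symm, Path.refl_symm]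

section words

variable {G : Type} [Group G] {ι : Type} (gen : ι → G)

theorem v_inj {g h : G} (e : v gen g = v gen h) : g = h := v1_inj (inZ_injective e)

theorem val_append (l l' : List (ι × Bool)) : val gen (l ++ l') = val gen l * val gen l' := by
  rw [val_eq, val_eq, val_eq, ← map_mul, FreeGroup.mul_mk]

/-- class of the edge -/
noncomputable def ed (g h : G) (i : ι) (e : g * gen i = h) : PQ (v gen g) (v gen h) :=
  (mk (edge gen g i)).cast rfl (by rw [e])

/-- class of the word path -/
noncomputable def wc (g h : G) (l : List (ι × Bool)) (e : g * val gen l = h) :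
    PQ (v gen g) (v gen h) :=
  (mk (wpath gen g l)).cast rfl (by rw [e])

theorem wc_nil (g : G) (e : g * val gen [] = g) :
    wc gen g g [] e = Path.Homotopic.Quotient.refl _ := by
  unfold wc
  show (mk ((Path.refl _).cast rfl _)).cast rfl _ = _
  rw [mk_cast, Path.Homotopic.Quotient.cast_cast]
  rfl

theorem wc_cons_true (g h k : G) (i : ι) (l : List (ι × Bool)) (e1 : g * gen i = k)
    (e2 : k * val gen l = h) (e : g * val gen ((i, true) :: l) = h) :
    wc gen g h ((i, true) :: l) e = (ed gen g k i e1).trans (wc gen k h l e2) := by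
  subst e1 e2
  unfold wc ed
  show (mk ((((edge gen g i).trans (wpath gen (g * gen i) l)).cast rfl _))).cast rfl _ = _
  rw [mk_cast, Path.Homotopic.Quotient.cast_cast, mk_trans, cast_rfl_rfl, cast_rfl_rfl]
  rfl

theorem wc_cons_false (g h k : G) (i : ι) (l : List (ι × Bool)) (e1 : k * gen i = g)
    (e2 : k * val gen l = h) (e : g * val gen ((i, false) :: l) = h) :
    wc gen g h ((i, false) :: l) e = (ed gen k g i e1).symm.trans (wc gen k h l e2) := by
  obtain rfl : k = g * (gen i)⁻¹ := eq_mul_inv_of_mul_eq e1
  subst e2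
  unfold wc ed
  show (mk ((((edge gen (g * (gen i)⁻¹) i).symm.cast _ rfl).trans
    (wpath gen (g * (gen i)⁻¹) l)).cast rfl _)).cast rfl _ = _
  rw [mk_cast, Path.Homotopic.Quotient.cast_cast, mk_trans, mk_cast, cast_symm, mk_symm]
  have := cast_trans_cast ((mk (edge gen (g * (gen i)⁻¹) i)).symm.cast (by rw [e1]) rfl)
    (mk (wpath gen (g * (gen i)⁻¹) l)) rfl rfl rfl
  rw [cast_rfl_rfl] at this ⊢
  rfl

theorem wc_append (l l' : List (ι × Bool)) : ∀ (g h k : G) (e1 : g * val gen l = h)
    (e2 : h * val gen l' = k) (e : g * val gen (l ++ l') = k),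
    wc gen g k (l ++ l') e = (wc gen g h l e1).trans (wc gen h k l' e2) := by
  induction l with
  | nil =>
    intro g h k e1 e2 e
    obtain rfl : g = h := by rw [← e1, val, mul_one]
    rw [wc_nil, refl_trans]; rfl
  | cons a l ih =>
    intro g h k e1 e2 e
    obtain ⟨i, b⟩ := a
    cases b
    · have e3 : g * (gen i)⁻¹ * gen i = g := inv_mul_cancel_right _ _
      have e4 : g * (gen i)⁻¹ * val gen l = h := by rw [← e1, val, mul_assoc]
      have e5 : g * (gen i)⁻¹ * val gen (l ++ l') = k := by
        rw [val_append, ← mul_assoc, e4, e2]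
      rw [wc_cons_false gen g h _ i l e3 e4 e1]
      show wc gen g k ((i, false) :: (l ++ l')) e = _
      rw [wc_cons_false gen g k _ i (l ++ l') e3 e5 e, ih _ _ _ e4 e2 e5, trans_assoc]
    · have e4 : g * gen i * val gen l = h := by rw [← e1, val, mul_assoc]
      have e5 : g * gen i * val gen (l ++ l') = k := by
        rw [val_append, ← mul_assoc, e4, e2]
      rw [wc_cons_true gen g h _ i l rfl e4 e1]
      show wc gen g k ((i, true) :: (l ++ l')) e = _
      rw [wc_cons_true gen g k _ i (l ++ l') rfl e5 e, ih _ _ _ e4 e2 e5, trans_assoc]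

theorem val_pair (i : ι) (b : Bool) (l : List (ι × Bool)) :
    val gen ((i, b) :: (i, !b) :: l) = val gen l := by
  cases b <;> simp [val]

theorem wc_cancel (g h : G) (i : ι) (b : Bool) (l : List (ι × Bool))
    (e : g * val gen ((i, b) :: (i, !b) :: l) = h) (e' : g * val gen l = h) :
    wc gen g h ((i, b) :: (i, !b) :: l) e = wc gen g h l e' := by
  cases b
  · have e3 : g * (gen i)⁻¹ * gen i = g := inv_mul_cancel_right _ _
    have e5 : g * (gen i)⁻¹ * val gen ((i, !false) :: l) = h := by
      rw [← e, val, mul_assoc]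
    rw [wc_cons_false gen g h _ i _ e3 e5 e]
    rw [show wc gen (g * (gen i)⁻¹) h ((i, !false) :: l) e5 =
      (ed gen (g * (gen i)⁻¹) g i e3).trans (wc gen g h l e') from
      wc_cons_true gen _ h g i l e3 e' e5]
    rw [← trans_assoc, symm_trans, refl_trans]
  · have e5 : g * gen i * val gen ((i, !true) :: l) = h := by
      rw [← e, val, mul_assoc]
    rw [wc_cons_true gen g h _ i _ rfl e5 e]
    rw [show wc gen (g * gen i) h ((i, !true) :: l) e5 =
      (ed gen g (g * gen i) i rfl).symm.trans (wc gen g h l e') from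
      wc_cons_false gen _ h g i l rfl e' e5]
    rw [← trans_assoc, trans_symm, refl_trans]

theorem wc_step {l l' : List (ι × Bool)} (hs : FreeGroup.Red.Step l l') (g h : G)
    (e : g * val gen l = h) (e' : g * val gen l' = h) : wc gen g h l e = wc gen g h l' e' := by
  cases hs with
  | @not L₁ L₂ i b =>
    have e1 : g * val gen L₁ * val gen L₂ = h := by rw [mul_assoc, ← val_append, e']
    have e2 : g * val gen L₁ * val gen ((i, b) :: (i, !b) :: L₂) = h := by
      rw [mul_assoc, ← val_append, e]
    rw [wc_append gen L₁ _ g _ h rfl e2 e, wc_append gen L₁ L₂ g _ h rfl e1 e',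
      wc_cancel gen _ h i b L₂ e2 e1]

theorem wc_red {l l' : List (ι × Bool)} (hs : FreeGroup.Red l l') : ∀ (g h : G)
    (e : g * val gen l = h) (e' : g * val gen l' = h), wc gen g h l e = wc gen g h l' e' := by
  induction hs with
  | refl => intro g h e e'; rfl
  | @tail b c h1 h2 ih =>
    intro g h e e'
    have e2 : g * val gen b = h := by
      rw [← e', val_eq, val_eq, FreeGroup.Red.exact.2 ⟨c, FreeGroup.Red.Step.to_red h2, .refl⟩]
    rw [ih g h e e2, wc_step gen h2 g h e2 e']

/-- the class depends only on the element of the free group -/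
theorem wc_eq_of_mk {l l' : List (ι × Bool)} (hl : FreeGroup.mk l = FreeGroup.mk l') (g h : G)
    (e : g * val gen l = h) (e' : g * val gen l' = h) : wc gen g h l e = wc gen g h l' e' := by
  obtain ⟨c, h1, h2⟩ := FreeGroup.Red.exact.1 hl
  have e2 : g * val gen c = h := by
    rw [← e, val_eq, val_eq, FreeGroup.Red.exact.2 ⟨_, h1, .refl⟩]
  rw [wc_red gen h1 g h e e2, wc_red gen h2 g h e' e2]

end words

end Crest.Agent.R251.SC
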