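import Crest.Agent.R251.SC796Q

/-!
# Row 251, block B2(b) (helper796): every path between vertices of the Cayley graph is a word path
-/

set_option autoImplicit false
set_option linter.unusedSectionVars false

open Set unitInterval Topology Metric

namespace Crest.Agent.R251.SC

open Path.Homotopic.Quotient
open Crest.Agent.R185.Att Crest.Agent.R185.Base Crest.Agent.R251.Mod

section aux

variable {X Y : Type*} [TopologicalSpace X] [TopologicalSpace Y]

theorem map_trans' {x y z : X} (f : C(X, Y)) (a : PQ x y) (b : PQ y z) :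
    (a.trans b).map f = (a.map f).trans (b.map f) := by
  induction a using Path.Homotopic.Quotient.ind with | mk a =>
  induction b using Path.Homotopic.Quotient.ind with | mk b =>
  show mk ((a.trans b).map f.continuous) = _
  rw [Path.map_trans]
  rfl

theorem map_symm' {x y : X} (f : C(X, Y)) (a : PQ x y) : a.symm.map f = (a.map f).symm := by
  induction a using Path.Homotopic.Quotient.ind with | mk a => rfl

theorem map_refl' (x : X) (f : C(X, Y)) :
    (Path.Homotopic.Quotient.refl x).map f = Path.Homotopic.Quotient.refl (f x) := rfl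

theorem cast_refl {x x' : X} (h : x' = x) :
    (Path.Homotopic.Quotient.refl x).cast h h = Path.Homotopic.Quotient.refl x' := by
  subst h; simp

theorem mk_eq_cast {x y x' y' : X} (hx : x' = x) (hy : y' = y) (γ : Path x' y') (γ' : Path x y)
    (h : ∀ s, γ s = γ' s) : mk γ = (mk γ').cast hx hy := by
  subst hx hy
  have : γ = γ' := by ext s; exact h s
  rw [this, cast_rfl_rfl]

instance : ContractibleSpace I := (convex_Icc (0 : ℝ) 1).contractibleSpace ⟨0, by simp⟩

/-- paths in the boundary of a square -/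
theorem square (K : C(I × I, X)) {x y q : X} (γ : Path x y) (η : Path x q) (θ : Path y q)
    (hγ : ∀ s, K (s, 0) = γ s) (hη : ∀ t, K (0, t) = η t) (hθ : ∀ t, K (1, t) = θ t)
    (hq : ∀ s, K (s, 1) = q) : mk γ = (mk η).trans (mk θ).symm := by
  let A : Path ((0 : I), (0 : I)) (1, 0) :=
    ⟨⟨fun s => (s, 0), by fun_prop⟩, rfl, rfl⟩
  let a1 : Path ((0 : I), (0 : I)) (0, 1) := ⟨⟨fun s => (0, s), by fun_prop⟩, rfl, rfl⟩
  let a2 : Path ((0 : I), (1 : I)) (1, 1) := ⟨⟨fun s => (s, 1), by fun_prop⟩, rfl, rfl⟩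
  let a3 : Path ((1 : I), (0 : I)) (1, 1) := ⟨⟨fun s => (1, s), by fun_prop⟩, rfl, rfl⟩
  have h1 : mk A = (mk a1).trans ((mk a2).trans (mk a3).symm) := Subsingleton.elim _ _
  have hx : x = K (0, 0) := by rw [hγ, γ.source]
  have hy : y = K (1, 0) := by rw [hγ, γ.target]
  have hq1 : q = K (0, 1) := (hq 0).symm
  have hq2 : q = K (1, 1) := (hq 1).symm
  have e1 : mk γ = ((mk A).map K).cast hx hy :=
    mk_eq_cast hx hy γ (A.map K.continuous) fun s => (hγ s).symm
  have e2 : mk η = ((mk a1).map K).cast hx hq1 :=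
    mk_eq_cast hx hq1 η (a1.map K.continuous) fun s => (hη s).symm
  have e3 : mk θ = ((mk a3).map K).cast hy hq2 :=
    mk_eq_cast hy hq2 θ (a3.map K.continuous) fun s => (hθ s).symm
  have e4 : Path.Homotopic.Quotient.refl q = ((mk a2).map K).cast hq1 hq2 :=
    mk_eq_cast hq1 hq2 (Path.refl q) (a2.map K.continuous) fun s => (hq s).symm
  rw [e1, h1, map_trans', map_trans', map_symm', e2, e3, ← cast_trans_cast _ _ hx hq1 hy,
    ← cast_trans_cast _ _ hq1 hq2 hy, ← e4, refl_trans, cast_symm]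

end aux

section

variable {G : Type} [Group G] {Z : Type} [TopologicalSpace Z] [MulAction G Z]
  {m : ℕ} {C : Type} {φ : C → C(S m, Z)}

/-- the trace of the expansion -/
noncomputable def hp (x q : GAtt G φ) (h : Hf (x, 1) = q) : Path x q :=
  ⟨⟨fun t => Hf (x, t), continuous_Hf.comp (continuous_const.prodMk continuous_id)⟩, Hf_zero x, h⟩

theorem mk_eq_hp {x y q : GAtt G φ} (γ : Path x y) (h : ∀ s, Hf (γ s, 1) = q)
    (hx : Hf (x, 1) = q) (hy : Hf (y, 1) = q) :
    mk γ = (mk (hp x q hx)).trans (mk (hp y q hy)).symm := by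
  refine square ⟨fun p => Hf (γ p.1, p.2),
    continuous_Hf.comp ((γ.continuous.comp continuous_fst).prodMk continuous_snd)⟩ γ _ _
    (fun s => Hf_zero _) (fun t => ?_) (fun t => ?_) h
  · show Hf (γ 0, t) = Hf (x, t)
    rw [γ.source]
  · show Hf (γ 1, t) = Hf (y, t)
    rw [γ.target]

/-- over a discrete space a far path is pushed to one point -/
theorem far_const [DiscreteTopology Z] [ContinuousConstSMul G Z] {x y : GAtt G φ} (γ : Path x y)
    (h : ∀ s, γ s ∈ far φ) : ∃ z : Z, ∀ s, Hf (γ s, 1) = inZ φ z := by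
  choose f hf using fun s => exists_Rm (h s)
  have hc : Continuous f := by
    rw [(isClosedEmbedding_inZ (φ := φ) (G := G)).isEmbedding.isInducing.continuous_iff]
    have : (inZ φ : Z → GAtt G φ) ∘ f = fun s => Rm φ (γ s) := funext hf
    rw [this]
    exact (Rm φ).continuous.comp γ.continuous
  refine ⟨f 0, fun s => ?_⟩
  have := PreconnectedSpace.constant (inferInstance : PreconnectedSpace I) hc (x := s) (y := 0)
  rw [← this, hf]
  rfl

end

section graph

variable {G : Type} [Group G] {ι : Type} (gen : ι → G)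

instance : DiscreteTopology (Z1 G) := by
  rw [discreteTopology_iff_forall_isOpen]
  intro s
  rw [Crest.Agent.R185.Att.isOpen_iff]
  haveI : Subsingleton (D 0) := ⟨fun a b => Subtype.ext (Subsingleton.elim _ _)⟩
  exact ⟨isOpen_discrete _, fun g c => isOpen_discrete _⟩

/-- word classes -/
def WCl (x y : Z2 gen) (κ : PQ x y) : Prop :=
  ∃ (g h : G) (l : List (ι × Bool)) (e : g * val gen l = h) (hx : x = v gen g)
    (hy : y = v gen h), κ = (wc gen g h l e).cast hx hy

theorem WCl.trans {x y z : Z2 gen} {a : PQ x y} {b : PQ y z} (ha : WCl gen x y a)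
    (hb : WCl gen y z b) : WCl gen x z (a.trans b) := by
  obtain ⟨g, h, l, e, rfl, rfl, rfl⟩ := ha
  obtain ⟨g', h', l', e', hx, rfl, rfl⟩ := hb
  obtain rfl := v_inj gen hx
  have e2 : g * val gen (l ++ l') = h' := by rw [val_append, ← mul_assoc, e, e']
  refine ⟨g, h', l ++ l', e2, rfl, rfl, ?_⟩
  rw [wc_append gen l l' g h h' e e' e2, cast_rfl_rfl, cast_rfl_rfl, cast_rfl_rfl]

theorem WCl.refl (g : G) : WCl gen (v gen g) (v gen g) (Path.Homotopic.Quotient.refl _) :=
  ⟨g, g, [], by rw [val, mul_one], rfl, rfl, by rw [wc_nil, cast_rfl_rfl]⟩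

theorem WCl.ed (g h : G) (i : ι) (e : g * gen i = h) :
    WCl gen (v gen g) (v gen h) (SC.ed gen g h i e) := by
  refine ⟨g, h, [(i, true)], by simp [val, e], rfl, rfl, ?_⟩
  rw [wc_cons_true gen g h h i [] e (by rw [val, mul_one]), wc_nil, trans_refl, cast_rfl_rfl]

theorem WCl.ed_symm (g h : G) (i : ι) (e : g * gen i = h) :
    WCl gen (v gen h) (v gen g) (Path.Homotopic.Quotient.symm (SC.ed gen g h i e)) := by
  refine ⟨h, g, [(i, false)], by simp [val, ← e], rfl, rfl, ?_⟩
  rw [wc_cons_false gen h g g i [] e (by rw [val, mul_one]), wc_nil, trans_refl, cast_rfl_rfl]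

/-- connecting classes: nothing at the vertices, to the end of the edge otherwise -/
inductive Conn1 : ∀ p q : Z2 gen, PQ p q → Prop
  | vert (g : G) : Conn1 (v gen g) (v gen g) (Path.Homotopic.Quotient.refl _)
  | cell (g : G) (i : ι) (x : B 1) (γ : PQ (bd 1 x) (d1 1)) :
      Conn1 (inB (φ1 gen) g i x) (v gen (g * gen i))
        ((γ.map ⟨_, continuous_chr (φ := φ1 gen) g i⟩).cast (chr_bd g i x).symm
          (chr_d1_one gen g i).symm)

/-- the edge class is the image of the class of the segment -/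
theorem ed_eq (g h : G) (i : ι) (e : g * gen i = h) (κ : PQ (d1 0) (d1 1)) :
    ed gen g h i e = (κ.map ⟨_, continuous_chr (φ := φ1 gen) g i⟩).cast
      (chr_d1_zero gen g i).symm (by rw [← e]; exact (chr_d1_one gen g i).symm) := by
  subst e
  have h1 : κ = mk (⟨⟨d1, continuous_d1⟩, rfl, rfl⟩ : Path (d1 0) (d1 1)) := Subsingleton.elim _ _
  subst h1
  unfold ed
  rw [cast_rfl_rfl]
  exact mk_eq_cast _ _ _ _ fun s => rfl

theorem d1_of {x : D 1} (hx : ‖(x : Fin 1 → ℝ)‖ = 1) : x = d1 1 ∨ x = d1 0 := by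
  have h := S1_cases ⟨(x : Fin 1 → ℝ), mem_sphere_zero_iff_norm.2 hx⟩
  rcases h with h | h
  · left
    apply Subtype.ext; funext j
    rw [Subsingleton.elim j 0]
    show (x : Fin 1 → ℝ) 0 = 2 * ((1 : I) : ℝ) - 1
    rw [show (x : Fin 1 → ℝ) 0 = 1 from h]; norm_num
  · right
    apply Subtype.ext; funext j
    rw [Subsingleton.elim j 0]
    show (x : Fin 1 → ℝ) 0 = 2 * ((0 : I) : ℝ) - 1
    rw [show (x : Fin 1 → ℝ) 0 = -1 from h]; norm_num

theorem far_conn {x x' : Z2 gen} {δ : PQ x x'} (hδ : Conn1 gen x x' δ) (hx : x ∈ far (φ1 gen))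
    {g₀ : G} (hq : Hf (x, 1) = v gen g₀) :
    WCl gen (v gen g₀) x' ((mk (hp x _ hq)).symm.trans δ) ∧
      WCl gen x' (v gen g₀) (δ.symm.trans (mk (hp x _ hq))) := by
  cases hδ with
  | vert g =>
    obtain rfl := v_inj gen hq
    have : mk (hp (v gen g) _ hq) = Path.Homotopic.Quotient.refl (v gen g) :=
      congrArg mk (by ext t; rfl : hp (v gen g) _ hq = Path.refl _)
    rw [this, refl_symm', refl_trans]
    exact ⟨WCl.refl gen g, WCl.refl gen g⟩
  | cell g i a γ =>
    have ha := inB_mem_far.1 hx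
    have h1 := ex_one_norm (bd 1 a) ha
    -- the trace in the cube
    have key : ∀ (yy : D 1) (hyy : ex 1 (bd 1 a, 1) = yy) (hv : v gen g₀ = chr (φ1 gen) g i yy),
        ∃ ρ : PQ (bd 1 a) yy, mk (hp (inB (φ1 gen) g i a) _ hq) =
          (ρ.map ⟨_, continuous_chr (φ := φ1 gen) g i⟩).cast (chr_bd g i a).symm hv := by
      intro yy hyy hv
      subst hyy
      let ρ : Path (bd 1 a) (ex 1 (bd 1 a, 1)) :=
        ⟨⟨fun t => ex 1 (bd 1 a, t), (ex 1).continuous.comp (by fun_prop)⟩, ex_zero _, rfl⟩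
      exact ⟨mk ρ, mk_eq_cast _ _ _ (ρ.map (continuous_chr g i)) fun s => rfl⟩
    rcases d1_of h1 with h2 | h2
    · have hv : v gen g₀ = chr (φ1 gen) g i (d1 1) := by rw [← hq, Hf_inB, h2]
      obtain ⟨ρ, hρ⟩ := key _ h2 hv
      have hg : g₀ = g * gen i := v_inj gen (hv.trans (chr_d1_one gen g i))
      subst hg
      have : ρ = γ := Subsingleton.elim _ _
      rw [hρ, this, symm_trans]
      exact ⟨WCl.refl gen _, WCl.refl gen _⟩
    · have hv : v gen g₀ = chr (φ1 gen) g i (d1 0) := by rw [← hq, Hf_inB, h2]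
      obtain ⟨ρ, hρ⟩ := key _ h2 hv
      have hg : g₀ = g := v_inj gen (hv.trans (chr_d1_zero gen g i))
      subst hg
      rw [hρ, cast_symm, cast_symm, cast_trans_cast, cast_trans_cast, ← map_symm', ← map_symm',
        ← map_trans', ← map_trans', ← ed_eq gen g₀ _ i rfl]
      refine ⟨WCl.ed gen _ _ _ _, ?_⟩
      have h3 := WCl.ed_symm gen g₀ _ i rfl
      rw [ed_eq gen g₀ _ i rfl (ρ.symm.trans γ), cast_symm, ← map_symm'] at h3
      have h4 : γ.symm.trans ρ = (ρ.symm.trans γ).symm := Subsingleton.elim _ _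
      rw [h4]
      exact h3

/-- a path in an open edge -/
theorem near_conn {x y x' y' : Z2 gen} (γ : Path x y) {g : G} {i : ι}
    (h : ∀ s, γ s ∈ near (φ1 gen) g i) {δ : PQ x x'} {ε : PQ y y'} (hδ : Conn1 gen x x' δ)
    (hε : Conn1 gen y y' ε) : WCl gen x' y' (δ.symm.trans ((mk γ).trans ε)) := by
  have hx : x ∈ near (φ1 gen) g i := by rw [← γ.source]; exact h 0
  have hy : y ∈ near (φ1 gen) g i := by rw [← γ.target]; exact h 1
  cases hδ with
  | vert g' =>
    obtain ⟨u, -, hu⟩ := hx
    exact absurd hu inB_ne_inZ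
  | cell g₁ i₁ a α =>
    obtain ⟨u, -, hu⟩ := hx
    obtain ⟨rfl, rfl, rfl⟩ := inB_inj.1 hu
    cases hε with
    | vert g' =>
      obtain ⟨u', -, hu'⟩ := hy
      exact absurd hu' inB_ne_inZ
    | cell g₂ i₂ b β =>
      obtain ⟨u', -, hu'⟩ := hy
      obtain ⟨rfl, rfl, rfl⟩ := inB_inj.1 hu'
      obtain ⟨γ', hγ'⟩ := lift_path (isOpenEmbedding_inB (φ := φ1 gen) g i).isEmbedding γ
        (fun s => by
          obtain ⟨w, -, hw⟩ := h s
          exact ⟨w, hw⟩)
      let γ'' : Path (bd 1 u) (bd 1 u') := γ'.map (bd 1).continuous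
      have e1 : mk γ = ((mk γ'').map ⟨_, continuous_chr (φ := φ1 gen) g i⟩).cast
          (chr_bd g i u).symm (chr_bd g i u').symm := by
        refine mk_eq_cast _ _ _ (γ''.map (continuous_chr g i)) fun s => ?_
        rw [← hγ']
        exact (chr_bd g i (γ' s)).symm
      rw [e1, cast_symm, cast_trans_cast, cast_trans_cast, ← map_symm', ← map_trans', ← map_trans']
      have e2 : α.symm.trans ((mk γ'').trans β) = Path.Homotopic.Quotient.refl (d1 1) :=
        Subsingleton.elim _ _
      rw [e2, map_refl']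
      have e3 := cast_refl (X := Z2 gen) (chr_d1_one gen g i).symm
      have e4 := WCl.refl gen (g * gen i)
      rw [← e3] at e4
      exact e4

/-- **(Q)** every path between vertices is homotopic to a word path -/
theorem wcl_of_path {g h : G} (γ : Path (v gen g) (v gen h)) :
    ∃ (l : List (ι × Bool)) (e : g * val gen l = h), mk γ = wc gen g h l e := by
  have key := SC.gen (W := Z2 gen) (ι := Option (G × ι))
    (fun i => i.elim (far (φ1 gen)) (fun p => near (φ1 gen) p.1 p.2))
    (by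
      rintro (_ | ⟨g, c⟩)
      · exact isOpen_far
      · exact isOpen_near g c)
    (by
      intro p
      induction p using GAtt.cases' with
      | hZ z => exact ⟨none, inZ_mem_far z⟩
      | hB g c x =>
        by_cases h : 1 / 4 < ‖(x : Fin 1 → ℝ)‖
        · exact ⟨none, inB_mem_far.2 h⟩
        · refine ⟨some (g, c), x, ?_, rfl⟩
          show ‖(x : Fin 1 → ℝ)‖ < 1 / 2
          linarith [not_lt.1 h])
    (fun p q δ => Conn1 gen p q δ)
    (by
      intro p
      induction p using GAtt.cases' with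
      | hZ z =>
        obtain ⟨g, rfl⟩ := v1_surj z
        exact ⟨_, _, Conn1.vert g⟩
      | hB g c x => exact ⟨_, _, Conn1.cell g c x (mk (PathConnectedSpace.somePath _ _))⟩)
    (WCl gen) (fun _ _ _ _ _ => WCl.trans gen)
    (by
      rintro (_ | ⟨g, c⟩) x y γ hγ x' y' δ ε hδ hε
      · have hx : x ∈ far (φ1 gen) := by rw [← γ.source]; exact hγ 0
        have hy : y ∈ far (φ1 gen) := by rw [← γ.target]; exact hγ 1
        obtain ⟨z, hz⟩ := far_const γ hγ
        obtain ⟨g₀, rfl⟩ := v1_surj z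
        have hqx : Hf (x, 1) = v gen g₀ := by
          have := hz 0
          rwa [γ.source] at this
        have hqy : Hf (y, 1) = v gen g₀ := by
          have := hz 1
          rwa [γ.target] at this
        rw [mk_eq_hp γ hz hqx hqy]
        have h1 := (far_conn gen hδ hx hqx).2
        have h2 := (far_conn gen hε hy hqy).1
        have h3 := WCl.trans gen h1 h2
        simp only [trans_assoc] at h3 ⊢
        exact h3
      · exact near_conn gen γ hγ hδ hε)
    γ (Path.Homotopic.Quotient.refl _) (Path.Homotopic.Quotient.refl _) (Conn1.vert g)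
      (Conn1.vert h)
  rw [refl_symm', refl_trans, trans_refl] at key
  obtain ⟨g', h', l, e, hx, hy, hk⟩ := key
  obtain rfl := v_inj gen hx
  obtain rfl := v_inj gen hy
  exact ⟨l, e, by rw [hk, cast_rfl_rfl]⟩

/-- the Cayley graph is path connected -/
theorem pathConnected_Z2 (hgen : Function.Surjective (FreeGroup.lift gen)) :
    PathConnectedSpace (Z2 gen) := by
  have hv : ∀ g : G, Joined (v gen 1) (v gen g) := by
    intro g
    obtain ⟨w, hw⟩ := hgen g
    obtain ⟨l, rfl⟩ := Quot.exists_rep w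
    have e : (1 : G) * val gen l = g := by rw [one_mul, val_eq]; exact hw
    exact ⟨(wpath gen 1 l).cast rfl (by rw [e])⟩
  refine ⟨⟨v gen 1⟩, fun x y => ?_⟩
  obtain ⟨z, hz⟩ := joined_inZ (φ := φ1 gen) le_rfl x
  obtain ⟨z', hz'⟩ := joined_inZ (φ := φ1 gen) le_rfl y
  obtain ⟨g, rfl⟩ := v1_surj z
  obtain ⟨g', rfl⟩ := v1_surj z'
  exact hz.trans ((hv g).symm.trans ((hv g').trans hz'.symm))

end graph

end Crest.Agent.R251.SC
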