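import Mathlib

/-!
# Row 251: barycentric subdivision of list cochains with values in an abelian group (helper82)

Dual form: `B φ` is the coboundary of a cochain on lists, `E`/`Sd` the subdivision, `H`/`Hd` the
homotopy: `φ - Sd φ = Hd (B φ) + B (Hd φ)`.
-/

set_option autoImplicit false

namespace Crest.Agent.R251.Sm

noncomputable section

variable {T T' : Type*} {M M' : Type*} [AddCommGroup M] [AddCommGroup M']

/-- alternating sum of the values on the faces -/
def B (φ : List T → M) : List T → M
  | [] => 0
  | v :: l => φ l - B (fun l' => φ (v :: l')) l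

theorem B_sub (φ ψ : List T → M) (l : List T) :
    B (fun l' => φ l' - ψ l') l = B φ l - B ψ l := by
  induction l generalizing φ ψ with
  | nil => simp [B]
  | cons v l ih =>
    simp only [B]
    rw [ih]
    abel

theorem B_add (φ ψ : List T → M) (l : List T) :
    B (fun l' => φ l' + ψ l') l = B φ l + B ψ l := by
  induction l generalizing φ ψ with
  | nil => simp [B]
  | cons v l ih =>
    simp only [B]
    rw [ih]
    abel

theorem B_zero (l : List T) : B (fun _ => (0 : M)) l = 0 := by
  induction l with
  | nil => simp [B]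
  | cons v l ih => simp only [B, ih, sub_zero]

theorem B_hom (a : M →+ M') (φ : List T → M) (l : List T) :
    B (fun l' => a (φ l')) l = a (B φ l) := by
  induction l generalizing φ with
  | nil => simp [B]
  | cons v l ih => simp only [B]; rw [ih, map_sub]

theorem B_eq_sum (φ : List T → M) (l : List T) :
    B φ l = ∑ i : Fin l.length, ((-1 : ℤ) ^ (i : ℕ)) • φ (l.eraseIdx i) := by
  induction l generalizing φ with
  | nil => simp [B]
  | cons v l ih =>
    simp only [B]
    rw [ih]
    change _ = ∑ i : Fin (l.length + 1), ((-1 : ℤ) ^ (i : ℕ)) • φ ((v :: l).eraseIdx i)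
    rw [Fin.sum_univ_succ]
    simp only [Fin.val_zero, pow_zero, one_smul, List.eraseIdx_cons_zero, Fin.val_succ,
      List.eraseIdx_cons_succ, pow_succ, mul_neg, mul_one, neg_smul, Finset.sum_neg_distrib]
    abel

/-- faces of a list -/
inductive IsFace : List T → List T → Prop
  | head (v : T) (l : List T) : IsFace (v :: l) l
  | cons (v : T) (l l' : List T) (h : IsFace l l') : IsFace (v :: l) (v :: l')

theorem IsFace.length {l l' : List T} (h : IsFace l l') : l.length = l'.length + 1 := by
  induction h with
  | head v l => rfl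
  | cons v l l' h ih => simp [ih]

theorem IsFace.subset {l l' : List T} (h : IsFace l l') : ∀ x ∈ l', x ∈ l := by
  induction h with
  | head v l => intro x hx; exact List.mem_cons_of_mem _ hx
  | cons v l l' h ih =>
    intro x hx
    rcases List.mem_cons.1 hx with rfl | hx
    · exact List.mem_cons_self
    · exact List.mem_cons_of_mem _ (ih x hx)

theorem B_congr (φ ψ : List T → M) (l : List T) (h : ∀ l', IsFace l l' → φ l' = ψ l') :
    B φ l = B ψ l := by
  induction l generalizing φ ψ with
  | nil => simp [B]
  | cons v l ih =>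
    simp only [B]
    rw [h l (IsFace.head v l), ih _ _ fun l' hl' => h _ (IsFace.cons v l l' hl')]

theorem B_B (φ : List T → M) (l : List T) : B (B φ) l = 0 := by
  induction l generalizing φ with
  | nil => simp [B]
  | cons v l ih =>
    have : B (fun l' => B φ (v :: l')) l = B (fun l' => φ l' - B (fun l'' => φ (v :: l'')) l') l := by
      rfl
    show B φ l - B (fun l' => B φ (v :: l')) l = 0
    rw [this, B_sub, ih]
    abel

theorem B_map (f : T → T') (φ : List T' → M) (l : List T) :
    B φ (l.map f) = B (fun l' => φ (l'.map f)) l := by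
  induction l generalizing φ with
  | nil => simp [B]
  | cons v l ih =>
    simp only [List.map_cons, B]
    rw [ih]

variable (b : List T → T)

/-- evaluation on the barycentric subdivision (fuel version) -/
def Es : ℕ → (List T → M) → List T → M
  | 0, φ, l => φ l
  | n + 1, φ, l => B (Es n (fun l' => φ (b l :: l'))) l

/-- evaluation on the homotopy (fuel version) -/
def Hs : ℕ → (List T → M) → List T → M
  | 0, _, _ => 0
  | n + 1, φ, l => φ (b l :: l) - B (Hs n (fun l' => φ (b l :: l'))) l

theorem E_sub (n : ℕ) (φ ψ : List T → M) (l : List T) :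
    Es b n (fun l' => φ l' - ψ l') l = Es b n φ l - Es b n ψ l := by
  induction n generalizing φ ψ l with
  | zero => rfl
  | succ n ih =>
    show B (Es b n (fun l' => φ (b l :: l') - ψ (b l :: l'))) l = _
    have h : Es b n (fun l' => φ (b l :: l') - ψ (b l :: l'))
        = fun l'' => Es b n (fun l' => φ (b l :: l')) l'' - Es b n (fun l' => ψ (b l :: l')) l'' := by
      funext l''
      exact ih _ _ _
    rw [h, B_sub]
    rfl

theorem H_sub (n : ℕ) (φ ψ : List T → M) (l : List T) :
    Hs b n (fun l' => φ l' - ψ l') l = Hs b n φ l - Hs b n ψ l := by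
  induction n generalizing φ ψ l with
  | zero => simp [Hs]
  | succ n ih =>
    show φ (b l :: l) - ψ (b l :: l) - B (Hs b n (fun l' => φ (b l :: l') - ψ (b l :: l'))) l = _
    have h : Hs b n (fun l' => φ (b l :: l') - ψ (b l :: l'))
        = fun l'' => Hs b n (fun l' => φ (b l :: l')) l'' - Hs b n (fun l' => ψ (b l :: l')) l'' := by
      funext l''
      exact ih _ _ _
    rw [h, B_sub]
    show _ = (φ (b l :: l) - B (Hs b n (fun l' => φ (b l :: l'))) l) -
      (ψ (b l :: l) - B (Hs b n (fun l' => ψ (b l :: l'))) l)
    abel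

theorem E_hom (a : M →+ M') (n : ℕ) (φ : List T → M) (l : List T) :
    Es b n (fun l' => a (φ l')) l = a (Es b n φ l) := by
  induction n generalizing φ l with
  | zero => rfl
  | succ n ih =>
    show B (Es b n (fun l' => a (φ (b l :: l')))) l = a (B (Es b n (fun l' => φ (b l :: l'))) l)
    rw [← B_hom]
    congr 1
    funext l'
    exact ih _ _

theorem H_hom (a : M →+ M') (n : ℕ) (φ : List T → M) (l : List T) :
    Hs b n (fun l' => a (φ l')) l = a (Hs b n φ l) := by
  induction n generalizing φ l with
  | zero => simp [Hs]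
  | succ n ih =>
    show a (φ (b l :: l)) - B (Hs b n (fun l' => a (φ (b l :: l')))) l =
      a (φ (b l :: l) - B (Hs b n (fun l' => φ (b l :: l'))) l)
    rw [map_sub, ← B_hom]
    congr 2
    funext l'
    exact ih _ _

/-- the key identity -/
theorem E_B (n : ℕ) (φ : List T → M) (l : List T) (hl : l.length = n) :
    Es b n (B φ) l = B (Es b (n - 1) φ) l := by
  induction n generalizing φ l with
  | zero =>
    have : l = [] := List.length_eq_zero_iff.1 hl
    subst this
    simp [Es, B]
  | succ n ih =>
    show B (Es b n (fun l' => B φ (b l :: l'))) l = B (Es b n φ) l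
    have h : Es b n (fun l' => B φ (b l :: l'))
        = fun l'' => Es b n φ l'' - Es b n (B (fun l' => φ (b l :: l'))) l'' := by
      funext l''
      have := E_sub b n φ (B (fun l' => φ (b l :: l'))) l''
      rw [← this]
      rfl
    rw [h, B_sub]
    have h2 : B (Es b n (B (fun l' => φ (b l :: l')))) l = 0 := by
      rw [B_congr _ (B (Es b (n - 1) (fun l' => φ (b l :: l')))) l, B_B]
      intro l' hl'
      apply ih
      have := hl'.length
      omega
    rw [h2, sub_zero]

/-- the homotopy identity -/
theorem H_B (n : ℕ) (φ : List T → M) (l : List T) (hl : l.length = n) :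
    Hs b n (B φ) l + B (Hs b (n - 1) φ) l = φ l - Es b n φ l := by
  induction n generalizing φ l with
  | zero =>
    have : l = [] := List.length_eq_zero_iff.1 hl
    subst this
    simp [Es, B, Hs]
  | succ n ih =>
    have e1 : Hs b (n + 1) (B φ) l = B φ (b l :: l) - B (Hs b n (fun l' => B φ (b l :: l'))) l := rfl
    have e2 : B φ (b l :: l) = φ l - B (fun l' => φ (b l :: l')) l := rfl
    have e3 : Hs b n (fun l' => B φ (b l :: l'))
        = fun l'' => Hs b n φ l'' - Hs b n (B (fun l' => φ (b l :: l'))) l'' := by
      funext l''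
      have := H_sub b n φ (B (fun l' => φ (b l :: l'))) l''
      rw [← this]
      rfl
    have e4 : B (Hs b n (B (fun l' => φ (b l :: l')))) l =
        B (fun l' => φ (b l :: l')) l - B (Es b n (fun l' => φ (b l :: l'))) l := by
      have e5 : B (Hs b n (B (fun l' => φ (b l :: l')))) l =
          B (fun l' => (φ (b l :: l') - Es b n (fun l' => φ (b l :: l')) l') -
            B (Hs b (n - 1) (fun l' => φ (b l :: l'))) l') l := by
        apply B_congr
        intro l' hl'
        have h := hl'.length
        have := ih (fun l' => φ (b l :: l')) l' (by omega)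
        rw [← this]
        abel
      rw [e5, B_sub, B_B, sub_zero, B_sub]
    have e6 : Es b (n + 1) φ l = B (Es b n (fun l' => φ (b l :: l'))) l := rfl
    rw [e1, e2, e3, B_sub, e4, e6, Nat.add_sub_cancel]
    abel

/-- evaluation on the barycentric subdivision -/
def Sd (φ : List T → M) (l : List T) : M := Es b l.length φ l

/-- evaluation on the homotopy -/
def Hd (φ : List T → M) (l : List T) : M := Hs b l.length φ l

theorem Sd_B (φ : List T → M) : Sd b (B φ) = B (Sd b φ) := by
  funext l
  unfold Sd
  rw [E_B b _ φ l rfl]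
  apply B_congr
  intro l' hl'
  have := hl'.length
  congr 1
  omega

theorem Hd_B (φ : List T → M) (l : List T) :
    Hd b (B φ) l + B (Hd b φ) l = φ l - Sd b φ l := by
  unfold Sd Hd
  rw [← H_B b _ φ l rfl]
  congr 1
  apply B_congr
  intro l' hl'
  have := hl'.length
  congr 1
  omega

theorem Sd_hom (a : M →+ M') (φ : List T → M) (l : List T) :
    Sd b (fun l' => a (φ l')) l = a (Sd b φ l) := E_hom b a _ _ _

theorem Hd_hom (a : M →+ M') (φ : List T → M) (l : List T) :
    Hd b (fun l' => a (φ l')) l = a (Hd b φ l) := H_hom b a _ _ _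

/-- `l'` is a simplex of the subdivision of `l` (fuel version) -/
inductive InSd : ℕ → List T → List T → Prop
  | zero (l : List T) : InSd 0 l l
  | succ (n : ℕ) (l l1 l2 : List T) (h : IsFace l l1) (h2 : InSd n l1 l2) :
      InSd (n + 1) l (b l :: l2)

theorem E_congr (n : ℕ) (φ ψ : List T → M) (l : List T)
    (h : ∀ l', InSd b n l l' → φ l' = ψ l') : Es b n φ l = Es b n ψ l := by
  induction n generalizing φ ψ l with
  | zero => exact h l (InSd.zero l)
  | succ n ih =>
    show B (Es b n (fun l' => φ (b l :: l'))) l = B (Es b n (fun l' => ψ (b l :: l'))) l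
    apply B_congr
    intro l1 hl1
    apply ih
    intro l2 hl2
    exact h _ (InSd.succ n l l1 l2 hl1 hl2)

/-- a set of points closed under barycenters -/
def Closed (K : Set T) : Prop := ∀ l : List T, l ≠ [] → (∀ x ∈ l, x ∈ K) → b l ∈ K

theorem H_congr (K : Set T) (hK : Closed b K) (n : ℕ) (φ ψ : List T → M) (l : List T)
    (hl : l.length = n) (hlK : ∀ x ∈ l, x ∈ K)
    (h : ∀ l' : List T, l'.length = n + 1 → (∀ x ∈ l', x ∈ K) → φ l' = ψ l') :
    Hs b n φ l = Hs b n ψ l := by
  induction n generalizing φ ψ l with
  | zero => rfl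
  | succ n ih =>
    have hne : l ≠ [] := by rintro rfl; simp at hl
    have hb : b l ∈ K := hK l hne hlK
    have key : ∀ l' : List T, (∀ x ∈ l', x ∈ K) → ∀ x ∈ b l :: l', x ∈ K := by
      intro l' h' x hx
      rcases List.mem_cons.1 hx with rfl | hx
      · exact hb
      · exact h' x hx
    show φ (b l :: l) - B (Hs b n (fun l' => φ (b l :: l'))) l =
      ψ (b l :: l) - B (Hs b n (fun l' => ψ (b l :: l'))) l
    rw [h (b l :: l) (by simp [hl]) (key l hlK)]
    congr 1
    apply B_congr
    intro l1 hl1
    have h1 := hl1.length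
    apply ih _ _ l1 (by omega) (fun x hx => hlK x (hl1.subset x hx))
    intro l' hl' hK'
    exact h _ (by simp [hl']) (key l' hK')

/-- naturality for maps commuting with `b` on nonempty lists -/
theorem E_map (b' : List T' → T') (f : T → T') (hf : ∀ l : List T, l ≠ [] → f (b l) = b' (l.map f))
    (n : ℕ) (φ : List T' → M) (l : List T) (hl : l.length = n) :
    Es b' n φ (l.map f) = Es b n (fun l' => φ (l'.map f)) l := by
  induction n generalizing φ l with
  | zero => rfl
  | succ n ih =>
    have hne : l ≠ [] := by rintro rfl; simp at hl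
    show B (Es b' n (fun l' => φ (b' (l.map f) :: l'))) (l.map f) = _
    rw [B_map]
    show _ = B (Es b n (fun l' => φ (f (b l) :: l'.map f))) l
    apply B_congr
    intro l1 hl1
    have := hl1.length
    rw [ih _ _ (by omega), hf l hne]

theorem H_map (b' : List T' → T') (f : T → T') (hf : ∀ l : List T, l ≠ [] → f (b l) = b' (l.map f))
    (n : ℕ) (φ : List T' → M) (l : List T) (hl : l.length = n) :
    Hs b' n φ (l.map f) = Hs b n (fun l' => φ (l'.map f)) l := by
  induction n generalizing φ l with
  | zero => rfl
  | succ n ih =>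
    have hne : l ≠ [] := by rintro rfl; simp at hl
    show φ (b' (l.map f) :: l.map f) - B (Hs b' n (fun l' => φ (b' (l.map f) :: l'))) (l.map f) =
      φ (f (b l) :: l.map f) - B (Hs b n (fun l' => φ (f (b l) :: l'.map f))) l
    rw [B_map, ← hf l hne]
    congr 1
    apply B_congr
    intro l1 hl1
    have := hl1.length
    rw [ih _ _ (by omega)]

theorem Sd_map (b' : List T' → T') (f : T → T')
    (hf : ∀ l : List T, l ≠ [] → f (b l) = b' (l.map f)) (φ : List T' → M) (l : List T) :
    Sd b' φ (l.map f) = Sd b (fun l' => φ (l'.map f)) l := by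
  unfold Sd
  rw [List.length_map]
  exact E_map b b' f hf _ φ l rfl

theorem Hd_map (b' : List T' → T') (f : T → T')
    (hf : ∀ l : List T, l ≠ [] → f (b l) = b' (l.map f)) (φ : List T' → M) (l : List T) :
    Hd b' φ (l.map f) = Hd b (fun l' => φ (l'.map f)) l := by
  unfold Hd
  rw [List.length_map]
  exact H_map b b' f hf _ φ l rfl

theorem InSd.length {n : ℕ} {l l' : List T} (h : InSd b n l l') (hl : l.length = n) :
    l'.length = n := by
  induction h with
  | zero l => exact hl
  | succ n l l1 l2 h1 h2 ih =>
    have := h1.length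
    rw [List.length_cons, ih (by omega)]

section mesh

variable [PseudoMetricSpace T]

/-- all points are close to each other -/
def Sml (r : ℝ) (l : List T) : Prop := ∀ x ∈ l, ∀ y ∈ l, dist x y ≤ r

/-- properties of the barycenter map; `c` is the contraction factor for lists of length `≤ N` -/
structure BaryProp (N : ℕ) (c : ℝ) (b : List T → T) : Prop where
  c_nonneg : 0 ≤ c
  conv : ∀ (l : List T) (p : T) (R : ℝ), l ≠ [] → (∀ v ∈ l, dist v p ≤ R) → dist (b l) p ≤ R
  small : ∀ (l : List T) (r : ℝ), l ≠ [] → l.length ≤ N → Sml r l → ∀ v ∈ l, dist (b l) v ≤ c * r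

variable {b} {N : ℕ} {c : ℝ}

theorem InSd.dist_le (hb : BaryProp N c b) {n : ℕ} {l l' : List T} (h : InSd b n l l')
    (hl : l.length = n) (p : T) (R : ℝ) (hR : ∀ v ∈ l, dist v p ≤ R) : ∀ w ∈ l', dist w p ≤ R := by
  induction h with
  | zero l => exact hR
  | succ n l l1 l2 h1 h2 ih =>
    intro w hw
    rcases List.mem_cons.1 hw with rfl | hw
    · exact hb.conv l p R (by rintro rfl; simp at hl) hR
    · have := h1.length
      exact ih (by omega) (fun v hv => hR v (h1.subset v hv)) w hw

theorem InSd.small (hb : BaryProp N c b) {n : ℕ} {l l' : List T} (h : InSd b n l l')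
    (hl : l.length = n) (hn : n ≤ N) (r : ℝ) (hr : 0 ≤ r) (hs : Sml r l) : Sml (c * r) l' := by
  have hc := hb.c_nonneg
  induction h with
  | zero l =>
    intro x hx
    rw [List.length_eq_zero_iff.1 hl] at hx
    simp at hx
  | succ n l l1 l2 h1 h2 ih =>
    have hlen := h1.length
    have hne : l ≠ [] := by rintro rfl; simp at hl
    have h3 : ∀ v ∈ l, dist v (b l) ≤ c * r := fun v hv => by
      rw [dist_comm]
      exact hb.small l r hne (by omega) hs v hv
    have h4 : ∀ w ∈ l2, dist w (b l) ≤ c * r :=
      h2.dist_le hb (by omega) (b l) _ fun v hv => h3 v (h1.subset v hv)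
    have h5 : Sml (c * r) l2 := ih (by omega) (by omega)
      fun x hx y hy => hs x (h1.subset x hx) y (h1.subset y hy)
    intro x hx y hy
    rcases List.mem_cons.1 hx with rfl | hx
    · rcases List.mem_cons.1 hy with rfl | hy
      · rw [dist_self]; positivity
      · rw [dist_comm]; exact h4 y hy
    · rcases List.mem_cons.1 hy with rfl | hy
      · exact h4 x hx
      · exact h5 x hx y hy

theorem iterate_Sd_congr (hb : BaryProp N c b) (m : ℕ) (φ ψ : List T → M) (l : List T)
    (hl : l.length ≤ N) (r : ℝ) (hr : 0 ≤ r) (hs : Sml r l)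
    (h : ∀ l' : List T, l'.length = l.length → Sml (c ^ m * r) l' → φ l' = ψ l') :
    (Sd b)^[m] φ l = (Sd b)^[m] ψ l := by
  have hc := hb.c_nonneg
  induction m generalizing φ ψ with
  | zero =>
    apply h l rfl
    simpa using hs
  | succ m ih =>
    rw [Function.iterate_succ_apply, Function.iterate_succ_apply]
    apply ih
    intro l1 hl1 hs1
    unfold Sd
    apply E_congr
    intro l2 hl2
    apply h
    · rw [hl2.length b rfl, hl1]
    · have := hl2.small hb rfl (by omega) _ (by positivity) hs1
      rw [← mul_assoc] at this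
      rwa [pow_succ']

end mesh

end

end Crest.Agent.R251.Sm
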