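import Crest.Agent.R251.Sm82A

/-!
# Row 251: affine simplices and barycenters in standard simplices (helper82)
-/

set_option autoImplicit false

namespace Crest.Agent.R251.Sm

noncomputable section

/-- the standard simplex -/
abbrev Dn (n : ℕ) : Type := stdSimplex ℝ (Fin (n + 1))

/-- face inclusions -/
def face {n : ℕ} (i : Fin (n + 2)) : C(Dn n, Dn (n + 1)) :=
  ⟨stdSimplex.map i.succAbove, stdSimplex.continuous_map _⟩

open scoped Classical in
theorem face_apply {n : ℕ} (i : Fin (n + 2)) (s : Dn n) (j : Fin (n + 2)) :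
    (face i s) j = ∑ k : Fin (n + 1), if i.succAbove k = j then s k else 0 := by
  classical
  show (stdSimplex.map i.succAbove s) j = _
  rw [stdSimplex.map_coe, FunOnFinite.linearMap_apply_apply, Finset.sum_filter]

theorem continuous_coord {n : ℕ} (i : Fin (n + 1)) : Continuous fun s : Dn n => s i :=
  (continuous_apply i).comp continuous_subtype_val

/-- default vertex -/
def vd (m : ℕ) : Dn m := stdSimplex.vertex 0

variable {m : ℕ}

theorem aff_mem (n : ℕ) (l : List (Dn m)) (t : Dn n) :
    (fun i => ∑ j : Fin (n + 1), t j * (l.getD j (vd m)) i) ∈ stdSimplex ℝ (Fin (m + 1)) := by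
  constructor
  · intro i
    exact Finset.sum_nonneg fun j _ => mul_nonneg (stdSimplex.zero_le t j) (stdSimplex.zero_le _ i)
  · rw [Finset.sum_comm]
    simp only [← Finset.mul_sum, stdSimplex.sum_eq_one, mul_one]

/-- the affine simplex with vertices `l` -/
def aff (n : ℕ) (l : List (Dn m)) : C(Dn n, Dn m) where
  toFun t := ⟨fun i => ∑ j : Fin (n + 1), t j * (l.getD j (vd m)) i, aff_mem n l t⟩
  continuous_toFun := by
    refine Continuous.subtype_mk (continuous_pi fun i => ?_) _
    exact continuous_finsetSum _ fun j _ => (continuous_coord j).mul continuous_const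

theorem aff_apply (n : ℕ) (l : List (Dn m)) (t : Dn n) (i : Fin (m + 1)) :
    (aff n l t) i = ∑ j : Fin (n + 1), t j * (l.getD j (vd m)) i := rfl

theorem getD_map {α β : Type*} (f : α → β) (l : List α) (j : ℕ) (a : α) (b : β) (h : j < l.length) :
    (l.map f).getD j b = f (l.getD j a) := by
  rw [List.getD_eq_getElem _ _ (by simpa using h), List.getD_eq_getElem _ _ h, List.getElem_map]

/-- composition of affine simplices -/
theorem aff_map {k : ℕ} (n : ℕ) (l : List (Dn k)) (hl : l.length = n + 1) (L : List (Dn m)) :
    aff n (l.map (aff k L)) = (aff k L).comp (aff n l) := by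
  ext t i
  show (aff n (l.map (aff k L)) t) i = (aff k L (aff n l t)) i
  rw [aff_apply, aff_apply]
  have h1 : ∀ j : Fin (n + 1), ((l.map (aff k L)).getD j (vd m)) i
      = ∑ a : Fin (k + 1), (l.getD j (vd k)) a * (L.getD a (vd m)) i := by
    intro j
    rw [getD_map (aff k L) l j (vd k) (vd m) (by rw [hl]; exact j.2), aff_apply]
  simp only [h1, aff_apply, Finset.mul_sum, Finset.sum_mul]
  rw [Finset.sum_comm]
  refine Finset.sum_congr rfl fun a _ => Finset.sum_congr rfl fun j _ => ?_
  ring

theorem aff_vertex (n : ℕ) (l : List (Dn m)) (j : Fin (n + 1)) :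
    aff n l (stdSimplex.vertex j) = l.getD j (vd m) := by
  classical
  ext i
  rw [aff_apply]
  rw [Finset.sum_eq_single j]
  · simp [stdSimplex.vertex]
  · intro k _ hk
    have : (stdSimplex.vertex (S := ℝ) j : Dn n) k = 0 := by
      simp [stdSimplex.vertex, hk]
    rw [this, zero_mul]
  · simp

/-- the vertices of the standard simplex -/
def vs (n : ℕ) : List (Dn n) := List.ofFn fun j : Fin (n + 1) => stdSimplex.vertex j

@[simp] theorem length_vs (n : ℕ) : (vs n).length = n + 1 := by simp [vs]

theorem getD_vs (n : ℕ) (j : Fin (n + 1)) (d : Dn n) : (vs n).getD j d = stdSimplex.vertex j := by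
  rw [List.getD_eq_getElem _ _ (by rw [length_vs]; exact j.2)]
  unfold vs
  rw [List.getElem_ofFn]

theorem aff_vs (n : ℕ) : aff n (vs n) = ContinuousMap.id _ := by
  classical
  ext t i
  show (aff n (vs n) t) i = t i
  rw [aff_apply]
  rw [Finset.sum_eq_single i]
  · rw [getD_vs]; simp [stdSimplex.vertex]
  · intro k _ hk
    have : ((vs n).getD k (vd n)) i = 0 := by
      rw [getD_vs]
      simp [stdSimplex.vertex, hk.symm]
    rw [this, mul_zero]
  · simp

theorem vs_map (n : ℕ) (l : List (Dn m)) (hl : l.length = n + 1) : (vs n).map (aff n l) = l := by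
  apply List.ext_getElem
  · simp [hl]
  · intro i h1 h2
    have h3 : i < n + 1 := by simpa using h1
    rw [List.getElem_map]
    have : (vs n)[i]'(by simpa using h3) = stdSimplex.vertex (⟨i, h3⟩ : Fin (n + 1)) := by
      unfold vs
      rw [List.getElem_ofFn]
    rw [this, aff_vertex]
    exact List.getD_eq_getElem _ _ h2

theorem aff_erase (n : ℕ) (l : List (Dn m)) (hl : l.length = n + 2) (i : Fin (n + 2)) :
    aff n (l.eraseIdx i) = (aff (n + 1) l).comp (face i) := by
  classical
  ext t k
  show (aff n (l.eraseIdx i) t) k = (aff (n + 1) l (face i t)) k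
  rw [aff_apply, aff_apply]
  simp only [face_apply, Finset.sum_mul]
  rw [Finset.sum_comm]
  refine Finset.sum_congr rfl fun j _ => ?_
  rw [Finset.sum_eq_single (i.succAbove j)]
  · rw [if_pos rfl]
    congr 2
    have hj : (j : ℕ) < (l.eraseIdx i).length := by
      rw [List.length_eraseIdx_of_lt (by rw [hl]; exact i.2), hl]
      have := j.2
      omega
    have hj' : ((i.succAbove j : Fin (n + 2)) : ℕ) < l.length := by
      rw [hl]; exact (i.succAbove j).2
    rw [List.getD_eq_getElem _ _ hj, List.getD_eq_getElem _ _ hj', List.getElem_eraseIdx]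
    by_cases h : (j : ℕ) < (i : ℕ)
    · rw [dif_pos h]
      have : ((i.succAbove j : Fin (n + 2)) : ℕ) = j := by
        rw [Fin.succAbove_of_castSucc_lt _ _ (by simpa [Fin.lt_def] using h)]
        simp
      simp only [this]
    · rw [dif_neg h]
      have : ((i.succAbove j : Fin (n + 2)) : ℕ) = j + 1 := by
        rw [Fin.succAbove_of_le_castSucc _ _ (by simpa [Fin.le_def] using h)]
        simp
      simp only [this]
  · intro b _ hb
    rw [if_neg (fun h => hb h.symm), zero_mul]
  · simp

open scoped Classical in
/-- the barycenter -/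
def bary (l : List (Dn m)) : Dn m :=
  if hl : l ≠ [] then ⟨fun i => (l.map fun p : Dn m => p i).sum / l.length, by
    have hlen : (0 : ℝ) < l.length := by
      have := List.length_pos_iff.2 hl
      exact_mod_cast this
    constructor
    · intro i
      apply div_nonneg _ hlen.le
      apply List.sum_nonneg
      intro x hx
      obtain ⟨p, _, rfl⟩ := List.mem_map.1 hx
      exact stdSimplex.zero_le p i
    · rw [← Finset.sum_div, div_eq_one_iff_eq hlen.ne']
      clear hlen hl
      induction l with
      | nil => simp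
      | cons p l ih =>
        simp only [List.map_cons, List.sum_cons, Finset.sum_add_distrib, ih, List.length_cons]
        rw [stdSimplex.sum_eq_one]
        push_cast
        ring⟩
  else stdSimplex.vertex 0

theorem bary_apply (l : List (Dn m)) (hl : l ≠ []) (i : Fin (m + 1)) :
    bary l i = (l.map fun p : Dn m => p i).sum / l.length := by
  unfold bary
  rw [dif_pos hl]
  rfl

theorem aff_bary (k : ℕ) (L : List (Dn m)) (l : List (Dn k)) (hl : l ≠ []) :
    aff k L (bary l) = bary (l.map (aff k L)) := by
  ext i
  rw [bary_apply _ (by simpa using hl), aff_apply]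
  simp only [bary_apply l hl, List.map_map, List.length_map]
  have h : ∀ l : List (Dn k), (l.map ((fun p : Dn m => p i) ∘ (aff k L))).sum
      = ∑ j : Fin (k + 1), (l.map fun p : Dn k => p j).sum * (L.getD j (vd m)) i := by
    intro l
    induction l with
    | nil => simp
    | cons p l ih =>
      simp only [List.map_cons, List.sum_cons, ih, Function.comp_apply, aff_apply]
      rw [← Finset.sum_add_distrib]
      refine Finset.sum_congr rfl fun j _ => ?_
      ring
  rw [h, Finset.sum_div]
  refine Finset.sum_congr rfl fun j _ => ?_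
  ring

theorem dist_Dn_le {n : ℕ} (p q : Dn n) (R : ℝ) (hR : 0 ≤ R) :
    dist p q ≤ R ↔ ∀ i, |p i - q i| ≤ R := by
  rw [Subtype.dist_eq, dist_pi_le_iff hR]
  rfl

theorem dist_Dn_le_one {n : ℕ} (p q : Dn n) : dist p q ≤ 1 := by
  rw [dist_Dn_le _ _ _ zero_le_one]
  intro i
  have h1 := stdSimplex.zero_le p i
  have h2 := stdSimplex.zero_le q i
  have h3 := stdSimplex.le_one p i
  have h4 := stdSimplex.le_one q i
  rw [abs_le]
  constructor <;> linarith

/-- balls are convex -/
theorem dist_aff_le (n : ℕ) (l : List (Dn m)) (hl : l.length = n + 1) (t : Dn n) (q : Dn m) (R : ℝ)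
    (hR : 0 ≤ R) (h : ∀ p ∈ l, dist p q ≤ R) : dist (aff n l t) q ≤ R := by
  rw [dist_Dn_le _ _ _ hR]
  intro i
  rw [aff_apply]
  have h0 : q i = ∑ j : Fin (n + 1), t j * q i := by
    rw [← Finset.sum_mul, stdSimplex.sum_eq_one, one_mul]
  have h1 : (∑ j : Fin (n + 1), t j * (l.getD j (vd m)) i) - q i
      = ∑ j : Fin (n + 1), t j * ((l.getD j (vd m)) i - q i) := by
    conv_lhs => rw [h0]
    rw [← Finset.sum_sub_distrib]
    refine Finset.sum_congr rfl fun j _ => ?_
    ring
  rw [h1]
  refine (Finset.abs_sum_le_sum_abs _ _).trans ?_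
  have h2 : ∀ j : Fin (n + 1), |t j * ((l.getD j (vd m)) i - q i)| ≤ t j * R := by
    intro j
    rw [abs_mul, abs_of_nonneg (stdSimplex.zero_le t j)]
    refine mul_le_mul_of_nonneg_left ?_ (stdSimplex.zero_le t j)
    refine (dist_Dn_le _ _ _ hR).1 (h _ ?_) i
    have hj : (j : ℕ) < l.length := by rw [hl]; exact j.2
    rw [List.getD_eq_getElem _ _ hj]
    exact List.getElem_mem _
  refine (Finset.sum_le_sum fun j _ => h2 j).trans ?_
  rw [← Finset.sum_mul, stdSimplex.sum_eq_one, one_mul]

theorem sum_sub_le (xs : List ℝ) (c R : ℝ) (h : ∀ x ∈ xs, |x - c| ≤ R) :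
    |xs.sum - xs.length * c| ≤ xs.length * R := by
  induction xs with
  | nil => simp
  | cons x xs ih =>
    have h1 := ih fun y hy => h y (List.mem_cons_of_mem _ hy)
    have h2 := h x List.mem_cons_self
    rw [List.sum_cons, List.length_cons]
    push_cast
    have h3 : x + xs.sum - ((xs.length : ℝ) + 1) * c = (x - c) + (xs.sum - xs.length * c) := by ring
    rw [h3]
    refine (abs_add_le _ _).trans ?_
    linarith

theorem baryProp (m N : ℕ) : BaryProp (N + 1) ((N : ℝ) / (N + 1)) (bary (m := m)) where
  c_nonneg := by positivity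
  conv := by
    intro l p R hl hR
    have hR0 : 0 ≤ R := by
      obtain ⟨v, hv⟩ := List.exists_mem_of_ne_nil l hl
      exact dist_nonneg.trans (hR v hv)
    have hlen : (0 : ℝ) < l.length := by
      have := List.length_pos_iff.2 hl
      exact_mod_cast this
    rw [dist_Dn_le _ _ _ hR0]
    intro i
    rw [bary_apply l hl]
    have h1 := sum_sub_le (l.map fun p : Dn m => p i) (p i) R (by
      intro x hx
      obtain ⟨v, hv, rfl⟩ := List.mem_map.1 hx
      exact (dist_Dn_le _ _ _ hR0).1 (hR v hv) i)
    rw [List.length_map] at h1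
    have h2 : (l.map fun p : Dn m => p i).sum / l.length - p i
        = ((l.map fun p : Dn m => p i).sum - l.length * p i) / l.length := by
      field_simp
    rw [h2, abs_div, abs_of_pos hlen, div_le_iff₀ hlen]
    linarith
  small := by
    classical
    intro l r hl hlen4 hs v hv
    have hr : 0 ≤ r := dist_nonneg.trans (hs v hv v hv)
    have hlen : (0 : ℝ) < l.length := by
      have := List.length_pos_iff.2 hl
      exact_mod_cast this
    rw [dist_Dn_le _ _ _ (by positivity)]
    intro i
    rw [bary_apply l hl]
    obtain ⟨s, t, rfl⟩ := List.append_of_mem hv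
    have h0 : ((s ++ v :: t).map fun p : Dn m => p i).sum
        = v i + ((s ++ t).map fun p : Dn m => p i).sum := by
      simp only [List.map_append, List.map_cons, List.sum_append, List.sum_cons]
      ring
    have h1 := sum_sub_le ((s ++ t).map fun p : Dn m => p i) (v i) r (by
      intro x hx
      obtain ⟨w, hw, rfl⟩ := List.mem_map.1 hx
      refine (dist_Dn_le _ _ _ hr).1 (hs w ?_ v hv) i
      rcases List.mem_append.1 hw with hw | hw
      · exact List.mem_append_left _ hw
      · exact List.mem_append_right _ (List.mem_cons_of_mem _ hw))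
    have h3 : ((s ++ t).length : ℝ) = ((s ++ v :: t).length : ℝ) - 1 := by
      simp only [List.length_append, List.length_cons]
      push_cast
      ring
    rw [List.length_map, h3] at h1
    set l := s ++ v :: t
    have h2 : (l.map fun p : Dn m => p i).sum / l.length - v i
        = (((s ++ t).map fun p : Dn m => p i).sum - (l.length - 1) * v i) / l.length := by
      rw [h0]
      field_simp
      ring
    have h4 : (l.length : ℝ) ≤ N + 1 := by exact_mod_cast hlen4
    rw [h2, abs_div, abs_of_pos hlen, div_le_iff₀ hlen]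
    have h5 : ((l.length : ℝ) - 1) * r ≤ (N : ℝ) / (N + 1) * r * l.length := by
      have h6 : (l.length : ℝ) - 1 ≤ (N : ℝ) / (N + 1) * l.length := by
        rw [div_mul_eq_mul_div, le_div_iff₀ (by positivity)]
        nlinarith
      nlinarith
    linarith

theorem closed_ball_bary (p : Dn m) (R : ℝ) : Closed bary (Metric.closedBall p R) := by
  intro l hl h
  exact (baryProp m 0).conv l p R hl h

theorem Sml_vs (n : ℕ) (l : List (Dn n)) : Sml 1 l := fun x _ y _ => dist_Dn_le_one x y

end

end Crest.Agent.R251.Sm
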