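import Crest.Agent.R251.Sm82C

/-!
# Row 251: Mayer-Vietoris in cochain form (helper82)
-/

set_option autoImplicit false

namespace Crest.Agent.R251.Sm

open CategoryTheory Simplicial Opposite
open Crest.GeometryTopology.DeckCochains

noncomputable section

variable {E : Type} [TopologicalSpace E] {M : Type*} [AddCommGroup M]

theorem InSet.mono {n : ℕ} {A A' : Set E} {s : SingSimplex E n} (h : InSet A s) (hA : A ⊆ A') :
    InSet A' s := Set.Subset.trans h hA

theorem inSet_inter {n : ℕ} {A A' : Set E} {s : SingSimplex E n} :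
    InSet (A ∩ A') s ↔ InSet A s ∧ InSet A' s := Set.subset_inter_iff

theorem inSet_univ {n : ℕ} (s : SingSimplex E n) : InSet Set.univ s := Set.subset_univ _

theorem inSet_psh {n : ℕ} (f : C(E, E)) (A : Set E) (hf : ∀ x, f x ∈ A ↔ x ∈ A)
    (s : SingSimplex E n) : InSet A (psh f s) ↔ InSet A s := by
  unfold InSet
  rw [un_psh]
  constructor
  · rintro h _ ⟨t, rfl⟩
    exact (hf _).1 (h ⟨t, rfl⟩)
  · rintro h _ ⟨t, rfl⟩
    exact (hf _).2 (h ⟨t, rfl⟩)

/-- the coboundary only depends on the faces -/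
theorem cobdry_congr {n : ℕ} (φ φ' : SingSimplex E n → M) (s : SingSimplex E (n + 1))
    (h : ∀ i, φ (simplexFace i s) = φ' (simplexFace i s)) :
    cochainCobdry φ s = cochainCobdry φ' s := by
  unfold cochainCobdry
  exact Finset.sum_congr rfl fun i _ => by rw [h i]

theorem cobdry_congr_inSet {n : ℕ} (A : Set E) (φ φ' : SingSimplex E n → M)
    (h : ∀ s, InSet A s → φ s = φ' s) (s : SingSimplex E (n + 1)) (hs : InSet A s) :
    cochainCobdry φ s = cochainCobdry φ' s :=
  cobdry_congr φ φ' s fun i => h _ (hs.face i)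

/-- equivariance of the coboundary -/
theorem cobdry_equiv {n : ℕ} (f : C(E, E)) (a : M →+ M) (φ : SingSimplex E n → M)
    (h : ∀ s, φ (psh f s) = a (φ s)) (s : SingSimplex E (n + 1)) :
    cochainCobdry φ (psh f s) = a (cochainCobdry φ s) := by
  rw [cobdry_psh]
  rw [show (fun t => φ (psh f t)) = fun t => a (φ t) from funext h]
  exact cobdry_hom a φ s

/-- **Mayer-Vietoris**: a cocycle `ω` which is `δ bU` on `U`, `δ bV` on `V`, with
`bU - bV = δ η` on `U ∩ V`, is a coboundary `δ ψ`; one may take `ψ = bU` on `U` and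
`ψ = bV + δ η` on `V`. -/
theorem mayer_vietoris (U V : Set E) (hU : IsOpen U) (hV : IsOpen V) (hUV : ∀ x, x ∈ U ∨ x ∈ V)
    {n : ℕ} (ω : SingSimplex E (n + 2) → M) (hω : cochainCobdry ω = 0)
    (bU bV : SingSimplex E (n + 1) → M) (η : SingSimplex E n → M)
    (hbU : ∀ s, InSet U s → cochainCobdry bU s = ω s)
    (hbV : ∀ s, InSet V s → cochainCobdry bV s = ω s)
    (hη : ∀ s, InSet U s → InSet V s → bU s - bV s = cochainCobdry η s) :
    ∃ ψ : SingSimplex E (n + 1) → M, cochainCobdry ψ = ω ∧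
      (∀ s, InSet U s → ψ s = bU s) ∧
      (∀ s, InSet V s → ψ s = bV s + cochainCobdry η s) ∧
      (∀ (f : C(E, E)) (a : M →+ M), (∀ x, f x ∈ U ↔ x ∈ U) →
        (∀ s, ω (psh f s) = a (ω s)) → (∀ s, bU (psh f s) = a (bU s)) →
        (∀ s, bV (psh f s) = a (bV s)) → (∀ s, η (psh f s) = a (η s)) →
        ∀ s, ψ (psh f s) = a (ψ s)) := by
  classical
  set ψ0 : SingSimplex E (n + 1) → M := fun s =>
    if InSet U s then bU s else bV s + cochainCobdry η s with hψ0
  have h0U : ∀ s, InSet U s → ψ0 s = bU s := fun s hs => if_pos hs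
  have h0V : ∀ s, InSet V s → ψ0 s = bV s + cochainCobdry η s := by
    intro s hs
    by_cases hs' : InSet U s
    · rw [h0U s hs', ← hη s hs' hs]
      abel
    · exact if_neg hs'
  have hδU : ∀ s, InSet U s → ω s - cochainCobdry ψ0 s = 0 := by
    intro s hs
    rw [cobdry_congr_inSet U ψ0 bU h0U s hs, hbU s hs, sub_self]
  have hδV : ∀ s, InSet V s → ω s - cochainCobdry ψ0 s = 0 := by
    intro s hs
    rw [cobdry_congr_inSet V ψ0 _ h0V s hs]
    have h1 := congrFun (cobdry_add bV (cochainCobdry η)) s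
    rw [h1, cobdry_cobdry η, hbV s hs]
    show ω s - (ω s + 0) = 0
    rw [add_zero, sub_self]
  have hcyc : cochainCobdry (fun s => ω s - cochainCobdry ψ0 s) = 0 := by
    rw [cobdry_sub, hω, cobdry_cobdry]
    funext s
    exact sub_self _
  obtain ⟨ψ1, h1, h2, h3, h4⟩ := small_vanish {U, V}
    (by rintro W (rfl | rfl) <;> assumption)
    (fun x => (hUV x).elim (fun h => ⟨U, by simp, h⟩) fun h => ⟨V, by simp, h⟩)
    (fun s => ω s - cochainCobdry ψ0 s) hcyc
    (by
      rintro s ⟨W, (rfl | rfl), hs⟩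
      · exact hδU s hs
      · exact hδV s hs)
  refine ⟨fun s => ψ0 s + ψ1 s, ?_, ?_, ?_, ?_⟩
  · rw [cobdry_add, h1]
    funext s
    show cochainCobdry ψ0 s + (ω s - cochainCobdry ψ0 s) = ω s
    abel
  · intro s hs
    show ψ0 s + ψ1 s = bU s
    rw [h2 U hδU s hs, add_zero, h0U s hs]
  · intro s hs
    show ψ0 s + ψ1 s = _
    rw [h2 V hδV s hs, add_zero, h0V s hs]
  · intro f a hfU hω' hbU' hbV' hη' s
    have e0 : ∀ s, ψ0 (psh f s) = a (ψ0 s) := by
      intro s
      by_cases hs : InSet U s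
      · rw [h0U s hs, h0U _ ((inSet_psh f U hfU s).2 hs), hbU']
      · have hs' : ¬ InSet U (psh f s) := fun h => hs ((inSet_psh f U hfU s).1 h)
        have e1 : ψ0 (psh f s) = bV (psh f s) + cochainCobdry η (psh f s) := if_neg hs'
        have e2 : ψ0 s = bV s + cochainCobdry η s := if_neg hs
        rw [e1, e2, hbV', cobdry_equiv f a η hη', map_add]
    show ψ0 (psh f s) + ψ1 (psh f s) = a (ψ0 s + ψ1 s)
    rw [e0, h4 f a (fun t => ?_) s, map_add]
    show ω (psh f t) - cochainCobdry ψ0 (psh f t) = a (ω t - cochainCobdry ψ0 t)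
    rw [hω', cobdry_equiv f a ψ0 e0, map_sub]

/-- Mayer-Vietoris in degree one: `ω` a 1-cocycle, `bU`, `bV` 0-cochains which agree on `U ∩ V` -/
theorem mayer_vietoris_zero (U V : Set E) (hU : IsOpen U) (hV : IsOpen V)
    (hUV : ∀ x, x ∈ U ∨ x ∈ V) (ω : SingSimplex E 1 → M) (hω : cochainCobdry ω = 0)
    (bU bV : SingSimplex E 0 → M)
    (hbU : ∀ s, InSet U s → cochainCobdry bU s = ω s)
    (hbV : ∀ s, InSet V s → cochainCobdry bV s = ω s)
    (hη : ∀ s, InSet U s → InSet V s → bU s = bV s) :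
    ∃ ψ : SingSimplex E 0 → M, cochainCobdry ψ = ω ∧
      (∀ s, InSet U s → ψ s = bU s) ∧ (∀ s, InSet V s → ψ s = bV s) ∧
      (∀ (f : C(E, E)) (a : M →+ M), (∀ x, f x ∈ U ↔ x ∈ U) →
        (∀ s, ω (psh f s) = a (ω s)) → (∀ s, bU (psh f s) = a (bU s)) →
        (∀ s, bV (psh f s) = a (bV s)) → ∀ s, ψ (psh f s) = a (ψ s)) := by
  classical
  set ψ0 : SingSimplex E 0 → M := fun s => if InSet U s then bU s else bV s with hψ0
  have h0U : ∀ s, InSet U s → ψ0 s = bU s := fun s hs => if_pos hs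
  have h0V : ∀ s, InSet V s → ψ0 s = bV s := by
    intro s hs
    by_cases hs' : InSet U s
    · rw [h0U s hs', hη s hs' hs]
    · exact if_neg hs'
  have hδU : ∀ s, InSet U s → ω s - cochainCobdry ψ0 s = 0 := by
    intro s hs
    rw [cobdry_congr_inSet U ψ0 bU h0U s hs, hbU s hs, sub_self]
  have hδV : ∀ s, InSet V s → ω s - cochainCobdry ψ0 s = 0 := by
    intro s hs
    rw [cobdry_congr_inSet V ψ0 _ h0V s hs, hbV s hs, sub_self]
  have hcyc : cochainCobdry (fun s => ω s - cochainCobdry ψ0 s) = 0 := by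
    rw [cobdry_sub, hω, cobdry_cobdry]
    funext s
    exact sub_self _
  obtain ⟨ψ1, h1, h2, h3, h4⟩ := small_vanish {U, V}
    (by rintro W (rfl | rfl) <;> assumption)
    (fun x => (hUV x).elim (fun h => ⟨U, by simp, h⟩) fun h => ⟨V, by simp, h⟩)
    (fun s => ω s - cochainCobdry ψ0 s) hcyc
    (by
      rintro s ⟨W, (rfl | rfl), hs⟩
      · exact hδU s hs
      · exact hδV s hs)
  refine ⟨fun s => ψ0 s + ψ1 s, ?_, ?_, ?_, ?_⟩
  · rw [cobdry_add, h1]
    funext s
    show cochainCobdry ψ0 s + (ω s - cochainCobdry ψ0 s) = ω s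
    abel
  · intro s hs
    show ψ0 s + ψ1 s = bU s
    rw [h2 U hδU s hs, add_zero, h0U s hs]
  · intro s hs
    show ψ0 s + ψ1 s = _
    rw [h2 V hδV s hs, add_zero, h0V s hs]
  · intro f a hfU hω' hbU' hbV' s
    have e0 : ∀ s, ψ0 (psh f s) = a (ψ0 s) := by
      intro s
      by_cases hs : InSet U s
      · rw [h0U s hs, h0U _ ((inSet_psh f U hfU s).2 hs), hbU']
      · have hs' : ¬ InSet U (psh f s) := fun h => hs ((inSet_psh f U hfU s).1 h)
        have e1 : ψ0 (psh f s) = bV (psh f s) := if_neg hs'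
        have e2 : ψ0 s = bV s := if_neg hs
        rw [e1, e2, hbV']
    show ψ0 (psh f s) + ψ1 (psh f s) = a (ψ0 s + ψ1 s)
    rw [e0, h4 f a (fun t => ?_) s, map_add]
    show ω (psh f t) - cochainCobdry ψ0 (psh f t) = a (ω t - cochainCobdry ψ0 t)
    rw [hω', cobdry_equiv f a ψ0 e0, map_sub]

/-- **connecting cocycle**: an `n`-cocycle `w` on `U ∩ V` gives an `(n+1)`-cocycle on `E` which is
`0` on `U` and `δ w'` on `V`, where `w'` is the extension of `w` by zero (any extension will do) -/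
theorem connecting (U V : Set E) (hU : IsOpen U) (hV : IsOpen V) (hUV : ∀ x, x ∈ U ∨ x ∈ V)
    {n : ℕ} (w : SingSimplex E n → M)
    (hw : ∀ s, InSet U s → InSet V s → cochainCobdry w s = 0) :
    ∃ φ : SingSimplex E (n + 1) → M, cochainCobdry φ = 0 ∧
      (∀ s, InSet U s → φ s = 0) ∧ (∀ s, InSet V s → φ s = cochainCobdry w s) ∧
      (∀ (f : C(E, E)) (a : M →+ M), (∀ x, f x ∈ U ↔ x ∈ U) →
        (∀ s, w (psh f s) = a (w s)) → ∀ s, φ (psh f s) = a (φ s)) := by
  classical
  set φ0 : SingSimplex E (n + 1) → M := fun s => if InSet U s then 0 else cochainCobdry w s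
    with hφ0
  have h0U : ∀ s, InSet U s → φ0 s = 0 := fun s hs => if_pos hs
  have h0V : ∀ s, InSet V s → φ0 s = cochainCobdry w s := by
    intro s hs
    by_cases hs' : InSet U s
    · rw [h0U s hs', hw s hs' hs]
    · exact if_neg hs'
  have hδU : ∀ s, InSet U s → cochainCobdry φ0 s = 0 := by
    intro s hs
    rw [cobdry_congr_inSet U φ0 (fun _ => 0) h0U s hs, cobdry_zero]
    rfl
  have hδV : ∀ s, InSet V s → cochainCobdry φ0 s = 0 := by
    intro s hs
    rw [cobdry_congr_inSet V φ0 _ h0V s hs, cobdry_cobdry]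
    rfl
  obtain ⟨φ, h1, h2, h3, h4⟩ := extend_small {U, V}
    (by rintro W (rfl | rfl) <;> assumption)
    (fun x => (hUV x).elim (fun h => ⟨U, by simp, h⟩) fun h => ⟨V, by simp, h⟩)
    φ0 (by
      rintro s ⟨W, (rfl | rfl), hs⟩
      · exact hδU s hs
      · exact hδV s hs)
  refine ⟨φ, h1, ?_, ?_, ?_⟩
  · intro s hs
    rw [h2 U hδU s hs, h0U s hs]
  · intro s hs
    rw [h2 V hδV s hs, h0V s hs]
  · intro f a hfU hw' s
    refine h4 f a (fun t => ?_) s
    by_cases ht : InSet U t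
    · rw [h0U t ht, h0U _ ((inSet_psh f U hfU t).2 ht), map_zero]
    · have ht' : ¬ InSet U (psh f t) := fun h => ht ((inSet_psh f U hfU t).1 h)
      have e1 : φ0 (psh f t) = cochainCobdry w (psh f t) := if_neg ht'
      have e2 : φ0 t = cochainCobdry w t := if_neg ht
      rw [e1, e2, cobdry_equiv f a w hw']

end

end Crest.Agent.R251.Sm
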