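import Crest.Agent.R251.Sm82D
import Crest.Agent.R251.Coh539A

/-!
# Row 251: `Coh.SV` holds (helper82)
-/

set_option autoImplicit false

namespace Crest.Agent.R251.Sm

open Crest.GeometryTopology.DeckCochains

theorem in_iff {E : Type} [TopologicalSpace E] {n : ℕ} (U : Set E) (s : SingSimplex E n) :
    Coh.In U s ↔ InSet U s := (Set.range_subset_iff (f := (un s : Dn n → E)) (s := U)).symm

/-- the small simplices theorem in 539's form -/
theorem sv : Coh.SV := by
  intro E _ U V hU hV hUV M _ n φ hφ h0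
  obtain ⟨ψ, h1, -, h3, h4⟩ := small_vanish {U, V}
    (by rintro W (rfl | rfl) <;> assumption)
    (fun x => by
      have hx : x ∈ U ∪ V := hUV ▸ Set.mem_univ x
      exact hx.elim (fun h => ⟨U, by simp, h⟩) fun h => ⟨V, by simp, h⟩)
    φ hφ
    (by
      rintro s ⟨W, (rfl | rfl), hs⟩
      · exact h0 s (Or.inl ((in_iff _ _).2 hs))
      · exact h0 s (Or.inr ((in_iff _ _).2 hs)))
  refine ⟨ψ, h1, ?_, ?_⟩
  · rintro s (hs | hs)
    · exact h3 s ⟨U, by simp, (in_iff _ _).1 hs⟩
    · exact h3 s ⟨V, by simp, (in_iff _ _).1 hs⟩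
  · intro g a _ _ hga s
    rw [translate_eq]
    exact h4 (g : C(E, E)) a (fun t => by rw [← translate_eq]; exact hga t) s

end Crest.Agent.R251.Sm
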