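import Crest.Agent.R251.Sm82E
import Crest.Agent.R251.LB972
import Crest.Agent.R251.MV963

/-!
# Row 251: the small simplices theorem in 972's and 963's forms (helper82)
-/

set_option autoImplicit false

namespace Crest.Agent.R251.Sm

open Crest.GeometryTopology.DeckCochains

/-- 972's form -/
theorem lb_smallVanish {G E M : Type} [Group G] [TopologicalSpace E] [MulAction G E]
    [ContinuousConstSMul G E] [AddCommGroup M] [DistribMulAction G M] (n : ℕ)
    (U : Set (Set E)) (hU : ∀ W ∈ U, IsOpen W) (hc : ⋃₀ U = Set.univ) :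
    LB.SmallVanish G E M n U := by
  intro φ hφ hG h0
  obtain ⟨ψ, h1, -, h3, h4⟩ := small_vanish U hU
    (fun x => by
      have hx : x ∈ ⋃₀ U := hc ▸ Set.mem_univ x
      exact hx)
    φ hφ h0
  refine ⟨ψ, h1, fun g s => ?_, fun s hs => h3 s hs⟩
  exact h4 (((Homeomorph.smul g : E ≃ₜ E)) : C(E, E)) (DistribSMul.toAddMonoidHom M g)
    (fun t => hG g t) s

theorem lb_smallVanish_cells {G E J B M : Type} [Group G] [TopologicalSpace E] [MulAction G E]
    [ContinuousConstSMul G E] [TopologicalSpace B] [AddCommGroup M] [DistribMulAction G M] (n : ℕ)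
    (K : LB.Cells G E J B) : LB.SmallVanish G E M n K.cov :=
  lb_smallVanish n K.cov K.cov_open K.cov_univ

/-- 963's form -/
theorem pr_smallV {G E M : Type} [Group G] [TopologicalSpace E] [MulAction G E]
    [ContinuousConstSMul G E] [AddCommGroup M] [DistribMulAction G M] {U V : Set E}
    (hU : IsOpen U) (hV : IsOpen V) (hUV : U ∪ V = Set.univ) : Pr.SmallV G U V M := by
  intro n φ hG hφ h0U h0V
  obtain ⟨ψ, h1, -, h3, h4⟩ := small_vanish {U, V}
    (by rintro W (rfl | rfl) <;> assumption)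
    (fun x => by
      have hx : x ∈ U ∪ V := hUV ▸ Set.mem_univ x
      exact hx.elim (fun h => ⟨U, by simp, h⟩) fun h => ⟨V, by simp, h⟩)
    φ hφ
    (by
      rintro s ⟨W, (rfl | rfl), hs⟩
      · exact h0U s fun x => hs ⟨x, rfl⟩
      · exact h0V s fun x => hs ⟨x, rfl⟩)
  refine ⟨ψ, fun g s => ?_, h1, fun s hs => ?_, fun s hs => ?_⟩
  · exact h4 (Pr.act g) (DistribSMul.toAddMonoidHom M g) (fun t => hG g t) s
  · exact h3 s ⟨U, by simp, by rintro _ ⟨x, rfl⟩; exact hs x⟩
  · exact h3 s ⟨V, by simp, by rintro _ ⟨x, rfl⟩; exact hs x⟩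

end Crest.Agent.R251.Sm
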