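import Crest.Agent.R251.L679

/-!
# R251 (S0388) (helper679): cohomology of the spheres `S m` (boundary of the cube), (s0)

`van0_mv` : plain Mayer-Vietoris.  `van0_S : m ≤ n + 1 → Van0 (S (m)) M n` for `1 ≤ m`.
-/

set_option autoImplicit false
set_option linter.unusedSectionVars false

open CategoryTheory Simplicial Opposite Set Metric Topology
open scoped unitInterval
open Crest.GeometryTopology.DeckCochains
open Crest.Agent.R251.Pr

namespace Crest.Agent.R251.Orb

section mv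
variable {E : Type} [TopologicalSpace E] {M : Type} [AddCommGroup M] {n : ℕ}

/-- plain vanishing on the simplices of a subset -/
theorem van0_on {A : Set E} (h : Van0 A M n) (φ : SingSimplex E (n + 1) → M)
    (hc : ∀ s, SIn A s → cochainCobdry φ s = 0) :
    ∃ ψ : SingSimplex E n → M, ∀ s, SIn A s → cochainCobdry ψ s = φ s := by
  obtain ⟨ψ, hψ⟩ := h (pull (incl A) φ) (by
    rw [cobdry_pull]
    funext s
    exact hc _ (sin_push_incl s))
  refine ⟨ext0 ψ, ?_⟩
  rw [← pull_incl_eq_iff, ← cobdry_pull, pull_ext0, hψ]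

/-- plain gluing -/
theorem glue0 {U V : Set E} (hU : IsOpen U) (hV : IsOpen V) (hUV : U ∪ V = Set.univ)
    {ω : SingSimplex E (n + 2) → M} (hc : cochainCobdry ω = 0)
    (bU bV : SingSimplex E (n + 1) → M) (η : SingSimplex E n → M)
    (h1 : ∀ s, SIn U s → cochainCobdry bU s = ω s) (h2 : ∀ s, SIn V s → cochainCobdry bV s = ω s)
    (h3 : ∀ s, SIn U s → SIn V s → bU s - bV s = cochainCobdry η s) :
    ∃ ψ : SingSimplex E (n + 1) → M, cochainCobdry ψ = ω ∧
      (∀ s, SIn U s → ψ s = bU s) ∧ ∀ s, SIn V s → ψ s = bV s + cochainCobdry η s := by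
  let _ := trivAct E
  have _ : ContinuousConstSMul PUnit E := ⟨fun _ => continuous_id⟩
  let _ := trivDAct M
  have he : ∀ {k : ℕ} (χ : SingSimplex E k → M), EqC PUnit χ := fun χ g s => by
    show χ (Pr.push (ContinuousMap.id E) s) = χ s
    rw [push_id]
  obtain ⟨ψ, -, h4, h5, h6⟩ := glueP (G := PUnit) hU hV hUV (fun _ _ => Iff.rfl)
    (fun _ _ => Iff.rfl) (he ω) hc bU bV (he _) (he _) η (he _) h1 h2 h3
  exact ⟨ψ, h4, h5, h6⟩

/-- plain Mayer-Vietoris vanishing -/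
theorem van0_mv {A B : Set E} (hA : IsOpen A) (hB : IsOpen B) (hAB : A ∪ B = univ)
    (h1 : Van0 A M (n + 1)) (h2 : Van0 B M (n + 1)) (h3 : Van0 (A ∩ B : Set E) M n) :
    Van0 E M (n + 1) := by
  intro ω hc
  obtain ⟨bU, hU⟩ := van0_on h1 ω (fun s _ => congrFun hc s)
  obtain ⟨bV, hV⟩ := van0_on h2 ω (fun s _ => congrFun hc s)
  obtain ⟨η, hη⟩ := van0_on h3 (bU - bV) (fun s hs => by
    rw [Pr.cobdry_sub, Pi.sub_apply, hU s fun t => (hs t).1, hV s fun t => (hs t).2, sub_self])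
  obtain ⟨ψ, h4, -⟩ := glue0 hA hB hAB hc bU bV η hU hV
    (fun s hs ht => (hη s (hs.inter ht)).symm)
  exact ⟨ψ, h4⟩

end mv

/-! ### the spheres -/

section sphere
open Crest.Agent.R185.Att

/-- upper part of the sphere -/
def SA (m : ℕ) : Set (S (m + 1)) := {x | -(1/2 : ℝ) < (x : Fin (m + 1) → ℝ) 0}
/-- lower part of the sphere -/
def SB (m : ℕ) : Set (S (m + 1)) := {x | (x : Fin (m + 1) → ℝ) 0 < 1/2}

theorem isOpen_SA (m : ℕ) : IsOpen (SA m) :=
  isOpen_lt continuous_const ((continuous_apply 0).comp continuous_subtype_val)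
theorem isOpen_SB (m : ℕ) : IsOpen (SB m) :=
  isOpen_lt ((continuous_apply 0).comp continuous_subtype_val) continuous_const

theorem SA_union_SB (m : ℕ) : SA m ∪ SB m = univ := by
  refine eq_univ_of_forall fun x => ?_
  rcases lt_or_ge (-(1/2 : ℝ)) ((x : Fin (m + 1) → ℝ) 0) with h | h
  · exact Or.inl h
  · exact Or.inr (show (x : Fin (m + 1) → ℝ) 0 < 1/2 by linarith)

/-- norm of a vector in terms of head and tail -/
theorem norm_cons (m : ℕ) (a : ℝ) (y : Fin m → ℝ) :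
    ‖(Fin.cons a y : Fin (m + 1) → ℝ)‖ = max |a| ‖y‖ := by
  apply le_antisymm
  · rw [norm_cons_le_iff]
    exact ⟨le_max_left _ _, le_max_right _ _⟩
  · refine max_le ?_ ?_
    · have := norm_le_pi_norm (Fin.cons a y : Fin (m + 1) → ℝ) 0
      simpa using this
    · refine (pi_norm_le_iff_of_nonneg (norm_nonneg _)).2 fun i => ?_
      have := norm_le_pi_norm (Fin.cons a y : Fin (m + 1) → ℝ) i.succ
      simpa using this
where
  norm_cons_le_iff {r : ℝ} : ‖(Fin.cons a y : Fin (m + 1) → ℝ)‖ ≤ r ↔ |a| ≤ r ∧ ‖y‖ ≤ r := by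
    constructor
    · intro h
      refine ⟨?_, ?_⟩
      · have := norm_le_pi_norm (Fin.cons a y : Fin (m + 1) → ℝ) 0
        have h2 : ‖a‖ ≤ ‖(Fin.cons a y : Fin (m + 1) → ℝ)‖ := by simpa using this
        exact h2.trans h
      · have hr : 0 ≤ r := (norm_nonneg _).trans h
        refine (pi_norm_le_iff_of_nonneg hr).2 fun i => ?_
        have := norm_le_pi_norm (Fin.cons a y : Fin (m + 1) → ℝ) i.succ
        have h2 : ‖y i‖ ≤ ‖(Fin.cons a y : Fin (m + 1) → ℝ)‖ := by simpa using this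
        exact h2.trans h
    · rintro ⟨h1, h2⟩
      have hr : 0 ≤ r := (abs_nonneg _).trans h1
      refine (pi_norm_le_iff_of_nonneg hr).2 fun i => ?_
      refine Fin.cases ?_ (fun j => ?_) i
      · simpa using h1
      · simpa using (norm_le_pi_norm y j).trans h2

/-- head and tail of a point of the sphere -/
theorem S_max_eq {m : ℕ} (x : S (m + 1)) :
    max |(x : Fin (m + 1) → ℝ) 0| ‖Fin.tail (x : Fin (m + 1) → ℝ)‖ = 1 := by
  rw [← norm_cons, Fin.cons_self_tail, x.norm_eq]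

theorem continuous_tail (m : ℕ) : Continuous fun x : Fin (m + 1) → ℝ => Fin.tail x :=
  continuous_pi fun i => continuous_apply i.succ

theorem S_tail_le {m : ℕ} (x : S (m + 1)) : ‖Fin.tail (x : Fin (m + 1) → ℝ)‖ ≤ 1 :=
  (le_max_right _ _).trans (S_max_eq x).le

theorem S_abs_le {m : ℕ} (x : S (m + 1)) : |(x : Fin (m + 1) → ℝ) 0| ≤ 1 :=
  (le_max_left _ _).trans (S_max_eq x).le

/-- if the head is smaller than one, the tail is on the sphere -/
theorem S_tail_eq {m : ℕ} (x : S (m + 1)) (h : |(x : Fin (m + 1) → ℝ) 0| < 1) :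
    ‖Fin.tail (x : Fin (m + 1) → ℝ)‖ = 1 := by
  rcases le_total |(x : Fin (m + 1) → ℝ) 0| ‖Fin.tail (x : Fin (m + 1) → ℝ)‖ with h1 | h1
  · have := (S_max_eq x)
    rw [max_eq_right h1] at this
    exact this
  · have := (S_max_eq x)
    rw [max_eq_left h1] at this
    linarith

/-- change the head of a point of the sphere, `ε ∈ {1, -1}`: `(x₀, y) ↦ ((1-t) x₀ + t ε, y)` -/
noncomputable def pushHead {m : ℕ} (ε : ℝ) (hε : |ε| = 1) (x : S (m + 1))
    (hx : (x : Fin (m + 1) → ℝ) 0 ≠ -ε) (t : I) : S (m + 1) :=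
  ⟨Fin.cons ((1 - (t : ℝ)) * (x : Fin (m + 1) → ℝ) 0 + t * ε) (Fin.tail (x : Fin (m + 1) → ℝ)), by
    rw [mem_sphere_zero_iff_norm, norm_cons]
    have h0 : (0 : ℝ) ≤ t := t.2.1
    have h1 : (t : ℝ) ≤ 1 := t.2.2
    have hb : |(1 - (t : ℝ)) * (x : Fin (m + 1) → ℝ) 0 + t * ε| ≤ 1 := by
      refine (abs_add_le _ _).trans ?_
      rw [abs_mul, abs_mul, hε, abs_of_nonneg h0, abs_of_nonneg (by linarith : 0 ≤ 1 - (t : ℝ))]
      nlinarith [(S_abs_le x)]
    rcases lt_or_eq_of_le (S_abs_le x) with h | h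
    · rw [S_tail_eq x h]
      exact max_eq_right hb
    · -- |x₀| = 1, hence x₀ = ε
      have hxe : (x : Fin (m + 1) → ℝ) 0 = ε := by
        rcases abs_eq_abs.1 (h.trans hε.symm) with h2 | h2
        · exact h2
        · exact absurd h2 hx
      have : (1 - (t : ℝ)) * (x : Fin (m + 1) → ℝ) 0 + t * ε = ε := by rw [hxe]; ring
      rw [this, hε]
      exact max_eq_left (S_tail_le x)⟩

theorem pushHead_head {m : ℕ} (ε : ℝ) (hε : |ε| = 1) (x : S (m + 1))
    (hx : (x : Fin (m + 1) → ℝ) 0 ≠ -ε) (t : I) : ((pushHead ε hε x hx t : S (m + 1)) :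
      Fin (m + 1) → ℝ) 0 = (1 - (t : ℝ)) * (x : Fin (m + 1) → ℝ) 0 + t * ε := rfl

/-- the half `{ε x₀ > -1/2}` -/
def Half (m : ℕ) (ε : ℝ) : Set (S (m + 1)) := {x | -(1/2 : ℝ) < ε * (x : Fin (m + 1) → ℝ) 0}

theorem half_ne {m : ℕ} {ε : ℝ} (hε : |ε| = 1) {x : S (m + 1)} (hx : x ∈ Half m ε) :
    (x : Fin (m + 1) → ℝ) 0 ≠ -ε := by
  intro h
  have h2 : ε * ε = 1 := by rw [← abs_mul_abs_self, hε]; norm_num
  have h3 : -(1/2 : ℝ) < ε * (x : Fin (m + 1) → ℝ) 0 := hx
  rw [h] at h3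
  nlinarith

theorem van0_half (m : ℕ) (ε : ℝ) (hε : |ε| = 1) {M : Type} [AddCommGroup M] (n : ℕ) :
    Van0 (Half m ε) M n := by
  have h2 : ε * ε = 1 := by rw [← abs_mul_abs_self, hε]; norm_num
  -- projection to the ball and back
  let f : C(Half m ε, D m) :=
    ⟨fun x => ⟨Fin.tail ((x : S (m + 1)) : Fin (m + 1) → ℝ), mem_closedBall_zero_iff.2
      (S_tail_le (x : S (m + 1)))⟩,
      ((continuous_tail m).comp (continuous_subtype_val.comp continuous_subtype_val)).subtype_mk _⟩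
  have hf' : ∀ y : D m, ‖(Fin.cons ε (y : Fin m → ℝ) : Fin (m + 1) → ℝ)‖ = 1 := fun y => by
    rw [norm_cons, hε]
    exact max_eq_left y.norm_le
  let f' : C(D m, Half m ε) :=
    ⟨fun y => ⟨⟨Fin.cons ε (y : Fin m → ℝ), mem_sphere_zero_iff_norm.2 (hf' y)⟩, by
      show -(1/2 : ℝ) < ε * (Fin.cons ε (y : Fin m → ℝ) : Fin (m + 1) → ℝ) 0
      rw [Fin.cons_zero, h2]; norm_num⟩, by
      refine Continuous.subtype_mk (Continuous.subtype_mk ?_ _) _
      refine continuous_pi fun i => ?_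
      refine Fin.cases ?_ (fun j => ?_) i
      · exact continuous_const
      · exact (continuous_apply j).comp continuous_subtype_val⟩
  refine Van0.of_retract (van0_contractible (F := D m) n) f f' ⟨?_⟩
  refine ContinuousMap.Homotopy.symm ?_
  refine
    { toFun := fun p => ⟨pushHead ε hε (p.2 : S (m + 1)) (half_ne hε p.2.2) p.1, ?_⟩
      continuous_toFun := ?_
      map_zero_left := ?_
      map_one_left := ?_ }
  · show -(1/2 : ℝ) < ε * ((1 - (p.1 : ℝ)) * ((p.2 : S (m + 1)) : Fin (m + 1) → ℝ) 0 + p.1 * ε)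
    have h3 : -(1/2 : ℝ) < ε * ((p.2 : S (m + 1)) : Fin (m + 1) → ℝ) 0 := p.2.2
    have h0 : (0 : ℝ) ≤ p.1 := p.1.2.1
    have h1 : (p.1 : ℝ) ≤ 1 := p.1.2.2
    have e : ε * ((1 - (p.1 : ℝ)) * ((p.2 : S (m + 1)) : Fin (m + 1) → ℝ) 0 + p.1 * ε) =
        (1 - (p.1 : ℝ)) * (ε * ((p.2 : S (m + 1)) : Fin (m + 1) → ℝ) 0) + p.1 * (ε * ε) := by ring
    rw [e, h2]
    set a := ε * ((p.2 : S (m + 1)) : Fin (m + 1) → ℝ) 0
    rcases eq_or_lt_of_le h1 with h | h
    · rw [h]; norm_num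
    · nlinarith [mul_pos (by linarith : 0 < 1 - (p.1 : ℝ)) (by linarith : 0 < a + 1/2)]
  · refine Continuous.subtype_mk (Continuous.subtype_mk ?_ _) _
    have c1 : Continuous fun p : I × Half m ε => (((p.2 : S (m + 1)) : Fin (m + 1) → ℝ)) :=
      continuous_subtype_val.comp (continuous_subtype_val.comp continuous_snd)
    have c2 : Continuous fun p : I × Half m ε => (p.1 : ℝ) :=
      continuous_subtype_val.comp continuous_fst
    refine continuous_pi fun i => ?_
    refine Fin.cases ?_ (fun j => ?_) i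
    · exact ((continuous_const.sub c2).mul ((continuous_apply 0).comp c1)).add
        (c2.mul continuous_const)
    · exact (continuous_apply j).comp ((continuous_tail m).comp c1)
  · intro x
    apply Subtype.ext
    apply Subtype.ext
    show (Fin.cons ((1 - ((0 : I) : ℝ)) * ((x : S (m + 1)) : Fin (m + 1) → ℝ) 0 +
      ((0 : I) : ℝ) * ε) (Fin.tail ((x : S (m + 1)) : Fin (m + 1) → ℝ)) : Fin (m + 1) → ℝ) = _
    have : (1 - ((0 : I) : ℝ)) * ((x : S (m + 1)) : Fin (m + 1) → ℝ) 0 + ((0 : I) : ℝ) * ε =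
      ((x : S (m + 1)) : Fin (m + 1) → ℝ) 0 := by simp
    rw [this]
    exact Fin.cons_self_tail _
  · intro x
    apply Subtype.ext
    apply Subtype.ext
    show (Fin.cons ((1 - ((1 : I) : ℝ)) * ((x : S (m + 1)) : Fin (m + 1) → ℝ) 0 +
      ((1 : I) : ℝ) * ε) (Fin.tail ((x : S (m + 1)) : Fin (m + 1) → ℝ)) : Fin (m + 1) → ℝ) =
      Fin.cons ε (Fin.tail ((x : S (m + 1)) : Fin (m + 1) → ℝ))
    have : (1 - ((1 : I) : ℝ)) * ((x : S (m + 1)) : Fin (m + 1) → ℝ) 0 + ((1 : I) : ℝ) * ε = ε := by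
      simp
    rw [this]

theorem SA_eq (m : ℕ) : SA m = Half m 1 := by
  ext x
  show -(1/2 : ℝ) < _ ↔ -(1/2 : ℝ) < 1 * _
  rw [one_mul]

theorem SB_eq (m : ℕ) : SB m = Half m (-1) := by
  ext x
  show _ < (1/2 : ℝ) ↔ -(1/2 : ℝ) < -1 * _
  constructor <;> intro h <;> linarith

variable {M : Type} [AddCommGroup M]

theorem van0_SA (m n : ℕ) : Van0 (SA m) M n := by
  rw [SA_eq]; exact van0_half m 1 (by norm_num) n

theorem van0_SB (m n : ℕ) : Van0 (SB m) M n := by
  rw [SB_eq]; exact van0_half m (-1) (by norm_num) n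

/-- the equatorial belt -/
abbrev Belt (m : ℕ) : Type := (SA m ∩ SB m : Set (S (m + 1)))

theorem belt_tail {m : ℕ} (x : Belt m) :
    ‖Fin.tail ((x : S (m + 1)) : Fin (m + 1) → ℝ)‖ = 1 := by
  refine S_tail_eq _ ?_
  have h1 : -(1/2 : ℝ) < ((x : S (m + 1)) : Fin (m + 1) → ℝ) 0 := x.2.1
  have h2 : ((x : S (m + 1)) : Fin (m + 1) → ℝ) 0 < 1/2 := x.2.2
  rw [abs_lt]
  constructor <;> linarith

/-- projection of the belt to the equator -/
def beltR (m : ℕ) : C(Belt m, S m) :=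
  ⟨fun x => ⟨Fin.tail ((x : S (m + 1)) : Fin (m + 1) → ℝ), mem_sphere_zero_iff_norm.2 (belt_tail x)⟩,
    ((continuous_tail m).comp (continuous_subtype_val.comp continuous_subtype_val)).subtype_mk _⟩

theorem norm_cons_of_le {m : ℕ} {a : ℝ} (ha : |a| ≤ 1) (y : S m) :
    ‖(Fin.cons a (y : Fin m → ℝ) : Fin (m + 1) → ℝ)‖ = 1 := by
  rw [norm_cons, y.norm_eq]
  exact max_eq_right ha

/-- points of the belt -/
def beltPt {m : ℕ} (a : ℝ) (ha : |a| < 1/2) (y : S m) : Belt m :=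
  ⟨⟨Fin.cons a (y : Fin m → ℝ), mem_sphere_zero_iff_norm.2 (norm_cons_of_le (by linarith) y)⟩, by
    rw [abs_lt] at ha
    exact ⟨ha.1, ha.2⟩⟩

/-- the equator -/
def beltS (m : ℕ) : C(S m, Belt m) :=
  ⟨fun y => beltPt 0 (by norm_num) y, by
    refine Continuous.subtype_mk (Continuous.subtype_mk ?_ _) _
    refine continuous_pi fun i => ?_
    refine Fin.cases ?_ (fun j => ?_) i
    · exact continuous_const
    · exact (continuous_apply j).comp continuous_subtype_val⟩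

@[simp] theorem beltR_beltS {m : ℕ} (y : S m) : beltR m (beltS m y) = y := rfl

theorem belt_head {m : ℕ} (x : Belt m) : |((x : S (m + 1)) : Fin (m + 1) → ℝ) 0| < 1/2 :=
  abs_lt.2 ⟨x.2.1, x.2.2⟩

/-- the deformation of the belt onto the equator -/
def beltH (m : ℕ) : C(Belt m × I, Belt m) :=
  ⟨fun p => beltPt ((1 - (p.2 : ℝ)) * ((p.1 : S (m + 1)) : Fin (m + 1) → ℝ) 0) (by
      have h0 : (0 : ℝ) ≤ p.2 := p.2.2.1
      have h1 : (p.2 : ℝ) ≤ 1 := p.2.2.2
      rw [abs_mul, abs_of_nonneg (by linarith : 0 ≤ 1 - (p.2 : ℝ))]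
      have := belt_head p.1
      nlinarith [abs_nonneg (((p.1 : S (m + 1)) : Fin (m + 1) → ℝ) 0)]) (beltR m p.1), by
    refine Continuous.subtype_mk (Continuous.subtype_mk ?_ _) _
    have c1 : Continuous fun p : Belt m × I => (((p.1 : S (m + 1)) : Fin (m + 1) → ℝ)) :=
      continuous_subtype_val.comp (continuous_subtype_val.comp continuous_fst)
    have c2 : Continuous fun p : Belt m × I => (p.2 : ℝ) :=
      continuous_subtype_val.comp continuous_snd
    refine continuous_pi fun i => ?_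
    refine Fin.cases ?_ (fun j => ?_) i
    · exact (continuous_const.sub c2).mul ((continuous_apply 0).comp c1)
    · exact (continuous_apply j).comp (continuous_subtype_val.comp ((beltR m).continuous.comp
        continuous_fst))⟩

theorem beltH_zero {m : ℕ} (x : Belt m) : beltH m (x, 0) = x := by
  apply Subtype.ext
  apply Subtype.ext
  show (Fin.cons ((1 - ((0 : I) : ℝ)) * ((x : S (m + 1)) : Fin (m + 1) → ℝ) 0)
    (Fin.tail ((x : S (m + 1)) : Fin (m + 1) → ℝ)) : Fin (m + 1) → ℝ) = _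
  have : (1 - ((0 : I) : ℝ)) * ((x : S (m + 1)) : Fin (m + 1) → ℝ) 0 =
    ((x : S (m + 1)) : Fin (m + 1) → ℝ) 0 := by simp
  rw [this]
  exact Fin.cons_self_tail _

theorem beltH_one {m : ℕ} (x : Belt m) : beltH m (x, 1) = beltS m (beltR m x) := by
  apply Subtype.ext
  apply Subtype.ext
  show (Fin.cons ((1 - ((1 : I) : ℝ)) * ((x : S (m + 1)) : Fin (m + 1) → ℝ) 0)
    (Fin.tail ((x : S (m + 1)) : Fin (m + 1) → ℝ)) : Fin (m + 1) → ℝ) =
    Fin.cons 0 (Fin.tail ((x : S (m + 1)) : Fin (m + 1) → ℝ))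
  have : (1 - ((1 : I) : ℝ)) * ((x : S (m + 1)) : Fin (m + 1) → ℝ) 0 = 0 := by simp
  rw [this]

theorem van0_belt {m n : ℕ} (h : Van0 (S m) M n) : Van0 (SA m ∩ SB m : Set (S (m + 1))) M n := by
  refine Van0.of_retract h (beltR m) (beltS m) ⟨ContinuousMap.Homotopy.symm ?_⟩
  exact
    { toFun := fun p => beltH m (p.2, p.1)
      continuous_toFun := (beltH m).continuous.comp continuous_swap
      map_zero_left := fun x => beltH_zero x
      map_one_left := fun x => beltH_one x }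

/-- the two point sphere -/
theorem const_S1 (k : ℕ) (τ : C(Dl k, S 1)) : ∃ x, τ = ContinuousMap.const _ x := by
  have hpm : ∀ x : S 1, (x : Fin 1 → ℝ) 0 = 1 ∨ (x : Fin 1 → ℝ) 0 = -1 := by
    intro x
    have h := x.norm_eq
    have h2 : ‖(x : Fin 1 → ℝ)‖ = |(x : Fin 1 → ℝ) 0| := by
      apply le_antisymm
      · refine (pi_norm_le_iff_of_nonneg (abs_nonneg _)).2 fun i => ?_
        rw [Subsingleton.elim i 0]; rfl
      · exact norm_le_pi_norm (x : Fin 1 → ℝ) 0
    rw [h2] at h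
    rcases abs_eq (zero_le_one) |>.1 h with h | h
    · exact Or.inl h
    · exact Or.inr h
  have hpc : PreconnectedSpace (Dl k) := inferInstance
  refine ⟨τ (stdSimplex.vertex 0), ?_⟩
  ext1 t
  rw [ContinuousMap.const_apply]
  by_contra hne
  -- the head takes a value different from ±1
  have hc : Continuous fun t => (τ t : Fin 1 → ℝ) 0 :=
    (continuous_apply 0).comp (continuous_subtype_val.comp τ.continuous)
  have hpre := isPreconnected_univ (α := Dl k).image (fun t => (τ t : Fin 1 → ℝ) 0) hc.continuousOn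
  have hord := hpre.ordConnected
  have hmem : ∀ t, (τ t : Fin 1 → ℝ) 0 ∈ (fun t => (τ t : Fin 1 → ℝ) 0) '' (univ : Set (Dl k)) :=
    fun t => ⟨t, mem_univ _, rfl⟩
  have hdiff : (τ t : Fin 1 → ℝ) 0 ≠ (τ (stdSimplex.vertex 0) : Fin 1 → ℝ) 0 := by
    intro h
    apply hne
    apply Subtype.ext
    funext i
    rw [Subsingleton.elim i 0]
    exact h
  have h0 : (0 : ℝ) ∈ (fun t => (τ t : Fin 1 → ℝ) 0) '' (univ : Set (Dl k)) := by
    rcases hpm (τ t) with h1 | h1 <;> rcases hpm (τ (stdSimplex.vertex 0)) with h2 | h2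
    · exact absurd (h1.trans h2.symm) hdiff
    · exact hord.out (hmem (stdSimplex.vertex 0)) (hmem t) ⟨by rw [h2]; norm_num, by
        show (0 : ℝ) ≤ (τ t : Fin 1 → ℝ) 0
        rw [h1]; norm_num⟩
    · exact hord.out (hmem t) (hmem (stdSimplex.vertex 0)) ⟨by
        show (τ t : Fin 1 → ℝ) 0 ≤ (0 : ℝ)
        rw [h1]; norm_num, by rw [h2]; norm_num⟩
    · exact absurd (h1.trans h2.symm) hdiff
  obtain ⟨t', -, ht'⟩ := h0
  have ht2 : (τ t' : Fin 1 → ℝ) 0 = 0 := ht'
  rcases hpm (τ t') with h | h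
  · rw [h] at ht2; norm_num at ht2
  · rw [h] at ht2; norm_num at ht2

/-- **(s0)**: `H^(n+1)(S m; M) = 0` for `n + 1 ≥ m ≥ 1` (`S m` has dimension `m - 1`). -/
theorem van0_S (m n : ℕ) (h : m ≤ n) : Van0 (S (m + 1)) M n := by
  induction m generalizing n with
  | zero => exact van0_of_const const_S1
  | succ m ih =>
    obtain ⟨k, rfl⟩ : ∃ k, n = k + 1 := ⟨n - 1, by omega⟩
    exact van0_mv (isOpen_SA (m + 1)) (isOpen_SB (m + 1)) (SA_union_SB (m + 1))
      (van0_SA (m + 1) (k + 1)) (van0_SB (m + 1) (k + 1)) (van0_belt (ih k (by omega)))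

end sphere

end Crest.Agent.R251.Orb
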