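import Crest.Agent.R251.Lab267
import Crest.Agent.R197.EdgePath

/-! Row 251 (helper267): if `H²(Y;ℝ) = 0` (singular) for a two-dimensional complex `Y`, then every real
vector is the value of a path label of the 1-skeleton on the boundary loops of the 2-cells.
The cocycles come from the Hopf cocycle on the sphere (row 123) and the collapse maps `Y → S²`. -/

set_option autoImplicit false

open unitInterval
open Crest.Agent.R123 (Dl face S2 ze he mkS2 north proj IsLift WW WW_eq WW_cocycle Wl chl chl_spec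
  rr rr_ne inc inc_eq inc_mul inc_face_sum herm herm_smul exists_lift)
open Crest.Agent.R197 (PathLabel TwoCx Iint Sint rectHomotopy)

noncomputable section

namespace Crest.Agent.R251.Sur

/-! ### the model: the square modulo its boundary -/

/-- complex coordinate of the square, centered -/
def uu : C(I × I, ℂ) :=
  ⟨fun s => ((2 * (s.1 : ℝ) - 1 : ℝ) : ℂ) + ((2 * (s.2 : ℝ) - 1 : ℝ) : ℂ) * Complex.I, by fun_prop⟩

/-- a function which is positive in the interior and zero on the boundary of the square -/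
def bb : C(I × I, ℝ) :=
  ⟨fun s => (s.1 : ℝ) * (1 - s.1) * ((s.2 : ℝ) * (1 - s.2)), by fun_prop⟩

lemma bb_zero {s : I × I} (h : s ∉ Sint) : bb s = 0 := by
  have h1 : s.1 ∉ Iint ∨ s.2 ∉ Iint := by
    by_contra hc
    push Not at hc
    exact h ⟨hc.1, hc.2⟩
  show (s.1 : ℝ) * (1 - s.1) * ((s.2 : ℝ) * (1 - s.2)) = 0
  rcases h1 with h1 | h1
  · rcases TwoCx.not_Iint h1 with h2 | h2 <;> rw [h2] <;> simp
  · rcases TwoCx.not_Iint h1 with h2 | h2 <;> rw [h2] <;> simp

lemma uu_zero {s : I × I} (h : uu s = 0) : (s.1 : ℝ) = 1 / 2 ∧ (s.2 : ℝ) = 1 / 2 := by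
  have h1 := congrArg Complex.re h
  have h2 := congrArg Complex.im h
  simp only [uu, ContinuousMap.coe_mk, Complex.add_re, Complex.ofReal_re, Complex.mul_re,
    Complex.I_re, mul_zero, Complex.ofReal_im, Complex.I_im, mul_one, sub_self, add_zero,
    Complex.zero_re] at h1
  simp only [uu, ContinuousMap.coe_mk, Complex.add_im, Complex.ofReal_im, Complex.mul_im,
    Complex.I_re, mul_zero, Complex.ofReal_re, Complex.I_im, mul_one, zero_add, add_zero,
    Complex.zero_im] at h2
  constructor <;> linarith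

/-- squared norm of the homogeneous coordinates -/
def NN (s : I × I) : ℝ := ‖uu s‖ ^ 2 + bb s ^ 2

lemma NN_pos (s : I × I) : 0 < NN s := by
  by_cases h : uu s = 0
  · obtain ⟨h1, h2⟩ := uu_zero h
    have h3 : bb s = 1 / 16 := by
      show (s.1 : ℝ) * (1 - s.1) * ((s.2 : ℝ) * (1 - s.2)) = 1 / 16
      rw [h1, h2]; norm_num
    unfold NN
    rw [h3]
    positivity
  · have h1 : 0 < ‖uu s‖ := norm_pos_iff.2 h
    unfold NN
    positivity

lemma uu_ne {s : I × I} (h : s ∉ Sint) : uu s ≠ 0 := by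
  intro h0
  have h1 := NN_pos s
  unfold NN at h1
  rw [h0, bb_zero h] at h1
  simp at h1

/-- the collapse of the boundary of the square -/
def QQ : C(I × I, S2) :=
  ⟨fun s => mkS2 (((2 * bb s / NN s : ℝ) : ℂ) * uu s) ((‖uu s‖ ^ 2 - bb s ^ 2) / NN s) (by
    have h := NN_pos s
    rw [norm_mul, Complex.norm_real, Real.norm_eq_abs, mul_pow, sq_abs]
    rw [div_pow, div_pow, div_mul_eq_mul_div, ← add_div, div_eq_one_iff_eq (by positivity)]
    unfold NN
    ring), by
    have hN : Continuous NN := by unfold NN; fun_prop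
    apply Crest.Agent.R123.Cone.continuous_mkS2
    · refine Continuous.mul (Complex.continuous_ofReal.comp ?_) uu.continuous
      exact Continuous.div (by fun_prop) hN (fun s => (NN_pos s).ne')
    · exact Continuous.div (by fun_prop) hN (fun s => (NN_pos s).ne')⟩

lemma QQ_bd {s : I × I} (h : s ∉ Sint) : QQ s = north := by
  have hb := bb_zero h
  have hN := NN_pos s
  apply Crest.Agent.R123.S2_ext
  · show ((2 * bb s / NN s : ℝ) : ℂ) * uu s = 0
    rw [hb]; simp
  · show (‖uu s‖ ^ 2 - bb s ^ 2) / NN s = 1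
    rw [div_eq_one_iff_eq hN.ne']
    unfold NN
    rw [hb]; ring

/-- the global lift over the square -/
def xi : C(I × I, ℂ × ℂ) := ⟨fun s => (uu s, ((bb s : ℝ) : ℂ)), by fun_prop⟩

lemma isLift_xi : IsLift QQ xi := by
  intro s
  have hN := NN_pos s
  have hNc : ((NN s : ℝ) : ℂ) ≠ 0 := by exact_mod_cast hN.ne'
  have hNN : ((NN s : ℝ) : ℂ) = (‖uu s‖ : ℂ) ^ 2 + ((bb s : ℝ) : ℂ) ^ 2 := by
    unfold NN; push_cast; rfl
  have hu : uu s * (starRingEnd ℂ) (uu s) = (‖uu s‖ : ℂ) ^ 2 := Complex.mul_conj' _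
  refine ⟨fun h => ?_, ?_⟩
  · have h1 : uu s = 0 := congrArg Prod.fst h
    have h2 : ((bb s : ℝ) : ℂ) = 0 := congrArg Prod.snd h
    have h3 : bb s = 0 := by exact_mod_cast h2
    unfold NN at hN
    rw [h1, h3] at hN
    simp at hN
  · have hz : ze (QQ s) = ((2 * bb s / NN s : ℝ) : ℂ) * uu s := rfl
    have hh : he (QQ s) = (‖uu s‖ ^ 2 - bb s ^ 2) / NN s := rfl
    show proj (QQ s) (uu s, ((bb s : ℝ) : ℂ)) = (uu s, ((bb s : ℝ) : ℂ))
    simp only [proj, hz, hh]
    push_cast
    apply Prod.ext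
    · simp only
      field_simp
      rw [hNN]
      ring
    · simp only [map_mul, map_div₀, Complex.conj_ofReal, map_ofNat]
      field_simp
      rw [hNN]
      linear_combination 2 * ((bb s : ℝ) : ℂ) * hu

/-! ### the collapse maps of a two-dimensional complex -/

variable {Y : Type} [TopologicalSpace Y] (C : TwoCx Y)

open Classical in
/-- the collapse of the complement of an open 2-cell, as a function -/
def colF (j : C.J) (y : Y) : S2 :=
  if h : ∃ s, s ∈ Sint ∧ y = C.f j s then QQ h.choose else north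

lemma colF_v (j : C.J) (o : C.O) : colF C j (C.v o) = north := by
  unfold colF
  rw [dif_neg]
  rintro ⟨s, hs, h⟩
  exact C.f_ne_v j s o hs h.symm

lemma colF_e (j : C.J) (i : C.E) (s : I) : colF C j (C.e i s) = north := by
  unfold colF
  rw [dif_neg]
  rintro ⟨s', hs, h⟩
  exact C.f_ne_e j s' i s hs h.symm

lemma colF_X1 (j : C.J) {y : Y} (h : y ∈ C.X1) : colF C j y = north := by
  rcases h with ⟨o, rfl⟩ | ⟨i, s, rfl⟩
  · exact colF_v C j o
  · exact colF_e C j i s

lemma f_mem_X1 (j : C.J) {s : I × I} (h : s ∉ Sint) : C.f j s ∈ C.X1 := by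
  rcases C.f_bd j _ h with ⟨o, h⟩ | ⟨i, s, h⟩
  · exact Or.inl ⟨o, h⟩
  · exact Or.inr ⟨i, s, h⟩

lemma colF_f_self (j : C.J) (s : I × I) : colF C j (C.f j s) = QQ s := by
  by_cases hs : s ∈ Sint
  · have h : ∃ s', s' ∈ Sint ∧ C.f j s = C.f j s' := ⟨s, hs, rfl⟩
    unfold colF
    rw [dif_pos h]
    have h2 := h.choose_spec
    have h3 := (C.f_inj j j _ _ hs h2.1 h2.2).2
    rw [← h3]
  · rw [QQ_bd hs, colF_X1 C j (f_mem_X1 C j hs)]

lemma colF_f_ne {j j' : C.J} (hj : j' ≠ j) (s : I × I) : colF C j (C.f j' s) = north := by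
  by_cases hs : s ∈ Sint
  · unfold colF
    rw [dif_neg]
    rintro ⟨s', hs', h⟩
    exact hj (C.f_inj j' j _ _ hs hs' h).1
  · exact colF_X1 C j (f_mem_X1 C j' hs)

lemma continuous_colF (j : C.J) : Continuous (colF C j) := by
  rw [continuous_iff_isClosed]
  intro A hA
  apply C.closed2
  · intro i
    have h : (C.e i) ⁻¹' (colF C j ⁻¹' A) = (fun _ : I => (north : S2)) ⁻¹' A := by
      ext s
      simp only [Set.mem_preimage, colF_e]
    rw [h]
    exact hA.preimage continuous_const
  · intro j'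
    by_cases hj : j' = j
    · subst hj
      have h : (C.f j') ⁻¹' (colF C j' ⁻¹' A) = QQ ⁻¹' A := by
        ext s
        simp only [Set.mem_preimage, colF_f_self]
      rw [h]
      exact hA.preimage QQ.continuous
    · have h : (C.f j') ⁻¹' (colF C j ⁻¹' A) = (fun _ : I × I => (north : S2)) ⁻¹' A := by
        ext s
        simp only [Set.mem_preimage, colF_f_ne C hj]
      rw [h]
      exact hA.preimage continuous_const

/-- the collapse map -/
def col (j : C.J) : C(Y, S2) := ⟨colF C j, continuous_colF C j⟩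

lemma col_incl (j : C.J) : (col C j).comp C.incl = ContinuousMap.const _ north := by
  ext1 y
  exact colF_X1 C j y.2

lemma col_f_self (j : C.J) : (col C j).comp (C.f j) = QQ := by
  ext1 s
  exact colF_f_self C j s

lemma col_f_ne {j j' : C.J} (hj : j' ≠ j) :
    (col C j).comp (C.f j') = ContinuousMap.const _ north := by
  ext1 s
  exact colF_f_ne C hj s

/-! ### the boundary of the square -/

/-- the square minus its centre -/
abbrev Sq0 : Type := {s : I × I // uu s ≠ 0}

/-- the coordinate, as a map on the punctured square -/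
def uu0 : C(Sq0, ℂ) := ⟨fun s => uu s.1, uu.continuous.comp continuous_subtype_val⟩

/-- increments of the argument: a cocycle on the punctured square -/
def incU : PathLabel Sq0 (Multiplicative ℝ) :=
  ofCocycle (fun e => inc (uu0.comp e)) (fun sg =>
    inc_face_sum (uu0.comp sg) (fun x => (sg x).2))

lemma notMem_of {s : I × I} (h : s.1 = 0 ∨ s.1 = 1 ∨ s.2 = 0 ∨ s.2 = 1) : s ∉ Sint := by
  intro hs
  rcases h with h | h | h | h
  · have := hs.1.1; rw [h] at this; exact lt_irrefl _ this
  · have := hs.1.2; rw [h] at this; exact lt_irrefl _ this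
  · have := hs.2.1; rw [h] at this; exact lt_irrefl _ this
  · have := hs.2.2; rw [h] at this; exact lt_irrefl _ this

/-- points of the boundary in the punctured square -/
def pt (s : I × I) (h : s.1 = 0 ∨ s.1 = 1 ∨ s.2 = 0 ∨ s.2 = 1) : Sq0 := ⟨s, uu_ne (notMem_of h)⟩

def sd1 : Path (pt (0, 0) (by simp)) (pt (1, 0) (by simp)) where
  toFun s := pt (s, 0) (by simp)
  continuous_toFun := Continuous.subtype_mk (by fun_prop) _
  source' := rfl
  target' := rfl

def sd2 : Path (pt (1, 0) (by simp)) (pt (1, 1) (by simp)) where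
  toFun s := pt (1, s) (by simp)
  continuous_toFun := Continuous.subtype_mk (by fun_prop) _
  source' := rfl
  target' := rfl

def sd3 : Path (pt (1, 1) (by simp)) (pt (0, 1) (by simp)) where
  toFun s := pt (unitInterval.symm s, 1) (by simp)
  continuous_toFun := Continuous.subtype_mk (by fun_prop) _
  source' := by apply Subtype.ext; simp [pt]
  target' := by apply Subtype.ext; simp [pt]

def sd4 : Path (pt (0, 1) (by simp)) (pt (0, 0) (by simp)) where
  toFun s := pt (0, unitInterval.symm s) (by simp)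
  continuous_toFun := Continuous.subtype_mk (by fun_prop) _
  source' := by apply Subtype.ext; simp [pt]
  target' := by apply Subtype.ext; simp [pt]

/-- the boundary of the square in the punctured square -/
def bd0 : Path (pt (0, 0) (by simp)) (pt (0, 0) (by simp)) :=
  ((sd1.trans sd2).trans sd3).trans sd4

lemma bd0_map : bd0.map (continuous_subtype_val (p := fun s : I × I => uu s ≠ 0)) =
    TwoCx.bdSq := by
  unfold bd0 TwoCx.bdSq
  rw [Path.map_trans, Path.map_trans, Path.map_trans]
  rfl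

/-- one quarter of the total increment -/
def qa : ℝ := Complex.arg (1 + Complex.I) - Complex.arg (1 - Complex.I)

lemma qa_pos : 0 < qa := by
  have h1 : 0 ≤ Complex.arg (1 + Complex.I) := by
    rw [Complex.arg_nonneg_iff]; simp
  have h2 : Complex.arg (1 - Complex.I) < 0 := by
    rw [Complex.arg_neg_iff]; simp
  unfold qa
  linarith

lemma inc_side (e : C(Dl 1, ℂ)) (a : ℂ)
    (h : ∀ x, e x = Complex.exp a * (1 + ((2 * (x 1 : ℝ) - 1 : ℝ) : ℂ) * Complex.I)) :
    inc e = qa := by
  have hs : ∀ x : Dl 1, (1 + ((2 * (x 1 : ℝ) - 1 : ℝ) : ℂ) * Complex.I) ∈ Complex.slitPlane := by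
    intro x
    left
    simp
  have hc : Continuous fun x : Dl 1 => (x 1 : ℝ) :=
    (continuous_apply (1 : Fin 2)).comp continuous_subtype_val
  rw [inc_eq e ⟨fun x => a + Complex.log (1 + ((2 * (x 1 : ℝ) - 1 : ℝ) : ℂ) * Complex.I), by
    refine continuous_const.add (Continuous.clog ?_ hs)
    exact continuous_const.add ((Complex.continuous_ofReal.comp
      ((continuous_const.mul hc).sub continuous_const)).mul continuous_const)⟩ (fun x => by
      rw [ContinuousMap.coe_mk, Complex.exp_add, Complex.exp_log (Complex.slitPlane_ne_zero (hs x)),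
        h x])]
  simp only [ContinuousMap.coe_mk]
  have e1 : ((Crest.Agent.R123.vx (n := 1) 1 : Dl 1) 1 : ℝ) = 1 := by
    simp [Crest.Agent.R123.vx]
  have e0 : ((Crest.Agent.R123.vx (n := 1) 0 : Dl 1) 1 : ℝ) = 0 := by
    simp [Crest.Agent.R123.vx]
  rw [e1, e0]
  have c1 : (1 : ℂ) + ((2 * (1 : ℝ) - 1 : ℝ) : ℂ) * Complex.I = 1 + Complex.I := by
    push_cast; ring
  have c0 : (1 : ℂ) + ((2 * (0 : ℝ) - 1 : ℝ) : ℂ) * Complex.I = 1 - Complex.I := by
    push_cast; ring
  rw [c1, c0]
  simp [qa, Complex.log_im]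

lemma exp_half : Complex.exp ((Real.pi / 2 : ℝ) * Complex.I) = Complex.I := by
  push_cast
  exact Complex.exp_pi_div_two_mul_I

lemma inc_sd1 : inc (uu0.comp (ps sd1.toContinuousMap)) = qa := by
  apply inc_side _ (-((Real.pi / 2 : ℝ) * Complex.I))
  intro x
  rw [Complex.exp_neg, exp_half, Complex.inv_I]
  show ((2 * ((co 1 x : I) : ℝ) - 1 : ℝ) : ℂ) + ((2 * ((0 : I) : ℝ) - 1 : ℝ) : ℂ) * Complex.I = _
  rw [co_coe]
  simp only [Set.Icc.coe_zero]
  push_cast
  linear_combination (2 * ((x 1 : ℝ) : ℂ) - 1) * Complex.I_sq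

lemma inc_sd2 : inc (uu0.comp (ps sd2.toContinuousMap)) = qa := by
  apply inc_side _ 0
  intro x
  rw [Complex.exp_zero]
  show ((2 * ((1 : I) : ℝ) - 1 : ℝ) : ℂ) + ((2 * ((co 1 x : I) : ℝ) - 1 : ℝ) : ℂ) * Complex.I = _
  rw [co_coe]
  simp only [Set.Icc.coe_one]
  push_cast
  ring

lemma inc_sd3 : inc (uu0.comp (ps sd3.toContinuousMap)) = qa := by
  apply inc_side _ ((Real.pi / 2 : ℝ) * Complex.I)
  intro x
  rw [exp_half]
  show ((2 * ((unitInterval.symm (co 1 x) : I) : ℝ) - 1 : ℝ) : ℂ) +
    ((2 * ((1 : I) : ℝ) - 1 : ℝ) : ℂ) * Complex.I = _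
  rw [unitInterval.coe_symm_eq, co_coe]
  simp only [Set.Icc.coe_one]
  push_cast
  linear_combination (-(2 * ((x 1 : ℝ) : ℂ) - 1)) * Complex.I_sq

lemma inc_sd4 : inc (uu0.comp (ps sd4.toContinuousMap)) = qa := by
  apply inc_side _ (Real.pi * Complex.I)
  intro x
  rw [Complex.exp_pi_mul_I]
  show ((2 * ((0 : I) : ℝ) - 1 : ℝ) : ℂ) +
    ((2 * ((unitInterval.symm (co 1 x) : I) : ℝ) - 1 : ℝ) : ℂ) * Complex.I = _
  rw [unitInterval.coe_symm_eq, co_coe]
  simp only [Set.Icc.coe_zero]
  push_cast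
  ring

lemma incU_bd0 : incU.lab bd0 = Multiplicative.ofAdd (4 * qa) := by
  unfold bd0
  rw [PathLabel.lab_trans, PathLabel.lab_trans, PathLabel.lab_trans]
  have h1 : incU.lab sd1 = Multiplicative.ofAdd qa := congrArg Multiplicative.ofAdd inc_sd1
  have h2 : incU.lab sd2 = Multiplicative.ofAdd qa := congrArg Multiplicative.ofAdd inc_sd2
  have h3 : incU.lab sd3 = Multiplicative.ofAdd qa := congrArg Multiplicative.ofAdd inc_sd3
  have h4 : incU.lab sd4 = Multiplicative.ofAdd qa := congrArg Multiplicative.ofAdd inc_sd4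
  rw [h1, h2, h3, h4, ← ofAdd_add, ← ofAdd_add, ← ofAdd_add]
  congr 1
  ring

lemma inc_bdSq : inc (uu.comp (ps TwoCx.bdSq.toContinuousMap)) = 4 * qa := by
  have h := incU_bd0
  have h2 : uu0.comp (ps bd0.toContinuousMap) = uu.comp (ps TwoCx.bdSq.toContinuousMap) := by
    rw [← bd0_map]
    rfl
  have h3 : inc (uu0.comp (ps bd0.toContinuousMap)) = 4 * qa := Multiplicative.ofAdd.injective h
  rw [← h2]
  exact h3

/-! ### the value on the boundary of the square -/

/-- value of the Hopf cocycle on the constant simplex -/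
def w0 : ℝ := inc (rr (chl (ContinuousMap.const _ north)) (ContinuousMap.const _ ((1 : ℂ), (0 : ℂ))))

lemma isLift_north {K : Type} [TopologicalSpace K] :
    IsLift (ContinuousMap.const K north) (ContinuousMap.const K ((1 : ℂ), (0 : ℂ))) := by
  intro x
  refine ⟨fun h => ?_, ?_⟩
  · have := congrArg Prod.fst h
    simp at this
  · show proj north ((1 : ℂ), (0 : ℂ)) = ((1 : ℂ), (0 : ℂ))
    have hz : ze north = 0 := rfl
    have hh : he north = 1 := rfl
    simp only [proj, hz, hh]
    norm_num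

lemma WW_north : WW (ContinuousMap.const _ north) = w0 := by
  rw [WW_eq isLift_north]
  unfold Wl
  have h : ∀ i : Fin 3, inc (rr (chl ((ContinuousMap.const (Dl 2) north).comp (face i)))
      ((ContinuousMap.const (Dl 2) ((1 : ℂ), (0 : ℂ))).comp (face i))) = w0 := by
    intro i
    rfl
  simp only [h, Fin.sum_univ_three, Fin.val_zero, Fin.val_one, Fin.val_two]
  ring

/-- the 1-cochain on the square coming from the global lift -/
def kxi (e : C(Dl 1, I × I)) : ℝ := inc (rr (chl (QQ.comp e)) (xi.comp e))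

lemma WW_QQ (sg : C(Dl 2, I × I)) : WW (QQ.comp sg) = cob kxi sg := by
  rw [WW_eq (isLift_xi.comp sg)]
  rfl

lemma kxi_bd : kxi (ps TwoCx.bdSq.toContinuousMap) = 4 * qa + w0 := by
  have hn : ∀ x, (ps TwoCx.bdSq.toContinuousMap) x ∉ Sint := fun x => TwoCx.bdSq_notMem _
  have hQ : QQ.comp (ps TwoCx.bdSq.toContinuousMap) = ContinuousMap.const _ north := by
    ext1 x
    exact QQ_bd (hn x)
  unfold kxi
  rw [hQ]
  have hm : rr (chl (ContinuousMap.const _ north)) (xi.comp (ps TwoCx.bdSq.toContinuousMap)) =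
      (uu.comp (ps TwoCx.bdSq.toContinuousMap)) *
        rr (chl (ContinuousMap.const _ north)) (ContinuousMap.const _ ((1 : ℂ), (0 : ℂ))) := by
    ext x
    simp only [Crest.Agent.R123.rr_apply, ContinuousMap.comp_apply, ContinuousMap.mul_apply,
      ContinuousMap.const_apply, ← herm_smul]
    congr 1
    have hb : bb ((ps TwoCx.bdSq.toContinuousMap) x) = 0 := bb_zero (hn x)
    apply Prod.ext
    · simp [xi]
    · simp only [xi, ContinuousMap.coe_mk, Prod.smul_snd, smul_zero]
      rw [hb]; simp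
  rw [hm, inc_mul _ _ (fun x => uu_ne (hn x)) (fun x => ?_), inc_bdSq]
  · rfl
  · exact rr_ne (chl_spec _) isLift_north x

/-! ### the main theorem -/

lemma cob_comp {W W' : Type} [TopologicalSpace W] [TopologicalSpace W'] {n : ℕ}
    (ψ : C(Dl n, W') → ℝ) (g : C(W, W')) (sg : C(Dl (n + 1), W)) :
    cob (fun e => ψ (g.comp e)) sg = cob ψ (g.comp sg) := rfl

lemma cob_sub {W : Type} [TopologicalSpace W] {n : ℕ} (ψ ψ' : C(Dl n, W) → ℝ)
    (sg : C(Dl (n + 1), W)) : cob (fun e => ψ e - ψ' e) sg = cob ψ sg - cob ψ' sg := by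
  unfold cob
  rw [← Finset.sum_sub_distrib]
  exact Finset.sum_congr rfl (fun i _ => by ring)

lemma cob_mul {W : Type} [TopologicalSpace W] {n : ℕ} (c : ℝ) (ψ : C(Dl n, W) → ℝ)
    (sg : C(Dl (n + 1), W)) : cob (fun e => c * ψ e) sg = c * cob ψ sg := by
  unfold cob
  rw [Finset.mul_sum]
  exact Finset.sum_congr rfl (fun i _ => by ring)

lemma cob_sum {W : Type} [TopologicalSpace W] {n : ℕ} {ι : Type} (S : Finset ι)
    (ψ : ι → C(Dl n, W) → ℝ) (sg : C(Dl (n + 1), W)) :
    cob (fun e => ∑ j ∈ S, ψ j e) sg = ∑ j ∈ S, cob (ψ j) sg := by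
  unfold cob
  simp only [Finset.mul_sum]
  rw [Finset.sum_comm]

lemma cob_const {W : Type} [TopologicalSpace W] (c : ℝ) (sg : C(Dl 2, W)) :
    cob (fun _ : C(Dl 1, W) => c) sg = c := by
  rw [cob_two]; ring

theorem exists_label_aux [Finite C.J] (h : H2R Y) (b : C.J → ℝ) :
    ∃ T : PathLabel C.X1 (Multiplicative ℝ),
      ∀ j, T.lab (C.bd1 j) = Multiplicative.ofAdd (b j * (4 * qa)) := by
  classical
  have : Fintype C.J := Fintype.ofFinite _
  obtain ⟨ψ, hψ⟩ := h (fun sg => ∑ j, b j * WW ((col C j).comp sg)) (by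
    intro t
    rw [cob_sum]
    apply Finset.sum_eq_zero
    intro j _
    rw [cob_mul]
    have h1 : cob (fun e : C(Dl 2, Y) => WW ((col C j).comp e)) t = 0 :=
      WW_cocycle ((col C j).comp t)
    rw [h1, mul_zero])
  -- the cocycle on the 1-skeleton
  set B : ℝ := ∑ j, b j with hB
  have hu : ∀ sg : C(Dl 2, C.X1), cob (fun e : C(Dl 1, C.X1) => ψ (C.incl.comp e) - B * w0) sg
      = 0 := by
    intro sg
    rw [cob_sub, cob_const, cob_comp, ← hψ]
    have h1 : ∀ j, (col C j).comp (C.incl.comp sg) = ContinuousMap.const _ north := by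
      intro j
      rw [← ContinuousMap.comp_assoc, col_incl]
      rfl
    simp only [h1, WW_north]
    rw [← Finset.sum_mul, sub_self]
  refine ⟨ofCocycle _ hu, ?_⟩
  intro j
  -- the cocycle on the square
  have hv : ∀ sg : C(Dl 2, I × I), cob (fun e : C(Dl 1, I × I) =>
      (ψ ((C.f j).comp e) - b j * kxi e) - (B - b j) * w0) sg = 0 := by
    intro sg
    rw [cob_sub, cob_const, cob_sub, cob_comp, cob_mul, ← hψ]
    have h1 : ∀ j', WW ((col C j').comp ((C.f j).comp sg)) =
        if j' = j then cob kxi sg else w0 := by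
      intro j'
      rw [← ContinuousMap.comp_assoc]
      by_cases hj : j' = j
      · subst hj
        rw [col_f_self, if_pos rfl, WW_QQ]
      · rw [col_f_ne C (Ne.symm hj), if_neg hj]
        exact WW_north
    simp only [h1]
    have h2 : ∑ j', b j' * (if j' = j then cob kxi sg else w0) =
        b j * cob kxi sg + (B - b j) * w0 := by
      have h3 : ∀ j', b j' * (if j' = j then cob kxi sg else w0) =
          b j' * w0 + (if j' = j then b j' * (cob kxi sg - w0) else 0) := by
        intro j'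
        split_ifs <;> ring
      simp only [h3, Finset.sum_add_distrib, Finset.sum_ite_eq', Finset.mem_univ, if_true]
      rw [← Finset.sum_mul]
      ring
    rw [h2]
    ring
  have hbd : (ofCocycle _ hv).lab TwoCx.bdSq = 1 := by
    rw [(ofCocycle _ hv).lab_hom (q := Path.refl _) ⟨rectHomotopy _ _⟩, PathLabel.lab_refl]
  have hbd' : (ψ ((C.f j).comp (ps TwoCx.bdSq.toContinuousMap)) -
      b j * kxi (ps TwoCx.bdSq.toContinuousMap)) - (B - b j) * w0 = 0 :=
    Multiplicative.ofAdd.injective hbd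
  rw [ofCocycle_lab]
  congr 1
  have he : C.incl.comp (ps (C.bd1 j).toContinuousMap) =
      (C.f j).comp (ps TwoCx.bdSq.toContinuousMap) := rfl
  rw [he]
  rw [kxi_bd] at hbd'
  linear_combination hbd'

theorem exists_label [Finite C.J] (h : H2R Y) (b : C.J → ℝ) :
    ∃ T : PathLabel C.X1 (Multiplicative ℝ),
      ∀ j, T.lab (C.bd1 j) = Multiplicative.ofAdd (b j) := by
  obtain ⟨T, hT⟩ := exists_label_aux C h (fun j => b j / (4 * qa))
  refine ⟨T, fun j => ?_⟩
  rw [hT j, div_mul_cancel₀]
  have := qa_pos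
  positivity

/-! ### homomorphisms of the free group on the edges -/

section
variable {A : Type} [CommGroup A]

/-- the homomorphism of the free group on the edges given by a path label of the 1-skeleton -/
def homOf (T : PathLabel C.X1 A) : FreeGroup C.E →* A := FreeGroup.lift (fun i => T.lab (C.e1 i))

lemma labQ_mk {X : Type} [TopologicalSpace X] (T : PathLabel X A) {x y : X} (p : Path x y) :
    T.labQ (Path.Homotopic.Quotient.mk p) = T.lab p := rfl

lemma labQ_trans {X : Type} [TopologicalSpace X] (T : PathLabel X A) {x y z : X}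
    (p : Path.Homotopic.Quotient x y) (q : Path.Homotopic.Quotient y z) :
    T.labQ (p.trans q) = T.labQ p * T.labQ q := by
  induction p using Path.Homotopic.Quotient.ind with
  | mk p =>
    induction q using Path.Homotopic.Quotient.ind with
    | mk q => exact T.lab_trans p q

lemma labQ_symm {X : Type} [TopologicalSpace X] (T : PathLabel X A) {x y : X}
    (p : Path.Homotopic.Quotient x y) : T.labQ p.symm = (T.labQ p)⁻¹ := by
  induction p using Path.Homotopic.Quotient.ind with
  | mk p => exact T.lab_symm p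

lemma homOf_rep (T : PathLabel C.X1 A) {o o' : C.O} {w : C.Wd}
    {γ : Path.Homotopic.Quotient (C.v1 o) (C.v1 o')} (h : C.Rep o o' w γ) :
    homOf C T (C.wordOf w) = T.labQ γ := by
  induction h with
  | nil o =>
    show homOf C T 1 = T.lab (Path.refl _)
    rw [map_one, PathLabel.lab_refl]
  | fwd i o' w γ _ ih =>
    show homOf C T (FreeGroup.of i * C.wordOf w) = _
    rw [map_mul, ih, labQ_trans, labQ_mk]
    simp [homOf]
  | bwd i o' w γ _ ih =>
    show homOf C T ((FreeGroup.of i)⁻¹ * C.wordOf w) = _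
    rw [map_mul, ih, labQ_trans, labQ_symm, labQ_mk]
    simp [homOf]

lemma homOf_rel (T : PathLabel C.X1 A) (D : C.RelData) (j : C.J) :
    homOf C T (C.wordOf (D.w j)) = T.lab (C.bd1 j) := by
  rw [homOf_rep C T (D.rep j), labQ_mk, PathLabel.lab_trans, PathLabel.lab_trans,
    PathLabel.lab_symm]
  rw [mul_comm (T.lab (D.τ j)), mul_assoc, mul_inv_cancel, mul_one]

end

/-- **(Sur)**: the exponent matrix of the relators of a complex with `H²(Y;ℝ)=0` is onto. -/
theorem exists_hom [Finite C.J] (D : C.RelData) (h : H2R Y) (b : C.J → ℝ) :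
    ∃ ψ : FreeGroup C.E →* Multiplicative ℝ,
      ∀ j, ψ (C.wordOf (D.w j)) = Multiplicative.ofAdd (b j) := by
  obtain ⟨T, hT⟩ := exists_label C h b
  exact ⟨homOf C T, fun j => by rw [homOf_rel, hT j]⟩

end Crest.Agent.R251.Sur
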