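import Crest.Agent.R251.Mod19

/-!
# Row 251: words and loops in a space `W` under the Cayley graph

`FreeGroup ι` acts on pairs (vertex `g`, class of paths from `v 1` to `v g` in `W`).
-/

set_option autoImplicit false
set_option linter.unusedSectionVars false

open Set Metric Topology unitInterval
open Crest.Agent.R185.Att Crest.Agent.R185.Base

namespace Crest.Agent.R251.Wl
open Crest.Agent.R251.Mod

local notation "Qt" => Path.Homotopic.Quotient

section gen

variable {G : Type} [Group G] {ι : Type} (gen : ι → G) {W : Type} [TopologicalSpace W]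
  (j : C(Z2 gen, W))

/-- vertices with a class of paths from `v 1` -/
abbrev PP : Type := Σ g : G, Qt (j (v gen 1)) (j (v gen g))

/-- class of a path of the Cayley graph in `W` -/
noncomputable def cl {a b : Z2 gen} (γ : Path a b) : Qt (j a) (j b) :=
  Path.Homotopic.Quotient.mk (γ.map j.continuous)

theorem cl_trans {a b c : Z2 gen} (γ : Path a b) (δ : Path b c) :
    cl gen j (γ.trans δ) = (cl gen j γ).trans (cl gen j δ) := by
  unfold cl
  rw [Path.map_trans, Path.Homotopic.Quotient.mk_trans]

theorem cl_symm {a b : Z2 gen} (γ : Path a b) :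
    cl gen j γ.symm = (cl gen j γ).symm := by
  unfold cl
  rw [← Path.Homotopic.Quotient.mk_symm]
  rfl

/-- append an edge -/
noncomputable def stp (i : ι) (p : PP gen j) : PP gen j :=
  ⟨p.1 * gen i, p.2.trans (cl gen j (edge gen p.1 i))⟩

theorem trans_symm_cancel {X : Type} [TopologicalSpace X] {x y z : X} (a : Qt x y) (b : Qt y z) :
    (a.trans b).trans b.symm = a := by
  rw [Path.Homotopic.Quotient.trans_assoc, Path.Homotopic.Quotient.trans_symm,
    Path.Homotopic.Quotient.trans_refl]

theorem symm_trans_cancel {X : Type} [TopologicalSpace X] {x y z : X} (a : Qt x z) (b : Qt y z) :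
    (a.trans b.symm).trans b = a := by
  rw [Path.Homotopic.Quotient.trans_assoc, Path.Homotopic.Quotient.symm_trans,
    Path.Homotopic.Quotient.trans_refl]

theorem stp_inj (i : ι) : Function.Injective (stp gen j i) := by
  rintro ⟨g, q⟩ ⟨g', q'⟩ h
  have h1 : g * gen i = g' * gen i := congrArg Sigma.fst h
  have h2 : g = g' := mul_right_cancel h1
  subst h2
  have h3 : q.trans (cl gen j (edge gen g i)) = q'.trans (cl gen j (edge gen g i)) :=
    eq_of_heq (Sigma.mk.inj h).2
  have h4 := congrArg (fun a => a.trans (cl gen j (edge gen g i)).symm) h3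
  simp only [trans_symm_cancel] at h4
  rw [h4]

theorem stp_surj (i : ι) : Function.Surjective (stp gen j i) := by
  rintro ⟨g, q⟩
  obtain ⟨g', rfl⟩ : ∃ g', g = g' * gen i := ⟨g * (gen i)⁻¹, by rw [inv_mul_cancel_right]⟩
  refine ⟨⟨g', q.trans (cl gen j (edge gen g' i)).symm⟩, ?_⟩
  show (⟨g' * gen i, _⟩ : PP gen j) = _
  rw [symm_trans_cancel]

/-- the right action of the free group, on edges -/
noncomputable def rho : FreeGroup ι →* (Equiv.Perm (PP gen j))ᵐᵒᵖ :=
  FreeGroup.lift fun i => MulOpposite.op (Equiv.ofBijective (stp gen j i)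
    ⟨stp_inj gen j i, stp_surj gen j i⟩)

/-- the right action -/
noncomputable def app (x : FreeGroup ι) (p : PP gen j) : PP gen j := (rho gen j x).unop p

theorem app_one (p : PP gen j) : app gen j 1 p = p := by
  unfold app; rw [map_one]; rfl

theorem app_mul (x y : FreeGroup ι) (p : PP gen j) :
    app gen j (x * y) p = app gen j y (app gen j x p) := by
  unfold app; rw [map_mul]; rfl

theorem app_of (i : ι) (p : PP gen j) : app gen j (FreeGroup.of i) p = stp gen j i p := by
  unfold app rho; rw [FreeGroup.lift_apply_of]; rfl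

theorem app_inj (x : FreeGroup ι) : Function.Injective (app gen j x) := by
  intro p q h
  exact (rho gen j x).unop.injective h

/-- transport along an equality of end points -/
theorem sig_cast {a : Z2 gen} (q : Qt (j (v gen 1)) (j a)) {b b' : G} (h : b' = b)
    (γ : Path a (v gen b)) (h' : v gen b' = v gen b) :
    (⟨b', q.trans (cl gen j (γ.cast rfl h'))⟩ : PP gen j) = ⟨b, q.trans (cl gen j γ)⟩ := by
  subst h
  rfl

theorem app_mk (l : List (ι × Bool)) (g : G) (q : Qt (j (v gen 1)) (j (v gen g))) :
    app gen j (FreeGroup.mk l) ⟨g, q⟩ = ⟨g * val gen l, q.trans (cl gen j (wpath gen g l))⟩ := by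
  induction l generalizing g q with
  | nil =>
    show app gen j 1 ⟨g, q⟩ = _
    rw [app_one]
    have h := sig_cast gen j q (b' := g * val gen []) (b := g) (by rw [val, mul_one])
      (Path.refl _) (by rw [val, mul_one])
    have h2 : q.trans (cl gen j (Path.refl (v gen g))) = q := by
      have : cl gen j (Path.refl (v gen g)) = Path.Homotopic.Quotient.refl _ := by
        rfl
      rw [this, Path.Homotopic.Quotient.trans_refl]
    rw [h2] at h
    exact h.symm
  | cons a l ih =>
    obtain ⟨i, b⟩ := a
    cases b with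
    | true =>
      have e : (FreeGroup.mk ((i, true) :: l) : FreeGroup ι) = FreeGroup.of i * FreeGroup.mk l := by
        rw [FreeGroup.of, FreeGroup.mul_mk]; rfl
      rw [e, app_mul, app_of]
      show app gen j (FreeGroup.mk l) ⟨g * gen i, q.trans (cl gen j (edge gen g i))⟩ = _
      rw [ih]
      have h := sig_cast gen j q (b' := g * val gen ((i, true) :: l))
        (b := g * gen i * val gen l) (by rw [val, mul_assoc])
        ((edge gen g i).trans (wpath gen (g * gen i) l)) (by rw [val, mul_assoc])
      rw [cl_trans, ← Path.Homotopic.Quotient.trans_assoc] at h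
      exact h.symm
    | false =>
      have e : (FreeGroup.mk ((i, false) :: l) : FreeGroup ι) =
          (FreeGroup.of i)⁻¹ * FreeGroup.mk l := by
        rw [FreeGroup.of, FreeGroup.inv_mk, FreeGroup.mul_mk]; rfl
      rw [e, app_mul]
      have h1 : app gen j (FreeGroup.of i)⁻¹ ⟨g, q⟩ = ⟨g * (gen i)⁻¹, q.trans (cl gen j
          ((edge gen (g * (gen i)⁻¹) i).symm.cast (by rw [inv_mul_cancel_right]) rfl))⟩ := by
        apply app_inj gen j (FreeGroup.of i)
        rw [← app_mul, inv_mul_cancel, app_one, app_of]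
        unfold stp
        simp only
        obtain ⟨g', rfl⟩ : ∃ g', g = g' * gen i := ⟨g * (gen i)⁻¹, by rw [inv_mul_cancel_right]⟩
        have key : ∀ (g'' : G) (h : g'' = g') (h' : v gen (g' * gen i) = v gen (g'' * gen i)),
            (⟨g' * gen i, q⟩ : PP gen j) = ⟨g'' * gen i, (q.trans (cl gen j
              ((edge gen g'' i).symm.cast h' rfl))).trans (cl gen j (edge gen g'' i))⟩ := by
          rintro g'' rfl h'
          have : (edge gen g'' i).symm.cast h' rfl = (edge gen g'' i).symm := rfl
          rw [this, cl_symm, symm_trans_cancel]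
        exact key _ (mul_inv_cancel_right _ _) _
      rw [h1, ih]
      have h := sig_cast gen j q (b' := g * val gen ((i, false) :: l))
        (b := g * (gen i)⁻¹ * val gen l) (by rw [val, mul_assoc])
        (((edge gen (g * (gen i)⁻¹) i).symm.cast (by rw [inv_mul_cancel_right]) rfl).trans
          (wpath gen (g * (gen i)⁻¹) l)) (by rw [val, mul_assoc])
      rw [cl_trans, ← Path.Homotopic.Quotient.trans_assoc] at h
      exact h.symm

/-! ### trivial action of relators, null-homotopic loops -/

theorem exists_mk (x : FreeGroup ι) : ∃ l, x = FreeGroup.mk l := by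
  obtain ⟨l, hl⟩ := Quot.exists_rep x
  exact ⟨l, hl.symm⟩

theorem app_fst (x : FreeGroup ι) (p : PP gen j) :
    (app gen j x p).1 = p.1 * FreeGroup.lift gen x := by
  obtain ⟨l, rfl⟩ := exists_mk x
  obtain ⟨g, q⟩ := p
  rw [app_mk, ← val_eq]

/-- the elements acting trivially -/
noncomputable def triv : Subgroup (FreeGroup ι) := (rho gen j).ker

instance : (triv gen j).Normal := by unfold triv; infer_instance

theorem mem_triv {x : FreeGroup ι} : x ∈ triv gen j ↔ ∀ p, app gen j x p = p := by
  unfold triv app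
  rw [MonoidHom.mem_ker]
  constructor
  · intro h p; rw [h]; rfl
  · intro h
    apply MulOpposite.unop_injective
    exact Equiv.ext h

theorem nc_le_triv {R : Set (FreeGroup ι)} (h : ∀ x ∈ R, ∀ p, app gen j x p = p) :
    Subgroup.normalClosure R ≤ triv gen j :=
  Subgroup.normalClosure_le_normal fun x hx => (mem_triv gen j).2 (h x hx)

/-- left translation by a loop -/
noncomputable def lft (c : Qt (j (v gen 1)) (j (v gen 1))) (p : PP gen j) : PP gen j :=
  ⟨p.1, c.trans p.2⟩

theorem app_lft (c : Qt (j (v gen 1)) (j (v gen 1))) (x : FreeGroup ι) (p : PP gen j) :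
    app gen j x (lft gen j c p) = lft gen j c (app gen j x p) := by
  obtain ⟨l, rfl⟩ := exists_mk x
  obtain ⟨g, q⟩ := p
  unfold lft
  rw [app_mk, app_mk, Path.Homotopic.Quotient.trans_assoc]

/-- base point -/
noncomputable def p0 : PP gen j := ⟨1, Path.Homotopic.Quotient.refl _⟩

/-- words of value one give loops -/
theorem exists_cls (x : FreeGroup ι) (hx : FreeGroup.lift gen x = 1) :
    ∃ c : Qt (j (v gen 1)) (j (v gen 1)), app gen j x (p0 gen j) = ⟨1, c⟩ := by
  have h := app_fst gen j x (p0 gen j)
  rw [hx, mul_one] at h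
  have h1 : (app gen j x (p0 gen j)).1 = 1 := h
  clear h
  generalize app gen j x (p0 gen j) = P at h1 ⊢
  obtain ⟨g, q⟩ := P
  change g = 1 at h1
  subst h1
  exact ⟨q, rfl⟩

/-- the loop class of a word of value one -/
noncomputable def cls (x : (FreeGroup.lift gen).ker) : Qt (j (v gen 1)) (j (v gen 1)) :=
  (exists_cls gen j x.1 x.2).choose

theorem app_cls (x : (FreeGroup.lift gen).ker) : app gen j x.1 (p0 gen j) = ⟨1, cls gen j x⟩ :=
  (exists_cls gen j x.1 x.2).choose_spec

theorem app_cls' (x : (FreeGroup.lift gen).ker) (c : Qt (j (v gen 1)) (j (v gen 1))) :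
    app gen j x.1 ⟨1, c⟩ = ⟨1, c.trans (cls gen j x)⟩ := by
  have h := app_lft gen j c x.1 (p0 gen j)
  rw [app_cls] at h
  have h1 : lft gen j c (p0 gen j) = ⟨1, c⟩ := by
    unfold lft p0
    rw [Path.Homotopic.Quotient.trans_refl]
  rw [h1] at h
  exact h

theorem pair_inj {c d : Qt (j (v gen 1)) (j (v gen 1))}
    (h : (⟨1, c⟩ : PP gen j) = ⟨1, d⟩) : c = d := eq_of_heq (Sigma.mk.inj h).2

theorem cls_mul (x y : (FreeGroup.lift gen).ker) :
    cls gen j (x * y) = (cls gen j x).trans (cls gen j y) := by
  apply pair_inj gen j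
  rw [← app_cls, ← app_cls', ← app_cls]
  exact app_mul gen j x.1 y.1 _

theorem cls_mk (l : List (ι × Bool)) (h : val gen l = 1)
    (h' : FreeGroup.mk l ∈ (FreeGroup.lift gen).ker) :
    cls gen j ⟨FreeGroup.mk l, h'⟩ = cl gen j (wloop gen l h) := by
  apply pair_inj gen j
  rw [← app_cls]
  unfold p0
  rw [app_mk]
  have h1 := sig_cast gen j (Path.Homotopic.Quotient.refl _) (b' := 1) (b := 1 * val gen l)
    (by rw [h, mul_one]) (wpath gen 1 l) (by rw [h, mul_one])
  rw [← h1, Path.Homotopic.Quotient.refl_trans]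
  rfl

/-- as a homomorphism into the fundamental group -/
noncomputable def clsH : (FreeGroup.lift gen).ker →* FundamentalGroup W (j (v gen 1)) where
  toFun x := cls gen j x⁻¹
  map_one' := by
    apply pair_inj gen j
    rw [inv_one, ← app_cls]
    exact app_one gen j _
  map_mul' x y := by
    rw [mul_inv_rev, cls_mul]
    rfl

theorem clsH_apply (x : (FreeGroup.lift gen).ker) : clsH gen j x = cls gen j x⁻¹ := rfl

theorem cls_eq (x : (FreeGroup.lift gen).ker) :
    (cls gen j x : FundamentalGroup W (j (v gen 1))) = clsH gen j x⁻¹ := by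
  rw [clsH_apply, inv_inv]

theorem cls_of_triv (x : (FreeGroup.lift gen).ker) (hx : x.1 ∈ triv gen j) :
    cls gen j x = Path.Homotopic.Quotient.refl _ := by
  apply pair_inj gen j
  rw [← app_cls, (mem_triv gen j).1 hx]
  rfl

/-- **(R)** a word in the normal closure of relators acting trivially is a null-homotopic loop -/
theorem cl_wloop_of_triv (l : List (ι × Bool)) (h : val gen l = 1)
    (hx : FreeGroup.mk l ∈ triv gen j) :
    cl gen j (wloop gen l h) = Path.Homotopic.Quotient.refl _ := by
  have h' : FreeGroup.mk l ∈ (FreeGroup.lift gen).ker := by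
    rw [MonoidHom.mem_ker, ← val_eq]; exact h
  rw [← cls_mk gen j l h h']
  exact cls_of_triv gen j _ hx

/-- **(w4)** a word `ρ * k` with `ρ` acting trivially and `k` in the commutator subgroup of the
kernel gives a loop in the commutator subgroup of the fundamental group. -/
theorem cl_wloop_mem_commutator (l : List (ι × Bool)) (h : val gen l = 1) (ρ k : FreeGroup ι)
    (e : FreeGroup.mk l = ρ * k) (hρ : ρ ∈ triv gen j)
    (hk : k ∈ ⁅(FreeGroup.lift gen).ker, (FreeGroup.lift gen).ker⁆) :
    (cl gen j (wloop gen l h) : FundamentalGroup W (j (v gen 1))) ∈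
      commutator (FundamentalGroup W (j (v gen 1))) := by
  have h' : FreeGroup.mk l ∈ (FreeGroup.lift gen).ker := by
    rw [MonoidHom.mem_ker, ← val_eq]; exact h
  rw [← Subgroup.map_subtype_commutator] at hk
  obtain ⟨k', hk', rfl⟩ := hk
  have hρ' : ρ ∈ (FreeGroup.lift gen).ker := by
    have : ρ = FreeGroup.mk l * (k'⁻¹ : (FreeGroup.lift gen).ker) := by rw [e]; simp
    rw [this]
    exact mul_mem h' (SetLike.coe_mem _)
  have e2 : (⟨FreeGroup.mk l, h'⟩ : (FreeGroup.lift gen).ker) = ⟨ρ, hρ'⟩ * k' := Subtype.ext e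
  rw [← cls_mk gen j l h h', e2, cls_mul, cls_of_triv gen j ⟨ρ, hρ'⟩ hρ,
    Path.Homotopic.Quotient.refl_trans]
  rw [cls_eq gen j k']
  have h3 : (commutator (FreeGroup.lift gen).ker).map (clsH gen j) ≤
      commutator (FundamentalGroup W (j (v gen 1))) := by
    rw [commutator_def, Subgroup.map_commutator, commutator_def]
    exact Subgroup.commutator_mono le_top le_top
  exact h3 ⟨k'⁻¹, inv_mem hk', rfl⟩

/-! ### discs -/

theorem null_of_disc {z : Z2 gen} (γ : Path z z) (F : C(D 2, W))
    (hF : ∀ t : I, F (sd 2 (cr t)) = j (γ t)) :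
    cl gen j γ = Path.Homotopic.Quotient.refl _ := by
  let δ : Path (sd 2 (cr 0)) (sd 2 (cr 0)) := cpath.map (sd 2).continuous
  have h1 : δ.Homotopic (Path.refl _) := SimplyConnectedSpace.paths_homotopic _ _
  have h2 := h1.map F
  have h0 : j z = F (sd 2 (cr 0)) := by
    have := hF 0
    rw [γ.source] at this
    exact this.symm
  have e : γ.map j.continuous = (δ.map F.continuous).cast h0 h0 := by
    ext t
    exact (hF t).symm
  unfold cl
  rw [e]
  have h3 : ((δ.map F.continuous).cast h0 h0).Homotopic (((Path.refl (sd 2 (cr 0))).map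
      F.continuous).cast h0 h0) := by
    obtain ⟨H⟩ := h2
    exact ⟨H.cast rfl rfl⟩
  have h4 : (((Path.refl (sd 2 (cr 0))).map F.continuous).cast h0 h0) = Path.refl (j z) := by
    ext t
    exact h0.symm
  rw [h4] at h3
  exact Path.Homotopic.Quotient.eq.2 h3

/-! ### translates of word paths -/

theorem edge_smul (h g : G) (i : ι) (t : I) : h • edge gen g i t = edge gen (h * g) i t :=
  smul_chr h g i (d1 t)

theorem wpath_congr {g g' : G} (h : g = g') (l : List (ι × Bool)) (t : I) :
    wpath gen g l t = wpath gen g' l t := by subst h; rfl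

theorem edge_congr {g g' : G} (h : g = g') (i : ι) (t : I) :
    edge gen g i t = edge gen g' i t := by subst h; rfl

theorem cast_path_apply {a b a' b' : Z2 gen} (γ : Path a b) (ha : a' = a) (hb : b' = b) (t : I) :
    (γ.cast ha hb) t = γ t := rfl

theorem trans_congr {a b c a' b' c' : Z2 gen} (h : G) (γ : Path a b) (δ : Path b c) (γ' : Path a' b')
    (δ' : Path b' c') (h1 : ∀ t, h • γ t = γ' t) (h2 : ∀ t, h • δ t = δ' t) (t : I) :
    h • (γ.trans δ) t = (γ'.trans δ') t := by
  rw [Path.trans_apply, Path.trans_apply]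
  split_ifs
  · exact h1 _
  · exact h2 _

theorem wpath_smul (l : List (ι × Bool)) (h g : G) (t : I) :
    h • wpath gen g l t = wpath gen (h * g) l t := by
  induction l generalizing g t with
  | nil => rfl
  | cons a l ih =>
    obtain ⟨i, b⟩ := a
    cases b with
    | true =>
      show h • ((edge gen g i).trans (wpath gen (g * gen i) l)) t =
        ((edge gen (h * g) i).trans (wpath gen (h * g * gen i) l)) t
      rw [Path.trans_apply, Path.trans_apply]
      split_ifs
      · exact edge_smul gen h g i _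
      · rw [ih]
        exact wpath_congr gen (mul_assoc _ _ _).symm l _
    | false =>
      show h • (((edge gen (g * (gen i)⁻¹) i).symm.cast _ rfl).trans
        (wpath gen (g * (gen i)⁻¹) l)) t =
        (((edge gen (h * g * (gen i)⁻¹) i).symm.cast _ rfl).trans
        (wpath gen (h * g * (gen i)⁻¹) l)) t
      rw [Path.trans_apply, Path.trans_apply]
      split_ifs
      · show h • edge gen (g * (gen i)⁻¹) i _ = edge gen (h * g * (gen i)⁻¹) i _
        rw [edge_smul]
        exact edge_congr gen (mul_assoc _ _ _).symm i _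
      · rw [ih]
        exact wpath_congr gen (mul_assoc _ _ _).symm l _

/-- a relator word bounding discs at all vertices acts trivially -/
theorem app_of_discs (l : List (ι × Bool)) (h : val gen l = 1) (F : G → C(D 2, W))
    (hF : ∀ (g : G) (t : I), F g (sd 2 (cr t)) = j (g • wloop gen l h t)) (p : PP gen j) :
    app gen j (FreeGroup.mk l) p = p := by
  obtain ⟨g, q⟩ := p
  rw [app_mk]
  have e : v gen g = v gen (g * val gen l) := by rw [h, mul_one]
  have h1 := sig_cast gen j q (b' := g) (b := g * val gen l) (by rw [h, mul_one])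
    (wpath gen g l) e
  rw [← h1]
  have h2 : cl gen j ((wpath gen g l).cast rfl e) = Path.Homotopic.Quotient.refl _ := by
    apply null_of_disc gen j _ (F g)
    intro t
    rw [hF]
    congr 1
    show g • wpath gen 1 l t = wpath gen g l t
    rw [wpath_smul]
    exact wpath_congr gen (mul_one g) l t
  rw [h2, Path.Homotopic.Quotient.trans_refl]

theorem mk_mem_triv_of_discs (l : List (ι × Bool)) (h : val gen l = 1) (F : G → C(D 2, W))
    (hF : ∀ (g : G) (t : I), F g (sd 2 (cr t)) = j (g • wloop gen l h t)) :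
    FreeGroup.mk l ∈ triv gen j :=
  (mem_triv gen j).2 fun p => app_of_discs gen j l h F hF p

end gen

section cayley

variable {G : Type} [Group G] {ι : Type} (gen : ι → G) {κ : Type} (wd : κ → List (ι × Bool))
  (hwd : ∀ j, val gen (wd j) = 1)

/-- in the Cayley complex the relators act trivially -/
theorem relator_mem_triv (k : κ) : FreeGroup.mk (wd k) ∈ triv gen (i2 gen wd hwd) := by
  refine mk_mem_triv_of_discs gen (i2 gen wd hwd) (wd k) (hwd k)
    (fun g => cell2 gen wd hwd g k) ?_
  intro g t
  rw [cell2_sd, circ_cr]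

theorem nc_le_triv_i2 :
    Subgroup.normalClosure (Set.range fun k => FreeGroup.mk (wd k)) ≤ triv gen (i2 gen wd hwd) :=
  nc_le_triv gen (i2 gen wd hwd) (by
    rintro _ ⟨k, rfl⟩ p
    exact (mem_triv gen _).1 (relator_mem_triv gen wd hwd k) p)

/-- **(R)** word loops in the normal closure are null-homotopic in the Cayley complex -/
theorem wloop_null (l : List (ι × Bool)) (h : val gen l = 1)
    (hx : FreeGroup.mk l ∈ Subgroup.normalClosure (Set.range fun k => FreeGroup.mk (wd k))) :
    ((wloop gen l h).map (i2 gen wd hwd).continuous).Homotopic (Path.refl _) :=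
  Path.Homotopic.Quotient.eq.1 (cl_wloop_of_triv gen (i2 gen wd hwd) l h
    (nc_le_triv_i2 gen wd hwd hx))

/-! ### inside `Sk J` -/

variable (J : Set κ)

/-- the Cayley graph in `Sk J` -/
noncomputable def iJ : C(Z2 gen, Sk gen wd hwd J) :=
  ⟨fun z => ⟨i2 gen wd hwd z, Or.inl ⟨z, rfl⟩⟩,
    Continuous.subtype_mk (i2 gen wd hwd).continuous _⟩

/-- the 2-cells of type `k ∈ J` in `Sk J` -/
noncomputable def cJ (g : G) (k : κ) (hk : k ∈ J) : C(D 2, Sk gen wd hwd J) :=
  ⟨fun x => ⟨cell2 gen wd hwd g k x, Or.inr (mem_iUnion.2 ⟨g, mem_iUnion₂.2 ⟨k, hk, x, rfl⟩⟩)⟩,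
    Continuous.subtype_mk (cell2 gen wd hwd g k).continuous _⟩

theorem relator_mem_triv_J (k : κ) (hk : k ∈ J) :
    FreeGroup.mk (wd k) ∈ triv gen (iJ gen wd hwd J) := by
  refine mk_mem_triv_of_discs gen (iJ gen wd hwd J) (wd k) (hwd k)
    (fun g => cJ gen wd hwd J g k hk) ?_
  intro g t
  apply Subtype.ext
  show cell2 gen wd hwd g k (sd 2 (cr t)) = i2 gen wd hwd (g • wloop gen (wd k) (hwd k) t)
  rw [cell2_sd, circ_cr]

theorem nc_le_triv_J :
    Subgroup.normalClosure ((fun k => FreeGroup.mk (wd k)) '' J) ≤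
      triv gen (iJ gen wd hwd J) :=
  nc_le_triv gen _ (by
    rintro _ ⟨k, hk, rfl⟩ p
    exact (mem_triv gen _).1 (relator_mem_triv_J gen wd hwd J k hk) p)

/-- **(w4)** general form -/
theorem wloop_mem_commutator (l : List (ι × Bool)) (h : val gen l = 1) (ρ k : FreeGroup ι)
    (e : FreeGroup.mk l = ρ * k)
    (hρ : ρ ∈ Subgroup.normalClosure ((fun k => FreeGroup.mk (wd k)) '' J))
    (hk : k ∈ ⁅(FreeGroup.lift gen).ker, (FreeGroup.lift gen).ker⁆) :
    (Path.Homotopic.Quotient.mk ((wloop gen l h).map (iJ gen wd hwd J).continuous) :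
      FundamentalGroup (Sk gen wd hwd J) (iJ gen wd hwd J (v gen 1))) ∈
      commutator (FundamentalGroup (Sk gen wd hwd J) (iJ gen wd hwd J (v gen 1))) :=
  cl_wloop_mem_commutator gen (iJ gen wd hwd J) l h ρ k e (nc_le_triv_J gen wd hwd J hρ) hk

end cayley

end Crest.Agent.R251.Wl
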