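import Crest.Agent.R251.Wl19
import Crest.Agent.R251.Mod19c

/-! # Row 251: the loop of the `U`-cell lies in the commutator subgroup of `π₁(Kr)` -/

set_option autoImplicit false

open Set Metric Topology unitInterval
open Crest.Agent.R185.Att Crest.Agent.R185.Base

namespace Crest.Agent.R251.Wl
open Crest.Agent.R251.Mod
open Crest.Agent.R251

theorem ker_lift_gn : (FreeGroup.lift gn).ker = Alg.Rel := by
  ext x
  rw [MonoidHom.mem_ker, lift_gn_eq_one_iff]

/-- the Cayley graph in `Kr` -/
noncomputable def iK : C(Z2 gn, Kr) := iJ gn wdd hwdd {0}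

theorem iK_coe (z : Z2 gn) : ((iK z : Kr) : EE2) = i2 gn wdd hwdd z := rfl

/-- **(w4)** -/
theorem U_mem_commutator :
    (Path.Homotopic.Quotient.mk ((wloop gn (wdd 1) (hwdd 1)).map iK.continuous) :
      FundamentalGroup Kr (iK (v gn 1))) ∈ commutator (FundamentalGroup Kr (iK (v gn 1))) := by
  obtain ⟨ρ, hρ, k, hk, e⟩ := Alg.exists_wU_eq
  refine wloop_mem_commutator gn wdd hwdd {0} (wdd 1) (hwdd 1) ρ k ?_ ?_ ?_
  · rw [mk_wdd]; exact e
  · rw [image_singleton, mk_wdd]; exact hρ
  · rw [ker_lift_gn]; exact hk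

/-- every word loop of value one is null-homotopic in the Cayley complex -/
theorem wloop_null_EE2 (l : List (Fin 2 × Bool)) (h : val gn l = 1) :
    ((wloop gn l h).map (i2 gn wdd hwdd).continuous).Homotopic (Path.refl _) :=
  wloop_null gn wdd hwdd l h (mk_mem_nc_of_val l h)

end Crest.Agent.R251.Wl
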