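import Mathlib
import Crest.Agent.R251.YS770C
import Crest.Agent.R251.PC752
import Crest.Agent.R251.Fin711

/-! Row 251, Y-side: the path functional of an equivariant 1-cochain, and its value on the boundary
of a 2-cell (Stokes). -/

set_option autoImplicit false

open scoped unitInterval
open Crest.Agent.R197
open Crest.GeometryTopology.DeckCochains

namespace Crest.Agent.R251.YS

section main
variable {G Y Yt : Type} [Group G] [TopologicalSpace Y] [TopologicalSpace Yt] [MulAction G Yt]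
  {q : Yt → Y} {C : TwoCx Y}

theorem Act.of_cov [ContinuousConstSMul G Yt] (h : Fin.Cov G Yt q) : Act G q where
  cov := h.cov
  surj := h.surj
  cont := fun g => continuous_const_smul g
  orb := h.fib
  inv := h.inv
  free := h.free

variable (A : Act G q) {K : Type} [Field K] {μ : G →* Kˣ}

/-- the path functional of an equivariant 1-cochain closed over the 1-skeleton -/
noncomputable def fnOf [ContinuousConstSMul G Yt] (C : TwoCx Y)
    (ψ : SingSimplex Yt 1 → Fin.Tw μ) (hψ : Fin.Eqv G ψ)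
    (hc : PC.ClosedOn ψ (q ⁻¹' C.X1)) : Fn C A μ where
  Λ s := (show K from ψ (PC.ps s))
  trans s s' h h' := hc.trans s s' h h'
  homotopic s s' H h := hc.homotopy H h
  equiv g s _ := PC.equiv_ps hψ g s

theorem fnOf_Λ [ContinuousConstSMul G Yt] (ψ : SingSimplex Yt 1 → Fin.Tw μ) (hψ : Fin.Eqv G ψ)
    (hc : PC.ClosedOn ψ (q ⁻¹' C.X1)) (s : C(I, Yt)) :
    (fnOf A C ψ hψ hc).Λ s = ψ (PC.ps s) := rfl

variable (ot : C.O → Yt) (hot : ∀ o, q (ot o) = C.v o) (D : C.RelData)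

/-- the side `I × {t}` of a square as a path -/
def hP (u : C(I × I, Yt)) (t : I) : Path (u (0, t)) (u (1, t)) where
  toFun s := u (s, t)
  continuous_toFun := by fun_prop
  source' := rfl
  target' := rfl

/-- the side `{s} × I` of a square as a path -/
def vP (u : C(I × I, Yt)) (s : I) : Path (u (s, 0)) (u (s, 1)) where
  toFun t := u (s, t)
  continuous_toFun := by fun_prop
  source' := rfl
  target' := rfl

theorem hP_coe (u : C(I × I, Yt)) (t : I) : (hP u t : C(I, Yt)) = PC.horz u t := rfl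
theorem vP_coe (u : C(I × I, Yt)) (t : I) : (vP u t : C(I, Yt)) = PC.vert u t := rfl

theorem map_bdSq (u : C(I × I, Yt)) : TwoCx.bdSq.map u.continuous =
    (((hP u 0).trans (vP u 1)).trans (hP u 1).symm).trans (vP u 0).symm := by
  unfold TwoCx.bdSq
  rw [Path.map_trans, Path.map_trans, Path.map_trans]
  rfl

theorem notMem_h (s : I) {t : I} (ht : t = 0 ∨ t = 1) : (s, t) ∉ Sint := by
  intro h
  have h2 := h.2
  rcases ht with rfl | rfl
  · exact lt_irrefl _ h2.1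
  · exact lt_irrefl _ h2.2

theorem notMem_v (t : I) {s : I} (hs : s = 0 ∨ s = 1) : (s, t) ∉ Sint := by
  intro h
  have h2 := h.1
  rcases hs with rfl | rfl
  · exact lt_irrefl _ h2.1
  · exact lt_irrefl _ h2.2

theorem f_mem_X1 (C : TwoCx Y) (j : C.J) {z : I × I} (hz : z ∉ Sint) : C.f j z ∈ C.X1 := by
  rcases C.f_bd j z hz with ⟨o, h⟩ | ⟨i, s, h⟩
  · exact Or.inl ⟨o, h⟩
  · exact Or.inr ⟨i, s, h⟩

variable {A} in
/-- value of a functional on the boundary of a lifted 2-cell in terms of the four sides -/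
theorem Fn.bd_val (F : Fn C A μ) (j : C.J) (u : C(I × I, Yt)) (hu : ∀ z, q (u z) = C.f j z) :
    F.Λ (TwoCx.bdSq.map u.continuous) =
      F.Λ (PC.horz u 0) + F.Λ (PC.vert u 1) - F.Λ (PC.horz u 1) - F.Λ (PC.vert u 0) := by
  have hh : ∀ t : I, (t = 0 ∨ t = 1) → ∀ s, q (hP u t s) ∈ C.X1 := fun t ht s => by
    show q (u (s, t)) ∈ C.X1
    rw [hu]
    exact f_mem_X1 C j (notMem_h s ht)
  have hv : ∀ s : I, (s = 0 ∨ s = 1) → ∀ t, q (vP u s t) ∈ C.X1 := fun s hs t => by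
    show q (u (s, t)) ∈ C.X1
    rw [hu]
    exact f_mem_X1 C j (notMem_v t hs)
  have h0 := hh 0 (Or.inl rfl)
  have h1 := hh 1 (Or.inr rfl)
  have v0 := hv 0 (Or.inl rfl)
  have v1 := hv 1 (Or.inr rfl)
  have t1 : ∀ t, q (((hP u 0).trans (vP u 1)) t) ∈ C.X1 := fun t => by
    rw [Path.trans_apply]
    split_ifs
    · exact h0 _
    · exact v1 _
  have t2 : ∀ t, q ((((hP u 0).trans (vP u 1)).trans (hP u 1).symm) t) ∈ C.X1 := fun t => by
    rw [Path.trans_apply]
    split_ifs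
    · exact t1 _
    · exact h1 _
  rw [map_bdSq, F.trans _ _ t2 (fun t => v0 _), F.trans _ _ t1 (fun t => h1 _),
    F.trans _ _ h0 v1, F.symm _ h1, F.symm _ v0, hP_coe, hP_coe, vP_coe, vP_coe]
  ring

/-- **Stokes**: value of `fnOf` on the boundary of a lifted 2-cell. -/
theorem fnOf_bd [ContinuousConstSMul G Yt] (ψ : SingSimplex Yt 1 → Fin.Tw μ) (hψ : Fin.Eqv G ψ)
    (hc : PC.ClosedOn ψ (q ⁻¹' C.X1)) (j : C.J) (u : C(I × I, Yt))
    (hu : ∀ z, q (u z) = C.f j z) :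
    (fnOf A C ψ hψ hc).Λ (TwoCx.bdSq.map u.continuous) =
      (show K from cochainCobdry ψ (PC.lin u ![((0 : I), (0 : I)), (1, 0), (1, 1)]) -
        cochainCobdry ψ (PC.lin u ![((0 : I), (0 : I)), (0, 1), (1, 1)])) := by
  rw [Fn.bd_val _ j u hu]
  have h := PC.stokes ψ u
  have h2 : cochainCobdry ψ (PC.lin u ![((0 : I), (0 : I)), (1, 0), (1, 1)]) -
        cochainCobdry ψ (PC.lin u ![((0 : I), (0 : I)), (0, 1), (1, 1)]) =
      ψ (PC.ps (PC.horz u 0)) + ψ (PC.ps (PC.vert u 1)) - ψ (PC.ps (PC.horz u 1)) -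
        ψ (PC.ps (PC.vert u 0)) := by
    rw [← neg_sub, h]
    abel
  exact h2.symm

/-- **the Sur-hypothesis of `mu_eq_one_of_sur` from cochains.** -/
theorem sur_of_cochain [ContinuousConstSMul G Yt] (hHV : Fin.HV G Yt (Fin.Tw μ) 1)
    (hU : ∀ b : C.J → K, ∃ u : SingSimplex Yt 2 → Fin.Tw μ, Fin.Eqv G u ∧ cochainCobdry u = 0 ∧
      (∀ τ, (∀ s, q (τ s) ∈ C.X1) → u (Crest.Agent.R251.Pr.sx τ) = 0) ∧
      ∀ j, u (PC.lin (uj A ot hot D j) ![((0 : I), (0 : I)), (1, 0), (1, 1)]) -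
        u (PC.lin (uj A ot hot D j) ![((0 : I), (0 : I)), (0, 1), (1, 1)]) =
          (show Fin.Tw μ from b j)) (b : C.J → K) :
    ∃ F : Fn C A μ, ∀ j, F.Λ (bj A ot hot D j) = b j := by
  obtain ⟨u, hu, hdu, hu1, hub⟩ := hU b
  obtain ⟨ψ, hψ, rfl⟩ := hHV u hu hdu
  have hc : PC.ClosedOn ψ (q ⁻¹' C.X1) := fun τ hτ => hu1 τ hτ
  refine ⟨fnOf A C ψ hψ hc, fun j => ?_⟩
  exact (fnOf_bd A ψ hψ hc j (uj A ot hot D j) (q_uj A ot hot D j)).trans (hub j)

end main

end Crest.Agent.R251.YS
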